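import Crest.Agent.R307.SqrtDefs

/-!
Row 307 (S0471), the flow route (blueprint by helper587): reduction of S0471 for `0 ≤ ρ ≤ ρ₀` to a
pointwise bound on one biased product measure, and induction for that pointwise bound.
-/

set_option autoImplicit false

open Crest.CubeNoise Set Filter Topology

namespace Crest.Agent.R307.Flow

/-- `φ(g) = √(1 - g²)` -/
noncomputable def ph (g : ℝ) : ℝ := Real.sqrt (1 - g ^ 2)

/-- the sign function attached to a Boolean function -/
noncomputable def sf {n : ℕ} (f : (Fin n → Bool) → Bool) : (Fin n → Bool) → ℝ := fun y => spin (f y)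

lemma spin_sq (b : Bool) : spin b ^ 2 = 1 := by cases b <;> norm_num [spin]

lemma abs_spin (b : Bool) : |spin b| = 1 := by cases b <;> norm_num [spin]

lemma ph_nonneg (g : ℝ) : 0 ≤ ph g := Real.sqrt_nonneg _

lemma ph_le_one (g : ℝ) : ph g ≤ 1 := by
  unfold ph
  rw [Real.sqrt_le_iff]
  constructor
  · norm_num
  · nlinarith [sq_nonneg g]

lemma ph_pos {g : ℝ} (h : |g| < 1) : 0 < ph g := by
  unfold ph
  refine Real.sqrt_pos.2 ?_
  have h1 := abs_lt.1 h
  nlinarith [h1.1, h1.2]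

lemma ph_sq {g : ℝ} (h : |g| ≤ 1) : ph g ^ 2 = 1 - g ^ 2 := by
  unfold ph
  refine Real.sq_sqrt ?_
  have h1 := abs_le.1 h
  nlinarith [h1.1, h1.2]

lemma ph_neg (g : ℝ) : ph (-g) = ph g := by unfold ph; rw [neg_sq]

/-! ### splitting the noise operator -/

lemma noise_cons {n : ℕ} (ρ : ℝ) (u : (Fin (n + 1) → Bool) → ℝ) (b : Bool) (x : Fin n → Bool) :
    noise ρ u (Fin.cons b x : Fin (n + 1) → Bool) =
      (1 + ρ) / 2 * noise ρ (fun y => u (Fin.cons b y : Fin (n + 1) → Bool)) x +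
      (1 - ρ) / 2 * noise ρ (fun y => u (Fin.cons (!b) y : Fin (n + 1) → Bool)) x := by
  unfold noise
  rw [sum_split]
  unfold sl0 sl1
  simp_rw [Fin.prod_univ_succ, Fin.cons_zero, Fin.cons_succ]
  cases b
  · simp only [spin, Bool.not_false]
    rw [Finset.mul_sum, Finset.mul_sum]
    congr 1
    · refine Finset.sum_congr rfl fun y _ => ?_
      norm_num
      ring
    · refine Finset.sum_congr rfl fun y _ => ?_
      norm_num
      ring
  · simp only [spin, Bool.not_true]
    rw [Finset.mul_sum, Finset.mul_sum, add_comm]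
    congr 1
    · refine Finset.sum_congr rfl fun y _ => ?_
      norm_num
      ring
    · refine Finset.sum_congr rfl fun y _ => ?_
      norm_num
      ring

lemma noise_add {n : ℕ} (ρ : ℝ) (u v : (Fin n → Bool) → ℝ) (x : Fin n → Bool) :
    noise ρ (fun y => u y + v y) x = noise ρ u x + noise ρ v x := by
  unfold noise
  rw [← Finset.sum_add_distrib]
  exact Finset.sum_congr rfl fun y _ => by ring

lemma noise_const_mul {n : ℕ} (ρ a : ℝ) (u : (Fin n → Bool) → ℝ) (x : Fin n → Bool) :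
    noise ρ (fun y => a * u y) x = a * noise ρ u x := by
  unfold noise
  rw [Finset.mul_sum]
  exact Finset.sum_congr rfl fun y _ => by ring

lemma noise_sub {n : ℕ} (ρ : ℝ) (u v : (Fin n → Bool) → ℝ) (x : Fin n → Bool) :
    noise ρ (fun y => u y - v y) x = noise ρ u x - noise ρ v x := by
  unfold noise
  rw [← Finset.sum_sub_distrib]
  exact Finset.sum_congr rfl fun y _ => by ring

/-! ### Poincaré and contraction -/

lemma avg_sq_ge {n : ℕ} (g : (Fin n → Bool) → ℝ) :
    (cubeAverage g) ^ 2 ≤ cubeAverage (fun x => (g x) ^ 2) := by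
  have h : ∀ x, 2 * cubeAverage g * g x - (cubeAverage g) ^ 2 ≤ (g x) ^ 2 := by
    intro x
    nlinarith [sq_nonneg (g x - cubeAverage g)]
  have h2 := cubeAverage_mono h
  rw [cubeAverage_sub, cubeAverage_const_mul, cubeAverage_const] at h2
  nlinarith

/-- the energy -/
noncomputable def en {n : ℕ} (g : (Fin n → Bool) → ℝ) : ℝ :=
  cubeAverage (fun x => ∑ i, (g x - g (flipBit i x)) ^ 2 / 4)

lemma en_split {n : ℕ} (g : (Fin (n + 1) → Bool) → ℝ) :
    en g = (en (sl0 g) + en (sl1 g)) / 2 + cubeAverage (fun x => (sl0 g x - sl1 g x) ^ 2 / 4) := by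
  unfold en
  rw [cubeAverage_split]
  have h0 : sl0 (fun x => ∑ i, (g x - g (flipBit i x)) ^ 2 / 4) =
      fun x => ∑ i, (sl0 g x - sl0 g (flipBit i x)) ^ 2 / 4 + (sl0 g x - sl1 g x) ^ 2 / 4 := by
    funext x
    simp only [sl0, sl1]
    rw [Fin.sum_univ_succ, flipBit_cons_zero]
    simp only [flipBit_cons_succ, Bool.not_false]
    ring
  have h1 : sl1 (fun x => ∑ i, (g x - g (flipBit i x)) ^ 2 / 4) =
      fun x => ∑ i, (sl1 g x - sl1 g (flipBit i x)) ^ 2 / 4 + (sl0 g x - sl1 g x) ^ 2 / 4 := by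
    funext x
    simp only [sl0, sl1]
    rw [Fin.sum_univ_succ, flipBit_cons_zero]
    simp only [flipBit_cons_succ, Bool.not_true]
    ring
  rw [h0, h1, cubeAverage_add, cubeAverage_add]
  ring

lemma poincare {n : ℕ} (g : (Fin n → Bool) → ℝ) :
    cubeAverage (fun x => (g x) ^ 2) - (cubeAverage g) ^ 2 ≤ en g := by
  induction n with
  | zero =>
    unfold en
    rw [cubeAverage_zero, cubeAverage_zero, cubeAverage_zero]
    simp
  | succ n ih =>
    rw [en_split, cubeAverage_split, cubeAverage_split g]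
    have e0 := ih (sl0 g)
    have e1 := ih (sl1 g)
    have e2 := avg_sq_ge (fun x => (sl0 g x - sl1 g x) / 2)
    have e3 : cubeAverage (fun x => (sl0 g x - sl1 g x) / 2) =
        (cubeAverage (sl0 g) - cubeAverage (sl1 g)) / 2 := by
      have : (fun x => (sl0 g x - sl1 g x) / 2) = fun x => (1 / 2) * (sl0 g x - sl1 g x) := by
        funext x; ring
      rw [this, cubeAverage_const_mul, cubeAverage_sub]; ring
    have e4 : (fun x => (sl0 g x - sl1 g x) ^ 2 / 4) =
        fun x => ((sl0 g x - sl1 g x) / 2) ^ 2 := by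
      funext x; ring
    rw [e3] at e2
    rw [e4]
    have e5 : sl0 (fun x => g x ^ 2) = fun x => (sl0 g x) ^ 2 := rfl
    have e6 : sl1 (fun x => g x ^ 2) = fun x => (sl1 g x) ^ 2 := rfl
    rw [e5, e6]
    nlinarith [e0, e1, e2]

lemma contraction {n : ℕ} (ρ : ℝ) (hρ : |ρ| ≤ 1) (u : (Fin n → Bool) → ℝ) :
    cubeAverage (fun x => (noise ρ u x) ^ 2) - (cubeAverage u) ^ 2 ≤
      ρ ^ 2 * (cubeAverage (fun x => (u x) ^ 2) - (cubeAverage u) ^ 2) := by
  have hρ2 : ρ ^ 2 ≤ 1 := by
    have h1 := abs_le.1 hρ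
    nlinarith [h1.1, h1.2]
  induction n with
  | zero =>
    have h : noise ρ u = u := by
      funext x
      unfold noise
      rw [Fintype.sum_unique]
      simp
      congr 1
      exact Subsingleton.elim _ _
    rw [h, cubeAverage_zero, cubeAverage_zero]
    simp
  | succ n ih =>
    set A : (Fin n → Bool) → ℝ := fun x => (sl0 u x + sl1 u x) / 2 with hA
    set B : (Fin n → Bool) → ℝ := fun x => (sl0 u x - sl1 u x) / 2 with hB
    have eA := ih A
    have eB := ih B
    have nA : ∀ x, noise ρ A x = (noise ρ (sl0 u) x + noise ρ (sl1 u) x) / 2 := by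
      intro x
      have : A = fun x => (1 / 2) * (sl0 u x + sl1 u x) := by funext x; simp only [hA]; ring
      rw [this, noise_const_mul, noise_add]; ring
    have nB : ∀ x, noise ρ B x = (noise ρ (sl0 u) x - noise ρ (sl1 u) x) / 2 := by
      intro x
      have : B = fun x => (1 / 2) * (sl0 u x - sl1 u x) := by funext x; simp only [hB]; ring
      rw [this, noise_const_mul, noise_sub]; ring
    have s0 : sl0 (fun x => (noise ρ u x) ^ 2) = fun x => (noise ρ A x + ρ * noise ρ B x) ^ 2 := by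
      funext x
      change (noise ρ u (Fin.cons false x : Fin (n + 1) → Bool)) ^ 2 = _
      rw [noise_cons, nA, nB]
      simp only [Bool.not_false]
      change ((1 + ρ) / 2 * noise ρ (sl0 u) x + (1 - ρ) / 2 * noise ρ (sl1 u) x) ^ 2 = _
      ring
    have s1 : sl1 (fun x => (noise ρ u x) ^ 2) = fun x => (noise ρ A x - ρ * noise ρ B x) ^ 2 := by
      funext x
      change (noise ρ u (Fin.cons true x : Fin (n + 1) → Bool)) ^ 2 = _
      rw [noise_cons, nA, nB]
      simp only [Bool.not_true]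
      change ((1 + ρ) / 2 * noise ρ (sl1 u) x + (1 - ρ) / 2 * noise ρ (sl0 u) x) ^ 2 = _
      ring
    have e1 : cubeAverage (fun x => (noise ρ u x) ^ 2) =
        cubeAverage (fun x => (noise ρ A x) ^ 2) +
          ρ ^ 2 * cubeAverage (fun x => (noise ρ B x) ^ 2) := by
      rw [cubeAverage_split, s0, s1, ← cubeAverage_add, ← cubeAverage_const_mul, ← cubeAverage_add]
      rw [div_eq_inv_mul, ← cubeAverage_const_mul]
      congr 1
      funext x
      ring
    have e2 : cubeAverage (fun x => (u x) ^ 2) =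
        cubeAverage (fun x => (A x) ^ 2) + cubeAverage (fun x => (B x) ^ 2) := by
      rw [cubeAverage_split, ← cubeAverage_add, ← cubeAverage_add, div_eq_inv_mul,
        ← cubeAverage_const_mul]
      congr 1
      funext x
      simp only [sl0, sl1, hA, hB]
      ring
    have e3 : cubeAverage u = cubeAverage A := by
      rw [cubeAverage_split]
      have : A = fun x => (1 / 2) * (sl0 u x + sl1 u x) := by funext x; simp only [hA]; ring
      rw [this, cubeAverage_const_mul, cubeAverage_add]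
      ring
    have e4 := avg_sq_ge B
    rw [e1, e2, e3]
    have e5 : cubeAverage (fun x => (noise ρ B x) ^ 2) ≤ cubeAverage (fun x => (B x) ^ 2) := by
      nlinarith [sq_nonneg (cubeAverage B)]
    have e6 : 0 ≤ ρ ^ 2 := sq_nonneg ρ
    nlinarith [mul_le_mul_of_nonneg_left e5 e6]

/-! ### the functional `Z` and its derivative -/

/-- `Z(ρ) = E φ(T_ρ u)` -/
noncomputable def Z {n : ℕ} (u : (Fin n → Bool) → ℝ) (ρ : ℝ) : ℝ :=
  cubeAverage (fun x => ph (noise ρ u x))

lemma ph_continuous : Continuous ph := by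
  unfold ph
  fun_prop

lemma Z_continuous {n : ℕ} (u : (Fin n → Bool) → ℝ) : Continuous (Z u) := by
  unfold Z cubeAverage
  refine Continuous.div_const ?_ _
  exact continuous_finsetSum _ fun x _ => ph_continuous.comp (Ode.continuous_noise u x)

lemma hasDerivAt_ph {g : ℝ} (h : |g| < 1) : HasDerivAt ph (-(g / ph g)) g := by
  have h1 := abs_lt.1 h
  have h2 : (1 : ℝ) - g ^ 2 ≠ 0 := by nlinarith [h1.1, h1.2]
  have h3 : HasDerivAt (fun r : ℝ => 1 - r ^ 2) (-(2 * g)) g := by
    have := ((hasDerivAt_id g).pow 2).const_sub 1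
    simpa using this
  have h4 := h3.sqrt h2
  have h5 : -(2 * g) / (2 * Real.sqrt (1 - g ^ 2)) = -(g / ph g) := by
    unfold ph
    rw [neg_div, mul_div_mul_left _ _ (two_ne_zero)]
  rw [h5] at h4
  exact h4

/-- the total dissipation `D = - ρ Z'(ρ)` -/
noncomputable def Dt {n : ℕ} (g : (Fin n → Bool) → ℝ) : ℝ :=
  cubeAverage (fun x => g x / ph (g x) * ((∑ i, (g x - g (flipBit i x))) / 2))

lemma hasDerivAt_Z {n : ℕ} {u : (Fin n → Bool) → ℝ} {ρ : ℝ} (h0 : ρ ≠ 0)
    (hlt : ∀ x, |noise ρ u x| < 1) :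
    HasDerivAt (Z u) (-(Dt (noise ρ u) / ρ)) ρ := by
  have h1 : HasDerivAt (fun r => ∑ x, ph (noise r u x))
      (∑ x, -(noise ρ u x / ph (noise ρ u x)) *
        ((∑ i, (noise ρ u x - noise ρ u (flipBit i x))) / 2 / ρ)) ρ := by
    refine HasDerivAt.fun_sum fun x _ => ?_
    exact HasDerivAt.comp (h₂ := ph) (h := fun r => noise r u x) ρ
      (hasDerivAt_ph (hlt x)) (Ode.hasDerivAt_noise h0 u x)
  have h2 := h1.div_const (2 ^ n)
  have h3 : (∑ x, -(noise ρ u x / ph (noise ρ u x)) *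
        ((∑ i, (noise ρ u x - noise ρ u (flipBit i x))) / 2 / ρ)) / 2 ^ n =
      -(Dt (noise ρ u) / ρ) := by
    unfold Dt cubeAverage
    rw [← neg_div, ← neg_div, ← Finset.sum_neg_distrib, div_right_comm]
    congr 1
    rw [Finset.sum_div]
    refine Finset.sum_congr rfl fun x _ => ?_
    ring
  rw [h3] at h2
  exact h2

/-! ### symmetrisation -/

lemma flip_flip {n : ℕ} (i : Fin n) (x : Fin n → Bool) : flipBit i (flipBit i x) = x := by
  funext j
  unfold flipBit
  by_cases h : j = i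
  · subst h; simp
  · simp [h]

lemma cubeAverage_flip {n : ℕ} (i : Fin n) (g : (Fin n → Bool) → ℝ) :
    cubeAverage (fun x => g (flipBit i x)) = cubeAverage g := by
  unfold cubeAverage
  congr 1
  have hinv : Function.Involutive (fun x : Fin n → Bool => flipBit i x) := flip_flip i
  exact Equiv.sum_comp (hinv.toPerm) g

lemma cubeAverage_sum {n : ℕ} {ι : Type*} (s : Finset ι) (F : ι → (Fin n → Bool) → ℝ) :
    cubeAverage (fun x => ∑ i ∈ s, F i x) = ∑ i ∈ s, cubeAverage (F i) := by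
  unfold cubeAverage
  rw [Finset.sum_comm, Finset.sum_div]

/-- feasibility of a pair `(g x, g xⁱ)` -/
def Feas (ρ g g' : ℝ) : Prop :=
  |(1 + ρ) * g - (1 - ρ) * g'| ≤ 2 * ρ ∧ |(1 + ρ) * g' - (1 - ρ) * g| ≤ 2 * ρ

lemma Feas.symm {ρ g g' : ℝ} (h : Feas ρ g g') : Feas ρ g' g := ⟨h.2, h.1⟩

lemma Feas.avg {ρ s σ t τ a b : ℝ} (h1 : Feas ρ s σ) (h2 : Feas ρ t τ) (ha : 0 ≤ a) (hb : 0 ≤ b)
    (hab : a + b = 1) : Feas ρ (a * s + b * t) (a * σ + b * τ) := by
  obtain ⟨h3, h4⟩ := h1
  obtain ⟨h5, h6⟩ := h2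
  rw [abs_le] at h3 h4 h5 h6
  constructor
  · rw [abs_le]
    constructor
    · nlinarith [mul_le_mul_of_nonneg_left h3.1 ha, mul_le_mul_of_nonneg_left h5.1 hb]
    · nlinarith [mul_le_mul_of_nonneg_left h3.2 ha, mul_le_mul_of_nonneg_left h5.2 hb]
  · rw [abs_le]
    constructor
    · nlinarith [mul_le_mul_of_nonneg_left h4.1 ha, mul_le_mul_of_nonneg_left h6.1 hb]
    · nlinarith [mul_le_mul_of_nonneg_left h4.2 ha, mul_le_mul_of_nonneg_left h6.2 hb]

lemma feas_noise {n : ℕ} {ρ : ℝ} (h0 : 0 ≤ ρ) (h1 : ρ ≤ 1) {u : (Fin n → Bool) → ℝ}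
    (hu : ∀ y, |u y| ≤ 1) (x : Fin n → Bool) (i : Fin n) :
    Feas ρ (noise ρ u x) (noise ρ u (flipBit i x)) := by
  induction n with
  | zero => exact i.elim0
  | succ n ih =>
    rw [← Fin.cons_self_tail x]
    set b := x 0
    set y := Fin.tail x
    refine Fin.cases ?_ (fun j => ?_) i
    · rw [flipBit_cons_zero, noise_cons, noise_cons, Bool.not_not]
      have ha : |ρ| ≤ 1 := by rw [abs_of_nonneg h0]; exact h1
      have hp := Ode.abs_noise_le ha (u := fun y => u (Fin.cons b y : Fin (n + 1) → Bool))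
        (fun y => hu _) y
      have hq := Ode.abs_noise_le ha (u := fun y => u (Fin.cons (!b) y : Fin (n + 1) → Bool))
        (fun y => hu _) y
      set p := noise ρ (fun y => u (Fin.cons b y : Fin (n + 1) → Bool)) y
      set q := noise ρ (fun y => u (Fin.cons (!b) y : Fin (n + 1) → Bool)) y
      constructor
      · have e : (1 + ρ) * ((1 + ρ) / 2 * p + (1 - ρ) / 2 * q) -
            (1 - ρ) * ((1 + ρ) / 2 * q + (1 - ρ) / 2 * p) = 2 * ρ * p := by ring
        rw [e, abs_mul, abs_of_nonneg (by linarith : (0 : ℝ) ≤ 2 * ρ)]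
        nlinarith
      · have e : (1 + ρ) * ((1 + ρ) / 2 * q + (1 - ρ) / 2 * p) -
            (1 - ρ) * ((1 + ρ) / 2 * p + (1 - ρ) / 2 * q) = 2 * ρ * q := by ring
        rw [e, abs_mul, abs_of_nonneg (by linarith : (0 : ℝ) ≤ 2 * ρ)]
        nlinarith
    · rw [flipBit_cons_succ, noise_cons, noise_cons]
      have hp := ih (u := fun y => u (Fin.cons b y : Fin (n + 1) → Bool)) (fun y => hu _) y j
      have hq := ih (u := fun y => u (Fin.cons (!b) y : Fin (n + 1) → Bool)) (fun y => hu _) y j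
      exact hp.avg hq (by linarith) (by linarith) (by ring)

/-- the pair condition on the weight `W` -/
def PairOK (ρ γ : ℝ) (W : ℝ → ℝ → ℝ) : Prop :=
  ∀ g g', |g| < 1 → |g'| < 1 → Feas ρ g g' →
    (g / ph g - g' / ph g') * (g - g') / 2 + γ * (g - g') ^ 2 / 2 ≤ W g g' + W g' g

/-- the pointwise bound -/
def PW (ρ : ℝ) (W : ℝ → ℝ → ℝ) (Ψ : ℝ → ℝ) : Prop :=
  ∀ (n : ℕ) (f : (Fin n → Bool) → Bool), (∃ y z, f y ≠ f z) → ∀ x : Fin n → Bool,
    ∑ i, W (noise ρ (sf f) x) (noise ρ (sf f) (flipBit i x)) ≤ Ψ (noise ρ (sf f) x)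

lemma Dt_add_en_le {n : ℕ} {ρ γ : ℝ} {W : ℝ → ℝ → ℝ} (hW : PairOK ρ γ W)
    {g : (Fin n → Bool) → ℝ} (hg : ∀ x, |g x| < 1)
    (hF : ∀ x i, Feas ρ (g x) (g (flipBit i x))) :
    Dt g + γ * en g ≤ cubeAverage (fun x => ∑ i, W (g x) (g (flipBit i x))) := by
  unfold Dt en
  rw [← cubeAverage_const_mul, ← cubeAverage_add]
  have e1 : (fun x => g x / ph (g x) * ((∑ i, (g x - g (flipBit i x))) / 2) +
      γ * ∑ i, (g x - g (flipBit i x)) ^ 2 / 4) =
      fun x => ∑ i, (g x / ph (g x) * (g x - g (flipBit i x)) / 2 +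
        γ * (g x - g (flipBit i x)) ^ 2 / 4) := by
    funext x
    rw [Finset.sum_add_distrib, Finset.mul_sum, Finset.sum_div, Finset.mul_sum]
    congr 1
    · exact Finset.sum_congr rfl fun i _ => by ring
    · exact Finset.sum_congr rfl fun i _ => by ring
  rw [e1, cubeAverage_sum, cubeAverage_sum]
  refine Finset.sum_le_sum fun i _ => ?_
  have e2 : cubeAverage (fun x => g x / ph (g x) * (g x - g (flipBit i x)) / 2 +
        γ * (g x - g (flipBit i x)) ^ 2 / 4) =
      cubeAverage (fun x => (g x / ph (g x) - g (flipBit i x) / ph (g (flipBit i x))) *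
        (g x - g (flipBit i x)) / 4 + γ * (g x - g (flipBit i x)) ^ 2 / 4) := by
    have e3 := cubeAverage_flip i (fun x => g x / ph (g x) * (g x - g (flipBit i x)) / 2 +
        γ * (g x - g (flipBit i x)) ^ 2 / 4)
    simp only [flip_flip] at e3
    have e4 : cubeAverage (fun x => g x / ph (g x) * (g x - g (flipBit i x)) / 2 +
        γ * (g x - g (flipBit i x)) ^ 2 / 4) =
        (cubeAverage (fun x => g x / ph (g x) * (g x - g (flipBit i x)) / 2 +
        γ * (g x - g (flipBit i x)) ^ 2 / 4) +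
        cubeAverage (fun x => g (flipBit i x) / ph (g (flipBit i x)) *
          (g (flipBit i x) - g x) / 2 + γ * (g (flipBit i x) - g x) ^ 2 / 4)) / 2 := by
      rw [e3]; ring
    rw [e4, ← cubeAverage_add, div_eq_inv_mul, ← cubeAverage_const_mul]
    congr 1
    funext x
    ring
  have e5 : cubeAverage (fun x => W (g x) (g (flipBit i x))) =
      cubeAverage (fun x => (W (g x) (g (flipBit i x)) + W (g (flipBit i x)) (g x)) / 2) := by
    have e3 := cubeAverage_flip i (fun x => W (g x) (g (flipBit i x)))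
    simp only [flip_flip] at e3
    have e4 : cubeAverage (fun x => W (g x) (g (flipBit i x))) =
        (cubeAverage (fun x => W (g x) (g (flipBit i x))) +
          cubeAverage (fun x => W (g (flipBit i x)) (g x))) / 2 := by
      rw [e3]; ring
    rw [e4, ← cubeAverage_add, div_eq_inv_mul, ← cubeAverage_const_mul]
    congr 1
    funext x
    ring
  rw [e2, e5]
  refine cubeAverage_mono fun x => ?_
  have := hW (g x) (g (flipBit i x)) (hg x) (hg _) (hF x i)
  linarith

/-! ### the crossing argument -/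

/-- hypothesis for one value of `ρ` -/
def FlowHyp (ρ : ℝ) : Prop :=
  ∃ (W : ℝ → ℝ → ℝ) (Ψ : ℝ → ℝ) (β γ₁ γ₂ : ℝ), 0 ≤ γ₁ ∧ 0 ≤ γ₂ ∧
    2 * (γ₁ + γ₂ * (1 - ρ ^ 2)) ≤ β ∧ PairOK ρ γ₁ W ∧
    (∀ g, |g| < 1 → Ψ g ≤ ρ ^ 2 / ph ρ + β * (ph g - ph ρ) + γ₁ * g ^ 2 + γ₂ * (g ^ 2 - ρ ^ 2)) ∧
    PW ρ W Ψ

lemma half_sq_le {m : ℝ} (hm : |m| ≤ 1) : m ^ 2 / 2 ≤ 1 - ph m := by
  have h := ph_sq hm
  have h1 := ph_nonneg m
  have h2 := ph_le_one m
  nlinarith

lemma cubeAverage_sf_sq {n : ℕ} (f : (Fin n → Bool) → Bool) :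
    cubeAverage (fun x => (sf f x) ^ 2) = 1 := by
  have : (fun x => (sf f x) ^ 2) = fun _ => (1 : ℝ) := by
    funext x; exact spin_sq _
  rw [this, cubeAverage_const]

lemma Dt_le_of_hyp {n : ℕ} {ρ : ℝ} (h0 : 0 < ρ) (h1 : ρ < 1) (H : FlowHyp ρ)
    (f : (Fin n → Bool) → Bool) (hf : ∃ y z, f y ≠ f z)
    (hlt : ∀ x, |noise ρ (sf f) x| < 1)
    (hm : |cubeAverage (sf f)| ≤ 1)
    (hY : Z (sf f) ρ ≤ ph (cubeAverage (sf f)) - 1 + ph ρ) :
    Dt (noise ρ (sf f)) ≤ ρ ^ 2 / ph ρ := by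
  obtain ⟨W, Ψ, β, γ₁, γ₂, hγ₁, hγ₂, hβ, hW, hΨ, hPW⟩ := H
  set m := cubeAverage (sf f) with hmdef
  have hF : ∀ x i, Feas ρ (noise ρ (sf f) x) (noise ρ (sf f) (flipBit i x)) := fun x i =>
    feas_noise h0.le h1.le (fun y => (abs_spin _).le) x i
  have a1 := Dt_add_en_le hW hlt hF
  have a2 : cubeAverage (fun x => ∑ i, W (noise ρ (sf f) x) (noise ρ (sf f) (flipBit i x))) ≤
      cubeAverage (fun x => ρ ^ 2 / ph ρ + β * (ph (noise ρ (sf f) x) - ph ρ) +
        γ₁ * (noise ρ (sf f) x) ^ 2 + γ₂ * ((noise ρ (sf f) x) ^ 2 - ρ ^ 2)) :=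
    cubeAverage_mono fun x => (hPW n f hf x).trans (hΨ _ (hlt x))
  have a3 : cubeAverage (fun x => ρ ^ 2 / ph ρ + β * (ph (noise ρ (sf f) x) - ph ρ) +
        γ₁ * (noise ρ (sf f) x) ^ 2 + γ₂ * ((noise ρ (sf f) x) ^ 2 - ρ ^ 2)) =
      ρ ^ 2 / ph ρ + β * (Z (sf f) ρ - ph ρ) +
        γ₁ * cubeAverage (fun x => (noise ρ (sf f) x) ^ 2) +
        γ₂ * (cubeAverage (fun x => (noise ρ (sf f) x) ^ 2) - ρ ^ 2) := by
    rw [cubeAverage_add, cubeAverage_add, cubeAverage_add, cubeAverage_const_mul,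
      cubeAverage_const_mul, cubeAverage_const_mul, cubeAverage_const, cubeAverage_sub,
      cubeAverage_sub, cubeAverage_const, cubeAverage_const]
    rfl
  have a4 := poincare (noise ρ (sf f))
  have a5 := contraction ρ (by rw [abs_of_pos h0]; exact h1.le) (sf f)
  rw [Ode.cubeAverage_noise] at a4
  rw [cubeAverage_sf_sq] at a5
  rw [← hmdef] at a4 a5
  have a6 := half_sq_le hm
  rw [a3] at a2
  set E2 := cubeAverage (fun x => (noise ρ (sf f) x) ^ 2) with hE2
  set EN := en (noise ρ (sf f)) with hEN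
  have b0 : 0 ≤ β := by
    have : 0 ≤ 1 - ρ ^ 2 := by nlinarith
    nlinarith [mul_nonneg hγ₂ this]
  have b1 : β * (Z (sf f) ρ - ph ρ) ≤ β * (-(m ^ 2 / 2)) :=
    mul_le_mul_of_nonneg_left (by linarith) b0
  have b2 : γ₁ * (E2 - EN) ≤ γ₁ * m ^ 2 := mul_le_mul_of_nonneg_left (by linarith) hγ₁
  have b3 : γ₂ * (E2 - ρ ^ 2) ≤ γ₂ * ((1 - ρ ^ 2) * m ^ 2) :=
    mul_le_mul_of_nonneg_left (by nlinarith) hγ₂
  have b4 : 2 * (γ₁ + γ₂ * (1 - ρ ^ 2)) * (m ^ 2 / 2) ≤ β * (m ^ 2 / 2) :=
    mul_le_mul_of_nonneg_right hβ (by positivity)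
  nlinarith

lemma abs_avg_sf_le {n : ℕ} (f : (Fin n → Bool) → Bool) : |cubeAverage (sf f)| ≤ 1 := by
  rw [abs_le]
  constructor
  · rw [← cubeAverage_const (n := n) (-1)]
    exact cubeAverage_mono fun x => (abs_le.mp (abs_spin (f x)).le).1
  · calc cubeAverage (sf f) ≤ cubeAverage (fun _ : Fin n → Bool => (1 : ℝ)) :=
        cubeAverage_mono fun x => (abs_le.mp (abs_spin (f x)).le).2
      _ = 1 := cubeAverage_const 1

lemma noise_zero' {n : ℕ} (u : (Fin n → Bool) → ℝ) (x : Fin n → Bool) :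
    noise 0 u x = cubeAverage u := by
  unfold noise cubeAverage
  simp only [zero_mul, add_zero, Finset.prod_const, Finset.card_univ, Fintype.card_fin]
  rw [← Finset.mul_sum, div_eq_inv_mul, div_eq_inv_mul, mul_one, inv_pow]

/-- the conclusion of S0471 for `0 ≤ ρ ≤ ρ₀` from the flow hypothesis -/
theorem flow_reduction {ρ₀ : ℝ} (hρ₀ : ρ₀ < 1) (H : ∀ ρ, 0 < ρ → ρ ≤ ρ₀ → FlowHyp ρ)
    {n : ℕ} (f : (Fin n → Bool) → Bool) {ρ : ℝ} (h0 : 0 ≤ ρ) (h1 : ρ ≤ ρ₀) :
    ph (cubeAverage (sf f)) - 1 + ph ρ ≤ Z (sf f) ρ := by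
  by_cases hc : ∃ y z, f y ≠ f z
  · -- nonconstant
    obtain ⟨y₀, z₀, hyz⟩ := hc
    have hne1 : ∃ y, sf f y ≠ 1 := by
      by_contra hcon
      push Not at hcon
      have hy : f y₀ = true := by
        by_contra h
        have := hcon y₀
        simp only [sf, Bool.not_eq_true] at h this
        rw [h] at this
        norm_num [spin] at this
      have hz : f z₀ = true := by
        by_contra h
        have := hcon z₀
        simp only [sf, Bool.not_eq_true] at h this
        rw [h] at this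
        norm_num [spin] at this
      exact hyz (by rw [hy, hz])
    have hne2 : ∃ y, sf f y ≠ -1 := by
      by_contra hcon
      push Not at hcon
      have hy : f y₀ = false := by
        by_contra h
        have := hcon y₀
        simp only [sf, Bool.not_eq_false] at h this
        rw [h] at this
        norm_num [spin] at this
      have hz : f z₀ = false := by
        by_contra h
        have := hcon z₀
        simp only [sf, Bool.not_eq_false] at h this
        rw [h] at this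
        norm_num [spin] at this
      exact hyz (by rw [hy, hz])
    set Y : ℝ → ℝ := fun r => Z (sf f) r - (ph (cubeAverage (sf f)) - 1 + ph r) with hYdef
    have hYc : Continuous Y := (Z_continuous (sf f)).sub (continuous_const.add ph_continuous)
    have hY0 : Y 0 = 0 := by
      simp only [hYdef]
      unfold Z
      simp only [noise_zero']
      rw [cubeAverage_const]
      simp [ph]
    by_contra hcon
    push Not at hcon
    have hYρ : Y ρ < 0 := by simp only [hYdef]; linarith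
    -- last zero
    set K : Set ℝ := Icc 0 ρ ∩ {r | 0 ≤ Y r} with hK
    have hKc : IsCompact K := isCompact_Icc.inter_right (isClosed_le continuous_const hYc)
    have hKn : K.Nonempty := ⟨0, ⟨le_rfl, h0⟩, by simp [hY0]⟩
    obtain ⟨s, hsK, hsmax⟩ := hKc.exists_isGreatest hKn
    have hs0 : 0 ≤ s := hsK.1.1
    have hsρ : s ≤ ρ := hsK.1.2
    have hsY : 0 ≤ Y s := hsK.2
    have hneg : ∀ r, s < r → r ≤ ρ → Y r < 0 := by
      intro r hr1 hr2
      by_contra hh
      push Not at hh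
      have : r ∈ K := ⟨⟨hs0.trans hr1.le, hr2⟩, hh⟩
      exact absurd (hsmax this) (not_le.2 hr1)
    have hmono : MonotoneOn Y (Icc s ρ) := by
      have hderiv : ∀ r ∈ interior (Icc s ρ),
          HasDerivAt Y (-(Dt (noise r (sf f)) / r) + r / ph r) r := by
        intro r hr
        rw [interior_Icc] at hr
        have hr0 : 0 < r := lt_of_le_of_lt hs0 hr.1
        have hr1 : r < 1 := (hr.2.trans_le h1).trans hρ₀
        have hlt : ∀ x, |noise r (sf f) x| < 1 :=
          Ode.abs_noise_lt_one (by rw [abs_of_pos hr0]; exact hr1) (fun y => (abs_spin _).le)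
            hne1 hne2
        have d1 := hasDerivAt_Z (u := sf f) hr0.ne' hlt
        have d2 := hasDerivAt_ph (g := r) (by rw [abs_of_pos hr0]; exact hr1)
        have d3 := d1.sub (d2.const_add (ph (cubeAverage (sf f)) - 1))
        have e : -(Dt (noise r (sf f)) / r) - -(r / ph r) =
          -(Dt (noise r (sf f)) / r) + r / ph r := by ring
        rw [e] at d3
        exact d3
      refine monotoneOn_of_deriv_nonneg (convex_Icc s ρ) hYc.continuousOn ?_ ?_
      · intro r hr
        exact (hderiv r hr).differentiableAt.differentiableWithinAt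
      · intro r hr
        rw [(hderiv r hr).deriv]
        rw [interior_Icc] at hr
        have hr0 : 0 < r := lt_of_le_of_lt hs0 hr.1
        have hr1 : r < 1 := (hr.2.trans_le h1).trans hρ₀
        have hlt : ∀ x, |noise r (sf f) x| < 1 :=
          Ode.abs_noise_lt_one (by rw [abs_of_pos hr0]; exact hr1) (fun y => (abs_spin _).le)
            hne1 hne2
        have hYr := hneg r hr.1 hr.2.le
        have hD := Dt_le_of_hyp hr0 hr1 (H r hr0 (hr.2.le.trans h1)) f ⟨y₀, z₀, hyz⟩ hlt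
          (abs_avg_sf_le f) (by simp only [hYdef] at hYr; linarith)
        have hD2 : Dt (noise r (sf f)) / r ≤ r / ph r := by
          rw [div_le_iff₀ hr0]
          calc Dt (noise r (sf f)) ≤ r ^ 2 / ph r := hD
            _ = r / ph r * r := by ring
        linarith
    have := hmono ⟨le_rfl, hsρ⟩ ⟨hsρ, le_rfl⟩ hsρ
    linarith
  · -- constant
    push Not at hc
    have hconst : sf f = fun _ => sf f default := by
      funext y
      simp only [sf]
      rw [hc y default]
    set a := sf f default with ha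
    have ha2 : a ^ 2 = 1 := spin_sq _
    have h2 : ∀ x, noise ρ (sf f) x = a := by
      intro x
      rw [hconst, Ode.noise_eq, ← Finset.sum_mul, Ode.sum_wt, one_mul]
    have hph : ph a = 0 := by unfold ph; rw [ha2, sub_self, Real.sqrt_zero]
    have h3 : cubeAverage (sf f) = a := by rw [hconst, cubeAverage_const]
    unfold Z
    simp only [h2]
    rw [cubeAverage_const, h3, hph]
    have := ph_le_one ρ
    linarith

/-! ### the induction on the dimension -/

/-- the two-point step -/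
def Step (ρ : ℝ) (W : ℝ → ℝ → ℝ) (Ψ : ℝ → ℝ) : Prop :=
  ∀ s t : ℝ, |s| ≤ 1 → |t| ≤ 1 → ∃ A B : ℝ, 0 ≤ A ∧ 0 ≤ B ∧
    (∀ σ τ, |σ| ≤ 1 → |τ| ≤ 1 → Feas ρ s σ → Feas ρ t τ →
      W ((1 + ρ) / 2 * s + (1 - ρ) / 2 * t) ((1 + ρ) / 2 * σ + (1 - ρ) / 2 * τ) ≤
        A * W s σ + B * W t τ) ∧
    A * Ψ s + B * Ψ t +
      W ((1 + ρ) / 2 * s + (1 - ρ) / 2 * t) ((1 + ρ) / 2 * t + (1 - ρ) / 2 * s) ≤
      Ψ ((1 + ρ) / 2 * s + (1 - ρ) / 2 * t)

/-- the induction: the pointwise bound follows from the two-point step. -/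
theorem PW_of_step {ρ : ℝ} (h0 : 0 ≤ ρ) (h1 : ρ ≤ 1) {W : ℝ → ℝ → ℝ} {Ψ : ℝ → ℝ}
    (hΨ1 : 0 ≤ Ψ 1) (hΨ2 : 0 ≤ Ψ (-1)) (H : Step ρ W Ψ) :
    ∀ (n : ℕ) (f : (Fin n → Bool) → Bool) (x : Fin n → Bool),
      ∑ i, W (noise ρ (sf f) x) (noise ρ (sf f) (flipBit i x)) ≤ Ψ (noise ρ (sf f) x) := by
  have habs : |ρ| ≤ 1 := by rw [abs_of_nonneg h0]; exact h1
  intro n
  induction n with
  | zero =>
    intro f x
    have h : noise ρ (sf f) x = sf f x := by
      unfold noise
      rw [Fintype.sum_unique]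
      simp
      congr 1
      exact Subsingleton.elim _ _
    rw [h]
    simp only [Finset.univ_eq_empty, Finset.sum_empty]
    unfold sf spin
    split_ifs
    · exact hΨ1
    · exact hΨ2
  | succ n ih =>
    intro f x
    rw [← Fin.cons_self_tail x]
    set b := x 0
    set y := Fin.tail x
    set fb : (Fin n → Bool) → Bool := fun z => f (Fin.cons b z : Fin (n + 1) → Bool) with hfb
    set fc : (Fin n → Bool) → Bool := fun z => f (Fin.cons (!b) z : Fin (n + 1) → Bool) with hfc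
    have eb : (fun z => sf f (Fin.cons b z : Fin (n + 1) → Bool)) = sf fb := rfl
    have ec : (fun z => sf f (Fin.cons (!b) z : Fin (n + 1) → Bool)) = sf fc := rfl
    have eN : ∀ z, noise ρ (sf f) (Fin.cons b z : Fin (n + 1) → Bool) =
        (1 + ρ) / 2 * noise ρ (sf fb) z + (1 - ρ) / 2 * noise ρ (sf fc) z := by
      intro z
      rw [noise_cons, eb, ec]
    rw [Fin.sum_univ_succ, flipBit_cons_zero]
    simp only [flipBit_cons_succ]
    have e0 : noise ρ (sf f) (Fin.cons (!b) y : Fin (n + 1) → Bool) =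
        (1 + ρ) / 2 * noise ρ (sf fc) y + (1 - ρ) / 2 * noise ρ (sf fb) y := by
      rw [noise_cons, Bool.not_not, eb, ec]
    rw [e0]
    simp only [eN]
    have hs : |noise ρ (sf fb) y| ≤ 1 := Ode.abs_noise_le habs (fun y => (abs_spin _).le) y
    have ht : |noise ρ (sf fc) y| ≤ 1 := Ode.abs_noise_le habs (fun y => (abs_spin _).le) y
    obtain ⟨A, B, hA, hB, hAB1, hAB2⟩ := H _ _ hs ht
    have i1 := ih fb y
    have i2 := ih fc y
    have k : ∑ i, W ((1 + ρ) / 2 * noise ρ (sf fb) y + (1 - ρ) / 2 * noise ρ (sf fc) y)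
          ((1 + ρ) / 2 * noise ρ (sf fb) (flipBit i y) +
            (1 - ρ) / 2 * noise ρ (sf fc) (flipBit i y)) ≤
        A * ∑ i, W (noise ρ (sf fb) y) (noise ρ (sf fb) (flipBit i y)) +
          B * ∑ i, W (noise ρ (sf fc) y) (noise ρ (sf fc) (flipBit i y)) := by
      rw [Finset.mul_sum, Finset.mul_sum, ← Finset.sum_add_distrib]
      refine Finset.sum_le_sum fun i _ => ?_
      refine hAB1 _ _ ?_ ?_ ?_ ?_
      · exact Ode.abs_noise_le habs (fun y => (abs_spin _).le) _
      · exact Ode.abs_noise_le habs (fun y => (abs_spin _).le) _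
      · exact feas_noise h0 h1 (fun y => (abs_spin _).le) y i
      · exact feas_noise h0 h1 (fun y => (abs_spin _).le) y i
    have j1 := mul_le_mul_of_nonneg_left i1 hA
    have j2 := mul_le_mul_of_nonneg_left i2 hB
    linarith

end Crest.Agent.R307.Flow
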