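import Crest.Agent.R307.BBx
import Crest.Agent.R307.Flow

/-!
Row 307 (S0471), regime L: helper14's scalar inequality (b) for `c ≥ .896` (helper437).
-/

set_option autoImplicit false

namespace Crest.Agent.R307.BB

open Crest.Agent.KB

/-- the point -/
def xv (z y r : ℝ) : ℕ → ℝ
  | 0 => z
  | 1 => y
  | _ => r

theorem core1 (z y r : ℝ) (hz : 0 ≤ z) (hz1 : z ≤ 1) (hy : |y| ≤ 1) (hr : 0 ≤ r)
    (hr1 : r ≤ 15 / 64) :
    0 ≤ On.val (xv z y r) (fun _ => 1) ∧ 0 ≤ T0n.val (xv z y r) (fun _ => 1) := by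
  obtain ⟨cl, hcl, h⟩ := run_sound _ _ _ _ _ _ _ _ run_ok (xv z y r) (by
    have hy' := abs_le.mp hy
    intro i hi
    interval_cases i <;> norm_num [ba, bb, xv] <;> constructor <;> linarith [hy'.1, hy'.2])
  simp only [List.mem_singleton] at hcl
  subst hcl
  exact ⟨h On (by simp), h T0n (by simp)⟩

/-- the values of the two expressions -/
theorem vals (z y r C D E F c ρ : ℝ) (hF : 1 - z ^ 2 = (1 + z ^ 2) * F)
    (hD : 2 * z = (1 + z ^ 2) * D) (hC : 1 - z ^ 2 * y ^ 2 = (1 + z ^ 2 * y ^ 2) * C)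
    (hE : 2 * (z * y) = (1 + z ^ 2 * y ^ 2) * E) (hc : 1 - r ^ 2 = (1 + r ^ 2) * c)
    (hρ : 2 * r = (1 + r ^ 2) * ρ) (L Q K X0 O Ev T : ℝ) (hL : L = C * D - ρ * (E * F))
    (hQ : Q = L ^ 2 + (c * F) ^ 2) (hK : K = ρ ^ 2 * (c ^ 2 + 1))
    (hX0 : X0 = c ^ 2 * E ^ 2 * (C ^ 2 * D ^ 2 - E ^ 2 * F ^ 2))
    (hO : O = 4 * (C * D) * (c ^ 3 * (Q ^ 2 + C ^ 2 * (L - c) * (Q * L)) -
      K * (C ^ 2 * L) * (Q - c ^ 2 * (C ^ 2 * F ^ 2))) + X0 * (c * (Q * L) + K * (C ^ 2 * F ^ 2)))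
    (hEv : Ev = 4 * (C * D) * (c ^ 3 * (C ^ 2 * (L - c)) * Q ^ 2 -
      K * (C ^ 2 * L) * (Q - c ^ 2 * (C ^ 2 * F ^ 2)) * L) +
        X0 * (c * Q ^ 2 + K * (C ^ 2 * F ^ 2) * L))
    (hT : T = (2 * (c * F) ^ 2 + (c * F) * L + L ^ 2) * O + (L + 2 * (c * F)) * Ev) :
    On.val (xv z y r) (fun _ => 1) = (1 + z ^ 2) ^ 5 * (1 + z ^ 2 * y ^ 2) ^ 7 * (1 + r ^ 2) ^ 7 * O ∧
    T0n.val (xv z y r) (fun _ => 1) =
      (1 + z ^ 2) ^ 7 * (1 + z ^ 2 * y ^ 2) ^ 9 * (1 + r ^ 2) ^ 9 * T := by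
  set X := xv z y r with hX
  have x0 : X 0 = z := rfl
  have x1 : X 1 = y := rfl
  have x2 : X 2 = r := rfl
  obtain ⟨d1, hd1⟩ : ∃ d1, d1 = 1 + z ^ 2 := ⟨_, rfl⟩
  obtain ⟨d2, hd2⟩ : ∃ d2, d2 = 1 + z ^ 2 * y ^ 2 := ⟨_, rfl⟩
  obtain ⟨d3, hd3⟩ : ∃ d3, d3 = 1 + r ^ 2 := ⟨_, rfl⟩
  rw [← hd1] at hF hD ⊢
  rw [← hd2] at hC hE ⊢
  rw [← hd3] at hc hρ ⊢
  have v1 : den1.val X (fun _ => 1) = d1 := by
    simp only [den1, Ex.val, x0, hd1]; ring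
  have vF : Fn.val X (fun _ => 1) = d1 * F := by
    simp only [Fn, Ex.val, x0, ← hF]; ring
  have vD : Dn.val X (fun _ => 1) = d1 * D := by
    simp only [Dn, Ex.val, x0, ← hD]; push_cast; ring
  have v2 : den2.val X (fun _ => 1) = d2 := by
    simp only [den2, Ex.val, x0, x1, hd2]; ring
  have vC : Cn.val X (fun _ => 1) = d2 * C := by
    simp only [Cn, Ex.val, x0, x1, ← hC]; ring
  have vE : En.val X (fun _ => 1) = d2 * E := by
    simp only [En, Ex.val, x0, x1, ← hE]; push_cast; ring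
  have v3 : den3.val X (fun _ => 1) = d3 := by
    simp only [den3, Ex.val, x2, hd3]; ring
  have vc : cn.val X (fun _ => 1) = d3 * c := by
    simp only [cn, Ex.val, x2, ← hc]; ring
  have vr : rn.val X (fun _ => 1) = d3 * ρ := by
    simp only [rn, Ex.val, x2, ← hρ]; push_cast; ring
  clear_value X
  have vCD : CDn.val X (fun _ => 1) = d1 * d2 * (C * D) := by
    simp only [CDn, Ex.val, vC, vD]; ring
  have vEF : EFn.val X (fun _ => 1) = d1 * d2 * (E * F) := by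
    simp only [EFn, Ex.val, vE, vF]; ring
  have vL : Ln.val X (fun _ => 1) = d1 * d2 * d3 * L := by
    simp only [Ln, Ex.val, vCD, vEF, v3, vr, hL]; ring
  have vcF : cFn.val X (fun _ => 1) = d1 * d2 * d3 * (c * F) := by
    simp only [cFn, Ex.val, vc, vF, v2]; ring
  have vQ : Qn.val X (fun _ => 1) = d1 ^ 2 * d2 ^ 2 * d3 ^ 2 * Q := by
    simp only [Qn, Ex.val, vL, vcF, hQ]; ring
  clear hQ hL
  have vc2 : c2n.val X (fun _ => 1) = d3 ^ 2 * c ^ 2 := by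
    simp only [c2n, Ex.val, vc]; ring
  have vc3 : c3n.val X (fun _ => 1) = d3 ^ 3 * c ^ 3 := by
    simp only [c3n, Ex.val, vc2, vc]; ring
  have vd3 : dp3_2.val X (fun _ => 1) = d3 ^ 2 := by
    simp only [dp3_2, Ex.val, v3]; ring
  have vk4 : k4n.val X (fun _ => 1) = d3 ^ 4 * K := by
    simp only [k4n, Ex.val, vr, vc2, vd3, hK]; push_cast; ring
  have vCC : CCn.val X (fun _ => 1) = d2 ^ 2 * C ^ 2 := by
    simp only [CCn, Ex.val, vC]; ring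
  have vFF : FFn.val X (fun _ => 1) = d1 ^ 2 * F ^ 2 := by
    simp only [FFn, Ex.val, vF]; ring
  have vCCFF : CCFFn.val X (fun _ => 1) = d1 ^ 2 * d2 ^ 2 * (C ^ 2 * F ^ 2) := by
    simp only [CCFFn, Ex.val, vCC, vFF]; ring
  have vAB : ABn.val X (fun _ => 1) = d1 ^ 2 * d2 ^ 2 * (C ^ 2 * D ^ 2 - E ^ 2 * F ^ 2) := by
    simp only [ABn, Ex.val, vCD, vEF]; ring
  have vX0 : X0n.val X (fun _ => 1) = d1 ^ 2 * d2 ^ 4 * d3 ^ 2 * X0 := by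
    simp only [X0n, Ex.val, vc2, vE, vAB, hX0]; ring
  have vP1 : P1n.val X (fun _ => 1) = d1 ^ 2 * d2 ^ 2 * d3 ^ 2 * (Q - c ^ 2 * (C ^ 2 * F ^ 2)) := by
    simp only [P1n, Ex.val, vQ, vc2, vCCFF]; ring
  have vCLc : CLcn.val X (fun _ => 1) = d1 * d2 ^ 3 * d3 * (C ^ 2 * (L - c)) := by
    simp only [CLcn, Ex.val, vCC, vL, v1, v2, vc]; ring
  have vCL : CLn.val X (fun _ => 1) = d1 * d2 ^ 3 * d3 * (C ^ 2 * L) := by
    simp only [CLn, Ex.val, vCC, vL]; ring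
  have vQL : QLn.val X (fun _ => 1) = d1 ^ 3 * d2 ^ 3 * d3 ^ 3 * (Q * L) := by
    simp only [QLn, Ex.val, vQ, vL]; ring
  have vQQ : QQn.val X (fun _ => 1) = d1 ^ 4 * d2 ^ 4 * d3 ^ 4 * Q ^ 2 := by
    simp only [QQn, Ex.val, vQ]; ring
  have vf : fCDn.val X (fun _ => 1) = d1 * d2 * (4 * (C * D)) := by
    simp only [fCDn, Ex.val, vCD]; push_cast; ring
  have vkC : kCLPn.val X (fun _ => 1) = d1 ^ 3 * d2 ^ 5 * d3 ^ 7 *
      (K * (C ^ 2 * L) * (Q - c ^ 2 * (C ^ 2 * F ^ 2))) := by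
    simp only [kCLPn, Ex.val, vk4, vCL, vP1]; ring
  have vk4C : k4CFn.val X (fun _ => 1) = d1 ^ 2 * d2 ^ 2 * d3 ^ 4 * (K * (C ^ 2 * F ^ 2)) := by
    simp only [k4CFn, Ex.val, vk4, vCCFF]; ring
  have vd2 : dp2_2.val X (fun _ => 1) = d2 ^ 2 := by
    simp only [dp2_2, Ex.val, v2]; ring
  have vO : On.val X (fun _ => 1) = d1 ^ 5 * d2 ^ 7 * d3 ^ 7 * O := by
    simp only [On, Ex.val, vf, vc3, vd2, vQQ, vCLc, vQL, v1, v2, v3, vkC, vX0, vc, vk4C, hO]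
    ring
  have vEv : Evn.val X (fun _ => 1) = d1 ^ 6 * d2 ^ 8 * d3 ^ 8 * Ev := by
    simp only [Evn, Ex.val, vf, vc3, vQQ, vCLc, v1, v2, v3, vkC, vX0, vc, vk4C, vL, hEv]
    ring
  refine ⟨vO, ?_⟩
  simp only [T0n, Ex.val, vcF, vL, vO, vEv, hT]
  push_cast
  ring

theorem le_of_sq {a b : ℝ} (h : a ^ 2 ≤ b ^ 2) (hb : 0 ≤ b) : a ≤ b := by
  by_contra hc
  push Not at hc
  nlinarith

theorem params (C D E F c ρ : ℝ) (hCE : C ^ 2 + E ^ 2 = 1) (hDF : D ^ 2 + F ^ 2 = 1)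
    (hcρ : c ^ 2 + ρ ^ 2 = 1) (hC0 : 0 ≤ C) (hD0 : 0 < D) (hF0 : 0 ≤ F) (hED : |E| ≤ D)
    (hc0 : 0 < c) (hρ0 : 0 ≤ ρ) (hρ1 : ρ ≤ 0.44) (hFC : F ≤ C) :
    ∃ z y r : ℝ, 0 ≤ z ∧ z ≤ 1 ∧ |y| ≤ 1 ∧ 0 ≤ r ∧ r ≤ 15 / 64 ∧
      1 - z ^ 2 = (1 + z ^ 2) * F ∧ 2 * z = (1 + z ^ 2) * D ∧
      1 - z ^ 2 * y ^ 2 = (1 + z ^ 2 * y ^ 2) * C ∧
      2 * (z * y) = (1 + z ^ 2 * y ^ 2) * E ∧ 1 - r ^ 2 = (1 + r ^ 2) * c ∧
      2 * r = (1 + r ^ 2) * ρ := by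
  have hz1 : (0 : ℝ) < 1 + F := by linarith
  have hq1 : (0 : ℝ) < 1 + C := by linarith
  have hr1 : (0 : ℝ) < 1 + c := by linarith
  have hcl : 0.897 ≤ c := by
    refine le_of_sq ?_ hc0.le
    have : ρ ^ 2 ≤ 0.44 ^ 2 := by gcongr
    norm_num at this ⊢
    linarith
  obtain ⟨z, hz⟩ : ∃ z, z = D / (1 + F) := ⟨_, rfl⟩
  obtain ⟨q, hq⟩ : ∃ q, q = E / (1 + C) := ⟨_, rfl⟩
  obtain ⟨r, hr⟩ : ∃ r, r = ρ / (1 + c) := ⟨_, rfl⟩
  have hzp : 0 < z := by rw [hz]; positivity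
  have hzle : z ≤ 1 := by
    rw [hz, div_le_one hz1]
    have : D ≤ 1 := le_of_sq (by linarith [sq_nonneg F]) one_pos.le
    linarith
  have hqz : |q| ≤ z := by
    rw [hq, hz, abs_div, abs_of_pos hq1, div_le_div_iff₀ hq1 hz1]
    exact mul_le_mul hED (by linarith) hz1.le hD0.le
  obtain ⟨y, hy⟩ : ∃ y, y = q / z := ⟨_, rfl⟩
  have hzy : z * y = q := by rw [hy]; field_simp
  have hy1 : |y| ≤ 1 := by
    rw [hy, abs_div, abs_of_pos hzp, div_le_one hzp]; exact hqz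
  have hrz : 0 ≤ r := by rw [hr]; positivity
  have hrl : r ≤ 15 / 64 := by
    rw [hr, div_le_iff₀ hr1]
    linarith
  have hzz : z ^ 2 = (1 - F) / (1 + F) := by
    rw [hz, div_pow, eq_div_iff hz1.ne', div_mul_eq_mul_div, div_eq_iff (by positivity)]
    linear_combination (1 + F) * hDF
  have hqq : q ^ 2 = (1 - C) / (1 + C) := by
    rw [hq, div_pow, eq_div_iff hq1.ne', div_mul_eq_mul_div, div_eq_iff (by positivity)]
    linear_combination (1 + C) * hCE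
  have hrr : r ^ 2 = (1 - c) / (1 + c) := by
    rw [hr, div_pow, eq_div_iff hr1.ne', div_mul_eq_mul_div, div_eq_iff (by positivity)]
    linear_combination (1 + c) * hcρ
  have hzy2 : z ^ 2 * y ^ 2 = q ^ 2 := by rw [← mul_pow, hzy]
  refine ⟨z, y, r, hzp.le, hzle, hy1, hrz, hrl, ?_, ?_, ?_, ?_, ?_, ?_⟩
  · rw [hzz]; field_simp; ring
  · rw [hzz, hz]; field_simp; ring
  · rw [hzy2, hqq]; field_simp; ring
  · rw [hzy2, hqq, hzy, hq]; field_simp; ring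
  · rw [hrr]; field_simp; ring
  · rw [hrr, hr]; field_simp; ring

theorem final_step (L cF f O Ev : ℝ) (hL0 : 0 ≤ L) (hcF : 0 ≤ cF) (hf0 : 0 ≤ f)
    (hf2 : f ^ 2 = L ^ 2 + cF ^ 2) (hOn : 0 ≤ O)
    (hTn : 0 ≤ (2 * cF ^ 2 + cF * L + L ^ 2) * O + (L + 2 * cF) * Ev)
    (hz : L = 0 → cF = 0 → Ev = 0) : 0 ≤ f * O + Ev := by
  have hfu : f ≤ L + cF := by
    refine le_of_sq ?_ (by positivity)
    nlinarith [mul_nonneg hL0 hcF]
  have hfl : cF ≤ f := by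
    refine le_of_sq ?_ hf0
    nlinarith [sq_nonneg L]
  have hlow : 2 * cF ^ 2 + cF * L + L ^ 2 ≤ (L + 2 * cF) * f := by
    nlinarith [mul_nonneg (sub_nonneg.mpr hfl) (sub_nonneg.mpr hfu)]
  rcases eq_or_lt_of_le (show 0 ≤ L + 2 * cF by positivity) with h0 | h0
  · have hLz : L = 0 := by linarith
    have hcFz : cF = 0 := by linarith
    have hfz : f = 0 := by
      have : f ^ 2 = 0 := by rw [hf2, hLz, hcFz]; ring
      exact pow_eq_zero_iff (two_ne_zero) |>.mp this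
    rw [hfz, hz hLz hcFz]; simp
  · have h1 : 0 ≤ (L + 2 * cF) * (f * O + Ev) := by
      have := mul_le_mul_of_nonneg_right hlow hOn
      nlinarith
    exact nonneg_of_mul_nonneg_right h1 h0

theorem core2 (C D E F c ρ : ℝ) (hCE : C ^ 2 + E ^ 2 = 1) (hDF : D ^ 2 + F ^ 2 = 1)
    (hcρ : c ^ 2 + ρ ^ 2 = 1) (hC0 : 0 ≤ C) (hD0 : 0 < D) (hF0 : 0 ≤ F) (hED : |E| ≤ D)
    (hc0 : 0 < c) (hρ0 : 0 ≤ ρ) (hρ1 : ρ ≤ 0.44) (L Q K X0 O Ev f : ℝ)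
    (hL : L = C * D - ρ * (E * F))
    (hQ : Q = L ^ 2 + (c * F) ^ 2) (hK : K = ρ ^ 2 * (c ^ 2 + 1))
    (hX0 : X0 = c ^ 2 * E ^ 2 * (C ^ 2 * D ^ 2 - E ^ 2 * F ^ 2))
    (hO : O = 4 * (C * D) * (c ^ 3 * (Q ^ 2 + C ^ 2 * (L - c) * (Q * L)) -
      K * (C ^ 2 * L) * (Q - c ^ 2 * (C ^ 2 * F ^ 2))) + X0 * (c * (Q * L) + K * (C ^ 2 * F ^ 2)))
    (hEv : Ev = 4 * (C * D) * (c ^ 3 * (C ^ 2 * (L - c)) * Q ^ 2 -
      K * (C ^ 2 * L) * (Q - c ^ 2 * (C ^ 2 * F ^ 2)) * L) +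
        X0 * (c * Q ^ 2 + K * (C ^ 2 * F ^ 2) * L))
    (hf0 : 0 ≤ f) (hf : f ^ 2 = Q) :
    0 ≤ L ∧ 0 ≤ f * O + Ev := by
  have hE2 : E ^ 2 ≤ D ^ 2 := sq_le_sq' (abs_le.mp hED).1 (abs_le.mp hED).2
  have hFC : F ≤ C := le_of_sq (by linarith) hC0
  have hF1 : F ≤ 1 := le_of_sq (by linarith [sq_nonneg D]) one_pos.le
  have hEF : E * F ≤ C * D := by
    calc E * F ≤ |E| * F := mul_le_mul_of_nonneg_right (le_abs_self E) hF0
      _ ≤ D * C := mul_le_mul hED hFC hF0 hD0.le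
      _ = C * D := mul_comm _ _
  have hL0 : 0 ≤ L := by
    have h2 : ρ * (E * F) ≤ C * D := by
      have h0 : 0 ≤ C * D := by positivity
      rcases le_total 0 (E * F) with h | h
      · have : ρ * (E * F) ≤ 1 * (E * F) := mul_le_mul_of_nonneg_right (by linarith) h
        linarith
      · have : ρ * (E * F) ≤ 0 := mul_nonpos_of_nonneg_of_nonpos hρ0 h
        linarith
    rw [hL]; linarith
  refine ⟨hL0, ?_⟩
  obtain ⟨z, y, r, hz0, hzle, hy1, hrz, hrl, e1, e2, e3, e4, e5, e6⟩ :=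
    params C D E F c ρ hCE hDF hcρ hC0 hD0 hF0 hED hc0 hρ0 hρ1 hFC
  have hv := vals z y r C D E F c ρ e1 e2 e3 e4 e5 e6 L Q K X0 O Ev _ hL hQ hK hX0 hO hEv rfl
  have hc := core1 z y r hz0 hzle hy1 hrz hrl
  rw [hv.1, hv.2] at hc
  have hOn : 0 ≤ O := nonneg_of_mul_nonneg_right hc.1 (by positivity)
  have hTn := nonneg_of_mul_nonneg_right hc.2 (by positivity)
  refine final_step L (c * F) f O Ev hL0 (by positivity) hf0 (by rw [hf, hQ]) hOn hTn ?_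
  intro hLz hcFz
  have hQz : Q = 0 := by rw [hQ, hLz, hcFz]; ring
  rw [hEv, hQz, hLz]; ring

/-- the algebraic identity behind (b) -/
theorem ident (C D F c K L f X0 S2 q P' O Ev Q : ℝ) (hf : f ^ 2 = Q)
    (hfL : f ^ 2 = L ^ 2 + (c * F) ^ 2) (hq : q = C ^ 2 * F ^ 2)
    (hK : K = 1 - c ^ 4)
    (hP : P' = f ^ 2 - c ^ 2 * (C ^ 2 * F ^ 2))
    (hO : O = 4 * (C * D) * (c ^ 3 * (Q ^ 2 + C ^ 2 * (L - c) * (Q * L)) -
      K * (C ^ 2 * L) * (Q - c ^ 2 * (C ^ 2 * F ^ 2))) + X0 * (c * (Q * L) + K * (C ^ 2 * F ^ 2)))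
    (hEv : Ev = 4 * (C * D) * (c ^ 3 * (C ^ 2 * (L - c)) * Q ^ 2 -
      K * (C ^ 2 * L) * (Q - c ^ 2 * (C ^ 2 * F ^ 2)) * L) +
        X0 * (c * Q ^ 2 + K * (C ^ 2 * F ^ 2) * L))
    (hS : 4 * (C * D) * S2 = 4 * (C * D) * (L * P') - F ^ 2 * X0) :
    4 * (C * D) * (f + L) * (f ^ 3 * (c * f ^ 3 + K * q - q) - S2 * (c * f ^ 3 + K * q)) =
      F ^ 2 * (f * O + Ev) := by
  have h1 : 4 * (C * D) * (f + L) * (f ^ 3 * (c * f ^ 3 + K * q - q) - S2 * (c * f ^ 3 + K * q)) =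
      (f + L) * (4 * (C * D) * (f ^ 3 * (c * f ^ 3 + K * q - q)) -
        (4 * (C * D) * S2) * (c * f ^ 3 + K * q)) := by ring
  rw [h1, hS, hP, hO, hEv, hq, hK, ← hf]
  have h2 : L ^ 2 = f ^ 2 - (c * F) ^ 2 := by rw [hfL]; ring
  ring_nf
  simp only [h2]
  ring

set_option maxHeartbeats 2000000 in
theorem bb_alg (C D E F c ρ : ℝ) (hCE : C ^ 2 + E ^ 2 = 1) (hDF : D ^ 2 + F ^ 2 = 1)
    (hcρ : c ^ 2 + ρ ^ 2 = 1) (hC0 : 0 ≤ C) (hD0 : 0 ≤ D) (hF0 : 0 ≤ F)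
    (hc0 : 0 < c) (hρ0 : 0 ≤ ρ) (hρ1 : ρ ≤ 0.44) (u v f : ℝ) (hu0 : 0 ≤ u) (hv0 : 0 ≤ v)
    (hu : u ^ 2 = C * D - E * F) (hv : v ^ 2 = C * D + E * F) (hf0 : 0 ≤ f)
    (hf : f ^ 2 = 1 - ((1 + ρ) / 2 * (E * D + C * F) + (1 - ρ) / 2 * (E * D - C * F)) ^ 2) :
    ((1 + ρ) / 2 * u ^ 3 + (1 - ρ) / 2 * v ^ 3) ^ 2 * (c * f ^ 3 + (1 - c ^ 4) * (C * F) ^ 2) ≤
      f ^ 3 * (c * f ^ 3 + (1 - c ^ 4) * (C * F) ^ 2 - (C * F) ^ 2) := by
  have hc1 : c ≤ 1 := le_of_sq (by linarith [sq_nonneg ρ]) one_pos.le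
  have hρ2 : ρ ≤ 1 := by linarith
  obtain ⟨L, hL⟩ : ∃ L, L = C * D - ρ * (E * F) := ⟨_, rfl⟩
  have hfL : f ^ 2 = L ^ 2 + (c * F) ^ 2 := by
    rw [hf, hL]
    linear_combination (-(D ^ 2 + ρ ^ 2 * F ^ 2)) * hCE - hDF - F ^ 2 * hcρ
  have hK4 : (0 : ℝ) ≤ 1 - c ^ 4 := by
    have : c ^ 4 ≤ 1 := pow_le_one₀ hc0.le hc1
    linarith
  have hCD0 : 0 ≤ C * D := mul_nonneg hC0 hD0
  rcases eq_or_lt_of_le hCD0 with hz | hCD
  · -- degenerate case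
    have hEF : E * F = 0 := by
      have h1 := sq_nonneg u
      have h2 := sq_nonneg v
      rw [hu] at h1
      rw [hv] at h2
      linarith
    have hu' : u = 0 := by
      have : u ^ 2 = 0 := by rw [hu, ← hz, hEF]; ring
      exact pow_eq_zero_iff (two_ne_zero) |>.mp this
    have hv' : v = 0 := by
      have : v ^ 2 = 0 := by rw [hv, ← hz, hEF]; ring
      exact pow_eq_zero_iff (two_ne_zero) |>.mp this
    have hL0 : L = 0 := by rw [hL, ← hz, hEF]; ring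
    have hfc : f = c * F := by
      have h1 : f ^ 2 = (c * F) ^ 2 := by rw [hfL, hL0]; ring
      have h2 : 0 ≤ c * F := by positivity
      exact le_antisymm (le_of_sq h1.le h2) (le_of_sq h1.ge hf0)
    rw [hu', hv', hfc]
    have h3 : (0 : ℝ) ≤ F * (F - C ^ 2) := by
      rcases mul_eq_zero.mp hz.symm with h | h
      · rw [h]
        have : F * (F - 0 ^ 2) = F ^ 2 := by ring
        rw [this]; positivity
      · have hF2 : F ^ 2 = 1 := by rw [h] at hDF; linarith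
        have hF1 : F = 1 := le_antisymm (le_of_sq (by linarith) one_pos.le)
          (le_of_sq (by linarith) hF0)
        rw [hF1]
        have := sq_nonneg E
        linarith
    have h4 : (c * F) ^ 3 * (c * (c * F) ^ 3 + (1 - c ^ 4) * (C * F) ^ 2 - (C * F) ^ 2) =
        (c * F) ^ 3 * (c ^ 4 * F * (F * (F - C ^ 2))) := by ring
    rw [h4]
    have h5 : 0 ≤ (c * F) ^ 3 * (c ^ 4 * F * (F * (F - C ^ 2))) := by positivity
    simpa using h5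
  · have hD1 : 0 < D := by
      rcases eq_or_lt_of_le hD0 with h | h
      · rw [← h] at hCD; simp at hCD
      · exact h
    have hEFle : (E * F) ^ 2 ≤ (C * D) ^ 2 := by
      have h1 : E * F ≤ C * D := by
        have := sq_nonneg u
        rw [hu] at this; linarith
      have h2 : -(C * D) ≤ E * F := by
        have := sq_nonneg v
        rw [hv] at this; linarith
      exact sq_le_sq' h2 h1
    have hED2 : E ^ 2 ≤ D ^ 2 := by
      have e1 : (C * D) ^ 2 - (E * F) ^ 2 = D ^ 2 - E ^ 2 := by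
        linear_combination D ^ 2 * hCE - E ^ 2 * hDF
      linarith
    have hED : |E| ≤ D := by
      apply abs_le_of_sq_le_sq hED2 hD0
    have h := core2 C D E F c ρ hCE hDF hcρ hC0 hD1 hF0 hED hc0 hρ0 hρ1 L _ _ _ _ _ f hL rfl rfl
      rfl rfl rfl hf0 hfL
    obtain ⟨hL0, hmain⟩ := h
    -- S² bound
    obtain ⟨S, hS⟩ : ∃ S, S = (1 + ρ) / 2 * u ^ 3 + (1 - ρ) / 2 * v ^ 3 := ⟨_, rfl⟩
    rw [← hS]
    obtain ⟨P', hP⟩ : ∃ P', P' = (1 + ρ) / 2 * (u ^ 2) ^ 2 + (1 - ρ) / 2 * (v ^ 2) ^ 2 := ⟨_, rfl⟩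
    have hP2 : P' = f ^ 2 - c ^ 2 * (C ^ 2 * F ^ 2) := by
      rw [hP, hu, hv, hfL, hL]
      linear_combination (-(E ^ 2 * F ^ 2)) * hcρ + (c ^ 2 * F ^ 2) * hCE
    have hLu : L = (1 + ρ) / 2 * u ^ 2 + (1 - ρ) / 2 * v ^ 2 := by
      rw [hu, hv, hL]; ring
    obtain ⟨X0, hX0⟩ : ∃ X0, X0 = c ^ 2 * E ^ 2 * (C ^ 2 * D ^ 2 - E ^ 2 * F ^ 2) := ⟨_, rfl⟩
    rw [← hX0] at hmain
    have hkey : 4 * (C * D) * S ^ 2 ≤ 4 * (C * D) * (L * P') - F ^ 2 * X0 := by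
      have hCDuv : C * D = (u ^ 2 + v ^ 2) / 2 := by rw [hu, hv]; ring
      have hEFuv : E * F = (v ^ 2 - u ^ 2) / 2 := by rw [hu, hv]; ring
      have hX : F ^ 2 * X0 = c ^ 2 * (E * F) ^ 2 * ((C * D) ^ 2 - (E * F) ^ 2) := by
        rw [hX0]; ring
      have h1 : 4 * (C * D) * (L * P') - F ^ 2 * X0 - 4 * (C * D) * S ^ 2 =
          c ^ 2 * u ^ 2 * v ^ 2 * (u - v) ^ 4 / 4 := by
        rw [hX, hCDuv, hEFuv, hLu, hP, hS]
        have hc2 : c ^ 2 = 1 - ρ ^ 2 := by linarith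
        rw [hc2]
        ring
      have h2 : 0 ≤ c ^ 2 * u ^ 2 * v ^ 2 * (u - v) ^ 4 / 4 := by positivity
      linarith
    obtain ⟨S2, hS2⟩ : ∃ S2, S2 = (4 * (C * D) * (L * P') - F ^ 2 * X0) / (4 * (C * D)) := ⟨_, rfl⟩
    have h4CD : 0 < 4 * (C * D) := by linarith
    have hS2' : 4 * (C * D) * S2 = 4 * (C * D) * (L * P') - F ^ 2 * X0 := by
      have hC' : C ≠ 0 := by rintro rfl; simp at hCD
      have hD' : D ≠ 0 := hD1.ne'
      rw [hS2]; field_simp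
    have hSS : S ^ 2 ≤ S2 := by
      rw [← hS2'] at hkey
      exact le_of_mul_le_mul_left hkey h4CD
    have hK : ρ ^ 2 * (c ^ 2 + 1) = 1 - c ^ 4 := by
      linear_combination (c ^ 2 + 1) * hcρ
    have hid := ident C D F c (ρ ^ 2 * (c ^ 2 + 1)) L f X0 S2 (C ^ 2 * F ^ 2) P' _ _ _ hfL hfL rfl
      hK hP2 rfl rfl hS2'
    have hfLpos : 0 < f + L := by
      rcases eq_or_lt_of_le hL0 with h | h
      · have hF : F ≠ 0 := by
          intro h0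
          rw [hL, h0] at h
          have : C * D = 0 := by linarith
          linarith
        have h1 : 0 < f ^ 2 := by
          rw [hfL]
          have h3 : 0 < (c * F) ^ 2 := by positivity
          have h4 := sq_nonneg L
          linarith
        have h2 : 0 < f := by
          rcases eq_or_lt_of_le hf0 with h' | h'
          · rw [← h'] at h1; simp at h1
          · exact h'
        linarith
      · linarith
    have hfin : 0 ≤ 4 * (C * D) * (f + L) * (f ^ 3 * (c * f ^ 3 + ρ ^ 2 * (c ^ 2 + 1) *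
        (C ^ 2 * F ^ 2) - C ^ 2 * F ^ 2) - S2 * (c * f ^ 3 + ρ ^ 2 * (c ^ 2 + 1) *
        (C ^ 2 * F ^ 2))) := by
      rw [hid]
      exact mul_nonneg (sq_nonneg F) hmain
    have hfin2 := nonneg_of_mul_nonneg_right hfin (mul_pos h4CD hfLpos)
    rw [hK] at hfin2
    have h6 : 0 ≤ c * f ^ 3 + (1 - c ^ 4) * (C ^ 2 * F ^ 2) := by positivity
    have h7 := mul_le_mul_of_nonneg_right hSS h6
    rw [mul_pow]
    linarith

/-- helper14's scalar inequality (b) for `ρ ≤ 0.44` -/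
theorem bb_ineq (ρ s t : ℝ) (hρ0 : 0 ≤ ρ) (hρ1 : ρ ≤ 0.44) (hs : |s| ≤ 1) (ht : |t| ≤ 1) :
    ((1 + ρ) / 2 * (Flow.ph s * Real.sqrt (Flow.ph s)) +
        (1 - ρ) / 2 * (Flow.ph t * Real.sqrt (Flow.ph t))) ^ 2 *
      (Flow.ph ρ * Flow.ph ((1 + ρ) / 2 * s + (1 - ρ) / 2 * t) ^ 3 +
        (1 - Flow.ph ρ ^ 4) * ((s - t) / 2) ^ 2) ≤
      Flow.ph ((1 + ρ) / 2 * s + (1 - ρ) / 2 * t) ^ 3 *
        (Flow.ph ρ * Flow.ph ((1 + ρ) / 2 * s + (1 - ρ) / 2 * t) ^ 3 +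
          (1 - Flow.ph ρ ^ 4) * ((s - t) / 2) ^ 2 - ((s - t) / 2) ^ 2) := by
  wlog hst : t ≤ s with H
  · have h := H ρ (-s) (-t) hρ0 hρ1 (by rwa [abs_neg]) (by rwa [abs_neg]) (by linarith)
    have e1 : (1 + ρ) / 2 * -s + (1 - ρ) / 2 * -t = -((1 + ρ) / 2 * s + (1 - ρ) / 2 * t) := by ring
    have e2 : ((-s - -t) / 2) ^ 2 = ((s - t) / 2) ^ 2 := by ring
    rw [e1, e2, Flow.ph_neg, Flow.ph_neg, Flow.ph_neg] at h
    exact h
  have hs' := abs_le.mp hs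
  have ht' := abs_le.mp ht
  have hg1 : |(1 + ρ) / 2 * s + (1 - ρ) / 2 * t| ≤ 1 := by
    rw [abs_le]; constructor <;> nlinarith
  set M := (Real.arcsin s + Real.arcsin t) / 2 with hM
  set d := (Real.arcsin s - Real.arcsin t) / 2 with hd
  have a1 := Real.arcsin_le_pi_div_two s
  have a2 := Real.neg_pi_div_two_le_arcsin s
  have a3 := Real.arcsin_le_pi_div_two t
  have a4 := Real.neg_pi_div_two_le_arcsin t
  have a5 : Real.arcsin t ≤ Real.arcsin s := Real.arcsin_le_arcsin hst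
  have eMd : M + d = Real.arcsin s := by rw [hM, hd]; ring
  have eMd' : M - d = Real.arcsin t := by rw [hM, hd]; ring
  have es : s = Real.sin M * Real.cos d + Real.cos M * Real.sin d := by
    rw [← Real.sin_add, eMd, Real.sin_arcsin hs'.1 hs'.2]
  have et : t = Real.sin M * Real.cos d - Real.cos M * Real.sin d := by
    rw [← Real.sin_sub, eMd', Real.sin_arcsin ht'.1 ht'.2]
  have eps : Flow.ph s = Real.cos M * Real.cos d - Real.sin M * Real.sin d := by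
    rw [← Real.cos_add, eMd, Real.cos_arcsin]; rfl
  have ept : Flow.ph t = Real.cos M * Real.cos d + Real.sin M * Real.sin d := by
    rw [← Real.cos_sub, eMd', Real.cos_arcsin]; rfl
  have hC0 : 0 ≤ Real.cos M := Real.cos_nonneg_of_mem_Icc ⟨by rw [hM]; linarith, by rw [hM]; linarith⟩
  have hD0 : 0 ≤ Real.cos d := Real.cos_nonneg_of_mem_Icc ⟨by rw [hd]; linarith, by rw [hd]; linarith⟩
  have hF0 : 0 ≤ Real.sin d := Real.sin_nonneg_of_nonneg_of_le_pi (by rw [hd]; linarith)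
    (by rw [hd]; linarith [Real.pi_pos])
  have hρa : |ρ| ≤ 1 := by rw [abs_le]; constructor <;> linarith
  have hc2 := Flow.ph_sq hρa
  have hcpos : 0 < Flow.ph ρ := Flow.ph_pos (by rw [abs_lt]; constructor <;> linarith)
  have h := bb_alg (Real.cos M) (Real.cos d) (Real.sin M) (Real.sin d) (Flow.ph ρ) ρ
    (by rw [Real.cos_sq_add_sin_sq]) (by rw [Real.cos_sq_add_sin_sq]) (by linarith) hC0 hD0 hF0
    hcpos hρ0 hρ1 (Real.sqrt (Flow.ph s)) (Real.sqrt (Flow.ph t))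
    (Flow.ph ((1 + ρ) / 2 * s + (1 - ρ) / 2 * t)) (Real.sqrt_nonneg _) (Real.sqrt_nonneg _)
    (by rw [Real.sq_sqrt (Flow.ph_nonneg _), eps]) (by rw [Real.sq_sqrt (Flow.ph_nonneg _), ept])
    (Flow.ph_nonneg _) (by rw [Flow.ph_sq hg1, ← es, ← et])
  have e3 : ∀ a : ℝ, 0 ≤ a → Real.sqrt a ^ 3 = a * Real.sqrt a := by
    intro a ha
    calc Real.sqrt a ^ 3 = Real.sqrt a ^ 2 * Real.sqrt a := by ring
      _ = a * Real.sqrt a := by rw [Real.sq_sqrt ha]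
  have e4 : (s - t) / 2 = Real.cos M * Real.sin d := by
    rw [es, et]; ring
  rw [e3 _ (Flow.ph_nonneg _), e3 _ (Flow.ph_nonneg _)] at h
  rw [e4]
  exact h

end Crest.Agent.R307.BB
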