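import Crest.Agent.Tools.KB

/-!
Row 307 (S0471), regime L: kernel verification of the three-variable polynomial inequality behind
helper14's scalar inequality (b) (`c ≥ .896`).  Variables: `x 0 = z`, `x 1 = y`, `x 2 = r`.
-/

set_option autoImplicit false

namespace Crest.Agent.R307.BB

open Crest.Agent.KB

def den1 : Ex := (.add (.W 0 2) (.X 0 2))
def Fn : Ex := (.sub (.W 0 2) (.X 0 2))
def Dn : Ex := (.mul (.c (2)) (.mul (.X 0 1) (.W 0 1)))
def den2 : Ex := (.add (.mul (.W 0 2) (.W 1 2)) (.mul (.X 0 2) (.X 1 2)))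
def Cn : Ex := (.sub (.mul (.W 0 2) (.W 1 2)) (.mul (.X 0 2) (.X 1 2)))
def En : Ex := (.mul (.c (2)) (.mul (.mul (.X 0 1) (.W 0 1)) (.mul (.X 1 1) (.W 1 1))))
def den3 : Ex := (.add (.W 2 2) (.X 2 2))
def cn : Ex := (.sub (.W 2 2) (.X 2 2))
def rn : Ex := (.mul (.c (2)) (.mul (.X 2 1) (.W 2 1)))
def CDn : Ex := (.mul Cn Dn)
def EFn : Ex := (.mul En Fn)
def Ln : Ex := (.sub (.mul den3 CDn) (.mul rn EFn))
def cFn : Ex := (.mul (.mul cn Fn) den2)
def Qn : Ex := (.add (.mul Ln Ln) (.mul cFn cFn))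
def c2n : Ex := (.mul cn cn)
def c3n : Ex := (.mul c2n cn)
def dp3_2 : Ex := (.mul den3 den3)
def k4n : Ex := (.mul (.mul rn rn) (.add c2n (.mul dp3_2 (.c (1)))))
def CCn : Ex := (.mul Cn Cn)
def FFn : Ex := (.mul Fn Fn)
def CCFFn : Ex := (.mul CCn FFn)
def ABn : Ex := (.sub (.mul CDn CDn) (.mul EFn EFn))
def X0n : Ex := (.mul (.mul (.mul c2n En) En) ABn)
def P1n : Ex := (.sub Qn (.mul c2n CCFFn))
def CLcn : Ex := (.mul CCn (.sub Ln (.mul den2 (.mul den1 cn))))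
def CLn : Ex := (.mul CCn Ln)
def QLn : Ex := (.mul Qn Ln)
def QQn : Ex := (.mul Qn Qn)
def fCDn : Ex := (.mul (.c (4)) CDn)
def kCLPn : Ex := (.mul (.mul k4n CLn) P1n)
def k4CFn : Ex := (.mul k4n CCFFn)
def dp2_2 : Ex := (.mul den2 den2)
def On : Ex := (.add (.mul fCDn (.sub (.mul c3n (.add (.mul dp2_2 QQn) (.mul CLcn QLn))) (.mul den2 (.mul den1 kCLPn)))) (.mul den3 (.mul X0n (.add (.mul cn QLn) (.mul den2 (.mul den1 k4CFn))))))
def Evn : Ex := (.add (.mul fCDn (.sub (.mul (.mul c3n CLcn) QQn) (.mul den2 (.mul den1 (.mul kCLPn Ln))))) (.mul den3 (.mul X0n (.add (.mul cn QQn) (.mul den2 (.mul den1 (.mul k4CFn Ln)))))))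
def T0n : Ex := (.add (.mul (.add (.add (.mul (.mul (.c (2)) cFn) cFn) (.mul cFn Ln)) (.mul Ln Ln)) On) (.mul (.add Ln (.mul (.c (2)) cFn)) Evn))

set_option maxRecDepth 100000 in
theorem run_ok : run 3 497 6 [33, 19, 19] [96, 128, 15] [[On, T0n]]
    (.node 0 (.leaf 0) (.node 1 (.leaf 0) (.leaf 0))) [(0, 64), (-64, 64), (0, 15)] = true := by
  decide +kernel

end Crest.Agent.R307.BB
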