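import Crest.Agent.R307.TwoSet
import Crest.Agent.R307.Flow

/-!
Row 307, S0471 (task 1107, G1 + G2): the induction on the dimension for an arbitrary concave
functional `u`, with Parseval rows.

* `bool_inductionG`: as `TwoSet.bool_induction`, the slices are given as Boolean functions.
* `parseval_TT`: `E P(1-P) ≥ (1-ρ²) μ (1-μ)` for `P = T_ρ 1_A`.
* `CertG`: pointwise certificates.
* `region_inductionG` (G2), `one_functionG` (G1).
* `FA`, `concave_FA`: the family `2(√q - q) + q(1-q)(A0 + A1 q + A2 q²)`.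
-/

set_option autoImplicit false

open Crest.CubeNoise Set

namespace Crest.Agent.R307.GenInd

open Crest.Agent.R307 Crest.Agent.R307.Ode Crest.Agent.R307.TwoSet

/-- Abstract induction on the dimension; the two ordered slices are noises of Boolean functions. -/
theorem bool_inductionG {ρ : ℝ} (h0 : 0 ≤ ρ) (h1 : ρ ≤ 1) {F1 F2 : ℝ → ℝ}
    (hF1 : ConcaveOn ℝ (Icc 0 1) F1) (hF2 : ConcaveOn ℝ (Icc 0 1) F2)
    (R : ℝ → ℝ → ℝ → Prop)
    (hup : ∀ μ s t s' t', R μ s t → s ≤ s' → t ≤ t' → R μ s' t')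
    (hR0 : R 0 (F1 0) (F2 0)) (hR1 : R 1 (F1 1) (F2 1))
    (hstep : ∀ (n : ℕ) (g0 g1 : (Fin n → Bool) → Bool), (∀ x, TT ρ g1 x ≤ TT ρ g0 x) →
      R (cubeAverage (TT ρ g0)) (cubeAverage fun x => F1 (TT ρ g0 x))
        (cubeAverage fun x => F2 (TT ρ g0 x)) →
      R (cubeAverage (TT ρ g1)) (cubeAverage fun x => F1 (TT ρ g1 x))
        (cubeAverage fun x => F2 (TT ρ g1 x)) →
      R ((cubeAverage (TT ρ g0) + cubeAverage (TT ρ g1)) / 2)
        ((cubeAverage (fun x => F1 ((1 + ρ) / 2 * TT ρ g0 x + (1 - ρ) / 2 * TT ρ g1 x)) +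
          cubeAverage (fun x => F1 ((1 - ρ) / 2 * TT ρ g0 x + (1 + ρ) / 2 * TT ρ g1 x))) / 2)
        ((cubeAverage (fun x => F2 ((1 + ρ) / 2 * TT ρ g0 x + (1 - ρ) / 2 * TT ρ g1 x)) +
          cubeAverage (fun x => F2 ((1 - ρ) / 2 * TT ρ g0 x + (1 + ρ) / 2 * TT ρ g1 x))) / 2)) :
    ∀ (n : ℕ) (f : (Fin n → Bool) → Bool),
      R (cubeAverage (TT ρ f)) (cubeAverage fun x => F1 (TT ρ f x))
        (cubeAverage fun x => F2 (TT ρ f x)) := by
  have habs : |ρ| ≤ 1 := by rw [abs_of_nonneg h0]; exact h1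
  intro n
  induction n with
  | zero =>
    intro f
    rw [cubeAverage_zero, cubeAverage_zero, cubeAverage_zero]
    have e : TT ρ f default = TwoSet.ind (f default) := by
      rw [TT_eq, Fintype.sum_unique]
      unfold wt
      simp only [Finset.univ_eq_empty, Finset.prod_empty, one_mul]
      exact congrArg (fun z => TwoSet.ind (f z)) (Subsingleton.elim _ _)
    rw [e]
    cases f default
    · simpa [TwoSet.ind] using hR0
    · simpa [TwoSet.ind] using hR1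
  | succ n ih =>
    intro f
    set f0 : (Fin n → Bool) → Bool := fun x => f (Fin.cons false x) with hf0
    set f1 : (Fin n → Bool) → Bool := fun x => f (Fin.cons true x) with hf1
    set g0 : (Fin n → Bool) → Bool := fun x => f0 x || f1 x with hg0
    set g1 : (Fin n → Bool) → Bool := fun x => f0 x && f1 x with hg1
    have s0 : ∀ x, sl0 (TT ρ f) x = (1 + ρ) / 2 * TT ρ f0 x + (1 - ρ) / 2 * TT ρ f1 x :=
      fun x => sl0_noise ρ (fun y => TwoSet.ind (f y)) x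
    have s1 : ∀ x, sl1 (TT ρ f) x = (1 - ρ) / 2 * TT ρ f0 x + (1 + ρ) / 2 * TT ρ f1 x :=
      fun x => sl1_noise ρ (fun y => TwoSet.ind (f y)) x
    have le0 : ∀ x, TT ρ f0 x ≤ TT ρ g0 x := TT_mono habs fun y => by
      simp only [hg0]; cases f0 y <;> cases f1 y <;> simp [TwoSet.ind]
    have le1 : ∀ x, TT ρ f1 x ≤ TT ρ g0 x := TT_mono habs fun y => by
      simp only [hg0]; cases f0 y <;> cases f1 y <;> simp [TwoSet.ind]
    have ge0 : ∀ x, TT ρ g1 x ≤ TT ρ f0 x := TT_mono habs fun y => by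
      simp only [hg1]; cases f0 y <;> cases f1 y <;> simp [TwoSet.ind]
    have ge1 : ∀ x, TT ρ g1 x ≤ TT ρ f1 x := TT_mono habs fun y => by
      simp only [hg1]; cases f0 y <;> cases f1 y <;> simp [TwoSet.ind]
    have hsum : ∀ x, TT ρ g0 x + TT ρ g1 x = TT ρ f0 x + TT ρ f1 x := by
      intro x
      rw [TT_eq, TT_eq, TT_eq, TT_eq, ← Finset.sum_add_distrib, ← Finset.sum_add_distrib]
      refine Finset.sum_congr rfl fun y _ => ?_
      rw [← mul_add, ← mul_add]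
      congr 1
      simp only [hg0, hg1]
      cases f0 y <;> cases f1 y <;> simp [TwoSet.ind]
    have key := hstep n g0 g1 (fun x => (ge0 x).trans (le0 x)) (ih g0) (ih g1)
    have hconc : ∀ {F : ℝ → ℝ}, ConcaveOn ℝ (Icc 0 1) F →
        (cubeAverage (fun x => F ((1 + ρ) / 2 * TT ρ g0 x + (1 - ρ) / 2 * TT ρ g1 x)) +
          cubeAverage (fun x => F ((1 - ρ) / 2 * TT ρ g0 x + (1 + ρ) / 2 * TT ρ g1 x))) / 2 ≤
        cubeAverage (fun x => F (TT ρ f x)) := by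
      intro F hF
      rw [cubeAverage_split (fun x => F (TT ρ f x)), ← cubeAverage_add, ← cubeAverage_add]
      have : cubeAverage (fun x => F ((1 + ρ) / 2 * TT ρ g0 x + (1 - ρ) / 2 * TT ρ g1 x) +
            F ((1 - ρ) / 2 * TT ρ g0 x + (1 + ρ) / 2 * TT ρ g1 x)) ≤
          cubeAverage (fun x => sl0 (fun x => F (TT ρ f x)) x +
            sl1 (fun x => F (TT ρ f x)) x) := by
        refine cubeAverage_mono fun x => ?_
        have e0 : sl0 (fun x => F (TT ρ f x)) x = F (sl0 (TT ρ f) x) := rfl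
        have e1 : sl1 (fun x => F (TT ρ f x)) x = F (sl1 (TT ρ f) x) := rfl
        rw [e0, e1, s0 x, s1 x]
        have hs := hsum x
        have A0 := TT_nonneg habs g1 x
        have A1 := TT_le_one habs g0 x
        have B1 := le0 x
        have B2 := le1 x
        have B3 := ge0 x
        have B4 := ge1 x
        have hD : 0 ≤ TT ρ g0 x - TT ρ g1 x := by linarith
        have c := concave_two_point hF (s := (TT ρ f0 x + TT ρ f1 x) / 2)
          (u := ρ * (TT ρ f0 x - TT ρ f1 x) / 2) (v := ρ * (TT ρ g0 x - TT ρ g1 x) / 2)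
          (by rw [← hs]; nlinarith) (by rw [← hs]; nlinarith)
          (by
            rw [mul_div_assoc, mul_div_assoc, abs_mul, abs_of_nonneg h0]
            refine mul_le_mul_of_nonneg_left ?_ h0
            rw [abs_le]
            constructor <;> linarith)
        have g1' : (1 + ρ) / 2 * TT ρ g0 x + (1 - ρ) / 2 * TT ρ g1 x =
            (TT ρ f0 x + TT ρ f1 x) / 2 + ρ * (TT ρ g0 x - TT ρ g1 x) / 2 := by
          rw [← hs]; ring
        have g2' : (1 - ρ) / 2 * TT ρ g0 x + (1 + ρ) / 2 * TT ρ g1 x =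
            (TT ρ f0 x + TT ρ f1 x) / 2 - ρ * (TT ρ g0 x - TT ρ g1 x) / 2 := by
          rw [← hs]; ring
        have g3' : (1 + ρ) / 2 * TT ρ f0 x + (1 - ρ) / 2 * TT ρ f1 x =
            (TT ρ f0 x + TT ρ f1 x) / 2 + ρ * (TT ρ f0 x - TT ρ f1 x) / 2 := by ring
        have g4' : (1 - ρ) / 2 * TT ρ f0 x + (1 + ρ) / 2 * TT ρ f1 x =
            (TT ρ f0 x + TT ρ f1 x) / 2 - ρ * (TT ρ f0 x - TT ρ f1 x) / 2 := by ring
        rw [g1', g2', g3', g4']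
        exact c
      linarith
    have hμ : (cubeAverage (TT ρ g0) + cubeAverage (TT ρ g1)) / 2 = cubeAverage (TT ρ f) := by
      rw [cubeAverage_split (TT ρ f), ← cubeAverage_add, ← cubeAverage_add]
      congr 2
      funext x
      rw [s0 x, s1 x, hsum x]; ring
    rw [hμ] at key
    exact hup _ _ _ _ _ key (hconc hF1) (hconc hF2)

/-- Parseval row: `E P(1-P) ≥ (1-ρ²) μ (1-μ)` for `P = T_ρ 1_A`, `μ = E P`. -/
theorem parseval_TT {n : ℕ} {ρ : ℝ} (hρ : |ρ| ≤ 1) (f : (Fin n → Bool) → Bool) :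
    (1 - ρ ^ 2) * (cubeAverage (TT ρ f) * (1 - cubeAverage (TT ρ f))) ≤
      cubeAverage (fun x => TT ρ f x * (1 - TT ρ f x)) := by
  have hc := Flow.contraction ρ hρ (fun y => TwoSet.ind (f y))
  have e1 : cubeAverage (fun x => (TwoSet.ind (f x)) ^ 2) = cubeAverage (fun x => TwoSet.ind (f x)) := by
    congr 1
    funext x
    cases f x <;> simp [TwoSet.ind]
  have e2 : cubeAverage (TT ρ f) = cubeAverage (fun x => TwoSet.ind (f x)) := cubeAverage_TT ρ f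
  rw [e1, ← e2] at hc
  have e3 : cubeAverage (fun x => TT ρ f x * (1 - TT ρ f x)) =
      cubeAverage (TT ρ f) - cubeAverage (fun x => (TT ρ f x) ^ 2) := by
    have : (fun x => TT ρ f x * (1 - TT ρ f x)) = fun x => TT ρ f x + (-1) * (TT ρ f x) ^ 2 := by
      funext x; ring
    rw [this, cubeAverage_add, cubeAverage_const_mul]; ring
  have hc' : cubeAverage (fun x => (TT ρ f x) ^ 2) - (cubeAverage (TT ρ f)) ^ 2 ≤
      ρ ^ 2 * (cubeAverage (TT ρ f) - (cubeAverage (TT ρ f)) ^ 2) := hc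
  rw [e3]
  linarith

/-- A pointwise certificate for the functional `u` on ordered pairs `0 ≤ Q ≤ P ≤ 1`, with
Parseval rows. -/
def CertG (ρ : ℝ) (u : ℝ → ℝ) (p1 q1 p2 q2 l1 m1 k : ℝ) : Prop :=
  0 ≤ l1 ∧ 0 ≤ m1 ∧ ∀ P Q : ℝ, 0 ≤ Q → Q ≤ P → P ≤ 1 →
    p1 * u P + q1 * u Q + p2 * P + q2 * Q + l1 * (P * (1 - P)) + m1 * (Q * (1 - Q)) - k ≤
      u ((1 + ρ) / 2 * P + (1 - ρ) / 2 * Q) + u ((1 - ρ) / 2 * P + (1 + ρ) / 2 * Q)

/-- averaging a certificate over two ordered functions -/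
lemma certG_average {ρ : ℝ} {u : ℝ → ℝ} {p1 q1 p2 q2 l1 m1 k : ℝ}
    (hc : CertG ρ u p1 q1 p2 q2 l1 m1 k) {n : ℕ}
    {P Q : (Fin n → Bool) → ℝ} (hQ : ∀ x, 0 ≤ Q x) (hPQ : ∀ x, Q x ≤ P x) (hP : ∀ x, P x ≤ 1) :
    p1 * cubeAverage (fun x => u (P x)) + q1 * cubeAverage (fun x => u (Q x)) +
      p2 * cubeAverage P + q2 * cubeAverage Q +
      l1 * cubeAverage (fun x => P x * (1 - P x)) + m1 * cubeAverage (fun x => Q x * (1 - Q x))
      - k ≤
    cubeAverage (fun x => u ((1 + ρ) / 2 * P x + (1 - ρ) / 2 * Q x)) +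
      cubeAverage (fun x => u ((1 - ρ) / 2 * P x + (1 + ρ) / 2 * Q x)) := by
  have h := cubeAverage_mono (n := n) (g := fun x => p1 * u (P x) +
      (q1 * u (Q x) + (p2 * P x + (q2 * Q x + (l1 * (P x * (1 - P x)) +
        (m1 * (Q x * (1 - Q x)) + (-k)))))))
    (h := fun x => u ((1 + ρ) / 2 * P x + (1 - ρ) / 2 * Q x) +
      u ((1 - ρ) / 2 * P x + (1 + ρ) / 2 * Q x))
    (fun x => by
      have := hc.2.2 (P x) (Q x) (hQ x) (hPQ x) (hP x)
      linarith)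
  rw [cubeAverage_add, cubeAverage_add, cubeAverage_add, cubeAverage_add, cubeAverage_add,
    cubeAverage_add, cubeAverage_const_mul, cubeAverage_const_mul, cubeAverage_const_mul,
    cubeAverage_const_mul, cubeAverage_const_mul, cubeAverage_const_mul, cubeAverage_const,
    cubeAverage_add] at h
  linarith

/-- certificate + Parseval for two ordered noises of Boolean functions -/
lemma certG_TT {ρ : ℝ} (hρ : |ρ| ≤ 1) {u : ℝ → ℝ} {p1 q1 p2 q2 l1 m1 k : ℝ}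
    (hc : CertG ρ u p1 q1 p2 q2 l1 m1 k) {n : ℕ} (g0 g1 : (Fin n → Bool) → Bool)
    (hle : ∀ x, TT ρ g1 x ≤ TT ρ g0 x) :
    p1 * cubeAverage (fun x => u (TT ρ g0 x)) + q1 * cubeAverage (fun x => u (TT ρ g1 x)) +
      p2 * cubeAverage (TT ρ g0) + q2 * cubeAverage (TT ρ g1) +
      (1 - ρ ^ 2) * (l1 * (cubeAverage (TT ρ g0) * (1 - cubeAverage (TT ρ g0))) +
        m1 * (cubeAverage (TT ρ g1) * (1 - cubeAverage (TT ρ g1)))) - k ≤
    cubeAverage (fun x => u ((1 + ρ) / 2 * TT ρ g0 x + (1 - ρ) / 2 * TT ρ g1 x)) +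
      cubeAverage (fun x => u ((1 - ρ) / 2 * TT ρ g0 x + (1 + ρ) / 2 * TT ρ g1 x)) := by
  have h := certG_average hc (P := TT ρ g0) (Q := TT ρ g1) (TT_nonneg hρ g1) hle
    (TT_le_one hρ g0)
  have a0 := mul_le_mul_of_nonneg_left (parseval_TT hρ g0) hc.1
  have a1 := mul_le_mul_of_nonneg_left (parseval_TT hρ g1) hc.2.1
  linarith

/-- certificate + Parseval applied to the complements -/
lemma certG_TT' {ρ : ℝ} (hρ : |ρ| ≤ 1) {u : ℝ → ℝ} {p1 q1 p2 q2 l1 m1 k : ℝ}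
    (hc : CertG ρ u p1 q1 p2 q2 l1 m1 k) {n : ℕ} (g0 g1 : (Fin n → Bool) → Bool)
    (hle : ∀ x, TT ρ g1 x ≤ TT ρ g0 x) :
    p1 * cubeAverage (fun x => u (1 - TT ρ g1 x)) +
      q1 * cubeAverage (fun x => u (1 - TT ρ g0 x)) +
      p2 * (1 - cubeAverage (TT ρ g1)) + q2 * (1 - cubeAverage (TT ρ g0)) +
      (1 - ρ ^ 2) * (l1 * (cubeAverage (TT ρ g1) * (1 - cubeAverage (TT ρ g1))) +
        m1 * (cubeAverage (TT ρ g0) * (1 - cubeAverage (TT ρ g0)))) - k ≤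
    cubeAverage (fun x => u (1 - ((1 + ρ) / 2 * TT ρ g0 x + (1 - ρ) / 2 * TT ρ g1 x))) +
      cubeAverage (fun x => u (1 - ((1 - ρ) / 2 * TT ρ g0 x + (1 + ρ) / 2 * TT ρ g1 x))) := by
  have h := certG_average hc (P := fun x => 1 - TT ρ g1 x) (Q := fun x => 1 - TT ρ g0 x)
    (fun x => by linarith [TT_le_one hρ g0 x]) (fun x => by linarith [hle x])
    (fun x => by linarith [TT_nonneg hρ g1 x])
  rw [cubeAverage_one_sub, cubeAverage_one_sub] at h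
  have e1 : ∀ x, (1 + ρ) / 2 * (1 - TT ρ g1 x) + (1 - ρ) / 2 * (1 - TT ρ g0 x) =
      1 - ((1 - ρ) / 2 * TT ρ g0 x + (1 + ρ) / 2 * TT ρ g1 x) := fun x => by ring
  have e2 : ∀ x, (1 - ρ) / 2 * (1 - TT ρ g1 x) + (1 + ρ) / 2 * (1 - TT ρ g0 x) =
      1 - ((1 + ρ) / 2 * TT ρ g0 x + (1 - ρ) / 2 * TT ρ g1 x) := fun x => by ring
  have e3 : ∀ x, (1 - TT ρ g1 x) * (1 - (1 - TT ρ g1 x)) = TT ρ g1 x * (1 - TT ρ g1 x) :=
    fun x => by ring
  have e4 : ∀ x, (1 - TT ρ g0 x) * (1 - (1 - TT ρ g0 x)) = TT ρ g0 x * (1 - TT ρ g0 x) :=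
    fun x => by ring
  simp only [e1, e2, e3, e4] at h
  have a0 := mul_le_mul_of_nonneg_left (parseval_TT hρ g1) hc.1
  have a1 := mul_le_mul_of_nonneg_left (parseval_TT hρ g0) hc.2.1
  linarith

lemma concave_one_sub {u : ℝ → ℝ} (hu : ConcaveOn ℝ (Icc 0 1) u) :
    ConcaveOn ℝ (Icc 0 1) (fun x : ℝ => u (1 - x)) := by
  refine ⟨convex_Icc 0 1, ?_⟩
  intro x hx y hy a b ha hb hab
  have h := hu.2 (x := 1 - x) (y := 1 - y) ⟨by linarith [hx.2], by linarith [hx.1]⟩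
    ⟨by linarith [hy.2], by linarith [hy.1]⟩ ha hb hab
  simp only [smul_eq_mul] at h ⊢
  have e : a * (1 - x) + b * (1 - y) = 1 - (a * x + b * y) := by linear_combination hab
  rw [e] at h
  exact h

lemma mem_unit_TT {n : ℕ} {ρ : ℝ} (hρ : |ρ| ≤ 1) (f : (Fin n → Bool) → Bool) :
    0 ≤ cubeAverage (TT ρ f) ∧ cubeAverage (TT ρ f) ≤ 1 := by
  refine ⟨cubeAverage_nonneg (TT_nonneg hρ f), ?_⟩
  rw [← cubeAverage_const (n := n) 1]
  exact cubeAverage_mono (TT_le_one hρ f)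

/-- **G2.** Region version for the two functionals `E u(P)`, `E u(1-P)`. -/
theorem region_inductionG {ρ : ℝ} (h0 : 0 ≤ ρ) (h1 : ρ ≤ 1) {u : ℝ → ℝ}
    (hu : ConcaveOn ℝ (Icc 0 1) u) (R : ℝ → ℝ → ℝ → Prop)
    (hup : ∀ μ s t s' t', R μ s t → s ≤ s' → t ≤ t' → R μ s' t')
    (hR0 : R 0 (u 0) (u 1)) (hR1 : R 1 (u 1) (u 0))
    (hstep : ∀ μ0 α0 β0 μ1 α1 β1 α β : ℝ, 0 ≤ μ1 → μ1 ≤ μ0 → μ0 ≤ 1 →
      R μ0 α0 β0 → R μ1 α1 β1 →
      (∀ p1 q1 p2 q2 l1 m1 k : ℝ, CertG ρ u p1 q1 p2 q2 l1 m1 k →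
        p1 * α0 + q1 * α1 + p2 * μ0 + q2 * μ1 +
          (1 - ρ ^ 2) * (l1 * (μ0 * (1 - μ0)) + m1 * (μ1 * (1 - μ1))) - k ≤ 2 * α) →
      (∀ p1 q1 p2 q2 l1 m1 k : ℝ, CertG ρ u p1 q1 p2 q2 l1 m1 k →
        p1 * β1 + q1 * β0 + p2 * (1 - μ1) + q2 * (1 - μ0) +
          (1 - ρ ^ 2) * (l1 * (μ1 * (1 - μ1)) + m1 * (μ0 * (1 - μ0))) - k ≤ 2 * β) →
      R ((μ0 + μ1) / 2) α β)
    (n : ℕ) (f : (Fin n → Bool) → Bool) :
    R (cubeAverage (TT ρ f)) (cubeAverage fun x => u (TT ρ f x))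
        (cubeAverage fun x => u (1 - TT ρ f x)) := by
  have habs : |ρ| ≤ 1 := by rw [abs_of_nonneg h0]; exact h1
  refine bool_inductionG h0 h1 hu (concave_one_sub hu) R hup (by simpa using hR0)
    (by simpa using hR1) ?_ n f
  intro n g0 g1 hle hR0' hR1'
  refine hstep (cubeAverage (TT ρ g0)) _ _ (cubeAverage (TT ρ g1)) _ _ _ _
    (mem_unit_TT habs g1).1 (cubeAverage_mono hle) (mem_unit_TT habs g0).2 hR0' hR1'
    (fun p1 q1 p2 q2 l1 m1 k hc => ?_) (fun p1 q1 p2 q2 l1 m1 k hc => ?_)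
  · have := certG_TT habs hc g0 g1 hle
    linarith
  · have := certG_TT' habs hc g0 g1 hle
    linarith

/-- **G1.** One function: a lower bound `b` of `E u(T_ρ 1_A)` in terms of the mean. -/
theorem one_functionG {ρ : ℝ} (h0 : 0 ≤ ρ) (h1 : ρ ≤ 1) {u : ℝ → ℝ}
    (hu : ConcaveOn ℝ (Icc 0 1) u) (b : ℝ → ℝ) (hb0 : b 0 ≤ u 0) (hb1 : b 1 ≤ u 1)
    (hI : ∀ ν0 ν1 : ℝ, 0 ≤ ν1 → ν1 ≤ ν0 → ν0 ≤ 1 → ∃ p1 q1 p2 q2 l1 m1 k : ℝ,
      0 ≤ p1 ∧ 0 ≤ q1 ∧ CertG ρ u p1 q1 p2 q2 l1 m1 k ∧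
      2 * b ((ν0 + ν1) / 2) ≤ p1 * b ν0 + q1 * b ν1 + p2 * ν0 + q2 * ν1 +
        (1 - ρ ^ 2) * (l1 * (ν0 * (1 - ν0)) + m1 * (ν1 * (1 - ν1))) - k)
    (n : ℕ) (f : (Fin n → Bool) → Bool) :
    b (cubeAverage (TT ρ f)) ≤ cubeAverage (fun x => u (TT ρ f x)) := by
  have habs : |ρ| ≤ 1 := by rw [abs_of_nonneg h0]; exact h1
  refine bool_inductionG h0 h1 hu hu (fun μ s _ => b μ ≤ s) ?_ hb0 hb1 ?_ n f
  · intro μ s t s' t' hs hss' _
    exact hs.trans hss'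
  · intro n g0 g1 hle a0 a1
    obtain ⟨p1, q1, p2, q2, l1, m1, k, hp1, hq1, hc, hineq⟩ :=
      hI (cubeAverage (TT ρ g0)) (cubeAverage (TT ρ g1)) (mem_unit_TT habs g1).1
        (cubeAverage_mono hle) (mem_unit_TT habs g0).2
    have e := certG_TT habs hc g0 g1 hle
    have e1 := mul_le_mul_of_nonneg_left a0 hp1
    have e2 := mul_le_mul_of_nonneg_left a1 hq1
    linarith

/-- **G1'.** Both bounds at the same time: `b μ ≤ E u(P)` and `b (1-μ) ≤ E u(1-P)`. -/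
theorem one_functionG' {ρ : ℝ} (h0 : 0 ≤ ρ) (h1 : ρ ≤ 1) {u : ℝ → ℝ}
    (hu : ConcaveOn ℝ (Icc 0 1) u) (b : ℝ → ℝ) (hb0 : b 0 ≤ u 0) (hb1 : b 1 ≤ u 1)
    (hI : ∀ ν0 ν1 : ℝ, 0 ≤ ν1 → ν1 ≤ ν0 → ν0 ≤ 1 → ∃ p1 q1 p2 q2 l1 m1 k : ℝ,
      0 ≤ p1 ∧ 0 ≤ q1 ∧ CertG ρ u p1 q1 p2 q2 l1 m1 k ∧
      2 * b ((ν0 + ν1) / 2) ≤ p1 * b ν0 + q1 * b ν1 + p2 * ν0 + q2 * ν1 +
        (1 - ρ ^ 2) * (l1 * (ν0 * (1 - ν0)) + m1 * (ν1 * (1 - ν1))) - k)
    (n : ℕ) (f : (Fin n → Bool) → Bool) :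
    b (cubeAverage (TT ρ f)) + b (1 - cubeAverage (TT ρ f)) ≤
      cubeAverage (fun x => u (TT ρ f x)) + cubeAverage (fun x => u (1 - TT ρ f x)) := by
  have a := one_functionG h0 h1 hu b hb0 hb1 hI n f
  have c := one_functionG h0 h1 hu b hb0 hb1 hI n (fun y => !f y)
  have e : ∀ x, TT ρ (fun y => !f y) x = 1 - TT ρ f x := TT_not ρ f
  have e' : cubeAverage (TT ρ fun y => !f y) = 1 - cubeAverage (TT ρ f) := by
    rw [← cubeAverage_one_sub]
    congr 1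
    funext x
    exact e x
  rw [e'] at c
  simp only [e] at c
  linarith

/-- The family of functionals of the application. -/
noncomputable def FA (A0 A1 A2 q : ℝ) : ℝ :=
  2 * (Real.sqrt q - q) + q * (1 - q) * (A0 + A1 * q + A2 * q ^ 2)

lemma FA_zero (A0 A1 A2 : ℝ) : FA A0 A1 A2 0 = 0 := by simp [FA]

lemma FA_one (A0 A1 A2 : ℝ) : FA A0 A1 A2 1 = 0 := by simp [FA]

lemma hasDerivAt_FA (A0 A1 A2 : ℝ) {q : ℝ} (hq : 0 < q) :
    HasDerivAt (FA A0 A1 A2)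
      (1 / Real.sqrt q - 2 + (A0 + 2 * (A1 - A0) * q + 3 * (A2 - A1) * q ^ 2 - 4 * A2 * q ^ 3)) q := by
  have h1 : HasDerivAt (fun q : ℝ => Real.sqrt q) (1 / (2 * Real.sqrt q)) q :=
    Real.hasDerivAt_sqrt hq.ne'
  have h2 : HasDerivAt (fun q : ℝ => q) 1 q := hasDerivAt_id q
  have h3 : HasDerivAt (fun q : ℝ => q ^ 2) (2 * q) q := by simpa using hasDerivAt_pow 2 q
  have h4 : HasDerivAt (fun q : ℝ => q ^ 3) (3 * q ^ 2) q := by simpa using hasDerivAt_pow 3 q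
  have h5 : HasDerivAt (fun q : ℝ => q ^ 4) (4 * q ^ 3) q := by simpa using hasDerivAt_pow 4 q
  have h := ((h1.const_mul 2).add ((h2.const_mul (A0 - 2)).add ((h3.const_mul (A1 - A0)).add
    ((h4.const_mul (A2 - A1)).add (h5.const_mul (-A2))))))
  refine (h.congr_of_eventuallyEq (Filter.Eventually.of_forall fun x => ?_)).congr_deriv ?_
  · simp only [FA, Pi.add_apply]
    ring
  · have hs : Real.sqrt q ≠ 0 := (Real.sqrt_pos.mpr hq).ne'
    field_simp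
    ring

lemma hasDerivAt_FA' (A0 A1 A2 : ℝ) {q : ℝ} (hq : 0 < q) :
    HasDerivAt (fun q => 1 / Real.sqrt q - 2 +
        (A0 + 2 * (A1 - A0) * q + 3 * (A2 - A1) * q ^ 2 - 4 * A2 * q ^ 3))
      (-(1 / (2 * (Real.sqrt q) ^ 3)) +
        (2 * (A1 - A0) + 6 * (A2 - A1) * q - 12 * A2 * q ^ 2)) q := by
  have hs : Real.sqrt q ≠ 0 := (Real.sqrt_pos.mpr hq).ne'
  have h1 : HasDerivAt (fun q : ℝ => Real.sqrt q) (1 / (2 * Real.sqrt q)) q :=
    Real.hasDerivAt_sqrt hq.ne'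
  have h1' := h1.inv hs
  have h2 : HasDerivAt (fun q : ℝ => q) 1 q := hasDerivAt_id q
  have h3 : HasDerivAt (fun q : ℝ => q ^ 2) (2 * q) q := by simpa using hasDerivAt_pow 2 q
  have h4 : HasDerivAt (fun q : ℝ => q ^ 3) (3 * q ^ 2) q := by simpa using hasDerivAt_pow 3 q
  have h := (h1'.add ((h2.const_mul (2 * (A1 - A0))).add ((h3.const_mul (3 * (A2 - A1))).add
    ((h4.const_mul (-4 * A2)).add (hasDerivAt_const q (A0 - 2))))))
  refine (h.congr_of_eventuallyEq (Filter.Eventually.of_forall fun x => ?_)).congr_deriv ?_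
  · simp only [Pi.add_apply, Pi.inv_apply]
    ring
  · field_simp
    ring

/-- Concavity of `FA` from an explicit inequality for the second derivative, in `y = √q`. -/
theorem concave_FA {A0 A1 A2 : ℝ}
    (h : ∀ y : ℝ, 0 < y → y < 1 →
      (2 * (A1 - A0) + 6 * (A2 - A1) * y ^ 2 - 12 * A2 * y ^ 4) * y ^ 3 ≤ 1 / 2) :
    ConcaveOn ℝ (Icc 0 1) (FA A0 A1 A2) := by
  have hcont : ContinuousOn (FA A0 A1 A2) (Icc 0 1) := by
    have : Continuous (FA A0 A1 A2) := by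
      unfold FA
      fun_prop
    exact this.continuousOn
  have hint : interior (Icc (0 : ℝ) 1) = Ioo 0 1 := interior_Icc
  have hd : ∀ q ∈ Ioo (0 : ℝ) 1, deriv (FA A0 A1 A2) q =
      1 / Real.sqrt q - 2 +
        (A0 + 2 * (A1 - A0) * q + 3 * (A2 - A1) * q ^ 2 - 4 * A2 * q ^ 3) := fun q hq =>
    (hasDerivAt_FA A0 A1 A2 hq.1).deriv
  have hd2 : ∀ q ∈ Ioo (0 : ℝ) 1, HasDerivAt (deriv (FA A0 A1 A2))
      (-(1 / (2 * (Real.sqrt q) ^ 3)) +
        (2 * (A1 - A0) + 6 * (A2 - A1) * q - 12 * A2 * q ^ 2)) q := by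
    intro q hq
    refine (hasDerivAt_FA' A0 A1 A2 hq.1).congr_of_eventuallyEq ?_
    filter_upwards [isOpen_Ioo.mem_nhds hq] with x hx
    exact hd x hx
  refine concaveOn_of_deriv2_nonpos (convex_Icc 0 1) hcont ?_ ?_ ?_
  · rw [hint]
    exact fun q hq => (hasDerivAt_FA A0 A1 A2 hq.1).differentiableAt.differentiableWithinAt
  · rw [hint]
    exact fun q hq => (hd2 q hq).differentiableAt.differentiableWithinAt
  · rw [hint]
    intro q hq
    have e : deriv^[2] (FA A0 A1 A2) q = deriv (deriv (FA A0 A1 A2)) q := rfl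
    rw [e, (hd2 q hq).deriv]
    have hy : 0 < Real.sqrt q := Real.sqrt_pos.mpr hq.1
    have hy1 : Real.sqrt q < 1 := by
      rw [Real.sqrt_lt' one_pos]; simpa using hq.2
    have hh := h (Real.sqrt q) hy hy1
    have e2 : (Real.sqrt q) ^ 2 = q := Real.sq_sqrt hq.1.le
    have e4 : (Real.sqrt q) ^ 4 = q ^ 2 := by
      have : (Real.sqrt q) ^ 4 = ((Real.sqrt q) ^ 2) ^ 2 := by ring
      rw [this, e2]
    rw [e2, e4] at hh
    have hy3 : 0 < (Real.sqrt q) ^ 3 := by positivity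
    have : 2 * (A1 - A0) + 6 * (A2 - A1) * q - 12 * A2 * q ^ 2 ≤ 1 / 2 / (Real.sqrt q) ^ 3 := by
      rw [le_div_iff₀ hy3]; exact hh
    have e5 : 1 / 2 / (Real.sqrt q) ^ 3 = 1 / (2 * (Real.sqrt q) ^ 3) := by
      rw [div_div]
    linarith

/-- Concavity of `FA` from simple bounds on the coefficients. -/
theorem concave_FA_of_bounds {A0 A1 A2 : ℝ} (hA2 : 0 ≤ A2)
    (h : 2 * (A1 - A0) + 6 * |A2 - A1| ≤ 1 / 2) (h' : 0 ≤ 2 * (A1 - A0) + 6 * |A2 - A1|) :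
    ConcaveOn ℝ (Icc 0 1) (FA A0 A1 A2) := by
  refine concave_FA fun y hy hy1 => ?_
  have h3 : y ^ 3 ≤ 1 := pow_le_one₀ hy.le hy1.le
  have h2 : y ^ 2 ≤ 1 := pow_le_one₀ hy.le hy1.le
  have a : 6 * (A2 - A1) * y ^ 2 ≤ 6 * |A2 - A1| := by
    have := le_abs_self (A2 - A1)
    have b : (A2 - A1) * y ^ 2 ≤ |A2 - A1| * 1 := by
      apply mul_le_mul this h2 (by positivity) (abs_nonneg _)
    nlinarith
  have b : 0 ≤ 12 * A2 * y ^ 4 := by positivity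
  have c : (2 * (A1 - A0) + 6 * (A2 - A1) * y ^ 2 - 12 * A2 * y ^ 4) * y ^ 3 ≤
      (2 * (A1 - A0) + 6 * |A2 - A1|) * y ^ 3 := by
    apply mul_le_mul_of_nonneg_right _ (by positivity)
    linarith
  have d : (2 * (A1 - A0) + 6 * |A2 - A1|) * y ^ 3 ≤ (2 * (A1 - A0) + 6 * |A2 - A1|) * 1 :=
    mul_le_mul_of_nonneg_left h3 h'
  linarith

end Crest.Agent.R307.GenInd
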