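import Crest.Agent.R307.Defs

/-!
Row 307: splitting off one coordinate of the cube, the abstract induction on the dimension, and the
deduction of S0472 from the tangent forms (task 302, helper780).
-/

set_option autoImplicit false

open Crest.CubeNoise

namespace Crest.Agent.R307

/-- the slice `x₀ = false` -/
def sl0 {n : ℕ} (g : (Fin (n + 1) → Bool) → ℝ) : (Fin n → Bool) → ℝ := fun x => g (Fin.cons false x)

/-- the slice `x₀ = true` -/
def sl1 {n : ℕ} (g : (Fin (n + 1) → Bool) → ℝ) : (Fin n → Bool) → ℝ := fun x => g (Fin.cons true x)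

theorem sum_split {n : ℕ} (g : (Fin (n + 1) → Bool) → ℝ) :
    ∑ x, g x = ∑ x, sl0 g x + ∑ x, sl1 g x := by
  rw [← (Fin.consEquiv (fun _ => Bool)).sum_comp, Fintype.sum_prod_type, Fintype.sum_bool,
    add_comm]
  rfl

theorem cubeAverage_split {n : ℕ} (g : (Fin (n + 1) → Bool) → ℝ) :
    cubeAverage g = (cubeAverage (sl0 g) + cubeAverage (sl1 g)) / 2 := by
  unfold cubeAverage
  rw [sum_split, pow_succ]
  field_simp

theorem cubeAverage_zero (g : (Fin 0 → Bool) → ℝ) : cubeAverage g = g default := by
  unfold cubeAverage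
  rw [Fintype.sum_unique, pow_zero, div_one]
  exact congrArg g (Subsingleton.elim _ _)

theorem production_zero (g : (Fin 0 → Bool) → ℝ) : production g = 0 := by
  unfold production
  rw [cubeAverage_zero]
  simp

theorem flipBit_cons_zero {n : ℕ} (b : Bool) (x : Fin n → Bool) :
    flipBit (0 : Fin (n + 1)) (Fin.cons b x) = Fin.cons (!b) x := by
  unfold flipBit
  rw [Fin.cons_zero, Fin.update_cons_zero]

theorem flipBit_cons_succ {n : ℕ} (b : Bool) (x : Fin n → Bool) (i : Fin n) :
    flipBit i.succ (Fin.cons b x : Fin (n + 1) → Bool) = Fin.cons b (flipBit i x) := by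
  unfold flipBit
  rw [Fin.cons_succ, Fin.cons_update]

theorem cubeAverage_add {n : ℕ} (g h : (Fin n → Bool) → ℝ) :
    cubeAverage (fun x => g x + h x) = cubeAverage g + cubeAverage h := by
  unfold cubeAverage
  rw [Finset.sum_add_distrib, add_div]

theorem cubeAverage_const_mul {n : ℕ} (c : ℝ) (g : (Fin n → Bool) → ℝ) :
    cubeAverage (fun x => c * g x) = c * cubeAverage g := by
  unfold cubeAverage
  rw [← Finset.mul_sum, mul_div_assoc]

theorem cubeAverage_const {n : ℕ} (c : ℝ) :
    cubeAverage (fun _ : Fin n → Bool => c) = c := by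
  unfold cubeAverage
  rw [Finset.sum_const, Finset.card_univ]
  simp

theorem cubeAverage_mono {n : ℕ} {g h : (Fin n → Bool) → ℝ} (H : ∀ x, g x ≤ h x) :
    cubeAverage g ≤ cubeAverage h := by
  unfold cubeAverage
  gcongr
  exact H _

theorem cubeAverage_lt {n : ℕ} {g h : (Fin n → Bool) → ℝ} (H : ∀ x, g x < h x) :
    cubeAverage g < cubeAverage h := by
  unfold cubeAverage
  have : ∑ x, g x < ∑ x, h x := Finset.sum_lt_sum_of_nonempty Finset.univ_nonempty fun x _ => H x
  gcongr

theorem abs_cubeAverage_lt_one {n : ℕ} {g : (Fin n → Bool) → ℝ} (H : ∀ x, |g x| < 1) :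
    |cubeAverage g| < 1 := by
  rw [abs_lt]
  constructor
  · rw [← cubeAverage_const (n := n) (-1)]
    exact cubeAverage_lt fun x => (abs_lt.mp (H x)).1
  · calc cubeAverage g < cubeAverage (fun _ : Fin n → Bool => (1 : ℝ)) :=
        cubeAverage_lt fun x => (abs_lt.mp (H x)).2
      _ = 1 := cubeAverage_const 1

/-- the entropy production splits as the average of the productions of the two slices plus the
two-point production between the slices. -/
theorem production_split {n : ℕ} (g : (Fin (n + 1) → Bool) → ℝ) :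
    production g = (production (sl0 g) + production (sl1 g)) / 2 +
      cubeAverage (fun x => kk (sl0 g x) (sl1 g x)) := by
  have h0 : sl0 (fun x => Real.artanh (g x) * ((∑ i, (g x - g (flipBit i x))) / 2)) =
      fun x => Real.artanh (sl0 g x) * ((∑ i, (sl0 g x - sl0 g (flipBit i x))) / 2) +
        Real.artanh (sl0 g x) * ((sl0 g x - sl1 g x) / 2) := by
    funext x
    simp only [sl0, sl1]
    rw [Fin.sum_univ_succ, flipBit_cons_zero]
    simp only [flipBit_cons_succ, Bool.not_false]
    ring
  have h1 : sl1 (fun x => Real.artanh (g x) * ((∑ i, (g x - g (flipBit i x))) / 2)) =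
      fun x => Real.artanh (sl1 g x) * ((∑ i, (sl1 g x - sl1 g (flipBit i x))) / 2) +
        Real.artanh (sl1 g x) * ((sl1 g x - sl0 g x) / 2) := by
    funext x
    simp only [sl0, sl1]
    rw [Fin.sum_univ_succ, flipBit_cons_zero]
    simp only [flipBit_cons_succ, Bool.not_true]
    ring
  have hk : cubeAverage (fun x => kk (sl0 g x) (sl1 g x)) =
      (cubeAverage (fun x => Real.artanh (sl0 g x) * ((sl0 g x - sl1 g x) / 2)) +
        cubeAverage (fun x => Real.artanh (sl1 g x) * ((sl1 g x - sl0 g x) / 2))) / 2 := by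
    rw [← cubeAverage_add, div_eq_inv_mul, ← cubeAverage_const_mul]
    congr 1
    funext x
    unfold kk
    ring
  unfold production
  rw [cubeAverage_split, h0, h1, cubeAverage_add, cubeAverage_add, hk]
  ring

/-- the abstract induction on the dimension -/
theorem induction_of_two_point (Phi : ℝ → ℝ → ℝ)
    (h0 : ∀ m, |m| < 1 → Phi m (signEntropy m) ≤ 0)
    (h : ∀ (n : ℕ) (g0 g1 : (Fin n → Bool) → ℝ), (∀ x, |g0 x| < 1) → (∀ x, |g1 x| < 1) →
      Phi ((cubeAverage g0 + cubeAverage g1) / 2)
          ((cubeAverage (fun x => signEntropy (g0 x)) +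
            cubeAverage (fun x => signEntropy (g1 x))) / 2) ≤
        (Phi (cubeAverage g0) (cubeAverage fun x => signEntropy (g0 x)) +
          Phi (cubeAverage g1) (cubeAverage fun x => signEntropy (g1 x))) / 2 +
          cubeAverage (fun x => kk (g0 x) (g1 x))) :
    ∀ (n : ℕ) (g : (Fin n → Bool) → ℝ), (∀ x, |g x| < 1) →
      Phi (cubeAverage g) (cubeAverage fun x => signEntropy (g x)) ≤ production g := by
  intro n
  induction n with
  | zero =>
    intro g hg
    rw [production_zero, cubeAverage_zero, cubeAverage_zero]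
    exact h0 _ (hg _)
  | succ n ih =>
    intro g hg
    have hg0 : ∀ x, |sl0 g x| < 1 := fun x => hg _
    have hg1 : ∀ x, |sl1 g x| < 1 := fun x => hg _
    rw [production_split, cubeAverage_split, cubeAverage_split]
    refine (h n (sl0 g) (sl1 g) hg0 hg1).trans ?_
    have e0 := ih (sl0 g) hg0
    have e1 := ih (sl1 g) hg1
    linarith

theorem one_sub_sq_cubeAverage_pos {n : ℕ} {g : (Fin n → Bool) → ℝ} (H : ∀ x, |g x| < 1) :
    0 < 1 - cubeAverage g ^ 2 := by
  have h := abs_cubeAverage_lt_one H
  have := (sq_lt_one_iff_abs_lt_one (cubeAverage g)).mpr h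
  linarith

/-- S0472 from the tangent forms. -/
theorem s0472_of_tangent
    (hRR : ∀ (n : ℕ) (g : (Fin n → Bool) → ℝ), (∀ x, |g x| < 1) → ∀ t, 0 ≤ t → t < 1 →
      RR t (cubeAverage g) (cubeAverage fun x => signEntropy (g x)) ≤ production g)
    (hGG : ∀ (n : ℕ) (g : (Fin n → Bool) → ℝ), (∀ x, |g x| < 1) → ∀ t, 0 ≤ t → t < 1 →
      GG t (cubeAverage g) (cubeAverage fun x => signEntropy (g x)) ≤ production g)
    (n : ℕ) (g : (Fin n → Bool) → ℝ) (hg : ∀ x, |g x| < 1) :
    (∀ r : ℝ, 0 ≤ r → r < 1 → Real.log 2 - signEntropy r = information g →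
        r * Real.artanh r ≤ production g) ∧
    (surplusArg g < 0 → 2 * information g ≤ production g) ∧
    (∀ s : ℝ, 0 ≤ s → s < 1 → Real.log 2 - signEntropy s = surplusArg g →
        2 * information g + (1 - cubeAverage g ^ 2) * (s * Real.artanh s - 2 * surplusArg g)
          ≤ production g) := by
  refine ⟨fun r hr0 hr1 hI => ?_, fun _ => ?_, fun s hs0 hs1 hs => ?_⟩
  · refine le_trans (le_of_eq ?_) (hRR n g hg r hr0 hr1)
    unfold RR psi
    unfold information at hI
    rw [hI]
    ring
  · refine le_trans (le_of_eq ?_) (hGG n g hg 0 le_rfl one_pos)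
    unfold GG CC kappa information
    have hs0 : signEntropy 0 = Real.log 2 := by
      unfold signEntropy
      rw [add_zero, one_div, Real.binEntropy_two_inv]
    rw [hs0]
    simp only [if_true]
    ring
  · refine le_trans (le_of_eq ?_) (hGG n g hg s hs0 hs1)
    have hpos := one_sub_sq_cubeAverage_pos hg
    have hA : cubeAverage (fun x => signEntropy (g x)) =
        (1 - cubeAverage g ^ 2) * signEntropy s := by
      unfold surplusArg at hs
      field_simp at hs
      linarith
    unfold GG CC information surplusArg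
    rw [hA]
    field_simp
    ring

end Crest.Agent.R307
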