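import Crest.Agent.R307.SubDefs
import Crest.Agent.R307.Split

/-!
Row 307, task S0472-T4: the corner bound (helper403).
-/

set_option autoImplicit false

open Set Crest.CubeNoise

namespace Crest.Agent.R307.Corner

open Crest.Agent.R307

/-- `artanh x - artanh y = artanh ((x-y)/(1-xy))`. -/
theorem artanh_sub {x y : ℝ} (hx : |x| < 1) (hy : |y| < 1) :
    Real.artanh x - Real.artanh y = Real.artanh ((x - y) / (1 - x * y)) := by
  obtain ⟨x1, x2⟩ := abs_lt.mp hx
  obtain ⟨y1, y2⟩ := abs_lt.mp hy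
  have hxy : 0 < 1 - x * y := by nlinarith
  have ht : |(x - y) / (1 - x * y)| < 1 := by
    rw [abs_lt]
    constructor
    · rw [lt_div_iff₀ hxy]; nlinarith
    · rw [div_lt_iff₀ hxy]; nlinarith
  rw [artanh_eq_log_sub hx, artanh_eq_log_sub hy, artanh_eq_log_sub ht]
  have e1 : 1 + (x - y) / (1 - x * y) = (1 + x) * (1 - y) / (1 - x * y) := by
    field_simp; ring
  have e2 : 1 - (x - y) / (1 - x * y) = (1 - x) * (1 + y) / (1 - x * y) := by
    field_simp; ring
  have p1 : 0 < 1 + x := by linarith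
  have p2 : 0 < 1 - x := by linarith
  have p3 : 0 < 1 + y := by linarith
  have p4 : 0 < 1 - y := by linarith
  rw [e1, e2, Real.log_div (by positivity) hxy.ne', Real.log_div (by positivity) hxy.ne',
    Real.log_mul p1.ne' p4.ne', Real.log_mul p2.ne' p3.ne']
  ring

/-- `q = √(1 - t²(1-M²))` -/
noncomputable def qq (t M : ℝ) : ℝ := Real.sqrt (1 - t ^ 2 * (1 - M ^ 2))

/-- the optimal `d` -/
noncomputable def ds (t M : ℝ) : ℝ := (1 - qq t M) / t

/-- the Legendre transform -/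
noncomputable def NN (t M : ℝ) : ℝ :=
  Real.artanh t * ds t M - 2 * signEntropy M + signEntropy (M + ds t M) + signEntropy (M - ds t M)

theorem sq_lt_of_abs {M : ℝ} (hM : |M| < 1) : M ^ 2 < 1 := (sq_lt_one_iff_abs_lt_one M).mpr hM

section
variable {t M : ℝ} (ht0 : 0 < t) (ht1 : t < 1) (hM : |M| < 1)
include ht0 ht1 hM

theorem qq_arg_pos : 0 < 1 - t ^ 2 * (1 - M ^ 2) := by
  have h := sq_lt_of_abs hM
  have : t ^ 2 < 1 := by nlinarith
  nlinarith [sq_nonneg M, sq_nonneg t, mul_nonneg (sq_nonneg t) (sq_nonneg M)]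

theorem qq_pos : 0 < qq t M := Real.sqrt_pos.mpr (qq_arg_pos ht0 ht1 hM)

theorem qq_sq : qq t M ^ 2 = 1 - t ^ 2 * (1 - M ^ 2) := Real.sq_sqrt (qq_arg_pos ht0 ht1 hM).le

theorem qq_lt_one : qq t M < 1 := by
  have h := qq_sq ht0 ht1 hM
  have h1 := qq_pos ht0 ht1 hM
  have h2 := sq_lt_of_abs hM
  have h3 : 0 < t ^ 2 * (1 - M ^ 2) := mul_pos (pow_pos ht0 2) (by linarith)
  nlinarith

theorem abs_lt_qq : |M| < qq t M := by
  have h := qq_sq ht0 ht1 hM
  have h1 := qq_pos ht0 ht1 hM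
  have h2 := sq_lt_of_abs hM
  have h3 : t ^ 2 < 1 := by nlinarith
  refine abs_lt_of_sq_lt_sq ?_ h1.le
  rw [h]
  nlinarith [mul_pos (sub_pos.mpr h3) (sub_pos.mpr h2)]

theorem ds_pos : 0 < ds t M := div_pos (sub_pos.mpr (qq_lt_one ht0 ht1 hM)) ht0

theorem ds_eq : t * ds t M ^ 2 - 2 * ds t M + t * (1 - M ^ 2) = 0 := by
  have h := qq_sq ht0 ht1 hM
  have e : qq t M = 1 - t * ds t M := by
    unfold ds; field_simp; ring
  rw [e] at h
  have : t * (t * ds t M ^ 2 - 2 * ds t M + t * (1 - M ^ 2)) = 0 := by linarith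
  rcases mul_eq_zero.mp this with h' | h'
  · exact absurd h' ht0.ne'
  · exact h'

theorem ds_lt : ds t M < 1 - |M| := by
  have h := qq_sq ht0 ht1 hM
  have h1 := qq_pos ht0 ht1 hM
  unfold ds
  rw [div_lt_iff₀ ht0]
  have h0 := abs_nonneg M
  have hs : |M| ^ 2 = M ^ 2 := sq_abs M
  have key : (1 - t * (1 - |M|)) ^ 2 < qq t M ^ 2 := by
    rw [h]
    have : 0 < 2 * t * (1 - t) * (1 - |M|) := by
      apply mul_pos (mul_pos (by linarith) (by linarith)) (by linarith)
    nlinarith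
  have := abs_lt_of_sq_lt_sq key h1.le
  have := (abs_lt.mp this).2
  linarith

theorem abs_add_ds : |M + ds t M| < 1 := by
  have h1 := ds_lt ht0 ht1 hM
  have h2 := ds_pos ht0 ht1 hM
  calc |M + ds t M| ≤ |M| + |ds t M| := abs_add_le _ _
    _ < 1 := by rw [abs_of_pos h2]; linarith

theorem abs_sub_ds : |M - ds t M| < 1 := by
  have h1 := ds_lt ht0 ht1 hM
  have h2 := ds_pos ht0 ht1 hM
  calc |M - ds t M| ≤ |M| + |ds t M| := abs_sub _ _
    _ < 1 := by rw [abs_of_pos h2]; linarith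

theorem artanh_diff : Real.artanh (M + ds t M) - Real.artanh (M - ds t M) = Real.artanh t := by
  rw [artanh_sub (abs_add_ds ht0 ht1 hM) (abs_sub_ds ht0 ht1 hM)]
  congr 1
  have h := ds_eq ht0 ht1 hM
  have h2 := sq_lt_of_abs hM
  have hp : 0 < 1 - (M + ds t M) * (M - ds t M) := by
    nlinarith [sq_nonneg (ds t M)]
  rw [div_eq_iff hp.ne']
  linarith

theorem artanh_sum : Real.artanh (M + ds t M) + Real.artanh (M - ds t M) =
    Real.artanh (M / qq t M) + Real.artanh M := by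
  have hq := qq_pos ht0 ht1 hM
  have hMq := abs_lt_qq ht0 ht1 hM
  have hsub := abs_sub_ds ht0 ht1 hM
  have hadd := abs_add_ds ht0 ht1 hM
  have hneg : |-(M - ds t M)| < 1 := by rwa [abs_neg]
  have hMq' : |M / qq t M| < 1 := by
    rw [abs_div, abs_of_pos hq, div_lt_one hq]; exact hMq
  have hMn : |-M| < 1 := by rwa [abs_neg]
  have e1 : Real.artanh (M - ds t M) = -Real.artanh (-(M - ds t M)) := by
    rw [artanh_neg' hsub]; ring
  have e2 : Real.artanh M = -Real.artanh (-M) := by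
    rw [artanh_neg' hM]; ring
  rw [e1, e2, ← sub_eq_add_neg, ← sub_eq_add_neg, artanh_sub hadd hneg, artanh_sub hMq' hMn]
  congr 1
  have hd := ds_eq ht0 ht1 hM
  have hqe : qq t M = 1 - t * ds t M := by
    unfold ds; field_simp; ring
  have hsq := qq_sq ht0 ht1 hM
  have h2 := sq_lt_of_abs hM
  obtain ⟨a1, a2⟩ := abs_lt.mp hadd
  obtain ⟨b1, b2⟩ := abs_lt.mp hsub
  have hp : 0 < 1 - (M + ds t M) * -(M - ds t M) := by nlinarith
  have hp2 : 0 < qq t M + M ^ 2 := by positivity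
  have hp3 : 1 - M / qq t M * -M = (qq t M + M ^ 2) / qq t M := by field_simp; ring
  rw [hp3]
  have e3 : M / qq t M - -M = M * (1 + qq t M) / qq t M := by field_simp; ring
  rw [e3, div_div_div_cancel_right₀ hq.ne', div_eq_div_iff hp.ne' hp2.ne']
  -- 2M (q + M²) = M (1+q)(1 + M² - d²)
  set d := ds t M with hdd
  set q := qq t M with hqq
  -- use t*d = 1-q, t*(1-M^2) = 2d - t d^2
  have htd : t * d = 1 - q := by linarith
  -- multiply by t
  have key : t ^ 2 * ((M + d - -(M - d)) * (q + M ^ 2)) = t ^ 2 * (M * (1 + q) * (1 - (M + d) * -(M - d))) := by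
    have h5 : t ^ 2 * d ^ 2 = (1 - q) ^ 2 := by rw [← htd]; ring
    have h6 : t ^ 2 * (1 - M ^ 2) = 1 - q ^ 2 := by linarith
    have h7 : t ^ 2 * M ^ 2 = t ^ 2 - 1 + q ^ 2 := by linarith
    have l : t ^ 2 * ((M + d - -(M - d)) * (q + M ^ 2)) = 2 * M * (t ^ 2 * q + t ^ 2 * M ^ 2) := by ring
    have r : t ^ 2 * (M * (1 + q) * (1 - (M + d) * -(M - d))) =
        M * (1 + q) * (t ^ 2 + t ^ 2 * M ^ 2 - t ^ 2 * d ^ 2) := by ring
    rw [l, r, h5, h7]
    ring
  exact mul_left_cancel₀ (pow_pos ht0 2).ne' key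

theorem hasDerivAt_qq : HasDerivAt (qq t) (t ^ 2 * M / qq t M) M := by
  have hq := qq_arg_pos ht0 ht1 hM
  have h1 : HasDerivAt (fun M : ℝ => 1 - t ^ 2 * (1 - M ^ 2)) (2 * t ^ 2 * M) M := by
    have := (((hasDerivAt_pow 2 M).const_sub 1).const_mul (t ^ 2)).const_sub 1
    refine this.congr_deriv ?_
    push_cast; ring
  have h2 := h1.sqrt hq.ne'
  refine h2.congr_deriv ?_
  unfold qq
  field_simp

theorem hasDerivAt_ds : HasDerivAt (ds t) (-(t * M / qq t M)) M := by
  have h := ((hasDerivAt_qq ht0 ht1 hM).const_sub 1).div_const t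
  refine h.congr_deriv ?_
  have := (qq_pos ht0 ht1 hM).ne'
  field_simp

theorem hasDerivAt_NN : HasDerivAt (NN t) (Real.artanh M - Real.artanh (M / qq t M)) M := by
  have h1 := hasDerivAt_ds ht0 ht1 hM
  have h2 := (hasDerivAt_signEntropy hM)
  have h3 := (hasDerivAt_signEntropy (abs_add_ds ht0 ht1 hM)).comp M ((hasDerivAt_id M).add h1)
  have h4 := (hasDerivAt_signEntropy (abs_sub_ds ht0 ht1 hM)).comp M ((hasDerivAt_id M).sub h1)
  have h5 := (((h1.const_mul (Real.artanh t)).sub (h2.const_mul 2)).add h3).add h4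
  refine h5.congr_deriv ?_
  have e1 := artanh_diff ht0 ht1 hM
  have e2 := artanh_sum ht0 ht1 hM
  rw [← e1]
  linear_combination (-1 : ℝ) * e2

/-- `D''` -/
noncomputable def ww (t M : ℝ) : ℝ := t ^ 2 / (qq t M * (1 + qq t M))

theorem hasDerivAt_PP : HasDerivAt (fun M => Real.artanh (M / qq t M) - Real.artanh M)
    (ww t M) M := by
  have hq := qq_pos ht0 ht1 hM
  have hMq := abs_lt_qq ht0 ht1 hM
  have hMq' : |M / qq t M| < 1 := by
    rw [abs_div, abs_of_pos hq, div_lt_one hq]; exact hMq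
  have h1 : HasDerivAt (fun M => M / qq t M) ((1 * qq t M - M * (t ^ 2 * M / qq t M)) / qq t M ^ 2) M :=
    (hasDerivAt_id M).div (hasDerivAt_qq ht0 ht1 hM) hq.ne'
  have h2 := (hasDerivAt_artanh hMq').comp M h1
  have h3 := h2.sub (hasDerivAt_artanh hM)
  refine h3.congr_deriv ?_
  have hsq := qq_sq ht0 ht1 hM
  have h2M := sq_lt_of_abs hM
  have ht2 : t ^ 2 < 1 := by nlinarith
  have hc : 0 < 1 - t ^ 2 := by linarith
  have hm : 0 < 1 - M ^ 2 := by linarith
  have e1 : 1 - (M / qq t M) ^ 2 = (1 - t ^ 2) * (1 - M ^ 2) / qq t M ^ 2 := by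
    rw [div_pow, eq_div_iff (pow_pos hq 2).ne', sub_mul, div_mul_cancel₀ _ (pow_pos hq 2).ne', hsq]
    ring
  have e2 : (1 * qq t M - M * (t ^ 2 * M / qq t M)) / qq t M ^ 2 = (1 - t ^ 2) / qq t M ^ 3 := by
    rw [div_eq_div_iff (pow_pos hq 2).ne' (pow_pos hq 3).ne']
    have : (1 * qq t M - M * (t ^ 2 * M / qq t M)) * qq t M ^ 3 =
        (qq t M ^ 2 - t ^ 2 * M ^ 2) * qq t M ^ 2 := by field_simp
    rw [this]
    congr 1
    rw [hsq]; ring
  rw [e1, e2]
  unfold ww
  have e3 : 1 / ((1 - t ^ 2) * (1 - M ^ 2) / qq t M ^ 2) * ((1 - t ^ 2) / qq t M ^ 3) =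
      1 / ((1 - M ^ 2) * qq t M) := by
    field_simp
  rw [e3]
  have e4 : 1 / ((1 - M ^ 2) * qq t M) - 1 / (1 - M ^ 2) = (1 - qq t M) / ((1 - M ^ 2) * qq t M) := by
    field_simp
  rw [e4, div_eq_div_iff (mul_pos hm hq).ne' (mul_pos hq (by linarith)).ne']
  have : t ^ 2 * (1 - M ^ 2) = (1 - qq t M) * (1 + qq t M) := by linarith
  linear_combination (-qq t M) * this

end

theorem ww_anti {t x y : ℝ} (ht0 : 0 < t) (ht1 : t < 1) (hx : |x| < 1) (hy : |y| < 1)
    (hxy : |x| ≤ |y|) : ww t y ≤ ww t x := by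
  have q1 := qq_pos ht0 ht1 hx
  have q2 := qq_pos ht0 ht1 hy
  have hq : qq t x ≤ qq t y := by
    unfold qq
    apply Real.sqrt_le_sqrt
    have : x ^ 2 ≤ y ^ 2 := sq_le_sq.mpr hxy
    nlinarith [sq_nonneg t, mul_le_mul_of_nonneg_left this (sq_nonneg t)]
  unfold ww
  apply div_le_div_of_nonneg_left (by positivity) (by positivity)
  nlinarith

theorem continuous_NN {t : ℝ} : Continuous (NN t) := by
  have h1 : Continuous (qq t) := by unfold qq; fun_prop
  have h2 : Continuous (ds t) := by unfold ds; fun_prop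
  have h3 := continuous_signEntropy
  unfold NN
  exact (((continuous_const.mul h2).sub (continuous_const.mul h3)).add
    (h3.comp (continuous_id.add h2))).add (h3.comp (continuous_id.sub h2))

theorem NN_one {t : ℝ} : NN t 1 = 0 := by
  have h : qq t 1 = 1 := by unfold qq; norm_num
  have h2 : ds t 1 = 0 := by unfold ds; rw [h]; simp
  unfold NN
  rw [h2, add_zero, sub_zero, signEntropy_one]
  ring

/-- main convexity comparison -/
theorem main_D {t m M : ℝ} (ht0 : 0 < t) (ht1 : t < 1) (hm0 : 0 ≤ m) (hm1 : m < 1) (hM : |M| < 1) :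
    (M - m) ^ 2 * (NN t m + (Real.artanh m - Real.artanh (m / qq t m)) * (1 - m) - NN t 1) ≤
      (1 - m) ^ 2 * (NN t m + (Real.artanh m - Real.artanh (m / qq t m)) * (M - m) - NN t M) := by
  set P : ℝ → ℝ := fun M => Real.artanh (M / qq t M) - Real.artanh M with hP
  obtain ⟨M1, M2⟩ := abs_lt.mp hM
  have hmabs : |m| < 1 := abs_lt_one_of_mem hm0 hm1
  -- the two paths
  have pa : ∀ s : ℝ, 0 ≤ s → s ≤ 1 → |m + s * (M - m)| < 1 := by
    intro s h0 h1
    have c1 : 0 < min (1 - m) (1 - M) := lt_min (by linarith) (by linarith)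
    have c2 : 0 < min (1 + m) (1 + M) := lt_min (by linarith) (by linarith)
    have d1 := mul_le_mul_of_nonneg_left (min_le_left (1 - m) (1 - M)) (sub_nonneg.mpr h1)
    have d2 := mul_le_mul_of_nonneg_left (min_le_right (1 - m) (1 - M)) h0
    have d3 := mul_le_mul_of_nonneg_left (min_le_left (1 + m) (1 + M)) (sub_nonneg.mpr h1)
    have d4 := mul_le_mul_of_nonneg_left (min_le_right (1 + m) (1 + M)) h0
    rw [abs_lt]; constructor <;> nlinarith
  have pb : ∀ s : ℝ, 0 ≤ s → s < 1 → |m + s * (1 - m)| < 1 := by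
    intro s h0 h1
    rw [abs_lt]; constructor <;> nlinarith
  have pab : ∀ s : ℝ, 0 ≤ s → s < 1 → |m + s * (M - m)| ≤ |m + s * (1 - m)| := by
    intro s h0 h1
    rw [abs_of_nonneg (a := m + s * (1 - m)) (by nlinarith), abs_le]
    constructor <;> nlinarith
  set Psi1 : ℝ → ℝ := fun s =>
    (1 - m) ^ 2 * ((M - m) * (P (m + s * (M - m)) - P m)) -
      (M - m) ^ 2 * ((1 - m) * (P (m + s * (1 - m)) - P m)) with hPsi1
  have la : ∀ s : ℝ, HasDerivAt (fun s : ℝ => m + s * (M - m)) (M - m) s := by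
    intro s
    simpa using ((hasDerivAt_id s).mul_const (M - m)).const_add m
  have lb : ∀ s : ℝ, HasDerivAt (fun s : ℝ => m + s * (1 - m)) (1 - m) s := by
    intro s
    simpa using ((hasDerivAt_id s).mul_const (1 - m)).const_add m
  have d1 : ∀ s ∈ Ico (0 : ℝ) 1, HasDerivAt Psi1
      ((1 - m) ^ 2 * (M - m) ^ 2 * (ww t (m + s * (M - m)) - ww t (m + s * (1 - m)))) s := by
    intro s hs
    have ha := (hasDerivAt_PP ht0 ht1 (pa s hs.1 hs.2.le)).comp s (la s)
    have hb := (hasDerivAt_PP ht0 ht1 (pb s hs.1 hs.2)).comp s (lb s)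
    have h := ((ha.sub_const (P m)).const_mul (M - m)).const_mul ((1 - m) ^ 2)
    have h' := ((hb.sub_const (P m)).const_mul (1 - m)).const_mul ((M - m) ^ 2)
    refine (h.sub h').congr_deriv ?_
    ring
  have mono1 : MonotoneOn Psi1 (Ico 0 1) := by
    refine monotoneOn_of_deriv_nonneg (convex_Ico 0 1) ?_ ?_ ?_
    · intro x hx
      exact (d1 x hx).continuousAt.continuousWithinAt
    · rw [interior_Ico]
      intro x hx
      exact (d1 x ⟨hx.1.le, hx.2⟩).differentiableAt.differentiableWithinAt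
    · rw [interior_Ico]
      intro x hx
      rw [(d1 x ⟨hx.1.le, hx.2⟩).deriv]
      have := ww_anti ht0 ht1 (pa x hx.1.le hx.2.le) (pb x hx.1.le hx.2) (pab x hx.1.le hx.2)
      exact mul_nonneg (by positivity) (by linarith)
  have Psi1_nonneg : ∀ s ∈ Ico (0 : ℝ) 1, 0 ≤ Psi1 s := by
    intro s hs
    have := mono1 (left_mem_Ico.mpr one_pos) hs hs.1
    have h0 : Psi1 0 = 0 := by simp [hPsi1]
    linarith
  set Psi : ℝ → ℝ := fun s =>
    (1 - m) ^ 2 * (- P m * (s * (M - m)) - NN t (m + s * (M - m))) -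
      (M - m) ^ 2 * (- P m * (s * (1 - m)) - NN t (m + s * (1 - m))) with hPsi
  have d0 : ∀ s ∈ Ico (0 : ℝ) 1, HasDerivAt Psi (Psi1 s) s := by
    intro s hs
    have ha := (hasDerivAt_NN ht0 ht1 (pa s hs.1 hs.2.le)).comp s (la s)
    have hb := (hasDerivAt_NN ht0 ht1 (pb s hs.1 hs.2)).comp s (lb s)
    have h := ((((hasDerivAt_id s).mul_const (M - m)).const_mul (- P m)).sub ha).const_mul ((1 - m) ^ 2)
    have h' := ((((hasDerivAt_id s).mul_const (1 - m)).const_mul (- P m)).sub hb).const_mul ((M - m) ^ 2)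
    refine (h.sub h').congr_deriv ?_
    simp only [hPsi1, hP]
    ring
  have mono0 : MonotoneOn Psi (Icc 0 1) := by
    refine monotoneOn_of_deriv_nonneg (convex_Icc 0 1) ?_ ?_ ?_
    · apply Continuous.continuousOn
      have hc := continuous_NN (t := t)
      fun_prop
    · rw [interior_Icc]
      intro x hx
      exact (d0 x ⟨hx.1.le, hx.2⟩).differentiableAt.differentiableWithinAt
    · rw [interior_Icc]
      intro x hx
      rw [(d0 x ⟨hx.1.le, hx.2⟩).deriv]
      exact Psi1_nonneg x ⟨hx.1.le, hx.2⟩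
  have hfin := mono0 (left_mem_Icc.mpr zero_le_one) (right_mem_Icc.mpr zero_le_one) zero_le_one
  simp only [hPsi, hP, zero_mul, mul_zero, add_zero, one_mul, add_sub_cancel] at hfin
  linarith

/-- the value of `D(1)` -/
theorem D_one {m δ : ℝ} (hm0 : 0 ≤ m) (hδ0 : 0 < δ) (hδ : δ < 1 - m) :
    (Real.artanh (m + δ) - Real.artanh (m - δ)) * δ -
      (2 * signEntropy m - signEntropy (m + δ) - signEntropy (m - δ)) -
      (Real.artanh (m + δ) + Real.artanh (m - δ) - 2 * Real.artanh m) * (1 - m) =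
    -Real.log (1 - δ ^ 2 / (1 + m) ^ 2) := by
  have hA : |m + δ| < 1 := abs_lt.mpr ⟨by linarith, by linarith⟩
  have hB : |m - δ| < 1 := abs_lt.mpr ⟨by linarith, by linarith⟩
  have hm : |m| < 1 := abs_lt.mpr ⟨by linarith, by linarith⟩
  rw [signEntropy_eq_logs hA.le, signEntropy_eq_logs hB.le, signEntropy_eq_logs hm.le,
    artanh_eq_log_sub hA, artanh_eq_log_sub hB, artanh_eq_log_sub hm]
  have e : 1 - δ ^ 2 / (1 + m) ^ 2 = (1 + (m + δ)) * (1 + (m - δ)) / (1 + m) ^ 2 := by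
    have : (1 + m) ≠ 0 := by linarith
    field_simp
    ring
  have p1 : (1 + (m + δ)) ≠ 0 := by linarith
  have p2 : (1 + (m - δ)) ≠ 0 := by linarith
  have p3 : (1 + m) ≠ 0 := by linarith
  rw [e, Real.log_div (mul_ne_zero p1 p2) (pow_ne_zero 2 p3), Real.log_mul p1 p2, Real.log_pow]
  push_cast
  ring

set_option maxHeartbeats 1000000 in
/-- **pointwise corner bound.** -/
theorem corner {m δ a b : ℝ} (hm0 : 0 ≤ m) (hδ0 : 0 < δ) (hδ : δ < 1 - m)
    (ha : |a| < 1) (hb : |b| < 1) :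
    2 * io (m + δ) (m - δ) +
      (Real.artanh (m + δ) + Real.artanh (m - δ) - 2 * Real.artanh m) * ((a + b) / 2 - m) +
      (Real.artanh (m + δ) - Real.artanh (m - δ)) * ((a - b) / 2 - δ) +
      (-Real.log (1 - δ ^ 2 / (1 + m) ^ 2) / (1 - m) ^ 2) * ((a + b) / 2 - m) ^ 2 ≤
    2 * io a b := by
  have hA : |m + δ| < 1 := abs_lt.mpr ⟨by linarith, by linarith⟩
  have hB : |m - δ| < 1 := abs_lt.mpr ⟨by linarith, by linarith⟩
  have hm : |m| < 1 := abs_lt.mpr ⟨by linarith, by linarith⟩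
  have hm1 : m < 1 := by linarith
  obtain ⟨a1, a2⟩ := abs_lt.mp ha
  obtain ⟨b1, b2⟩ := abs_lt.mp hb
  set M := (a + b) / 2 with hMdef
  set d := (a - b) / 2 with hddef
  have hM : |M| < 1 := abs_lt.mpr ⟨by rw [hMdef]; linarith, by rw [hMdef]; linarith⟩
  set t := 2 * δ / (1 - m ^ 2 + δ ^ 2) with ht
  have hden : 0 < 1 - m ^ 2 + δ ^ 2 := by nlinarith [sq_nonneg δ, sq_lt_of_abs hm]
  have ht0 : 0 < t := div_pos (by linarith) hden
  have ht1 : t < 1 := by
    rw [ht, div_lt_one hden]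
    nlinarith
  -- at M = m : q = 1 - tδ and ds = δ
  have htd : t * (1 - m ^ 2 + δ ^ 2) = 2 * δ := div_mul_cancel₀ _ hden.ne'
  have hqm : qq t m = 1 - t * δ := by
    unfold qq
    have h1 : 1 - t ^ 2 * (1 - m ^ 2) = (1 - t * δ) ^ 2 := by
      have : t ^ 2 * (1 - m ^ 2 + δ ^ 2) = 2 * δ * t := by
        calc t ^ 2 * (1 - m ^ 2 + δ ^ 2) = t * (t * (1 - m ^ 2 + δ ^ 2)) := by ring
          _ = 2 * δ * t := by rw [htd]; ring
      linarith
    rw [h1, Real.sqrt_sq]
    nlinarith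
  have hdm : ds t m = δ := by
    unfold ds; rw [hqm]; field_simp; ring
  have hβ : Real.artanh t = Real.artanh (m + δ) - Real.artanh (m - δ) := by
    have := artanh_diff ht0 ht1 hm
    rw [hdm] at this
    exact this.symm
  have hsum : Real.artanh (m + δ) + Real.artanh (m - δ) =
      Real.artanh (m / qq t m) + Real.artanh m := by
    have := artanh_sum ht0 ht1 hm
    rwa [hdm] at this
  have hmain := main_D ht0 ht1 hm0 hm1 hM
  have hNm : NN t m = Real.artanh t * δ - 2 * signEntropy m + signEntropy (m + δ) +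
      signEntropy (m - δ) := by
    unfold NN; rw [hdm]
  -- Legendre bound at M
  have hleg : Real.artanh t * d - (2 * signEntropy M - signEntropy a - signEntropy b) ≤ NN t M := by
    have hadd := abs_add_ds ht0 ht1 hM
    have hsub := abs_sub_ds ht0 ht1 hM
    have e1 := signEntropy_le_tangent ha.le hadd
    have e2 := signEntropy_le_tangent hb.le hsub
    have e3 := artanh_diff ht0 ht1 hM
    have ea : a = M + d := by rw [hMdef, hddef]; ring
    have eb : b = M - d := by rw [hMdef, hddef]; ring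
    unfold NN
    rw [← e3]
    have : Real.artanh (M + ds t M) * (a - (M + ds t M)) +
        Real.artanh (M - ds t M) * (b - (M - ds t M)) =
        (Real.artanh (M + ds t M) - Real.artanh (M - ds t M)) * (d - ds t M) := by
      rw [ea, eb]; ring
    nlinarith
  have hD := D_one hm0 hδ0 hδ
  rw [NN_one, hNm, hβ] at hmain
  rw [hβ] at hleg
  have h1m : 0 < (1 - m) ^ 2 := pow_pos (by linarith) 2
  -- rewrite the slope
  have hslope : Real.artanh m - Real.artanh (m / qq t m) =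
      -(Real.artanh (m + δ) + Real.artanh (m - δ) - 2 * Real.artanh m) := by
    rw [hsum]; ring
  rw [hslope] at hmain
  set L := -Real.log (1 - δ ^ 2 / (1 + m) ^ 2) with hL
  set S := Real.artanh (m + δ) + Real.artanh (m - δ) - 2 * Real.artanh m with hS
  set β := Real.artanh (m + δ) - Real.artanh (m - δ) with hβd
  have hmain' : (M - m) ^ 2 * L ≤ (1 - m) ^ 2 *
      (β * δ - 2 * signEntropy m + signEntropy (m + δ) + signEntropy (m - δ) + -S * (M - m) - NN t M) := by
    have : β * δ - 2 * signEntropy m + signEntropy (m + δ) + signEntropy (m - δ) + -S * (1 - m) - 0 = L := by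
      rw [← hD]; ring
    rw [this] at hmain
    exact hmain
  have h2 : L / (1 - m) ^ 2 * (M - m) ^ 2 ≤
      β * δ - 2 * signEntropy m + signEntropy (m + δ) + signEntropy (m - δ) + -S * (M - m) - NN t M := by
    rw [div_mul_eq_mul_div, div_le_iff₀ h1m]
    linarith
  have ioA : 2 * io (m + δ) (m - δ) = 2 * signEntropy m - signEntropy (m + δ) - signEntropy (m - δ) := by
    unfold io
    have : (m + δ + (m - δ)) / 2 = m := by ring
    rw [this]; ring
  have ioa : 2 * io a b = 2 * signEntropy M - signEntropy a - signEntropy b := by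
    unfold io
    rw [← hMdef]; ring
  rw [ioA, ioa]
  nlinarith

/-- **cube version.** -/
theorem corner_cube {n : ℕ} {g0 g1 : (Fin n → Bool) → ℝ} (h0 : ∀ x, |g0 x| < 1)
    (h1 : ∀ x, |g1 x| < 1)
    (hm : 0 ≤ (cubeAverage g0 + cubeAverage g1) / 2)
    (hδ : 0 < (cubeAverage g0 - cubeAverage g1) / 2) :
    (-Real.log (1 - ((cubeAverage g0 - cubeAverage g1) / 2) ^ 2 /
        (1 + (cubeAverage g0 + cubeAverage g1) / 2) ^ 2) /
        (1 - (cubeAverage g0 + cubeAverage g1) / 2) ^ 2) *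
      (cubeAverage (fun x => ((g0 x + g1 x) / 2) ^ 2) - ((cubeAverage g0 + cubeAverage g1) / 2) ^ 2) ≤
    2 * (cubeAverage (fun x => io (g0 x) (g1 x)) - io (cubeAverage g0) (cubeAverage g1)) := by
  set m0 := cubeAverage g0 with hm0
  set m1 := cubeAverage g1 with hm1
  set m := (m0 + m1) / 2 with hmd
  set δ := (m0 - m1) / 2 with hδd
  have hm0' : |m0| < 1 := abs_cubeAverage_lt_one h0
  have hlt : δ < 1 - m := by
    have := (abs_lt.mp hm0').2
    rw [hδd, hmd]; linarith
  set K := -Real.log (1 - δ ^ 2 / (1 + m) ^ 2) / (1 - m) ^ 2 with hK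
  have e0 : m + δ = m0 := by rw [hmd, hδd]; ring
  have e1 : m - δ = m1 := by rw [hmd, hδd]; ring
  set S := Real.artanh (m + δ) + Real.artanh (m - δ) - 2 * Real.artanh m with hS
  set β := Real.artanh (m + δ) - Real.artanh (m - δ) with hβ
  have hpt : ∀ x, 2 * io m0 m1 + S * ((g0 x + g1 x) / 2 - m) + β * ((g0 x - g1 x) / 2 - δ) +
      K * ((g0 x + g1 x) / 2 - m) ^ 2 ≤ 2 * io (g0 x) (g1 x) := by
    intro x
    have := corner hm hδ hlt (h0 x) (h1 x)
    rw [← hS, ← hβ, ← hK, e0, e1] at this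
    exact this
  have havg := cubeAverage_mono hpt
  have hl : cubeAverage (fun x => 2 * io m0 m1 + S * ((g0 x + g1 x) / 2 - m) +
      β * ((g0 x - g1 x) / 2 - δ) + K * ((g0 x + g1 x) / 2 - m) ^ 2) =
      2 * io m0 m1 + K * (cubeAverage (fun x => ((g0 x + g1 x) / 2) ^ 2) - m ^ 2) := by
    have hexp : (fun x => 2 * io m0 m1 + S * ((g0 x + g1 x) / 2 - m) +
        β * ((g0 x - g1 x) / 2 - δ) + K * ((g0 x + g1 x) / 2 - m) ^ 2) =
        fun x => ((2 * io m0 m1 - S * m - β * δ + K * m ^ 2) +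
          (S / 2 + β / 2 - K * m) * g0 x) + ((S / 2 - β / 2 - K * m) * g1 x +
          K * ((g0 x + g1 x) / 2) ^ 2) := by
      funext x; ring
    rw [hexp, cubeAverage_add (fun x => (2 * io m0 m1 - S * m - β * δ + K * m ^ 2) +
          (S / 2 + β / 2 - K * m) * g0 x) (fun x => (S / 2 - β / 2 - K * m) * g1 x +
          K * ((g0 x + g1 x) / 2) ^ 2),
      cubeAverage_add (fun _ => 2 * io m0 m1 - S * m - β * δ + K * m ^ 2)
        (fun x => (S / 2 + β / 2 - K * m) * g0 x),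
      cubeAverage_add (fun x => (S / 2 - β / 2 - K * m) * g1 x)
        (fun x => K * ((g0 x + g1 x) / 2) ^ 2),
      cubeAverage_const, cubeAverage_const_mul, cubeAverage_const_mul, cubeAverage_const_mul,
      ← hm0, ← hm1]
    have e2 : m0 = m + δ := e0.symm
    have e3 : m1 = m - δ := e1.symm
    rw [show (S / 2 + β / 2 - K * m) * m0 = (S / 2 + β / 2 - K * m) * (m + δ) by rw [← e2],
      show (S / 2 - β / 2 - K * m) * m1 = (S / 2 - β / 2 - K * m) * (m - δ) by rw [← e3]]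
    ring
  rw [hl, cubeAverage_const_mul] at havg
  linarith

end Crest.Agent.R307.Corner
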