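import Mathlib
import Crest.Prelude.Def_CubeNoise

/-!
Row 307, shared definitions (captain helper307).
-/

set_option autoImplicit false

open Crest.CubeNoise

namespace Crest.Agent.R307

/-- two point production `k(a,b) = (artanh a - artanh b)(a-b)/4`. -/
noncomputable def kk (a b : ℝ) : ℝ := (Real.artanh a - Real.artanh b) * (a - b) / 4

/-- `psi r = log 2 - signEntropy r`. -/
noncomputable def psi (r : ℝ) : ℝ := Real.log 2 - signEntropy r

/-- slope `kappa t = F'(psi t) = 1 + t / ((1-t^2) artanh t)`, with value `2` at `t = 0`. -/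
noncomputable def kappa (t : ℝ) : ℝ := if t = 0 then 2 else 1 + t / ((1 - t ^ 2) * Real.artanh t)

/-- `CC t = t artanh t + kappa t * signEntropy t`. -/
noncomputable def CC (t : ℝ) : ℝ := t * Real.artanh t + kappa t * signEntropy t

/-- Tangent form of the mean-profile bound:
`GG t m A = 2 h(m) + (1-m^2)(CC t - 2 log 2) - kappa t * A`. -/
noncomputable def GG (t m A : ℝ) : ℝ :=
  2 * signEntropy m + (1 - m ^ 2) * (CC t - 2 * Real.log 2) - kappa t * A

/-- Tangent form of the rate bound `F(h(m) - A) = sup_t RR t m A`,
`RR t m A = t artanh t + kappa t * (signEntropy m - A - psi t)`. -/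
noncomputable def RR (t m A : ℝ) : ℝ :=
  t * Real.artanh t + kappa t * (signEntropy m - A - psi t)

end Crest.Agent.R307
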