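import Crest.Agent.R307.Elim2

/-!
Row 307 (S0471), flow route: the two-point step on the edge lines `t = -1` and `s = 1`
for the potential `Ψ g = ρ²/c + ρ² b (φ(g) - c)`.
-/

set_option autoImplicit false

namespace Crest.Agent.R307.Edge

open Crest.Agent.R307.Flow Crest.Agent.R307.Elim

/-- the scaled step -/
lemma pairStep_of_K' {ρ s t al be b : ℝ} (h0 : 0 < ρ) (h1 : ρ < 1) (hs : |s| ≤ 1)
    (ht : |t| ≤ 1) (hal : 0 ≤ al) (hbe : 0 ≤ be)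
    (hg : 0 < ph ((1 + ρ) / 2 * s + (1 - ρ) / 2 * t))
    (hK : ∀ x y, FX ρ s x → FX ρ t y →
      |(1 + ρ) / 2 * x + (1 - ρ) / 2 * y| ≤ ρ * |s - t| / 2 →
      ((1 + ρ) / 2 * x + (1 - ρ) / 2 * y) ^ 2 /
        (1 - ((1 + ρ) / 2 * s + (1 - ρ) / 2 * t) ^ 2 +
          ((1 + ρ) / 2 * s + (1 - ρ) / 2 * t) * ((1 + ρ) / 2 * x + (1 - ρ) / 2 * y)) ≤
      (1 + ρ) / 2 * al * (x ^ 2 / (1 - s ^ 2 + s * x)) +
        (1 - ρ) / 2 * be * (y ^ 2 / (1 - t ^ 2 + t * y)))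
    (hii : (1 + ρ) / 2 * al * (ph s * ((1 / ph ρ - b * ph ρ) + b * ph s)) +
      (1 - ρ) / 2 * be * (ph t * ((1 / ph ρ - b * ph ρ) + b * ph t)) +
      ((s - t) / 2) ^ 2 / (1 - ((1 + ρ) / 2 * s + (1 - ρ) / 2 * t) ^ 2 +
          ((1 + ρ) / 2 * s + (1 - ρ) / 2 * t) * (ρ * (s - t) / 2)) ≤
      ph ((1 + ρ) / 2 * s + (1 - ρ) / 2 * t) *
        ((1 / ph ρ - b * ph ρ) + b * ph ((1 + ρ) / 2 * s + (1 - ρ) / 2 * t))) :
    PairStep ρ s t (fun g => ρ ^ 2 / ph ρ + ρ ^ 2 * b * (ph g - ph ρ)) := by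
  refine pairStep_of_K h0 h1 hs ht hal hbe hg hK ?_
  have h2 := mul_le_mul_of_nonneg_left hii (sq_nonneg ρ)
  set K := 1 - ((1 + ρ) / 2 * s + (1 - ρ) / 2 * t) ^ 2 +
          ((1 + ρ) / 2 * s + (1 - ρ) / 2 * t) * (ρ * (s - t) / 2)
  have e : (ρ * (s - t) / 2) ^ 2 / K = ρ ^ 2 * (((s - t) / 2) ^ 2 / K) := by ring
  rw [e]
  refine le_trans (le_of_eq ?_) (h2.trans (le_of_eq ?_))
  · ring
  · ring

lemma exists_r {ρ : ℝ} (h0 : 0 < ρ) (h1 : ρ < 1) : ∃ r : ℝ, 0 < r ∧ r < 1 ∧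
    (1 + r * r) * ρ = 2 * r ∧ ph ρ * (1 + r * r) = (1 + r) * (1 - r) := by
  have hc : 0 < ph ρ := ph_pos (by rw [abs_lt]; constructor <;> linarith)
  have hc2 : ph ρ ^ 2 = 1 - ρ ^ 2 := ph_sq (by rw [abs_le]; constructor <;> linarith)
  refine ⟨ρ / (1 + ph ρ), by positivity, ?_, ?_, ?_⟩
  · rw [div_lt_one (by positivity)]; linarith
  · field_simp
    nlinarith
  · field_simp
    nlinarith

lemma r_le1 {ρ r : ℝ} (h : ρ ≤ 13 / 20) (hr1 : r < 1) (hr : (1 + r * r) * ρ = 2 * r) :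
    r ≤ 95 / 256 := by
  by_contra hcon
  push Not at hcon
  have h1 : 2 * r ≤ (1 + r * r) * (13 / 20) := by
    rw [← hr]
    exact mul_le_mul_of_nonneg_left h (by positivity)
  nlinarith [mul_pos (sub_pos.2 hcon) (sub_pos.2 hr1)]

lemma r_le2 {ρ r : ℝ} (h : ρ ≤ 17 / 25) (hr1 : r < 1) (hr : (1 + r * r) * ρ = 2 * r) :
    r ≤ 101 / 256 := by
  by_contra hcon
  push Not at hcon
  have h1 : 2 * r ≤ (1 + r * r) * (17 / 25) := by
    rw [← hr]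
    exact mul_le_mul_of_nonneg_left h (by positivity)
  nlinarith [mul_pos (sub_pos.2 hcon) (sub_pos.2 hr1)]

/-- half-angle parameter, long side -/
lemma par_long {ρ r σ : ℝ} (hr0 : 0 < r) (hr1 : r < 1) (hr : (1 + r * r) * ρ = 2 * r)
    (hσ : |σ| < 1) (h : ρ ≤ σ) : ∃ v : ℝ, 0 ≤ v ∧ v ≤ 1 ∧
    ((1 + r) * (1 + r) + v * v * ((1 - r) * (1 - r))) * (1 - σ) = 2 * (v * v * ((1 - r) * (1 - r))) ∧
    ((1 + r) * (1 + r) + v * v * ((1 - r) * (1 - r))) * (1 + σ) = 2 * ((1 + r) * (1 + r)) ∧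
    ph σ * ((1 + r) * (1 + r) + v * v * ((1 - r) * (1 - r))) = 2 * v * ((1 + r) * (1 - r)) := by
  obtain ⟨s1, s2⟩ := abs_lt.1 hσ
  have hp : 0 < ph σ := ph_pos hσ
  have hp2 : ph σ ^ 2 = 1 - σ ^ 2 := ph_sq hσ.le
  have hr3 : 0 < 1 - r := by linarith
  have hS : 0 < 1 + σ := by linarith
  have e2 : (1 + r) * ph σ / ((1 - r) * (1 + σ)) * ((1 + r) * ph σ / ((1 - r) * (1 + σ))) *
      ((1 - r) * (1 - r)) = (1 + r) * (1 + r) * (1 - σ) / (1 + σ) := by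
    field_simp
    rw [hp2]; ring
  refine ⟨(1 + r) * ph σ / ((1 - r) * (1 + σ)), by positivity, ?_, ?_, ?_, ?_⟩
  · rw [div_le_one (by positivity)]
    have h3 : ((1 + r) * ph σ) ^ 2 ≤ ((1 - r) * (1 + σ)) ^ 2 := by
      have h4 : ((1 + r) * ph σ) ^ 2 = (1 + r) ^ 2 * (1 - σ) * (1 + σ) := by
        rw [mul_pow, hp2]; ring
      have h5 : ((1 - r) * (1 + σ)) ^ 2 = (1 - r) ^ 2 * (1 + σ) * (1 + σ) := by ring
      rw [h4, h5]
      apply mul_le_mul_of_nonneg_right _ hS.le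
      have h6 : (1 + r * r) * ρ ≤ (1 + r * r) * σ := mul_le_mul_of_nonneg_left h (by positivity)
      nlinarith
    exact le_of_sq_le_sq h3 (by positivity)
  · rw [e2]; field_simp; ring
  · rw [e2]; field_simp; ring
  · rw [e2]
    field_simp
    ring

/-- half-angle parameter, short side -/
lemma par_short {ρ r σ : ℝ} (hr0 : 0 < r) (hr1 : r < 1) (hr : (1 + r * r) * ρ = 2 * r)
    (hσ : |σ| < 1) (h : σ ≤ ρ) : ∃ v : ℝ, 0 ≤ v ∧ v ≤ 1 ∧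
    ((1 - r) * (1 - r) + v * v * ((1 + r) * (1 + r))) * (1 - σ) = 2 * ((1 - r) * (1 - r)) ∧
    ((1 - r) * (1 - r) + v * v * ((1 + r) * (1 + r))) * (1 + σ) = 2 * (v * v * ((1 + r) * (1 + r))) ∧
    ph σ * ((1 - r) * (1 - r) + v * v * ((1 + r) * (1 + r))) = 2 * v * ((1 + r) * (1 - r)) := by
  obtain ⟨s1, s2⟩ := abs_lt.1 hσ
  have hp : 0 < ph σ := ph_pos hσ
  have hp2 : ph σ ^ 2 = 1 - σ ^ 2 := ph_sq hσ.le
  have hr3 : 0 < 1 - r := by linarith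
  have hS : 0 < 1 - σ := by linarith
  have e2 : (1 - r) * ph σ / ((1 + r) * (1 - σ)) * ((1 - r) * ph σ / ((1 + r) * (1 - σ))) *
      ((1 + r) * (1 + r)) = (1 - r) * (1 - r) * (1 + σ) / (1 - σ) := by
    field_simp
    rw [hp2]; ring
  refine ⟨(1 - r) * ph σ / ((1 + r) * (1 - σ)), by positivity, ?_, ?_, ?_, ?_⟩
  · rw [div_le_one (by positivity)]
    have h3 : ((1 - r) * ph σ) ^ 2 ≤ ((1 + r) * (1 - σ)) ^ 2 := by
      have h4 : ((1 - r) * ph σ) ^ 2 = (1 - r) ^ 2 * (1 + σ) * (1 - σ) := by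
        rw [mul_pow, hp2]; ring
      have h5 : ((1 + r) * (1 - σ)) ^ 2 = (1 + r) ^ 2 * (1 - σ) * (1 - σ) := by ring
      rw [h4, h5]
      apply mul_le_mul_of_nonneg_right _ hS.le
      have h6 : (1 + r * r) * σ ≤ (1 + r * r) * ρ := mul_le_mul_of_nonneg_left h (by positivity)
      nlinarith
    exact le_of_sq_le_sq h3 (by positivity)
  · rw [e2]; field_simp; ring
  · rw [e2]; field_simp; ring
  · rw [e2]
    field_simp
    ring

lemma fin_ii {W φ φg wg K c κ b : ℝ} (hc : 0 < c) (hκ : 0 ≤ κ) (hφg : 0 ≤ φg)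
    (hwg : φg ^ 2 = wg)
    (h : (c * (W * (φ * (κ + b * φ)) + K - b * wg)) ^ 2 ≤ (c * κ) ^ 2 * wg) :
    W * (φ * (κ + b * φ)) + K ≤ φg * (κ + b * φg) := by
  have h1 : (c * (W * (φ * (κ + b * φ)) + K - b * wg)) ^ 2 ≤ (c * (κ * φg)) ^ 2 := by
    refine h.trans (le_of_eq ?_)
    rw [← hwg]; ring
  have h2 := (le_abs_self _).trans (abs_le_of_sq_le_sq h1 (by positivity))
  have h3 := le_of_mul_le_mul_left h2 hc
  have h4 : φg * (κ + b * φg) = κ * φg + b * wg := by rw [← hwg]; ring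
  rw [h4]; linarith

/-- the common algebra of all the edge inequalities -/
lemma alg {W φ K wg c κ b v N B D E F Z u AA Y1 Y2 Y3 : ℝ} (hN : 0 < N) (hD : 0 < D)
    (hE : 0 < E) (hF : 0 < F)
    (hcN : c * N = u) (hu : u * u = AA) (hφ : φ * D = 2 * v * u) (hw : wg * (N * D) ^ 2 = Y3)
    (hW : W * E * N = Y1) (hK : K * F = Y2 * N) (hκ : c * κ * N ^ 2 = B)
    (hZ : Z = Y1 * (2 * v) * (B * D + 2 * b * v * (AA * N)) * F + Y2 * (N ^ 3 * D ^ 2 * E) -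
      b * Y3 * (E * F))
    (h : AA * Z ^ 2 ≤ B ^ 2 * Y3 * (D * (E * F)) ^ 2) :
    (c * (W * (φ * (κ + b * φ)) + K - b * wg)) ^ 2 ≤ (c * κ) ^ 2 * wg := by
  have hL : 0 < (N ^ 3 * D ^ 2 * (E * F)) ^ 2 := by positivity
  have e1 : c * (W * (φ * (κ + b * φ)) + K - b * wg) * (N ^ 3 * D ^ 2 * (E * F)) = u * Z := by
    have e2 : c * (W * (φ * (κ + b * φ)) + K - b * wg) * (N ^ 3 * D ^ 2 * (E * F)) =
        (W * E * N) * (φ * D) * ((c * κ * N ^ 2) * D + b * (c * N) * (φ * D) * N) * F +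
        (c * N) * (K * F) * (N ^ 2 * D ^ 2 * E) -
        b * (c * N) * (wg * (N * D) ^ 2) * (E * F) := by ring
    rw [e2, hW, hφ, hκ, hcN, hK, hw, hZ, ← hu]
    ring
  have e3 : (c * κ) ^ 2 * wg * (N ^ 3 * D ^ 2 * (E * F)) ^ 2 =
      B ^ 2 * Y3 * (D * (E * F)) ^ 2 := by
    rw [← hκ, ← hw]; ring
  have h4 : (c * (W * (φ * (κ + b * φ)) + K - b * wg)) ^ 2 * (N ^ 3 * D ^ 2 * (E * F)) ^ 2 ≤
      (c * κ) ^ 2 * wg * (N ^ 3 * D ^ 2 * (E * F)) ^ 2 := by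
    rw [← mul_pow, e1, e3, mul_pow, sq u, hu]
    exact h
  exact le_of_mul_le_mul_right h4 hL

lemma kineq {lam g wg ws s x al : ℝ} (hws : 0 < ws + s * x) (hwg : 0 < wg + g * (lam * x))
    (hlam : 0 ≤ lam) (h : lam * (ws + s * x) ≤ al * (wg + g * (lam * x))) :
    (lam * x) ^ 2 / (wg + g * (lam * x)) ≤ lam * al * (x ^ 2 / (ws + s * x)) := by
  rw [div_le_iff₀ hwg]
  have h1 : lam * al * (x ^ 2 / (ws + s * x)) * (wg + g * (lam * x)) =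
      lam * (x ^ 2 / (ws + s * x)) * (al * (wg + g * (lam * x))) := by ring
  rw [h1]
  have h2 := mul_le_mul_of_nonneg_left h (show 0 ≤ lam * (x ^ 2 / (ws + s * x)) by positivity)
  refine le_trans (le_of_eq ?_) h2
  have h3 : x ^ 2 / (ws + s * x) * (ws + s * x) = x ^ 2 := div_mul_cancel₀ _ hws.ne'
  calc (lam * x) ^ 2 = lam * lam * (x ^ 2 / (ws + s * x) * (ws + s * x)) := by rw [h3]; ring
    _ = _ := by ring

/-- an affine function is nonnegative between two points where it is nonnegative (cleared form) -/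
lemma aff_nonneg {l0 l1 x p q m n : ℝ} (hp : 0 < p) (hq : 0 < q) (h1 : p * x ≤ m)
    (h2 : -(q * x) ≤ n) (ha : 0 ≤ p * l0 + l1 * m) (hb : 0 ≤ q * l0 - l1 * n) :
    0 ≤ l0 + l1 * x := by
  rcases le_total 0 l1 with h | h
  · have h3 := mul_le_mul_of_nonneg_left h2 h
    have h4 : 0 ≤ q * (l0 + l1 * x) := by nlinarith
    exact nonneg_of_mul_nonneg_right h4 hq
  · have h3 := mul_le_mul_of_nonpos_left h1 h
    have h4 : 0 ≤ p * (l0 + l1 * x) := by nlinarith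
    exact nonneg_of_mul_nonneg_right h4 hp

lemma al_of {num den E k m X : ℝ} (hm : m ≠ 0) (hd : den ≠ 0) (hnum : num * k = m * X)
    (hden : den * k = m * E) : num / den * E = X := by
  have h1 : m * (num / den * E) = m * X := by
    calc m * (num / den * E) = num / den * (m * E) := by ring
      _ = num / den * den * k := by rw [← hden]; ring
      _ = num * k := by rw [div_mul_cancel₀ _ hd]
      _ = m * X := hnum
  exact mul_left_cancel₀ hm h1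

section ii

variable {al ρ b v c κ φ φg wg K u P M N AA V N3 B D Q F Y E Z T : ℝ}

lemma A_long_ii (hN : 0 < N) (hD : 0 < D) (hE : 0 < E) (hF : 0 < F) (hP0 : 0 < P)
    (hM0 : 0 < M) (hc : 0 < c) (hκ0 : 0 ≤ κ) (hφg : 0 ≤ φg) (hNP : N * (1 + ρ) = P)
    (hAA : AA = P * M) (hN3 : N3 = N * N * N)
    (hcN : c * N = u) (hu : u * u = AA) (hφ : φ * D = 2 * v * u) (hwg : φg ^ 2 = wg)
    (hw : wg * (N * D) ^ 2 = P ^ 2 * M * Q) (hK : K * F = P * N) (hκ : c * κ * N ^ 2 = B)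
    (hα : al * E = 2 * V * N * Y)
    (hZ : Z = 2 * (v * V) * Y * (B * D + 2 * b * v * (AA * N)) * (N * F) + N3 * (D * D) * E -
      b * AA * (Q * (E * F)))
    (hT : T = Q * (B * B) * (D * D) * ((E * F) * (E * F)) - P * (Z * Z)) (h : 0 ≤ T) :
    (1 + ρ) / 2 * al * (φ * (κ + b * φ)) + K ≤ φg * (κ + b * φg) := by
  refine fin_ii (wg := wg) hc hκ0 hφg hwg (alg (Z := P * Z) (Y1 := P * V * Y * N) (Y2 := P)
    (Y3 := P ^ 2 * M * Q) hN hD hE hF hcN hu hφ hw ?_ hK hκ ?_ ?_)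
  · calc (1 + ρ) / 2 * al * E * N = (N * (1 + ρ)) / 2 * (al * E) := by ring
      _ = _ := by rw [hNP, hα]; ring
  · rw [hZ, hN3, hAA]; ring
  · rw [hT] at h
    have h2 := mul_le_mul_of_nonneg_left (sub_nonneg.1 h) (show 0 ≤ P ^ 2 * M by positivity)
    rw [hAA]
    refine le_trans (le_of_eq ?_) (h2.trans (le_of_eq ?_)) <;> ring

lemma A_short_ii (hN : 0 < N) (hD : 0 < D) (hE : 0 < E) (hF : 0 < F) (hP0 : 0 < P)
    (hM0 : 0 < M) (hc : 0 < c) (hκ0 : 0 ≤ κ) (hφg : 0 ≤ φg) (hNP : N * (1 + ρ) = P)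
    (hAA : AA = P * M) (hN3 : N3 = N * N * N) (hV : V = v * v)
    (hcN : c * N = u) (hu : u * u = AA) (hφ : φ * D = 2 * v * u) (hwg : φg ^ 2 = wg)
    (hw : wg * (N * D) ^ 2 = V * P ^ 2 * M * Q) (hK : K * F = V * P * N) (hκ : c * κ * N ^ 2 = B)
    (hα : al * E = 2 * Y)
    (hZ : Z = 2 * Y * (B * D + 2 * b * v * (AA * N)) * F + v * (N3 * (D * D) * E -
      b * AA * (Q * (E * F))))
    (hT : T = Q * (B * B) * (D * D) * ((E * F) * (E * F)) - P * (Z * Z)) (h : 0 ≤ T) :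
    (1 + ρ) / 2 * al * (φ * (κ + b * φ)) + K ≤ φg * (κ + b * φg) := by
  refine fin_ii (wg := wg) hc hκ0 hφg hwg (alg (Z := P * v * Z) (Y1 := P * Y) (Y2 := V * P)
    (Y3 := V * P ^ 2 * M * Q) hN hD hE hF hcN hu hφ hw ?_ hK hκ ?_ ?_)
  · calc (1 + ρ) / 2 * al * E * N = (N * (1 + ρ)) / 2 * (al * E) := by ring
      _ = _ := by rw [hNP, hα]; ring
  · rw [hZ, hN3, hAA, hV]; ring
  · rw [hT] at h
    have h2 := mul_le_mul_of_nonneg_left (sub_nonneg.1 h)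
      (show 0 ≤ P ^ 2 * M * v ^ 2 by positivity)
    rw [hAA, hV]
    refine le_trans (le_of_eq ?_) (h2.trans (le_of_eq ?_)) <;> ring

lemma A_short_ii' (hN : 0 < N) (hD : 0 < D) (hF : 0 < F) (hP0 : 0 < P)
    (hM0 : 0 < M) (hc : 0 < c) (hκ0 : 0 ≤ κ) (hφg : 0 ≤ φg) (hNP : N * (1 + ρ) = P)
    (hAA : AA = P * M) (hN3 : N3 = N * N * N) (hV : V = v * v)
    (hcN : c * N = u) (hu : u * u = AA) (hφ : φ * D = 2 * v * u) (hwg : φg ^ 2 = wg)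
    (hw : wg * (N * D) ^ 2 = V * P ^ 2 * M * Q) (hK : K * F = V * P * N) (hκ : c * κ * N ^ 2 = B)
    (hα : al * F = 2 * Y)
    (hZ : Z = 2 * Y * (B * D + 2 * b * v * (AA * N)) + v * (N3 * (D * D) -
      b * AA * (Q * F)))
    (hT : T = Q * (B * B) * (D * D) * (F * F) - P * (Z * Z)) (h : 0 ≤ T) :
    (1 + ρ) / 2 * al * (φ * (κ + b * φ)) + K ≤ φg * (κ + b * φg) := by
  refine A_short_ii (Z := Z * F) (T := T * (F * F)) hN hD hF hF hP0 hM0 hc hκ0 hφg hNP hAA hN3 hV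
    hcN hu hφ hwg hw hK hκ hα ?_ ?_ ?_
  · rw [hZ]; ring
  · rw [hT]; ring
  · positivity

lemma B_long_ii (hN : 0 < N) (hD : 0 < D) (hE : 0 < E) (hF : 0 < F) (hP0 : 0 < P)
    (hM0 : 0 < M) (hc : 0 < c) (hκ0 : 0 ≤ κ) (hφg : 0 ≤ φg) (hNM : N * (1 - ρ) = M)
    (hAA : AA = P * M) (hN3 : N3 = N * N * N)
    (hcN : c * N = u) (hu : u * u = AA) (hφ : φ * D = 2 * v * u) (hwg : φg ^ 2 = wg)
    (hw : wg * (N * D) ^ 2 = AA * Q) (hK : K * F = P * N) (hκ : c * κ * N ^ 2 = B)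
    (hα : al * E = 2 * V * N * Y)
    (hZ : Z = 2 * (v * V) * M * Y * (B * D + 2 * b * v * (AA * N)) * (N * F) +
      P * N3 * (D * D) * E - b * AA * (Q * (E * F)))
    (hT : T = Q * (B * B) * (D * D) * ((E * F) * (E * F)) - Z * Z) (h : 0 ≤ T) :
    (1 - ρ) / 2 * al * (φ * (κ + b * φ)) + K ≤ φg * (κ + b * φg) := by
  refine fin_ii (wg := wg) hc hκ0 hφg hwg (alg (Z := Z) (Y1 := M * V * Y * N) (Y2 := P)
    (Y3 := AA * Q) hN hD hE hF hcN hu hφ hw ?_ hK hκ ?_ ?_)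
  · calc (1 - ρ) / 2 * al * E * N = (N * (1 - ρ)) / 2 * (al * E) := by ring
      _ = _ := by rw [hNM, hα]; ring
  · rw [hZ, hN3]; ring
  · rw [hT] at h
    have hAA0 : 0 ≤ AA := by rw [hAA]; positivity
    have h2 := mul_le_mul_of_nonneg_left (sub_nonneg.1 h) hAA0
    refine le_trans (le_of_eq ?_) (h2.trans (le_of_eq ?_)) <;> ring

lemma B_short_ii (hN : 0 < N) (hD : 0 < D) (hE : 0 < E) (hF : 0 < F) (hP0 : 0 < P)
    (hM0 : 0 < M) (hc : 0 < c) (hκ0 : 0 ≤ κ) (hφg : 0 ≤ φg) (hNM : N * (1 - ρ) = M)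
    (hAA : AA = P * M) (hN3 : N3 = N * N * N) (hV : V = v * v)
    (hcN : c * N = u) (hu : u * u = AA) (hφ : φ * D = 2 * v * u) (hwg : φg ^ 2 = wg)
    (hw : wg * (N * D) ^ 2 = V * AA * Q) (hK : K * F = V * P * N) (hκ : c * κ * N ^ 2 = B)
    (hα : al * E = 2 * Y)
    (hZ : Z = 2 * M * Y * (B * D + 2 * b * v * (AA * N)) * F +
      v * P * N3 * (D * D) * E - b * v * AA * (Q * (E * F)))
    (hT : T = Q * (B * B) * (D * D) * ((E * F) * (E * F)) - Z * Z) (h : 0 ≤ T) :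
    (1 - ρ) / 2 * al * (φ * (κ + b * φ)) + K ≤ φg * (κ + b * φg) := by
  refine fin_ii (wg := wg) hc hκ0 hφg hwg (alg (Z := v * Z) (Y1 := M * Y) (Y2 := V * P)
    (Y3 := V * AA * Q) hN hD hE hF hcN hu hφ hw ?_ hK hκ ?_ ?_)
  · calc (1 - ρ) / 2 * al * E * N = (N * (1 - ρ)) / 2 * (al * E) := by ring
      _ = _ := by rw [hNM, hα]; ring
  · rw [hZ, hN3, hV]; ring
  · rw [hT] at h
    have hAA0 : 0 ≤ AA * v ^ 2 := by rw [hAA]; positivity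
    have h2 := mul_le_mul_of_nonneg_left (sub_nonneg.1 h) hAA0
    rw [hV]
    refine le_trans (le_of_eq ?_) (h2.trans (le_of_eq ?_)) <;> ring

end ii

/-- the region of `(ρ,b)` -/
def Reg (ρ b : ℝ) : Prop :=
  (ρ ≤ 13 / 20 ∧ 2 / 5 ≤ b ∧ b ≤ 7 / 10) ∨ (ρ ≤ 17 / 25 ∧ 11 / 20 ≤ b ∧ b ≤ 7 / 10)

lemma Reg.b {ρ b : ℝ} (h : Reg ρ b) : 2 / 5 ≤ b ∧ b ≤ 7 / 10 := by
  rcases h with h | h
  · exact ⟨h.2.1, h.2.2⟩
  · exact ⟨by linarith [h.2.1], h.2.2⟩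

lemma Reg.rho {ρ b : ℝ} (h : Reg ρ b) : ρ ≤ 17 / 25 := by
  rcases h with h | h
  · linarith [h.1]
  · exact h.1

lemma stepA {ρ s b al g : ℝ} (h0 : 0 < ρ) (h1 : ρ < 1) (hs : |s| < 1) (hal : 0 ≤ al)
    (hg : g = (1 + ρ) / 2 * s + (1 - ρ) / 2 * (-1))
    (hbox : ∀ x, FX ρ s x → -((1 + ρ) * x) ≤ ρ * (1 + s) →
      0 ≤ al * (1 - g ^ 2) - (1 + ρ) / 2 * (1 - s ^ 2) +
        (al * (g * ((1 + ρ) / 2)) - (1 + ρ) / 2 * s) * x)
    (hii : (1 + ρ) / 2 * al * (ph s * ((1 / ph ρ - b * ph ρ) + b * ph s)) +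
      ((s + 1) / 2) ^ 2 / (1 - g ^ 2 + g * (ρ * (s + 1) / 2)) ≤
      ph g * ((1 / ph ρ - b * ph ρ) + b * ph g)) :
    PairStep ρ s (-1) (fun g => ρ ^ 2 / ph ρ + ρ ^ 2 * b * (ph g - ph ρ)) := by
  obtain ⟨s1, s2⟩ := abs_lt.1 hs
  have hlam : 0 < (1 + ρ) / 2 := by linarith
  have hmu : 0 < (1 - ρ) / 2 := by linarith
  have hm1 : |(-1 : ℝ)| ≤ 1 := by rw [abs_neg, abs_one]
  have hph1 : ph (-1) = 0 := by unfold ph; norm_num
  have hg1 : |g| < 1 := by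
    rw [hg, abs_lt]
    constructor <;> nlinarith
  refine pairStep_of_K' (al := al) (be := 0) h0 h1 hs.le hm1 hal le_rfl ?_ ?_ ?_
  · rw [← hg]; exact ph_pos hg1
  · intro x y hx hy hxy
    have hy0 : y = 0 := hy.eq_zero h0 h1 hph1 hm1
    subst hy0
    rw [← hg]
    have hxg : FX ρ g ((1 + ρ) / 2 * x + (1 - ρ) / 2 * 0) := by
      rw [hg]; exact FX.avg hx hy hlam.le hmu.le (by ring)
    have pDg := D_pos h0 h1 hg1 hxg.2.1 hxg.2.2.2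
    have pDs := D_pos h0 h1 hs hx.2.1 hx.2.2.2
    have e0 : (1 + ρ) / 2 * x + (1 - ρ) / 2 * 0 = (1 + ρ) / 2 * x := by ring
    rw [e0] at pDg hxy ⊢
    have h5 : |s - -1| = 1 + s := by rw [abs_of_pos (by linarith)]; ring
    rw [h5, abs_le] at hxy
    have hb := hbox x hx (by nlinarith [hxy.1])
    have h6 := kineq (lam := (1 + ρ) / 2) (g := g) (wg := 1 - g ^ 2) (ws := 1 - s ^ 2) (s := s)
      (x := x) (al := al) pDs pDg hlam.le (by nlinarith)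
    refine h6.trans (le_of_eq ?_)
    simp
  · rw [← hg, hph1]
    have e5 : s - -1 = s + 1 := by ring
    rw [e5]
    refine le_trans (le_of_eq ?_) hii
    ring

lemma stepB {ρ t b be g : ℝ} (h0 : 0 < ρ) (h1 : ρ < 1) (ht : |t| < 1) (hbe : 0 ≤ be)
    (hg : g = (1 + ρ) / 2 * 1 + (1 - ρ) / 2 * t)
    (hbox : ∀ y, FX ρ t y →
      0 ≤ be * (1 - g ^ 2) - (1 - ρ) / 2 * (1 - t ^ 2) +
        (be * (g * ((1 - ρ) / 2)) - (1 - ρ) / 2 * t) * y)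
    (hii : (1 - ρ) / 2 * be * (ph t * ((1 / ph ρ - b * ph ρ) + b * ph t)) +
      ((1 - t) / 2) ^ 2 / (1 - g ^ 2 + g * (ρ * (1 - t) / 2)) ≤
      ph g * ((1 / ph ρ - b * ph ρ) + b * ph g)) :
    PairStep ρ 1 t (fun g => ρ ^ 2 / ph ρ + ρ ^ 2 * b * (ph g - ph ρ)) := by
  obtain ⟨s1, s2⟩ := abs_lt.1 ht
  have hlam : 0 < (1 + ρ) / 2 := by linarith
  have hmu : 0 < (1 - ρ) / 2 := by linarith
  have hm1 : |(1 : ℝ)| ≤ 1 := by rw [abs_one]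
  have hph1 : ph 1 = 0 := by unfold ph; norm_num
  have hg1 : |g| < 1 := by
    rw [hg, abs_lt]
    constructor <;> nlinarith
  refine pairStep_of_K' (al := 0) (be := be) h0 h1 hm1 ht.le le_rfl hbe ?_ ?_ ?_
  · rw [← hg]; exact ph_pos hg1
  · intro x y hx hy hxy
    have hx0 : x = 0 := hx.eq_zero h0 h1 hph1 hm1
    subst hx0
    rw [← hg]
    have hxg : FX ρ g ((1 + ρ) / 2 * 0 + (1 - ρ) / 2 * y) := by
      rw [hg]; exact FX.avg hx hy hlam.le hmu.le (by ring)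
    have pDg := D_pos h0 h1 hg1 hxg.2.1 hxg.2.2.2
    have pDs := D_pos h0 h1 ht hy.2.1 hy.2.2.2
    have e0 : (1 + ρ) / 2 * 0 + (1 - ρ) / 2 * y = (1 - ρ) / 2 * y := by ring
    rw [e0] at pDg ⊢
    have hb := hbox y hy
    have h6 := kineq (lam := (1 - ρ) / 2) (g := g) (wg := 1 - g ^ 2) (ws := 1 - t ^ 2) (s := t)
      (x := y) (al := be) pDs pDg hmu.le (by nlinarith)
    refine h6.trans (le_of_eq ?_)
    simp
  · rw [← hg, hph1]
    refine le_trans (le_of_eq ?_) hii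
    ring

lemma Kval {a h k F : ℝ} (ha : 0 < a) (hh : 0 < h) (hF : h * k = F) :
    (a / 2) ^ 2 / (a * h / 2) * F = a * k / 2 := by
  subst hF
  field_simp

lemma kappa_eq {c b N P M AA B r : ℝ} (hc : 0 < c) (hc2 : c * N = (1 + r) * (1 - r))
    (hP : P = (1 + r) * (1 + r)) (hM : M = (1 - r) * (1 - r)) (hAA : AA = P * M)
    (hB : B = N * N - b * AA) : c * (1 / c - b * c) * N ^ 2 = B := by
  have h1 : c * (1 / c - b * c) = 1 - b * c ^ 2 := by field_simp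
  have h2 : (c * N) ^ 2 = AA := by rw [hc2, hAA, hP, hM]; ring
  rw [h1, hB, ← h2]; ring

lemma kappa_nonneg {ρ b : ℝ} (h0 : 0 < ρ) (h1 : ρ < 1) (hb : b ≤ 7 / 10) :
    0 ≤ 1 / ph ρ - b * ph ρ := by
  have hc : 0 < ph ρ := ph_pos (by rw [abs_lt]; constructor <;> linarith)
  have hc2 : ph ρ ^ 2 = 1 - ρ ^ 2 := ph_sq (by rw [abs_le]; constructor <;> linarith)
  have h3 : 1 / ph ρ - b * ph ρ = (1 - b * ph ρ ^ 2) / ph ρ := by field_simp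
  rw [h3, hc2]
  apply div_nonneg _ hc.le
  have : b * (1 - ρ ^ 2) ≤ 7 / 10 * 1 := by
    apply mul_le_mul hb _ _ (by norm_num)
    · nlinarith
    · nlinarith
  linarith

end Crest.Agent.R307.Edge
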