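import Crest.Agent.R307.EdgeFlow

/-!
Row 307 (S0471), flow route: the two-point step on the edge line `s = 1`, the corner, and the two
final statements about the edge lines, for the potential `Ψ g = ρ²/c + ρ² b (φ(g) - c)`.
-/

set_option autoImplicit false

namespace Crest.Agent.R307.Edge

open Crest.Agent.R307.Flow Crest.Agent.R307.Elim

/-- edge `s = 1`, side `t ≤ -ρ` -/
theorem edgeB_long {ρ t b : ℝ} (h0 : 0 < ρ) (h1 : ρ < 1) (hreg : Reg ρ b) (ht : |t| < 1)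
    (htr : t ≤ -ρ) : PairStep ρ 1 t (fun g => ρ ^ 2 / ph ρ + ρ ^ 2 * b * (ph g - ph ρ)) := by
  obtain ⟨s1, s2⟩ := abs_lt.1 ht
  obtain ⟨hb0, hb1⟩ := hreg.b
  obtain ⟨r, hr0, hr1, hr, hcr⟩ := exists_r h0 h1
  obtain ⟨v, hv0, hv1, hS1, hS2, hφ⟩ := par_long (σ := -t) hr0 hr1 hr (by rwa [abs_neg])
    (by linarith)
  have hrle := r_le2 hreg.rho hr1 hr
  obtain ⟨P, hP⟩ : ∃ P, P = (1 + r) * (1 + r) := ⟨_, rfl⟩
  obtain ⟨M, hM⟩ : ∃ M, M = (1 - r) * (1 - r) := ⟨_, rfl⟩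
  obtain ⟨N, hN⟩ : ∃ N, N = 1 + r * r := ⟨_, rfl⟩
  obtain ⟨AA, hAA⟩ : ∃ AA, AA = P * M := ⟨_, rfl⟩
  obtain ⟨V, hV⟩ : ∃ V, V = v * v := ⟨_, rfl⟩
  obtain ⟨N3, hN3⟩ : ∃ N3, N3 = N * N * N := ⟨_, rfl⟩
  obtain ⟨B, hB⟩ : ∃ B, B = N * N - b * AA := ⟨_, rfl⟩
  obtain ⟨D, hD⟩ : ∃ D, D = P + V * M := ⟨_, rfl⟩
  obtain ⟨Q, hQ⟩ : ∃ Q, Q = P * P + 2 * N * (V * M) := ⟨_, rfl⟩
  obtain ⟨F, hF⟩ : ∃ F, F = Q - 2 * r * D := ⟨_, rfl⟩
  obtain ⟨g, hg⟩ : ∃ g, g = (1 + ρ) / 2 * 1 + (1 - ρ) / 2 * t := ⟨_, rfl⟩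
  rw [← hP, ← hM, ← hV, ← hD] at hS1 hS2 hφ
  rw [sub_neg_eq_add] at hS1
  rw [← sub_eq_add_neg] at hS2
  rw [ph_neg'] at hφ
  rw [← hN] at hr hcr
  have hNMP : P + M = 2 * N := by rw [hP, hM, hN]; ring
  have hMN : N - 2 * r = M := by rw [hM, hN]; ring
  have hPN : N + 2 * r = P := by rw [hP, hN]; ring
  have hNP : N * (1 + ρ) = P := by rw [← hPN]; linear_combination hr
  have hNM : N * (1 - ρ) = M := by rw [← hMN]; linear_combination -hr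
  have hr3 : 0 < 1 - r := by linarith
  have pN : 0 < N := by rw [hN]; positivity
  have pP : 0 < P := by rw [hP]; positivity
  have pM : 0 < M := by rw [hM]; positivity
  have pV : 0 ≤ V := by rw [hV]; positivity
  have pV1 : V ≤ 1 := by rw [hV]; nlinarith
  have pD : 0 < D := by rw [hD]; positivity
  have pQ : 0 < Q := by rw [hQ]; positivity
  have eF : F = P * N + V * M * (P + M - 2 * r) := by
    rw [hF, hQ, hD]; linear_combination -P * hPN - V * M * hNMP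
  have pF : 0 < F := by
    have : 0 < P + M - 2 * r := by linarith
    rw [eF]; positivity
  have eQ : Q - N * D = 2 * r * P + N * (V * M) := by
    rw [hQ, hD]; linear_combination -P * hPN
  have hc : 0 < ph ρ := ph_pos (by rw [abs_lt]; constructor <;> linarith)
  have hκ0 := kappa_nonneg h0 h1 hb1
  have hκ := kappa_eq (b := b) hc hcr hP hM hAA hB
  have hu : ((1 + r) * (1 - r)) * ((1 + r) * (1 - r)) = AA := by rw [hAA, hP, hM]; ring
  have hg1 : |g| < 1 := by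
    rw [hg, abs_lt]
    constructor <;> nlinarith
  have hgp : 0 ≤ ph g := ph_nonneg g
  have hwg : ph g ^ 2 = 1 - g ^ 2 := ph_sq hg1.le
  have hG : (1 + g) * (N * D) = Q := by
    calc (1 + g) * (N * D) = (N * (1 + ρ)) * D + (N * (1 - ρ)) * (D * (1 + t)) / 2 := by
          rw [hg]; ring
      _ = Q := by rw [hNP, hS1, hNM, hQ, hD]; linear_combination V * M * hNMP
  have hg2 : 1 - g = (1 - ρ) / 2 * (1 - t) := by rw [hg]; ring
  have hw : (1 - g ^ 2) * (N * D) ^ 2 = AA * Q := by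
    calc (1 - g ^ 2) * (N * D) ^ 2 = (1 + g) * (N * D) * ((1 - g) * (N * D)) := by ring
      _ = Q * ((N * (1 - ρ)) * (D * (1 - t)) / 2) := by rw [hG, hg2]; ring
      _ = _ := by rw [hNM, hS2, hAA]; ring
  have hG1 : 0 < 1 + g - ρ := by
    have : 1 + g - ρ = (1 - ρ) / 2 * (1 + t) + 1 := by rw [hg]; ring
    rw [this]
    have : 0 ≤ (1 - ρ) / 2 * (1 + t) := mul_nonneg (by linarith) (by linarith)
    linarith
  have hK : ((1 - t) / 2) ^ 2 / (1 - g ^ 2 + g * (ρ * (1 - t) / 2)) * F = P * N := by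
    have e1 : 1 - g ^ 2 + g * (ρ * (1 - t) / 2) = (1 - t) * (1 + g - ρ) / 2 := by
      have : 1 - g ^ 2 = (1 + g) * (1 - g) := by ring
      rw [this, hg2]; ring
    have e2 : (1 + g - ρ) * (N * D) = F := by
      rw [hF]; linear_combination hG - D * hr
    rw [e1, Kval (k := N * D) (by linarith) hG1 e2]
    linear_combination N / 2 * hS2
  -- the two candidates
  obtain ⟨Y0, hY0⟩ : ∃ Y, Y = M * (P * N + r * D) := ⟨_, rfl⟩
  obtain ⟨E0, hE0⟩ : ∃ E, E = P * P * Q + 2 * r * V * M * (Q - N * D) := ⟨_, rfl⟩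
  obtain ⟨Y3, hY3⟩ : ∃ Y, Y = P * N - r * D := ⟨_, rfl⟩
  obtain ⟨E3, hE3⟩ : ∃ E, E = P * Q - 2 * r * V * (Q - N * D) := ⟨_, rfl⟩
  have pE0 : 0 < E0 := by
    rw [hE0, eQ]; positivity
  have pE3 : 0 < E3 := by
    have e1 : E3 = P * (P * P - 4 * (r * r) * V) + 2 * N * (V * M) * (P - r * V) := by
      rw [hE3, eQ, hQ]; ring
    have hP1 : 1 ≤ P := by rw [← hPN, hN]; linarith [mul_self_nonneg r]
    have hrV : r * V ≤ 1 * 1 := mul_le_mul hr1.le pV1 pV (by norm_num)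
    have h5 : 4 * (r * r) * V < 1 := by
      have : r * r * V ≤ (101 / 256) * (101 / 256) * 1 :=
        mul_le_mul (mul_le_mul hrle hrle hr0.le (by norm_num)) pV1 pV (by norm_num)
      linarith
    have h6 : 1 * 1 ≤ P * P := mul_le_mul hP1 hP1 (by norm_num) (by linarith)
    have h7 : 0 < P * (P * P - 4 * (r * r) * V) := mul_pos pP (by linarith)
    have h8 : 0 ≤ 2 * N * (V * M) * (P - r * V) := by
      apply mul_nonneg (by positivity) (by linarith)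
    rw [e1]; linarith
  obtain ⟨n0, hn0⟩ : ∃ n, n = (1 + t) * (1 + ρ - t) := ⟨_, rfl⟩
  obtain ⟨d0, hd0⟩ : ∃ n, n = (1 + ρ) * (1 - t) * (1 + g) + ρ * g * (1 + t) := ⟨_, rfl⟩
  obtain ⟨n3, hn3⟩ : ∃ n, n = (1 + t) * (1 - ρ - t) := ⟨_, rfl⟩
  obtain ⟨d3, hd3⟩ : ∃ n, n = (1 - ρ) * (1 - t) * (1 + g) - ρ * g * (1 + t) := ⟨_, rfl⟩
  have kn0 : n0 * (N * D) ^ 2 = 2 * (2 * V * N * Y0) := by
    calc n0 * (N * D) ^ 2 = (D * (1 + t)) * (N * (D * (1 - t)) + (N * ρ) * D) * N := by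
          rw [hn0]; ring
      _ = _ := by rw [hS1, hS2, hr, hY0]; ring
  have kd0 : d0 * (N * D) ^ 2 = 2 * E0 := by
    calc d0 * (N * D) ^ 2 = (N * (1 + ρ)) * (D * (1 - t)) * ((1 + g) * (N * D)) +
          (N * ρ) * ((1 + g) * (N * D) - N * D) * (D * (1 + t)) := by rw [hd0]; ring
      _ = _ := by rw [hS1, hS2, hr, hG, hNP, hE0]; ring
  have kn3 : n3 * (N * D) ^ 2 = (2 * M) * (2 * V * N * Y3) := by
    calc n3 * (N * D) ^ 2 = (D * (1 + t)) * (N * (D * (1 - t)) - (N * ρ) * D) * N := by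
          rw [hn3]; ring
      _ = _ := by rw [hS1, hS2, hr, hY3]; ring
  have kd3 : d3 * (N * D) ^ 2 = (2 * M) * E3 := by
    calc d3 * (N * D) ^ 2 = (N * (1 - ρ)) * (D * (1 - t)) * ((1 + g) * (N * D)) -
          (N * ρ) * ((1 + g) * (N * D) - N * D) * (D * (1 + t)) := by rw [hd3]; ring
      _ = _ := by rw [hS1, hS2, hr, hG, hNM, hE3]; ring
  have pd0 : 0 < d0 := by
    have : 0 < d0 * (N * D) ^ 2 := by rw [kd0]; positivity
    exact (mul_pos_iff_of_pos_right (by positivity)).1 this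
  have pd3 : 0 < d3 := by
    have : 0 < d3 * (N * D) ^ 2 := by rw [kd3]; positivity
    exact (mul_pos_iff_of_pos_right (by positivity)).1 this
  have pn0 : 0 ≤ n0 := by rw [hn0]; exact mul_nonneg (by linarith) (by linarith)
  have hα0 := al_of two_ne_zero pd0.ne' kn0 kd0
  have hα3 := al_of (by positivity) pd3.ne' kn3 kd3
  have ii0 : (1 - ρ) / 2 * (n0 / d0) * (ph t * ((1 / ph ρ - b * ph ρ) + b * ph t)) +
      ((1 - t) / 2) ^ 2 / (1 - g ^ 2 + g * (ρ * (1 - t) / 2)) ≤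
      ph g * ((1 / ph ρ - b * ph ρ) + b * ph g) := by
    obtain ⟨Z, hZ⟩ : ∃ Z, Z = 2 * (v * V) * M * Y0 * (B * D + 2 * b * v * (AA * N)) * (N * F) +
      P * N3 * (D * D) * E0 - b * AA * (Q * (E0 * F)) := ⟨_, rfl⟩
    obtain ⟨T, hT⟩ : ∃ T, T = Q * (B * B) * (D * D) * ((E0 * F) * (E0 * F)) - Z * Z := ⟨_, rfl⟩
    refine B_long_ii pN pD pE0 pF pP pM hc hκ0 hgp hNM hAA hN3 hcr hu hφ hwg hw hK hκ hα0 hZ hT ?_
    exact B0l.main v r b v r b P M N AA V N3 B D Q F Y0 E0 Z T (by linarith) (by linarith)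
        (by linarith) (by linarith) (by linarith) (by linarith) (by ring) (by ring) (by ring)
        hP hM hN hAA hV hN3 hB hD hQ hF hY0 hE0 hZ hT
  have ii3 : (1 - ρ) / 2 * (n3 / d3) * (ph t * ((1 / ph ρ - b * ph ρ) + b * ph t)) +
      ((1 - t) / 2) ^ 2 / (1 - g ^ 2 + g * (ρ * (1 - t) / 2)) ≤
      ph g * ((1 / ph ρ - b * ph ρ) + b * ph g) := by
    obtain ⟨Z, hZ⟩ : ∃ Z, Z = 2 * (v * V) * M * Y3 * (B * D + 2 * b * v * (AA * N)) * (N * F) +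
      P * N3 * (D * D) * E3 - b * AA * (Q * (E3 * F)) := ⟨_, rfl⟩
    obtain ⟨T, hT⟩ : ∃ T, T = Q * (B * B) * (D * D) * ((E3 * F) * (E3 * F)) - Z * Z := ⟨_, rfl⟩
    refine B_long_ii pN pD pE3 pF pP pM hc hκ0 hgp hNM hAA hN3 hcr hu hφ hwg hw hK hκ hα3 hZ hT ?_
    exact B3.main v r b v r b P M N AA V N3 B D Q F Y3 E3 Z T (by linarith) (by linarith)
        (by linarith) (by linarith) (by linarith) (by linarith) (by ring) (by ring) (by ring)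
        hP hM hN hAA hV hN3 hB hD hQ hF hY3 hE3 hZ hT
  have key : ∀ be, n0 / d0 ≤ be → n3 / d3 ≤ be →
      (1 - ρ) / 2 * be * (ph t * ((1 / ph ρ - b * ph ρ) + b * ph t)) +
      ((1 - t) / 2) ^ 2 / (1 - g ^ 2 + g * (ρ * (1 - t) / 2)) ≤
      ph g * ((1 / ph ρ - b * ph ρ) + b * ph g) →
      PairStep ρ 1 t (fun g => ρ ^ 2 / ph ρ + ρ ^ 2 * b * (ph g - ph ρ)) := by
    intro be k0 k3 hii
    refine stepB h0 h1 ht ((div_nonneg pn0 pd0.le).trans k0) hg ?_ hii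
    intro y hy
    rw [div_le_iff₀ pd0] at k0
    rw [div_le_iff₀ pd3] at k3
    refine aff_nonneg (p := 1 + ρ) (q := 1 - ρ) (m := ρ * (1 + t)) (n := ρ * (1 + t))
      (by linarith) (by linarith) hy.2.1 (by linarith [hy.2.2.1]) ?_ ?_
    · have e : (1 + ρ) * (be * (1 - g ^ 2) - (1 - ρ) / 2 * (1 - t ^ 2)) +
          (be * (g * ((1 - ρ) / 2)) - (1 - ρ) / 2 * t) * (ρ * (1 + t)) =
          (1 - ρ) / 2 * (be * d0 - n0) := by
        rw [hn0, hd0, hg]; ring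
      rw [e]
      exact mul_nonneg (by linarith) (by linarith)
    · have e : (1 - ρ) * (be * (1 - g ^ 2) - (1 - ρ) / 2 * (1 - t ^ 2)) -
          (be * (g * ((1 - ρ) / 2)) - (1 - ρ) / 2 * t) * (ρ * (1 + t)) =
          (1 - ρ) / 2 * (be * d3 - n3) := by
        rw [hn3, hd3, hg]; ring
      rw [e]
      exact mul_nonneg (by linarith) (by linarith)
  rcases le_total (n0 / d0) (n3 / d3) with h | h
  · exact key _ h le_rfl ii3
  · exact key _ le_rfl h ii0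

/-- edge `s = 1`, side `-ρ ≤ t` -/
theorem edgeB_short {ρ t b : ℝ} (h0 : 0 < ρ) (h1 : ρ < 1) (hreg : Reg ρ b) (ht : |t| < 1)
    (htr : -ρ ≤ t) : PairStep ρ 1 t (fun g => ρ ^ 2 / ph ρ + ρ ^ 2 * b * (ph g - ph ρ)) := by
  obtain ⟨s1, s2⟩ := abs_lt.1 ht
  obtain ⟨hb0, hb1⟩ := hreg.b
  obtain ⟨r, hr0, hr1, hr, hcr⟩ := exists_r h0 h1
  obtain ⟨v, hv0, hv1, hS1, hS2, hφ⟩ := par_short (σ := -t) hr0 hr1 hr (by rwa [abs_neg])
    (by linarith)
  have hrle := r_le2 hreg.rho hr1 hr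
  obtain ⟨P, hP⟩ : ∃ P, P = (1 + r) * (1 + r) := ⟨_, rfl⟩
  obtain ⟨M, hM⟩ : ∃ M, M = (1 - r) * (1 - r) := ⟨_, rfl⟩
  obtain ⟨N, hN⟩ : ∃ N, N = 1 + r * r := ⟨_, rfl⟩
  obtain ⟨AA, hAA⟩ : ∃ AA, AA = P * M := ⟨_, rfl⟩
  obtain ⟨V, hV⟩ : ∃ V, V = v * v := ⟨_, rfl⟩
  obtain ⟨N3, hN3⟩ : ∃ N3, N3 = N * N * N := ⟨_, rfl⟩
  obtain ⟨B, hB⟩ : ∃ B, B = N * N - b * AA := ⟨_, rfl⟩
  obtain ⟨D, hD⟩ : ∃ D, D = M + V * P := ⟨_, rfl⟩
  obtain ⟨Q, hQ⟩ : ∃ Q, Q = 2 * N * M + V * (P * P) := ⟨_, rfl⟩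
  obtain ⟨F, hF⟩ : ∃ F, F = Q - 2 * r * D := ⟨_, rfl⟩
  obtain ⟨g, hg⟩ : ∃ g, g = (1 + ρ) / 2 * 1 + (1 - ρ) / 2 * t := ⟨_, rfl⟩
  rw [← hP, ← hM, ← hV, ← hD] at hS1 hS2 hφ
  rw [sub_neg_eq_add] at hS1
  rw [← sub_eq_add_neg] at hS2
  rw [ph_neg'] at hφ
  rw [← hN] at hr hcr
  have hNMP : P + M = 2 * N := by rw [hP, hM, hN]; ring
  have hMN : N - 2 * r = M := by rw [hM, hN]; ring
  have hPN : N + 2 * r = P := by rw [hP, hN]; ring
  have hNP : N * (1 + ρ) = P := by rw [← hPN]; linear_combination hr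
  have hNM : N * (1 - ρ) = M := by rw [← hMN]; linear_combination -hr
  have hr3 : 0 < 1 - r := by linarith
  have pN : 0 < N := by rw [hN]; positivity
  have pP : 0 < P := by rw [hP]; positivity
  have pM : 0 < M := by rw [hM]; positivity
  have pV : 0 ≤ V := by rw [hV]; positivity
  have pD : 0 < D := by rw [hD]; positivity
  have pQ : 0 < Q := by rw [hQ]; positivity
  have eF : F = M * (P + M - 2 * r) + V * P * N := by
    rw [hF, hQ, hD]; linear_combination -V * P * hPN - M * hNMP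
  have pF : 0 < F := by
    have : 0 < P + M - 2 * r := by linarith
    rw [eF]; positivity
  have eQ : Q - N * D = N * M + 2 * r * (V * P) := by
    rw [hQ, hD]; linear_combination -V * P * hPN
  have hc : 0 < ph ρ := ph_pos (by rw [abs_lt]; constructor <;> linarith)
  have hκ0 := kappa_nonneg h0 h1 hb1
  have hκ := kappa_eq (b := b) hc hcr hP hM hAA hB
  have hu : ((1 + r) * (1 - r)) * ((1 + r) * (1 - r)) = AA := by rw [hAA, hP, hM]; ring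
  have hg1 : |g| < 1 := by
    rw [hg, abs_lt]
    constructor <;> nlinarith
  have hgp : 0 ≤ ph g := ph_nonneg g
  have hwg : ph g ^ 2 = 1 - g ^ 2 := ph_sq hg1.le
  have hG : (1 + g) * (N * D) = Q := by
    calc (1 + g) * (N * D) = (N * (1 + ρ)) * D + (N * (1 - ρ)) * (D * (1 + t)) / 2 := by
          rw [hg]; ring
      _ = Q := by rw [hNP, hS1, hNM, hQ, hD]; linear_combination M * hNMP
  have hg2 : 1 - g = (1 - ρ) / 2 * (1 - t) := by rw [hg]; ring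
  have hw : (1 - g ^ 2) * (N * D) ^ 2 = V * AA * Q := by
    calc (1 - g ^ 2) * (N * D) ^ 2 = (1 + g) * (N * D) * ((1 - g) * (N * D)) := by ring
      _ = Q * ((N * (1 - ρ)) * (D * (1 - t)) / 2) := by rw [hG, hg2]; ring
      _ = _ := by rw [hNM, hS2, hAA]; ring
  have hG1 : 0 < 1 + g - ρ := by
    have : 1 + g - ρ = (1 - ρ) / 2 * (1 + t) + 1 := by rw [hg]; ring
    rw [this]
    have : 0 ≤ (1 - ρ) / 2 * (1 + t) := mul_nonneg (by linarith) (by linarith)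
    linarith
  have hK : ((1 - t) / 2) ^ 2 / (1 - g ^ 2 + g * (ρ * (1 - t) / 2)) * F = V * P * N := by
    have e1 : 1 - g ^ 2 + g * (ρ * (1 - t) / 2) = (1 - t) * (1 + g - ρ) / 2 := by
      have : 1 - g ^ 2 = (1 + g) * (1 - g) := by ring
      rw [this, hg2]; ring
    have e2 : (1 + g - ρ) * (N * D) = F := by
      rw [hF]; linear_combination hG - D * hr
    rw [e1, Kval (k := N * D) (by linarith) hG1 e2]
    linear_combination N / 2 * hS2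
  -- the two candidates
  obtain ⟨Y0, hY0⟩ : ∃ Y, Y = M * N * (V * P * N + r * D) := ⟨_, rfl⟩
  obtain ⟨E0, hE0⟩ : ∃ E, E = V * (P * P) * Q + 2 * r * M * (Q - N * D) := ⟨_, rfl⟩
  obtain ⟨Y2, hY2⟩ : ∃ Y, Y = M * N + r * D := ⟨_, rfl⟩
  obtain ⟨E2, hE2⟩ : ∃ E, E = Q + 2 * r * D := ⟨_, rfl⟩
  have pE0 : 0 < E0 := by
    rw [hE0, eQ]; positivity
  have pE2 : 0 < E2 := by rw [hE2]; positivity
  obtain ⟨n0, hn0⟩ : ∃ n, n = (1 + t) * (1 + ρ - t) := ⟨_, rfl⟩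
  obtain ⟨d0, hd0⟩ : ∃ n, n = (1 + ρ) * (1 - t) * (1 + g) + ρ * g * (1 + t) := ⟨_, rfl⟩
  obtain ⟨n2, hn2⟩ : ∃ n, n = 1 + ρ + t := ⟨_, rfl⟩
  obtain ⟨d2, hd2⟩ : ∃ n, n = 1 + g + ρ := ⟨_, rfl⟩
  have kn0 : n0 * (N * D) ^ 2 = 2 * (2 * Y0) := by
    calc n0 * (N * D) ^ 2 = (D * (1 + t)) * (N * (D * (1 - t)) + (N * ρ) * D) * N := by
          rw [hn0]; ring
      _ = _ := by rw [hS1, hS2, hr, hY0]; ring
  have kd0 : d0 * (N * D) ^ 2 = 2 * E0 := by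
    calc d0 * (N * D) ^ 2 = (N * (1 + ρ)) * (D * (1 - t)) * ((1 + g) * (N * D)) +
          (N * ρ) * ((1 + g) * (N * D) - N * D) * (D * (1 + t)) := by rw [hd0]; ring
      _ = _ := by rw [hS1, hS2, hr, hG, hNP, hE0]; ring
  have kn2 : n2 * (N * D) = 1 * (2 * Y2) := by
    rw [hn2, hY2]; linear_combination N * hS1 + D * hr
  have kd2 : d2 * (N * D) = 1 * E2 := by
    rw [hd2, hE2]; linear_combination hG + D * hr
  have pd0 : 0 < d0 := by
    have : 0 < d0 * (N * D) ^ 2 := by rw [kd0]; positivity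
    exact (mul_pos_iff_of_pos_right (by positivity)).1 this
  have pd2 : 0 < d2 := by
    have : 0 < d2 * (N * D) := by rw [kd2]; positivity
    exact (mul_pos_iff_of_pos_right (by positivity)).1 this
  have pn0 : 0 ≤ n0 := by rw [hn0]; exact mul_nonneg (by linarith) (by linarith)
  have hα0 := al_of two_ne_zero pd0.ne' kn0 kd0
  have hα2 := al_of one_ne_zero pd2.ne' kn2 kd2
  have ii0 : (1 - ρ) / 2 * (n0 / d0) * (ph t * ((1 / ph ρ - b * ph ρ) + b * ph t)) +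
      ((1 - t) / 2) ^ 2 / (1 - g ^ 2 + g * (ρ * (1 - t) / 2)) ≤
      ph g * ((1 / ph ρ - b * ph ρ) + b * ph g) := by
    obtain ⟨Z, hZ⟩ : ∃ Z, Z = 2 * M * Y0 * (B * D + 2 * b * v * (AA * N)) * F +
      v * P * N3 * (D * D) * E0 - b * v * AA * (Q * (E0 * F)) := ⟨_, rfl⟩
    obtain ⟨T, hT⟩ : ∃ T, T = Q * (B * B) * (D * D) * ((E0 * F) * (E0 * F)) - Z * Z := ⟨_, rfl⟩
    refine B_short_ii pN pD pE0 pF pP pM hc hκ0 hgp hNM hAA hN3 hV hcr hu hφ hwg hw hK hκ hα0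
      hZ hT ?_
    exact B0s.main v r b v r b P M N AA V N3 B D Q F Y0 E0 Z T (by linarith) (by linarith)
        (by linarith) (by linarith) (by linarith) (by linarith) (by ring) (by ring) (by ring)
        hP hM hN hAA hV hN3 hB hD hQ hF hY0 hE0 hZ hT
  have ii2 : (1 - ρ) / 2 * (n2 / d2) * (ph t * ((1 / ph ρ - b * ph ρ) + b * ph t)) +
      ((1 - t) / 2) ^ 2 / (1 - g ^ 2 + g * (ρ * (1 - t) / 2)) ≤
      ph g * ((1 / ph ρ - b * ph ρ) + b * ph g) := by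
    obtain ⟨Z, hZ⟩ : ∃ Z, Z = 2 * M * Y2 * (B * D + 2 * b * v * (AA * N)) * F +
      v * P * N3 * (D * D) * E2 - b * v * AA * (Q * (E2 * F)) := ⟨_, rfl⟩
    obtain ⟨T, hT⟩ : ∃ T, T = Q * (B * B) * (D * D) * ((E2 * F) * (E2 * F)) - Z * Z := ⟨_, rfl⟩
    refine B_short_ii pN pD pE2 pF pP pM hc hκ0 hgp hNM hAA hN3 hV hcr hu hφ hwg hw hK hκ hα2
      hZ hT ?_
    exact B2.main v r b v r b P M N AA V N3 B D Q F Y2 E2 Z T (by linarith) (by linarith)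
        (by linarith) (by linarith) (by linarith) (by linarith) (by ring) (by ring) (by ring)
        hP hM hN hAA hV hN3 hB hD hQ hF hY2 hE2 hZ hT
  have key : ∀ be, n0 / d0 ≤ be → n2 / d2 ≤ be →
      (1 - ρ) / 2 * be * (ph t * ((1 / ph ρ - b * ph ρ) + b * ph t)) +
      ((1 - t) / 2) ^ 2 / (1 - g ^ 2 + g * (ρ * (1 - t) / 2)) ≤
      ph g * ((1 / ph ρ - b * ph ρ) + b * ph g) →
      PairStep ρ 1 t (fun g => ρ ^ 2 / ph ρ + ρ ^ 2 * b * (ph g - ph ρ)) := by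
    intro be k0 k3 hii
    refine stepB h0 h1 ht ((div_nonneg pn0 pd0.le).trans k0) hg ?_ hii
    intro y hy
    rw [div_le_iff₀ pd0] at k0
    rw [div_le_iff₀ pd2] at k3
    refine aff_nonneg (p := 1 + ρ) (q := 1 + ρ) (m := ρ * (1 + t)) (n := ρ * (1 - t))
      (by linarith) (by linarith) hy.2.1 (by linarith [hy.2.2.2]) ?_ ?_
    · have e : (1 + ρ) * (be * (1 - g ^ 2) - (1 - ρ) / 2 * (1 - t ^ 2)) +
          (be * (g * ((1 - ρ) / 2)) - (1 - ρ) / 2 * t) * (ρ * (1 + t)) =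
          (1 - ρ) / 2 * (be * d0 - n0) := by
        rw [hn0, hd0, hg]; ring
      rw [e]
      exact mul_nonneg (by linarith) (by linarith)
    · have e : (1 + ρ) * (be * (1 - g ^ 2) - (1 - ρ) / 2 * (1 - t ^ 2)) -
          (be * (g * ((1 - ρ) / 2)) - (1 - ρ) / 2 * t) * (ρ * (1 - t)) =
          (1 - ρ) / 2 * (1 - t) * (be * d2 - n2) := by
        rw [hn2, hd2, hg]; ring
      rw [e]
      exact mul_nonneg (mul_nonneg (by linarith) (by linarith)) (by linarith)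
  rcases le_total (n0 / d0) (n2 / d2) with h | h
  · exact key _ h le_rfl ii2
  · exact key _ le_rfl h ii0

/-- the corner `(1,-1)` (any `b`) -/
theorem edge_corner {ρ b : ℝ} (h0 : 0 < ρ) (h1 : ρ < 1) :
    PairStep ρ 1 (-1) (fun g => ρ ^ 2 / ph ρ + ρ ^ 2 * b * (ph g - ph ρ)) := by
  have hm1 : |(-1 : ℝ)| ≤ 1 := by rw [abs_neg, abs_one]
  have hp1 : |(1 : ℝ)| ≤ 1 := by rw [abs_one]
  have hph1 : ph 1 = 0 := by unfold ph; norm_num
  have hph2 : ph (-1) = 0 := by unfold ph; norm_num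
  have e : (1 + ρ) / 2 * 1 + (1 - ρ) / 2 * (-1) = ρ := by ring
  have hc : 0 < ph ρ := ph_pos (by rw [abs_lt]; constructor <;> linarith)
  refine pairStep_of_K' (al := 0) (be := 0) h0 h1 hp1 hm1 le_rfl le_rfl ?_ ?_ ?_
  · rw [e]; exact hc
  · intro x y hx hy _
    have hx0 : x = 0 := hx.eq_zero h0 h1 hph1 hp1
    have hy0 : y = 0 := hy.eq_zero h0 h1 hph2 hm1
    rw [hx0, hy0]; simp
  · rw [e, hph1, hph2]
    have e2 : 1 - ρ ^ 2 + ρ * (ρ * (1 - -1) / 2) = 1 := by ring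
    rw [e2]
    have e3 : ph ρ * (1 / ph ρ - b * ph ρ + b * ph ρ) = 1 := by
      rw [sub_add_cancel]; field_simp
    rw [e3]; norm_num

/-- **Edge `t = -1`.** -/
theorem edge_neg_one {ρ s b : ℝ} (h0 : 0 < ρ) (h1 : ρ < 1) (hreg : Reg ρ b) (hs : |s| ≤ 1)
    (hs1 : -1 < s) : PairStep ρ s (-1) (fun g => ρ ^ 2 / ph ρ + ρ ^ 2 * b * (ph g - ph ρ)) := by
  rcases (abs_le.1 hs).2.eq_or_lt with h | h
  · rw [h]; exact edge_corner h0 h1
  · have hs' : |s| < 1 := abs_lt.2 ⟨hs1, h⟩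
    rcases le_total ρ s with h2 | h2
    · exact edgeA_long h0 h1 hreg hs' h2
    · exact edgeA_short h0 h1 hreg hs' h2

/-- **Edge `s = 1`.** -/
theorem edge_one {ρ t b : ℝ} (h0 : 0 < ρ) (h1 : ρ < 1) (hreg : Reg ρ b) (ht : |t| ≤ 1)
    (ht1 : t < 1) : PairStep ρ 1 t (fun g => ρ ^ 2 / ph ρ + ρ ^ 2 * b * (ph g - ph ρ)) := by
  rcases (abs_le.1 ht).1.eq_or_lt with h | h
  · rw [← h]; exact edge_corner h0 h1
  · have ht' : |t| < 1 := abs_lt.2 ⟨h, ht1⟩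
    rcases le_total t (-ρ) with h2 | h2
    · exact edgeB_long h0 h1 hreg ht' h2
    · exact edgeB_short h0 h1 hreg ht' h2

/-- `FlowHyp` from the interior pairs (`|s|, |t| < 1`, `t < s`) alone. -/
theorem flowHyp_of_interior {ρ b : ℝ} (h0 : 0 < ρ) (h1 : ρ < 1) (hreg : Reg ρ b)
    (H : ∀ s t : ℝ, |s| < 1 → |t| < 1 → t < s →
      PairStep ρ s t (fun g => ρ ^ 2 / ph ρ + ρ ^ 2 * b * (ph g - ph ρ))) : FlowHyp ρ := by
  obtain ⟨hb0, hb1⟩ := hreg.b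
  have hc : 0 < ph ρ := ph_pos (by rw [abs_lt]; constructor <;> linarith)
  have hκ := kappa_nonneg h0 h1 hb1
  refine flowHyp_of_pairs (β := ρ ^ 2 * b) h0 h1 (by positivity) ?_ ?_
  · have := mul_nonneg (sq_nonneg ρ) hκ
    have e : ρ ^ 2 / ph ρ - ρ ^ 2 * b * ph ρ = ρ ^ 2 * (1 / ph ρ - b * ph ρ) := by ring
    linarith
  · intro s t hs ht hts _
    rcases (abs_le.1 hs).2.eq_or_lt with h | h
    · rw [h]; rw [h] at hts; exact edge_one h0 h1 hreg ht hts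
    · rcases (abs_le.1 ht).1.eq_or_lt with h' | h'
      · rw [← h']; rw [← h'] at hts; exact edge_neg_one h0 h1 hreg hs hts
      · exact H s t (abs_lt.2 ⟨by linarith, h⟩) (abs_lt.2 ⟨h', by linarith⟩) hts

end Crest.Agent.R307.Edge
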