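import Crest.Agent.R307.FlowR

/-!
Row 307 (S0471), flow route, helper587's elimination of the `(x,y)`-quantifier of the two-point step
(note 6127) for the rational weight `om`.
-/

set_option autoImplicit false

namespace Crest.Agent.R307.Elim

open Crest.Agent.R307.Flow

/-- elementary discriminant lemma -/
lemma disc_nonneg {T q c e η : ℝ} (hT : 0 < T) (hq : 0 ≤ q) (h : q * e ^ 2 ≤ 4 * T * c) :
    0 ≤ T * η ^ 2 + q * (c + η * e) := by
  have h1 : 4 * T * (T * η ^ 2 + q * (c + η * e)) =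
      (2 * T * η + q * e) ^ 2 + q * (4 * T * c - q * e ^ 2) := by ring
  have h2 : 0 ≤ 4 * T * (T * η ^ 2 + q * (c + η * e)) := by
    rw [h1]
    have := mul_nonneg hq (sub_nonneg.2 h)
    positivity
  exact nonneg_of_mul_nonneg_right h2 (by positivity)

/-- the two exact identities -/
lemma elim_id {lam mu s t al be x y H Ds Dt Dg xg g a1 b1 N : ℝ} (hlam : 0 < lam)
    (hDs : Ds = 1 - s ^ 2 + s * x) (hDt : Dt = 1 - t ^ 2 + t * y)
    (hxg : xg = lam * x + mu * y) (hDg : Dg = 1 - g ^ 2 + g * xg)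
    (ha1 : a1 = al - s * H) (hb1 : b1 = be - t * H)
    (pa : 0 < a1) (pb : 0 < b1)
    (hH : xg * (a1 * b1) = H * (lam * (1 - s ^ 2) * b1 + mu * (1 - t ^ 2) * a1))
    (hN : N = (1 - g ^ 2) * (a1 * b1) -
      (1 - g * H) * (lam * (1 - s ^ 2) * b1 + mu * (1 - t ^ 2) * a1)) :
    ∃ ζ : ℝ, al * x * Dt - be * y * Ds = -(ζ * (lam * (Ds * b1) + mu * (Dt * a1))) ∧
      a1 * b1 * (al * be * Dg - lam * be * Ds - mu * al * Dt) =
      al * be * N + lam * mu * ζ * (a1 * b1) * (be * s - al * t) := by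
  obtain ⟨ζ, hζ⟩ : ∃ ζ, y = H * (1 - t ^ 2) / b1 + lam * ζ :=
    ⟨(y - H * (1 - t ^ 2) / b1) / lam, by field_simp; ring⟩
  have hx : x = H * (1 - s ^ 2) / a1 - mu * ζ := by
    have h1 : lam * x = lam * (H * (1 - s ^ 2) / a1 - mu * ζ) := by
      have h2 : lam * x = xg - mu * y := by rw [hxg]; ring
      have h3 : xg = H * (lam * (1 - s ^ 2) * b1 + mu * (1 - t ^ 2) * a1) / (a1 * b1) := by
        rw [← hH]; field_simp
      rw [h2, hζ, h3]
      field_simp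
      ring
    exact mul_left_cancel₀ hlam.ne' h1
  have hxa : a1 * x = H * (1 - s ^ 2) - mu * ζ * a1 := by rw [hx]; field_simp
  have hyb : b1 * y = H * (1 - t ^ 2) + lam * ζ * b1 := by rw [hζ]; field_simp
  have h5 : al = a1 + s * H := by rw [ha1]; ring
  have h5' : be = b1 + t * H := by rw [hb1]; ring
  refine ⟨ζ, ?_, ?_⟩
  · have e1 : al * x = H * Ds - mu * ζ * a1 := by
      rw [h5, add_mul, hxa, hDs]; ring
    have e2 : be * y = H * Dt + lam * ζ * b1 := by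
      rw [h5', add_mul, hyb, hDt]; ring
    rw [e1, e2]; ring
  · have f1 : al * (1 - s ^ 2) = a1 * (Ds + s * mu * ζ) := by
      have h6 : a1 * Ds = a1 * (1 - s ^ 2) + s * (a1 * x) := by rw [hDs]; ring
      have h7 : a1 * (Ds + s * mu * ζ) = a1 * Ds + a1 * (s * mu * ζ) := by ring
      rw [h7, h6, hxa, h5]
      ring
    have f2 : be * (1 - t ^ 2) = b1 * (Dt - t * lam * ζ) := by
      have h6 : b1 * Dt = b1 * (1 - t ^ 2) + t * (b1 * y) := by rw [hDt]; ring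
      have h7 : b1 * (Dt - t * lam * ζ) = b1 * Dt - b1 * (t * lam * ζ) := by ring
      rw [h7, h6, hyb, h5']
      ring
    have f3 : Dg * (a1 * b1) - (lam * (1 - s ^ 2) * b1 + mu * (1 - t ^ 2) * a1) = N := by
      rw [hDg, hN, add_mul, mul_assoc g xg, hH]
      ring
    have f4 : al * be * N = al * be * Dg * (a1 * b1) -
        (lam * be * b1 * (al * (1 - s ^ 2)) + mu * al * a1 * (be * (1 - t ^ 2))) := by
      rw [← f3]; ring
    rw [f4, f1, f2]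
    ring

/-- positivity of the bracket; `Θ` is any number with `Θ X Y ≤ (lam X + mu Y)²` -/
lemma elim_pos {lam mu al be x y Ds Dt Dg xg a1 b1 N ζ e Θ : ℝ} (hlam : 0 < lam) (hmu : 0 < mu)
    (hΘ : 0 < Θ) (pDs : 0 < Ds) (pDt : 0 < Dt) (pDg : 0 < Dg) (pa : 0 < a1) (pb : 0 < b1)
    (e3 : al * x * Dt - be * y * Ds = -(ζ * (lam * (Ds * b1) + mu * (Dt * a1))))
    (e4 : a1 * b1 * (al * be * Dg - lam * be * Ds - mu * al * Dt) =
      al * be * N + lam * mu * ζ * (a1 * b1) * e)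
    (hXY : Θ * ((Ds * b1) * (Dt * a1)) ≤ (lam * (Ds * b1) + mu * (Dt * a1)) ^ 2)
    (hdisc : lam * mu * (xg ^ 2 * e ^ 2) ≤ 4 * (Θ * Dg) * (al * be * N)) :
    0 ≤ lam * mu * (al * x * Dt - be * y * Ds) ^ 2 * Dg +
          xg ^ 2 * (Ds * Dt) * (al * be * Dg - lam * be * Ds - mu * al * Dt) := by
  rw [e3]
  set R := al * be * Dg - lam * be * Ds - mu * al * Dt with hR
  have pX : 0 < Ds * b1 := by positivity
  have pY : 0 < Dt * a1 := by positivity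
  have pL : 0 < lam * mu := by positivity
  have k7 : 0 ≤ (lam * (Ds * b1) + mu * (Dt * a1)) ^ 2 -
      Θ * ((Ds * b1) * (Dt * a1)) := by linarith
  have hd2 : xg ^ 2 * e ^ 2 ≤ 4 * (Θ * Dg / (lam * mu)) * (al * be * N) := by
    have : 4 * (Θ * Dg / (lam * mu)) * (al * be * N) =
        (4 * (Θ * Dg) * (al * be * N)) / (lam * mu) := by ring
    rw [this, le_div_iff₀ pL]
    linarith
  have k4 := disc_nonneg (T := Θ * Dg / (lam * mu)) (q := xg ^ 2) (c := al * be * N) (e := e)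
    (η := lam * mu * ζ * (a1 * b1)) (by positivity) (sq_nonneg _) hd2
  have k5 : (a1 * b1) ^ 2 * (lam * mu * (-(ζ * (lam * (Ds * b1) + mu * (Dt * a1)))) ^ 2 * Dg +
      xg ^ 2 * (Ds * Dt) * R) =
      lam * mu * ζ ^ 2 * Dg * (a1 * b1) ^ 2 * ((lam * (Ds * b1) + mu * (Dt * a1)) ^ 2 -
        Θ * ((Ds * b1) * (Dt * a1))) +
      ((Ds * b1) * (Dt * a1)) * (Θ * Dg / (lam * mu) * (lam * mu * ζ * (a1 * b1)) ^ 2 +
        xg ^ 2 * (al * be * N + lam * mu * ζ * (a1 * b1) * e)) := by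
    rw [← e4]
    field_simp
    ring
  have k6 : 0 ≤ (a1 * b1) ^ 2 * (lam * mu *
      (-(ζ * (lam * (Ds * b1) + mu * (Dt * a1)))) ^ 2 * Dg + xg ^ 2 * (Ds * Dt) * R) := by
    rw [k5]
    have k8 := mul_nonneg (mul_pos pX pY).le k4
    have k9 : 0 ≤ lam * mu * ζ ^ 2 * Dg * (a1 * b1) ^ 2 := by positivity
    exact add_nonneg (mul_nonneg k9 k7) k8
  exact nonneg_of_mul_nonneg_right k6 (by positivity)

/-- the exact elimination: the two-point inequality at `(x,y)` from the discriminant condition at the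
proportional point `H` with the same `x_g`. -/
lemma elim_core {lam mu s t al be x y H Ds Dt Dg xg g a1 b1 N Θ : ℝ} (hlam : 0 < lam)
    (hmu : 0 < mu) (hΘ : 0 < Θ)
    (hal : 0 < al) (hbe : 0 < be)
    (hDs : Ds = 1 - s ^ 2 + s * x) (hDt : Dt = 1 - t ^ 2 + t * y)
    (hxg : xg = lam * x + mu * y) (hDg : Dg = 1 - g ^ 2 + g * xg)
    (ha1 : a1 = al - s * H) (hb1 : b1 = be - t * H)
    (pDs : 0 < Ds) (pDt : 0 < Dt) (pDg : 0 < Dg) (pa : 0 < a1) (pb : 0 < b1)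
    (hH : xg * (a1 * b1) = H * (lam * (1 - s ^ 2) * b1 + mu * (1 - t ^ 2) * a1))
    (hN : N = (1 - g ^ 2) * (a1 * b1) -
      (1 - g * H) * (lam * (1 - s ^ 2) * b1 + mu * (1 - t ^ 2) * a1))
    (hXY : Θ * ((Ds * b1) * (Dt * a1)) ≤ (lam * (Ds * b1) + mu * (Dt * a1)) ^ 2)
    (hdisc : lam * mu * (xg ^ 2 * (be * s - al * t) ^ 2) ≤ 4 * (Θ * Dg) * (al * be * N)) :
    xg ^ 2 / Dg ≤ lam * al * (x ^ 2 / Ds) + mu * be * (y ^ 2 / Dt) := by
  obtain ⟨ζ, e3, e4⟩ := elim_id (x := x) (y := y) hlam hDs hDt hxg hDg ha1 hb1 pa pb hH hN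
  have k2 := elim_pos hlam hmu hΘ pDs pDt pDg pa pb e3 e4 hXY hdisc
  have k1 : (lam * be * Ds + mu * al * Dt) *
      (lam * al * x ^ 2 * Dt * Dg + mu * be * y ^ 2 * Ds * Dg - xg ^ 2 * Ds * Dt) =
      lam * mu * (al * x * Dt - be * y * Ds) ^ 2 * Dg +
        xg ^ 2 * (Ds * Dt) * (al * be * Dg - lam * be * Ds - mu * al * Dt) := by
    rw [hxg]; ring
  rw [← k1] at k2
  have key : 0 ≤ lam * al * x ^ 2 * Dt * Dg + mu * be * y ^ 2 * Ds * Dg - xg ^ 2 * Ds * Dt :=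
    nonneg_of_mul_nonneg_right k2 (by positivity)
  rw [div_le_iff₀ pDg]
  have k10 : (lam * al * (x ^ 2 / Ds) + mu * be * (y ^ 2 / Dt)) * Dg =
      (lam * al * x ^ 2 * Dt * Dg + mu * be * y ^ 2 * Ds * Dg) / (Ds * Dt) := by
    field_simp
  rw [k10, le_div_iff₀ (by positivity)]
  linarith

/-! ### existence of the proportional point -/

lemma exists_H {lam mu s t al be x y Ds Dt lo hi : ℝ} (hlam : 0 < lam) (hmu : 0 < mu)
    (hDs : Ds = 1 - s ^ 2 + s * x) (hDt : Dt = 1 - t ^ 2 + t * y)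
    (pDs : 0 < Ds) (pDt : 0 < Dt)
    (h1lo : lo ≤ al * x / Ds) (h1hi : al * x / Ds ≤ hi)
    (h2lo : lo ≤ be * y / Dt) (h2hi : be * y / Dt ≤ hi)
    (hpos : ∀ H, lo ≤ H → H ≤ hi → 0 < al - s * H ∧ 0 < be - t * H) :
    ∃ H, lo ≤ H ∧ H ≤ hi ∧
      (lam * x + mu * y) * ((al - s * H) * (be - t * H)) =
        H * (lam * (1 - s ^ 2) * (be - t * H) + mu * (1 - t ^ 2) * (al - s * H)) := by
  set P : ℝ → ℝ := fun H => (lam * x + mu * y) * ((al - s * H) * (be - t * H)) -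
    H * (lam * (1 - s ^ 2) * (be - t * H) + mu * (1 - t ^ 2) * (al - s * H)) with hP
  have hPeq : ∀ H, P H = lam * (be - t * H) * Ds * (al * x / Ds - H) +
      mu * (al - s * H) * Dt * (be * y / Dt - H) := by
    intro H
    have e1 : Ds * (al * x / Ds - H) = al * x - H * Ds := by field_simp
    have e2 : Dt * (be * y / Dt - H) = be * y - H * Dt := by field_simp
    rw [mul_assoc (lam * (be - t * H)), mul_assoc (mu * (al - s * H)), e1, e2, hDs, hDt]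
    simp only [hP]
    ring
  have hPc : Continuous P := by
    simp only [hP]; fun_prop
  set H1 := al * x / Ds
  set H2 := be * y / Dt
  have hsign1 : 0 ≤ P (min H1 H2) := by
    have p := hpos (min H1 H2) (le_min h1lo h2lo) ((min_le_left _ _).trans h1hi)
    rw [hPeq]
    have q1 : 0 ≤ H1 - min H1 H2 := sub_nonneg.2 (min_le_left _ _)
    have q2 : 0 ≤ H2 - min H1 H2 := sub_nonneg.2 (min_le_right _ _)
    have r1 : 0 ≤ lam * (be - t * min H1 H2) * Ds :=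
      (mul_pos (mul_pos hlam p.2) pDs).le
    have r2 : 0 ≤ mu * (al - s * min H1 H2) * Dt :=
      (mul_pos (mul_pos hmu p.1) pDt).le
    exact add_nonneg (mul_nonneg r1 q1) (mul_nonneg r2 q2)
  have hsign2 : P (max H1 H2) ≤ 0 := by
    have p := hpos (max H1 H2) (h1lo.trans (le_max_left _ _)) (max_le h1hi h2hi)
    rw [hPeq]
    have q1 : 0 ≤ max H1 H2 - H1 := sub_nonneg.2 (le_max_left _ _)
    have q2 : 0 ≤ max H1 H2 - H2 := sub_nonneg.2 (le_max_right _ _)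
    have r1 : 0 ≤ lam * (be - t * max H1 H2) * Ds :=
      (mul_pos (mul_pos hlam p.2) pDs).le
    have r2 : 0 ≤ mu * (al - s * max H1 H2) * Dt :=
      (mul_pos (mul_pos hmu p.1) pDt).le
    have r3 := mul_nonneg r1 q1
    have r4 := mul_nonneg r2 q2
    linarith
  have hmem : (0 : ℝ) ∈ P '' Set.Icc (min H1 H2) (max H1 H2) :=
    intermediate_value_Icc' min_le_max hPc.continuousOn ⟨hsign2, hsign1⟩
  obtain ⟨H, hH, hPH⟩ := hmem
  refine ⟨H, (le_min h1lo h2lo).trans hH.1, hH.2.trans (max_le h1hi h2hi), ?_⟩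
  simp only [hP] at hPH
  linarith

/-! ### feasibility bounds -/

lemma feas_x {ρ s σ x : ℝ} (hx : x = (s - σ) / 2) (hF : Feas ρ s σ) :
    (1 - ρ) * x ≤ ρ * (1 - s) ∧ (1 + ρ) * x ≤ ρ * (1 + s) ∧
      -((1 - ρ) * x) ≤ ρ * (1 + s) ∧ -((1 + ρ) * x) ≤ ρ * (1 - s) := by
  obtain ⟨h1, h2⟩ := hF
  rw [abs_le] at h1 h2
  refine ⟨?_, ?_, ?_, ?_⟩ <;> rw [hx] <;> nlinarith [h1.1, h1.2, h2.1, h2.2]

lemma D_pos {ρ s x : ℝ} (h0 : 0 < ρ) (h1 : ρ < 1) (hs : |s| < 1)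
    (hp : (1 + ρ) * x ≤ ρ * (1 + s)) (hm : -((1 + ρ) * x) ≤ ρ * (1 - s)) :
    0 < 1 - s ^ 2 + s * x := by
  obtain ⟨s1, s2⟩ := abs_lt.1 hs
  have h3 : 0 < (1 + ρ) * (1 - s ^ 2 + s * x) := by
    rcases le_total 0 s with hs0 | hs0
    · have h4 : 0 ≤ s * ((1 + ρ) * x + ρ * (1 - s)) := mul_nonneg hs0 (by linarith)
      have h5 : (1 + ρ) * (1 - s ^ 2 + s * x) =
          s * ((1 + ρ) * x + ρ * (1 - s)) + (1 - s) * ((1 + ρ) * (1 + s) - ρ * s) := by ring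
      rw [h5]
      have h6 : 0 < (1 - s) * ((1 + ρ) * (1 + s) - ρ * s) := by
        apply mul_pos (by linarith)
        nlinarith
      linarith
    · have h4 : 0 ≤ (-s) * (ρ * (1 + s) - (1 + ρ) * x) := mul_nonneg (by linarith) (by linarith)
      have h5 : (1 + ρ) * (1 - s ^ 2 + s * x) =
          (-s) * (ρ * (1 + s) - (1 + ρ) * x) + (1 + s) * ((1 + ρ) * (1 - s) + ρ * s) := by ring
      rw [h5]
      have h6 : 0 < (1 + s) * ((1 + ρ) * (1 - s) + ρ * s) := by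
        apply mul_pos (by linarith)
        nlinarith
      linarith
  by_contra hcon
  push Not at hcon
  have := mul_nonpos_of_nonneg_of_nonpos (show 0 ≤ 1 + ρ by linarith) hcon
  linarith

/-- upper bound for `al h_s` -/
lemma h_upper {ρ s x al G : ℝ} (h0 : 0 < ρ) (hs : |s| < 1) (hal : 0 < al)
    (hG : 0 ≤ G) (pD : 0 < 1 - s ^ 2 + s * x)
    (hq : (1 - ρ) * x ≤ ρ * (1 - s)) (hp : (1 + ρ) * x ≤ ρ * (1 + s))
    (hGs : al * ρ ≤ G * (1 + ρ - s) ∨ al * ρ ≤ G * (1 - ρ + s)) :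
    al * x / (1 - s ^ 2 + s * x) ≤ G := by
  obtain ⟨s1, s2⟩ := abs_lt.1 hs
  rw [div_le_iff₀ pD]
  rcases le_total x 0 with hx | hx
  · have : al * x ≤ 0 := mul_nonpos_of_nonneg_of_nonpos hal.le hx
    have := mul_nonneg hG pD.le
    linarith
  · have hal' : 0 < al * ρ := mul_pos hal h0
    rcases hGs with h | h
    · have hm : 0 < 1 + ρ - s := by linarith
      have e : x * (1 + ρ - s) ≤ ρ * (1 - s ^ 2 + s * x) := by
        have := mul_le_mul_of_nonneg_right hp (show 0 ≤ 1 - s by linarith)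
        nlinarith
      have e2 : al * x * (1 + ρ - s) ≤ G * (1 - s ^ 2 + s * x) * (1 + ρ - s) := by
        have f1 := mul_le_mul_of_nonneg_left e hal.le
        have f2 := mul_le_mul_of_nonneg_right h pD.le
        nlinarith
      exact le_of_mul_le_mul_right e2 hm
    · have hm : 0 < 1 - ρ + s := by
        by_contra hcon
        push Not at hcon
        have := mul_nonpos_of_nonneg_of_nonpos hG hcon
        linarith
      have e : x * (1 - ρ + s) ≤ ρ * (1 - s ^ 2 + s * x) := by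
        have := mul_le_mul_of_nonneg_right hq (show 0 ≤ 1 + s by linarith)
        nlinarith
      have e2 : al * x * (1 - ρ + s) ≤ G * (1 - s ^ 2 + s * x) * (1 - ρ + s) := by
        have f1 := mul_le_mul_of_nonneg_left e hal.le
        have f2 := mul_le_mul_of_nonneg_right h pD.le
        nlinarith
      exact le_of_mul_le_mul_right e2 hm

/-- lower bound for `al h_s` -/
lemma h_lower {ρ s x al G : ℝ} (h0 : 0 < ρ) (hs : |s| < 1) (hal : 0 < al)
    (hG : 0 ≤ G) (pD : 0 < 1 - s ^ 2 + s * x)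
    (hq : -((1 - ρ) * x) ≤ ρ * (1 + s)) (hp : -((1 + ρ) * x) ≤ ρ * (1 - s))
    (hGs : al * ρ ≤ G * (1 + ρ + s) ∨ al * ρ ≤ G * (1 - ρ - s)) :
    -G ≤ al * x / (1 - s ^ 2 + s * x) := by
  have h := h_upper (s := -s) (x := -x) (G := G) (al := al) h0 (by rwa [abs_neg]) hal hG
    (by nlinarith) (by linarith) (by linarith) (by
      rcases hGs with h | h
      · left; linarith
      · right; linarith)
  have e : al * -x / (1 - (-s) ^ 2 + -s * -x) = -(al * x / (1 - s ^ 2 + s * x)) := by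
    have : 1 - (-s) ^ 2 + -s * -x = 1 - s ^ 2 + s * x := by ring
    rw [this]; ring
  rw [e] at h
  linarith

/-! ### the step for one pair `(s,t)` -/

/-- `StepR ρ om Ψ` at one pair `(s,t)` -/
def PairStep (ρ s t : ℝ) (Ψ : ℝ → ℝ) : Prop :=
  ∃ A B : ℝ, 0 ≤ A ∧ 0 ≤ B ∧
    (∀ σ τ, |σ| ≤ 1 → |τ| ≤ 1 → Feas ρ s σ → Feas ρ t τ →
      |(1 + ρ) / 2 * (s - σ) + (1 - ρ) / 2 * (t - τ)| ≤ ρ * |s - t| →
      om ((1 + ρ) / 2 * s + (1 - ρ) / 2 * t) ((1 + ρ) / 2 * σ + (1 - ρ) / 2 * τ) ≤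
        A * om s σ + B * om t τ) ∧
    A * Ψ s + B * Ψ t +
      om ((1 + ρ) / 2 * s + (1 - ρ) / 2 * t) ((1 + ρ) / 2 * t + (1 - ρ) / 2 * s) ≤
      Ψ ((1 + ρ) / 2 * s + (1 - ρ) / 2 * t)

lemma stepR_of_pairs {ρ : ℝ} {Ψ : ℝ → ℝ}
    (H : ∀ s t : ℝ, |s| ≤ 1 → |t| ≤ 1 → PairStep ρ s t Ψ) : StepR ρ om Ψ := H

lemma ph_neg' (g : ℝ) : ph (-g) = ph g := by unfold ph; rw [neg_sq]

lemma om_neg (g g' : ℝ) : om (-g) (-g') = om g g' := by
  unfold om
  rw [ph_neg']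
  congr 1
  · ring
  · ring

lemma Feas.neg' {ρ g g' : ℝ} (h : Feas ρ g g') : Feas ρ (-g) (-g') := by
  obtain ⟨h1, h2⟩ := h
  refine ⟨?_, ?_⟩
  · have : (1 + ρ) * -g - (1 - ρ) * -g' = -((1 + ρ) * g - (1 - ρ) * g') := by ring
    rw [this, abs_neg]; exact h1
  · have : (1 + ρ) * -g' - (1 - ρ) * -g = -((1 + ρ) * g' - (1 - ρ) * g) := by ring
    rw [this, abs_neg]; exact h2

/-- symmetry -/
lemma pairStep_symm {ρ s t : ℝ} {Ψ : ℝ → ℝ} (hΨ : ∀ g, Ψ (-g) = Ψ g)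
    (H : PairStep ρ (-s) (-t) Ψ) : PairStep ρ s t Ψ := by
  obtain ⟨A, B, hA, hB, h1, h2⟩ := H
  refine ⟨A, B, hA, hB, ?_, ?_⟩
  · intro σ τ hσ hτ hF hF' hr
    have := h1 (-σ) (-τ) (by rwa [abs_neg]) (by rwa [abs_neg]) (Feas.neg' hF) (Feas.neg' hF') (by
      have e1 : (1 + ρ) / 2 * (-s - -σ) + (1 - ρ) / 2 * (-t - -τ) =
        -((1 + ρ) / 2 * (s - σ) + (1 - ρ) / 2 * (t - τ)) := by ring
      have e2 : -s - -t = -(s - t) := by ring
      rw [e1, e2, abs_neg, abs_neg]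
      exact hr)
    have e1 : (1 + ρ) / 2 * -s + (1 - ρ) / 2 * -t = -((1 + ρ) / 2 * s + (1 - ρ) / 2 * t) := by
      ring
    have e2 : (1 + ρ) / 2 * -σ + (1 - ρ) / 2 * -τ = -((1 + ρ) / 2 * σ + (1 - ρ) / 2 * τ) := by
      ring
    rw [e1, e2, om_neg, om_neg, om_neg] at this
    exact this
  · have e1 : (1 + ρ) / 2 * -s + (1 - ρ) / 2 * -t = -((1 + ρ) / 2 * s + (1 - ρ) / 2 * t) := by
      ring
    have e2 : (1 + ρ) / 2 * -t + (1 - ρ) / 2 * -s = -((1 + ρ) / 2 * t + (1 - ρ) / 2 * s) := by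
      ring
    rw [e1, e2, om_neg, hΨ, hΨ, hΨ] at h2
    exact h2

/-- feasibility of the scaled influence `x = (s-σ)/2` -/
def FX (ρ s x : ℝ) : Prop :=
  (1 - ρ) * x ≤ ρ * (1 - s) ∧ (1 + ρ) * x ≤ ρ * (1 + s) ∧
      -((1 - ρ) * x) ≤ ρ * (1 + s) ∧ -((1 + ρ) * x) ≤ ρ * (1 - s)

lemma FX.of_feas {ρ s σ : ℝ} (hF : Feas ρ s σ) : FX ρ s ((s - σ) / 2) := feas_x rfl hF

lemma FX.eq_zero {ρ s x : ℝ} (h0 : 0 < ρ) (h1 : ρ < 1) (h : FX ρ s x) (hs : ph s = 0)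
    (hs1 : |s| ≤ 1) : x = 0 := by
  obtain ⟨a, b, c, d⟩ := h
  have h2 := ph_sq hs1
  rw [hs] at h2
  have h3 : (1 - s) * (1 + s) = 0 := by nlinarith
  rcases mul_eq_zero.1 h3 with h4 | h4
  · rw [h4] at a d
    have e1 : x ≤ 0 := by
      by_contra hcon
      push Not at hcon
      have := mul_pos (show 0 < 1 - ρ by linarith) hcon
      linarith
    have e2 : 0 ≤ x := by
      by_contra hcon
      push Not at hcon
      have := mul_neg_of_pos_of_neg (show 0 < 1 + ρ by linarith) hcon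
      linarith
    exact le_antisymm e1 e2
  · rw [h4] at b c
    have e1 : x ≤ 0 := by
      by_contra hcon
      push Not at hcon
      have := mul_pos (show 0 < 1 + ρ by linarith) hcon
      linarith
    have e2 : 0 ≤ x := by
      by_contra hcon
      push Not at hcon
      have := mul_neg_of_pos_of_neg (show 0 < 1 - ρ by linarith) hcon
      linarith
    exact le_antisymm e1 e2

lemma om_eq {g g' x : ℝ} (hx : x = (g - g') / 2) :
    om g g' = x ^ 2 / (ph g * (1 - g ^ 2 + g * x)) := by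
  unfold om
  have e1 : (g - g') ^ 2 = 4 * x ^ 2 := by rw [hx]; ring
  have e2 : 2 * ph g * (2 - g ^ 2 - g * g') = 4 * (ph g * (1 - g ^ 2 + g * x)) := by
    rw [hx]; ring
  rw [e1, e2, mul_div_mul_left _ _ (by norm_num)]

lemma ph_mul_om {ρ s σ x : ℝ} (h0 : 0 < ρ) (h1 : ρ < 1) (hs : |s| ≤ 1) (hx : x = (s - σ) / 2)
    (hF : FX ρ s x) : ph s * om s σ = x ^ 2 / (1 - s ^ 2 + s * x) := by
  rw [om_eq hx]
  by_cases h : ph s = 0
  · have := hF.eq_zero h0 h1 h hs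
    rw [h, this]; simp
  · rw [← mul_div_assoc, mul_div_mul_left _ _ h]

lemma div_split (a p q : ℝ) : a / (p * q) = 1 / p * (a / q) := by
  rw [div_mul_div_comm, one_mul]

/-- the step from the inequality for the rational kernels `K` -/
lemma pairStep_of_K {ρ s t al be : ℝ} {Ψ : ℝ → ℝ} (h0 : 0 < ρ) (h1 : ρ < 1) (hs : |s| ≤ 1)
    (ht : |t| ≤ 1) (hal : 0 ≤ al) (hbe : 0 ≤ be)
    (hg : 0 < ph ((1 + ρ) / 2 * s + (1 - ρ) / 2 * t))
    (hK : ∀ x y, FX ρ s x → FX ρ t y →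
      |(1 + ρ) / 2 * x + (1 - ρ) / 2 * y| ≤ ρ * |s - t| / 2 →
      ((1 + ρ) / 2 * x + (1 - ρ) / 2 * y) ^ 2 /
        (1 - ((1 + ρ) / 2 * s + (1 - ρ) / 2 * t) ^ 2 +
          ((1 + ρ) / 2 * s + (1 - ρ) / 2 * t) * ((1 + ρ) / 2 * x + (1 - ρ) / 2 * y)) ≤
      (1 + ρ) / 2 * al * (x ^ 2 / (1 - s ^ 2 + s * x)) +
        (1 - ρ) / 2 * be * (y ^ 2 / (1 - t ^ 2 + t * y)))
    (hii : (1 + ρ) / 2 * al * (ph s * Ψ s) + (1 - ρ) / 2 * be * (ph t * Ψ t) +
      (ρ * (s - t) / 2) ^ 2 / (1 - ((1 + ρ) / 2 * s + (1 - ρ) / 2 * t) ^ 2 +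
          ((1 + ρ) / 2 * s + (1 - ρ) / 2 * t) * (ρ * (s - t) / 2)) ≤
      ph ((1 + ρ) / 2 * s + (1 - ρ) / 2 * t) * Ψ ((1 + ρ) / 2 * s + (1 - ρ) / 2 * t)) :
    PairStep ρ s t Ψ := by
  set g := (1 + ρ) / 2 * s + (1 - ρ) / 2 * t with hgdef
  refine ⟨(1 + ρ) / 2 * al * (ph s / ph g), (1 - ρ) / 2 * be * (ph t / ph g), ?_, ?_, ?_, ?_⟩
  · have := ph_nonneg s
    have h2 : 0 ≤ (1 + ρ) / 2 := by linarith
    positivity
  · have := ph_nonneg t
    have h2 : 0 ≤ (1 - ρ) / 2 := by linarith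
    positivity
  · intro σ τ hσ hτ hF hF' hr
    have hx := FX.of_feas hF
    have hy := FX.of_feas hF'
    have e1 := ph_mul_om (x := (s - σ) / 2) h0 h1 hs rfl hx
    have e2 := ph_mul_om (x := (t - τ) / 2) h0 h1 ht rfl hy
    have hxg : (1 + ρ) / 2 * ((s - σ) / 2) + (1 - ρ) / 2 * ((t - τ) / 2) =
        (g - ((1 + ρ) / 2 * σ + (1 - ρ) / 2 * τ)) / 2 := by rw [hgdef]; ring
    have e3 := om_eq (g := g) (g' := (1 + ρ) / 2 * σ + (1 - ρ) / 2 * τ) hxg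
    have h3 := hK _ _ hx hy (by
      have : (1 + ρ) / 2 * ((s - σ) / 2) + (1 - ρ) / 2 * ((t - τ) / 2) =
        ((1 + ρ) / 2 * (s - σ) + (1 - ρ) / 2 * (t - τ)) / 2 := by ring
      rw [this, abs_div, abs_of_pos (show (0 : ℝ) < 2 by norm_num)]
      linarith)
    rw [← e1, ← e2] at h3
    rw [e3]
    rw [div_split]
    have h5 := mul_le_mul_of_nonneg_left h3 (show 0 ≤ 1 / ph g by positivity)
    refine h5.trans (le_of_eq ?_)
    ring
  · have hxg : ρ * (s - t) / 2 = (g - ((1 + ρ) / 2 * t + (1 - ρ) / 2 * s)) / 2 := by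
      rw [hgdef]; ring
    have e3 := om_eq (g := g) (g' := (1 + ρ) / 2 * t + (1 - ρ) / 2 * s) hxg
    rw [e3]
    rw [div_split]
    have h5 := mul_le_mul_of_nonneg_left hii (show 0 ≤ 1 / ph g by positivity)
    have h6 : 1 / ph g * (ph g * Ψ g) = Ψ g := by field_simp
    rw [h6] at h5
    refine le_trans (le_of_eq ?_) h5
    ring

/-- the degenerate pairs `s = t = ±1` -/
lemma pairStep_corner {ρ s t : ℝ} {Ψ : ℝ → ℝ} (h0 : 0 < ρ) (h1 : ρ < 1) (hs : |s| ≤ 1)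
    (ht : |t| ≤ 1) (hΨ : ∀ g, |g| ≤ 1 → 0 ≤ Ψ g)
    (hg : ph ((1 + ρ) / 2 * s + (1 - ρ) / 2 * t) = 0) : PairStep ρ s t Ψ := by
  obtain ⟨s1, s2⟩ := abs_le.1 hs
  obtain ⟨t1, t2⟩ := abs_le.1 ht
  set g := (1 + ρ) / 2 * s + (1 - ρ) / 2 * t with hgdef
  have hg1 : |g| ≤ 1 := by
    rw [abs_le, hgdef]
    constructor <;> nlinarith
  refine ⟨0, 0, le_rfl, le_rfl, ?_, ?_⟩
  · intro σ τ _ _ _ _ _
    unfold om
    rw [hg]; simp
  · have : om g ((1 + ρ) / 2 * t + (1 - ρ) / 2 * s) = 0 := by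
      unfold om; rw [hg]; simp
    rw [this]
    have := hΨ g hg1
    linarith

/-! ### the dictator-type choice `A = lam th`, `B = mu th` -/

lemma cauchy2 {lam mu Ds Dt x y : ℝ} (hlam : 0 ≤ lam) (hmu : 0 ≤ mu) (hDs : 0 ≤ Ds)
    (hDt : 0 ≤ Dt) (hx : Ds = 0 → x = 0) (hy : Dt = 0 → y = 0) :
    (lam * x + mu * y) ^ 2 ≤ (lam * Ds + mu * Dt) * (lam * (x ^ 2 / Ds) + mu * (y ^ 2 / Dt)) := by
  rcases hDs.eq_or_lt with h | h
  · have := hx h.symm
    rcases hDt.eq_or_lt with h' | h'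
    · have h'' := hy h'.symm
      rw [this, h'', ← h, ← h']
      simp
    · rw [← h, this]
      have e : (lam * 0 + mu * Dt) * (lam * (0 ^ 2 / 0) + mu * (y ^ 2 / Dt)) = (mu * y) ^ 2 := by
        have : Dt * (y ^ 2 / Dt) = y ^ 2 := by field_simp
        calc (lam * 0 + mu * Dt) * (lam * (0 ^ 2 / 0) + mu * (y ^ 2 / Dt))
            = mu ^ 2 * (Dt * (y ^ 2 / Dt)) := by simp; ring
          _ = (mu * y) ^ 2 := by rw [this]; ring
      rw [e]; simp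
  · rcases hDt.eq_or_lt with h' | h'
    · have := hy h'.symm
      rw [← h', this]
      have e : (lam * Ds + mu * 0) * (lam * (x ^ 2 / Ds) + mu * (0 ^ 2 / 0)) = (lam * x) ^ 2 := by
        have : Ds * (x ^ 2 / Ds) = x ^ 2 := by field_simp
        calc (lam * Ds + mu * 0) * (lam * (x ^ 2 / Ds) + mu * (0 ^ 2 / 0))
            = lam ^ 2 * (Ds * (x ^ 2 / Ds)) := by simp; ring
          _ = (lam * x) ^ 2 := by rw [this]; ring
      rw [e]; simp
    · have e : (lam * Ds + mu * Dt) * (lam * (x ^ 2 / Ds) + mu * (y ^ 2 / Dt)) -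
          (lam * x + mu * y) ^ 2 = lam * mu * (x * Dt - y * Ds) ^ 2 / (Ds * Dt) := by
        field_simp; ring
      have : 0 ≤ lam * mu * (x * Dt - y * Ds) ^ 2 / (Ds * Dt) := by positivity
      linarith

end Crest.Agent.R307.Elim
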