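import Crest.Agent.R307.Elim

/-!
Row 307 (S0471), flow route: the two-point step for the rational weight `om` in helper587's balanced
family (note 6127), reduced to scalar inequalities in `(s,t,ρ)`.
-/

set_option autoImplicit false

namespace Crest.Agent.R307.Elim

open Crest.Agent.R307.Flow

lemma FX.avg {ρ s t x y a b : ℝ} (h1 : FX ρ s x) (h2 : FX ρ t y) (ha : 0 ≤ a) (hb : 0 ≤ b)
    (hab : a + b = 1) : FX ρ (a * s + b * t) (a * x + b * y) := by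
  obtain ⟨p1, p2, p3, p4⟩ := h1
  obtain ⟨q1, q2, q3, q4⟩ := h2
  refine ⟨?_, ?_, ?_, ?_⟩
  · have := add_le_add (mul_le_mul_of_nonneg_left p1 ha) (mul_le_mul_of_nonneg_left q1 hb)
    nlinarith
  · have := add_le_add (mul_le_mul_of_nonneg_left p2 ha) (mul_le_mul_of_nonneg_left q2 hb)
    nlinarith
  · have := add_le_add (mul_le_mul_of_nonneg_left p3 ha) (mul_le_mul_of_nonneg_left q3 hb)
    nlinarith
  · have := add_le_add (mul_le_mul_of_nonneg_left p4 ha) (mul_le_mul_of_nonneg_left q4 hb)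
    nlinarith

lemma D_nonneg {ρ s x : ℝ} (h0 : 0 < ρ) (h1 : ρ < 1) (hs : |s| ≤ 1) (hF : FX ρ s x) :
    0 ≤ 1 - s ^ 2 + s * x ∧ (1 - s ^ 2 + s * x = 0 → x = 0) := by
  rcases hs.eq_or_lt with h | h
  · have h2 : s ^ 2 = 1 := by rw [← sq_abs, h]; norm_num
    have h3 : ph s = 0 := by unfold ph; rw [h2]; simp
    have h4 := hF.eq_zero h0 h1 h3 hs
    constructor
    · rw [h4, h2]; simp
    · intro _; exact h4
  · have := D_pos h0 h1 h hF.2.1 hF.2.2.2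
    exact ⟨this.le, fun h5 => absurd h5 this.ne'⟩

/-- the dictator-type choice -/
lemma K_dict {ρ s t th : ℝ} (h0 : 0 < ρ) (h1 : ρ < 1) (hs : |s| ≤ 1) (ht : |t| ≤ 1)
    (hth : 0 < th)
    (hbox : ∀ x y, FX ρ s x → FX ρ t y →
      (1 + ρ) / 2 * (1 - s ^ 2 + s * x) + (1 - ρ) / 2 * (1 - t ^ 2 + t * y) ≤
        th * (1 - ((1 + ρ) / 2 * s + (1 - ρ) / 2 * t) ^ 2 +
          ((1 + ρ) / 2 * s + (1 - ρ) / 2 * t) * ((1 + ρ) / 2 * x + (1 - ρ) / 2 * y))) :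
    ∀ x y, FX ρ s x → FX ρ t y →
      |(1 + ρ) / 2 * x + (1 - ρ) / 2 * y| ≤ ρ * |s - t| / 2 →
      ((1 + ρ) / 2 * x + (1 - ρ) / 2 * y) ^ 2 /
        (1 - ((1 + ρ) / 2 * s + (1 - ρ) / 2 * t) ^ 2 +
          ((1 + ρ) / 2 * s + (1 - ρ) / 2 * t) * ((1 + ρ) / 2 * x + (1 - ρ) / 2 * y)) ≤
      (1 + ρ) / 2 * th * (x ^ 2 / (1 - s ^ 2 + s * x)) +
        (1 - ρ) / 2 * th * (y ^ 2 / (1 - t ^ 2 + t * y)) := by
  intro x y hx hy _
  obtain ⟨a1, a2⟩ := D_nonneg h0 h1 hs hx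
  obtain ⟨b1, b2⟩ := D_nonneg h0 h1 ht hy
  have hb := hbox x y hx hy
  have hlam : 0 ≤ (1 + ρ) / 2 := by linarith
  have hmu : 0 ≤ (1 - ρ) / 2 := by linarith
  have hc := cauchy2 hlam hmu a1 b1 a2 b2
  set Ds := 1 - s ^ 2 + s * x
  set Dt := 1 - t ^ 2 + t * y
  set Dg := 1 - ((1 + ρ) / 2 * s + (1 - ρ) / 2 * t) ^ 2 +
    ((1 + ρ) / 2 * s + (1 - ρ) / 2 * t) * ((1 + ρ) / 2 * x + (1 - ρ) / 2 * y)
  have hR : 0 ≤ (1 + ρ) / 2 * (x ^ 2 / Ds) + (1 - ρ) / 2 * (y ^ 2 / Dt) := by positivity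
  have hDg : 0 ≤ Dg := by
    have h3 : 0 ≤ (1 + ρ) / 2 * Ds + (1 - ρ) / 2 * Dt := by positivity
    have h4 : 0 ≤ th * Dg := h3.trans hb
    exact nonneg_of_mul_nonneg_right h4 hth
  have e : (1 + ρ) / 2 * th * (x ^ 2 / Ds) + (1 - ρ) / 2 * th * (y ^ 2 / Dt) =
      th * ((1 + ρ) / 2 * (x ^ 2 / Ds) + (1 - ρ) / 2 * (y ^ 2 / Dt)) := by ring
  rw [e]
  rcases hDg.eq_or_lt with h | h
  · rw [← h, div_zero]
    positivity
  · rw [div_le_iff₀ h]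
    have := mul_le_mul_of_nonneg_right hb hR
    nlinarith

/-- scalar sufficient condition for the box hypothesis of `K_dict` (side `t ≤ th g ≤ s`). -/
lemma box_of_corner {ρ s t th : ℝ} (h0 : 0 < ρ) (h1 : ρ < 1)
    (h2 : th * ((1 + ρ) / 2 * s + (1 - ρ) / 2 * t) ≤ s)
    (h3 : t ≤ th * ((1 + ρ) / 2 * s + (1 - ρ) / 2 * t))
    (h4 : ρ * ((1 + ρ) / 2 * (s - th * ((1 + ρ) / 2 * s + (1 - ρ) / 2 * t)) * (1 - s) +
        (1 - ρ) / 2 * (th * ((1 + ρ) / 2 * s + (1 - ρ) / 2 * t) - t) * (1 + t)) ≤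
      (1 - ρ) * (th * (1 - ((1 + ρ) / 2 * s + (1 - ρ) / 2 * t) ^ 2) -
        (1 + ρ) / 2 * (1 - s ^ 2) - (1 - ρ) / 2 * (1 - t ^ 2))) :
    ∀ x y, FX ρ s x → FX ρ t y →
      (1 + ρ) / 2 * (1 - s ^ 2 + s * x) + (1 - ρ) / 2 * (1 - t ^ 2 + t * y) ≤
        th * (1 - ((1 + ρ) / 2 * s + (1 - ρ) / 2 * t) ^ 2 +
          ((1 + ρ) / 2 * s + (1 - ρ) / 2 * t) * ((1 + ρ) / 2 * x + (1 - ρ) / 2 * y)) := by
  intro x y hx hy
  set g := (1 + ρ) / 2 * s + (1 - ρ) / 2 * t with hg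
  have p1 := hx.1
  have p2 := hy.2.2.1
  have q1 := mul_le_mul_of_nonneg_left p1
    (show 0 ≤ (1 + ρ) / 2 * (s - th * g) from mul_nonneg (by linarith) (by linarith))
  have q2 := mul_le_mul_of_nonneg_left p2
    (show 0 ≤ (1 - ρ) / 2 * (th * g - t) from mul_nonneg (by linarith) (by linarith))
  have h5 : (1 - ρ) * ((1 + ρ) / 2 * (1 - s ^ 2 + s * x) + (1 - ρ) / 2 * (1 - t ^ 2 + t * y)) ≤
      (1 - ρ) * (th * (1 - g ^ 2 + g * ((1 + ρ) / 2 * x + (1 - ρ) / 2 * y))) := by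
    nlinarith
  exact le_of_mul_le_mul_left h5 (by linarith)

lemma frac_id {A B H a b : ℝ} (ha : a ≠ 0) (hb : b ≠ 0) :
    (A * (H / a) + B * (H / b)) * (a * b) = H * (A * b + B * a) := by
  field_simp

/-- monotonicity of `H ↦ x_g` -/
lemma H_le_of_Xi {lam mu ws wt al be s t H H' : ℝ} (hlam : 0 < lam) (hmu : 0 < mu)
    (hws : 0 < ws) (hwt : 0 < wt) (hal : 0 < al) (hbe : 0 < be)
    (pa : 0 < al - s * H) (pb : 0 < be - t * H) (pa' : 0 < al - s * H') (pb' : 0 < be - t * H')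
    {c c' : ℝ} (hcc : c ≤ c')
    (hH : c * ((al - s * H) * (be - t * H)) =
      H * (lam * ws * (be - t * H) + mu * wt * (al - s * H)))
    (hH' : c' * ((al - s * H') * (be - t * H')) ≤
      H' * (lam * ws * (be - t * H') + mu * wt * (al - s * H'))) : H ≤ H' := by
  by_contra hcon
  push Not at hcon
  have e1 : c = lam * ws * (H / (al - s * H)) + mu * wt * (H / (be - t * H)) := by
    have : (lam * ws * (H / (al - s * H)) + mu * wt * (H / (be - t * H))) *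
        ((al - s * H) * (be - t * H)) =
        H * (lam * ws * (be - t * H) + mu * wt * (al - s * H)) := frac_id pa.ne' pb.ne'
    rw [← hH] at this
    exact (mul_right_cancel₀ (mul_pos pa pb).ne' this).symm
  have e2 : c' ≤ lam * ws * (H' / (al - s * H')) + mu * wt * (H' / (be - t * H')) := by
    have : (lam * ws * (H' / (al - s * H')) + mu * wt * (H' / (be - t * H'))) *
        ((al - s * H') * (be - t * H')) =
        H' * (lam * ws * (be - t * H') + mu * wt * (al - s * H')) := frac_id pa'.ne' pb'.ne'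
    rw [← this] at hH'
    exact le_of_mul_le_mul_right hH' (mul_pos pa' pb')
  have f1 : H' / (al - s * H') < H / (al - s * H) := by
    rw [div_lt_div_iff₀ pa' pa]
    nlinarith
  have f2 : H' / (be - t * H') < H / (be - t * H) := by
    rw [div_lt_div_iff₀ pb' pb]
    nlinarith
  have g1 := mul_lt_mul_of_pos_left f1 (mul_pos hlam hws)
  have g2 := mul_lt_mul_of_pos_left f2 (mul_pos hmu hwt)
  linarith

/-- balanced family: `N = z (n₀ - H²)` -/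
lemma balanced_N {lam mu s t k H : ℝ} (hsum : lam + mu = 1) :
    (1 - (lam * s + mu * t) ^ 2) *
        (((1 - k * mu * (s - t) / 2 * ((s - t) + (lam * s + mu * t) * (1 - s * t))) - s * H) *
        ((1 - k * lam * (s - t) / 2 * ((s - t) - (lam * s + mu * t) * (1 - s * t))) - t * H)) -
      (1 - (lam * s + mu * t) * H) * (lam * (1 - s ^ 2) *
        ((1 - k * lam * (s - t) / 2 * ((s - t) - (lam * s + mu * t) * (1 - s * t))) - t * H) +
        mu * (1 - t ^ 2) *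
        ((1 - k * mu * (s - t) / 2 * ((s - t) + (lam * s + mu * t) * (1 - s * t))) - s * H)) =
    lam * mu * (s - t) ^ 2 * ((1 - k * (1 - (lam * s + mu * t) ^ 2) * (1 - s * t) / 2) ^ 2 -
      k ^ 2 / 4 * (1 - (lam * s + mu * t) ^ 2) * (1 - s ^ 2) * (1 - t ^ 2) - H ^ 2) := by
  have h : mu = 1 - lam := by linarith
  subst h
  ring

/-- balanced family: `be s - al t = d ε₁` -/
lemma balanced_e {lam mu s t k : ℝ} (hsum : lam + mu = 1) :
    (1 - k * lam * (s - t) / 2 * ((s - t) - (lam * s + mu * t) * (1 - s * t))) * s -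
      (1 - k * mu * (s - t) / 2 * ((s - t) + (lam * s + mu * t) * (1 - s * t))) * t =
    (s - t) * (1 - k / 2 * (lam * mu * (s - t) ^ 2 - s * t * (1 - (lam * s + mu * t) ^ 2))) := by
  have h : mu = 1 - lam := by linarith
  subst h
  ring

/-- the side condition at the endpoint `H₀` implies the discriminant inequality at `H`. -/
lemma disc_of_end {lam mu d xg eps Θ Dg Dbar P n0 H H0 : ℝ} (hlam : 0 < lam) (hmu : 0 < mu)
    (hΘ : 0 < Θ) (hP : 0 < P) (hDg : 0 < Dg) (hDbar : Dg ≤ Dbar)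
    (hHH : H ^ 2 ≤ H0 ^ 2) (hx : xg ^ 2 ≤ H ^ 2 * Dg ^ 2)
    (hend : eps ^ 2 * Dbar * H0 ^ 2 ≤ 4 * Θ * P * (n0 - H0 ^ 2)) :
    lam * mu * (xg ^ 2 * (d * eps) ^ 2) ≤
      4 * (Θ * Dg) * (P * (lam * mu * d ^ 2 * (n0 - H ^ 2))) := by
  have hDb : 0 < Dbar := lt_of_lt_of_le hDg hDbar
  have h1 : eps ^ 2 * Dbar * H ^ 2 ≤ 4 * Θ * P * (n0 - H ^ 2) := by
    have a1 : eps ^ 2 * Dbar * H ^ 2 ≤ eps ^ 2 * Dbar * H0 ^ 2 :=
      mul_le_mul_of_nonneg_left hHH (by positivity)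
    have a2 : 4 * Θ * P * (n0 - H0 ^ 2) ≤ 4 * Θ * P * (n0 - H ^ 2) :=
      mul_le_mul_of_nonneg_left (by linarith) (by positivity)
    linarith
  have h2 : xg ^ 2 * eps ^ 2 ≤ Dg * (4 * Θ * P * (n0 - H ^ 2)) := by
    calc xg ^ 2 * eps ^ 2 ≤ H ^ 2 * Dg ^ 2 * eps ^ 2 :=
          mul_le_mul_of_nonneg_right hx (sq_nonneg _)
      _ = Dg * (eps ^ 2 * Dg * H ^ 2) := by ring
      _ ≤ Dg * (eps ^ 2 * Dbar * H ^ 2) := by
          refine mul_le_mul_of_nonneg_left ?_ hDg.le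
          have : 0 ≤ eps ^ 2 * H ^ 2 := by positivity
          nlinarith
      _ ≤ _ := mul_le_mul_of_nonneg_left h1 hDg.le
  have h3 := mul_le_mul_of_nonneg_left h2 (show 0 ≤ lam * mu * d ^ 2 by positivity)
  calc lam * mu * (xg ^ 2 * (d * eps) ^ 2) = lam * mu * d ^ 2 * (xg ^ 2 * eps ^ 2) := by ring
    _ ≤ _ := h3
    _ = _ := by ring

lemma one_sub_sq_pos {s : ℝ} (hs : |s| < 1) : 0 < 1 - s ^ 2 := by
  obtain ⟨s1, s2⟩ := abs_lt.1 hs
  nlinarith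

lemma abs_conv_lt {lam mu s t : ℝ} (hlam : 0 < lam) (hmu : 0 < mu) (hsum : lam + mu = 1)
    (hs : |s| < 1) (ht : |t| < 1) : |lam * s + mu * t| < 1 := by
  obtain ⟨s1, s2⟩ := abs_lt.1 hs
  obtain ⟨t1, t2⟩ := abs_lt.1 ht
  have a1 := mul_lt_mul_of_pos_left s1 hlam
  have a2 := mul_lt_mul_of_pos_left s2 hlam
  have a3 := mul_lt_mul_of_pos_left t1 hmu
  have a4 := mul_lt_mul_of_pos_left t2 hmu
  rw [abs_lt]
  constructor <;> linarith

/-- the K-inequality in the balanced family -/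
theorem K_elim {ρ s t k lam mu g d al be n0 eps G1 G2 H1 H2 Θ1 Θ2 Dbar1 Dbar2 : ℝ}
    (h0 : 0 < ρ) (h1 : ρ < 1) (hs : |s| < 1) (ht : |t| < 1)
    (hlamd : lam = (1 + ρ) / 2) (hmud : mu = (1 - ρ) / 2) (hgd : g = lam * s + mu * t)
    (hdd : d = s - t)
    (hald : al = 1 - k * mu * d / 2 * (d + g * (1 - s * t)))
    (hbed : be = 1 - k * lam * d / 2 * (d - g * (1 - s * t)))
    (hn0 : n0 = (1 - k * (1 - g ^ 2) * (1 - s * t) / 2) ^ 2 -
      k ^ 2 / 4 * (1 - g ^ 2) * (1 - s ^ 2) * (1 - t ^ 2))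
    (heps : eps = 1 - k / 2 * (lam * mu * d ^ 2 - s * t * (1 - g ^ 2)))
    (hal : 0 < al) (hbe : 0 < be) (hG1 : 0 ≤ G1) (hG2 : 0 ≤ G2)
    -- box bounds
    (b1 : al * ρ ≤ G2 * (1 + ρ - s) ∨ al * ρ ≤ G2 * (1 - ρ + s))
    (b2 : be * ρ ≤ G2 * (1 + ρ - t) ∨ be * ρ ≤ G2 * (1 - ρ + t))
    (b3 : al * ρ ≤ G1 * (1 + ρ + s) ∨ al * ρ ≤ G1 * (1 - ρ - s))
    (b4 : be * ρ ≤ G1 * (1 + ρ + t) ∨ be * ρ ≤ G1 * (1 - ρ - t))
    -- positivity at the end points of the box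
    (p1 : 0 < al - s * G2) (p2 : 0 < be - t * G2) (p3 : 0 < al + s * G1) (p4 : 0 < be + t * G1)
    -- the bounds for the proportional point
    (c2 : G2 ≤ H2 ∨ (0 < al - s * H2 ∧ 0 < be - t * H2 ∧
      ρ * |d| / 2 * ((al - s * H2) * (be - t * H2)) ≤
        H2 * (lam * (1 - s ^ 2) * (be - t * H2) + mu * (1 - t ^ 2) * (al - s * H2))))
    (c1 : G1 ≤ H1 ∨ (0 < al + s * H1 ∧ 0 < be + t * H1 ∧
      ρ * |d| / 2 * ((al + s * H1) * (be + t * H1)) ≤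
        H1 * (lam * (1 - s ^ 2) * (be + t * H1) + mu * (1 - t ^ 2) * (al + s * H1))))
    (hΘ1 : 0 < Θ1) (hΘ2 : 0 < Θ2)
    (hX2 : ∀ x y H, FX ρ s x → FX ρ t y → 0 ≤ H → H ≤ H2 → H ≤ G2 →
      Θ2 * (((1 - s ^ 2 + s * x) * (be - t * H)) * ((1 - t ^ 2 + t * y) * (al - s * H))) ≤
      (lam * ((1 - s ^ 2 + s * x) * (be - t * H)) + mu * ((1 - t ^ 2 + t * y) * (al - s * H))) ^ 2)
    (hX1 : ∀ x y H, FX ρ s x → FX ρ t y → H ≤ 0 → -H1 ≤ H → -G1 ≤ H →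
      Θ1 * (((1 - s ^ 2 + s * x) * (be - t * H)) * ((1 - t ^ 2 + t * y) * (al - s * H))) ≤
      (lam * ((1 - s ^ 2 + s * x) * (be - t * H)) + mu * ((1 - t ^ 2 + t * y) * (al - s * H))) ^ 2)
    (e1 : 1 - g ^ 2 ≤ Dbar1) (e2 : 1 - g ^ 2 - g * (ρ * |d| / 2) ≤ Dbar1)
    (e3 : 1 - g ^ 2 ≤ Dbar2) (e4 : 1 - g ^ 2 + g * (ρ * |d| / 2) ≤ Dbar2)
    (f1 : eps ^ 2 * Dbar1 * H1 ^ 2 ≤ 4 * Θ1 * (al * be) * (n0 - H1 ^ 2))
    (f2 : eps ^ 2 * Dbar2 * H2 ^ 2 ≤ 4 * Θ2 * (al * be) * (n0 - H2 ^ 2)) :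
    ∀ x y, FX ρ s x → FX ρ t y → |lam * x + mu * y| ≤ ρ * |d| / 2 →
      (lam * x + mu * y) ^ 2 / (1 - g ^ 2 + g * (lam * x + mu * y)) ≤
      lam * al * (x ^ 2 / (1 - s ^ 2 + s * x)) + mu * be * (y ^ 2 / (1 - t ^ 2 + t * y)) := by
  intro x y hx hy hxy
  have hlam : 0 < lam := by rw [hlamd]; linarith
  have hmu : 0 < mu := by rw [hmud]; linarith
  have hsum : lam + mu = 1 := by rw [hlamd, hmud]; ring
  have pDs := D_pos h0 h1 hs hx.2.1 hx.2.2.2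
  have pDt := D_pos h0 h1 ht hy.2.1 hy.2.2.2
  have hxg := FX.avg hx hy hlam.le hmu.le hsum
  rw [← hgd] at hxg
  have hg : |g| < 1 := by
    rw [hgd]; exact abs_conv_lt hlam hmu hsum hs ht
  have pDg := D_pos h0 h1 hg hxg.2.1 hxg.2.2.2
  have hws : 0 < 1 - s ^ 2 := one_sub_sq_pos hs
  have hwt : 0 < 1 - t ^ 2 := one_sub_sq_pos ht
  -- positivity on the box
  have hpos : ∀ H, -G1 ≤ H → H ≤ G2 → 0 < al - s * H ∧ 0 < be - t * H := by
    intro H hl hh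
    constructor
    · rcases le_total 0 s with hs0 | hs0
      · linarith [mul_le_mul_of_nonneg_left hh hs0]
      · linarith [mul_le_mul_of_nonneg_left hl (neg_nonneg.2 hs0)]
    · rcases le_total 0 t with ht0 | ht0
      · linarith [mul_le_mul_of_nonneg_left hh ht0]
      · linarith [mul_le_mul_of_nonneg_left hl (neg_nonneg.2 ht0)]
  obtain ⟨H, hlo, hhi, hH⟩ := exists_H (lam := lam) (mu := mu) (s := s) (t := t) (al := al)
    (be := be) (x := x) (y := y) (lo := -G1) (hi := G2) hlam hmu rfl rfl pDs pDt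
    (h_lower h0 hs hal hG1 pDs hx.2.2.1 hx.2.2.2 b3)
    (h_upper h0 hs hal hG2 pDs hx.1 hx.2.1 b1)
    (h_lower h0 ht hbe hG1 pDt hy.2.2.1 hy.2.2.2 b4)
    (h_upper h0 ht hbe hG2 pDt hy.1 hy.2.1 b2) hpos
  obtain ⟨pa, pb⟩ := hpos H hlo hhi
  set xg := lam * x + mu * y with hxgd
  set Lp := lam * (1 - s ^ 2) * (be - t * H) + mu * (1 - t ^ 2) * (al - s * H) with hLp
  have pL : 0 < Lp := by rw [hLp]; positivity
  have pab : 0 < (al - s * H) * (be - t * H) := mul_pos pa pb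
  obtain ⟨hx1, hx2⟩ := abs_le.1 hxy
  have hN := balanced_N (lam := lam) (mu := mu) (s := s) (t := t) (k := k) (H := H) hsum
  rw [← hgd, ← hdd, ← hald, ← hbed, ← hn0] at hN
  have he := balanced_e (lam := lam) (mu := mu) (s := s) (t := t) (k := k) hsum
  rw [← hgd, ← hdd, ← hald, ← hbed, ← heps] at he
  -- common end
  have main : ∀ Θ Dbar H0 : ℝ, 0 < Θ → 1 - g ^ 2 + g * xg ≤ Dbar → H ^ 2 ≤ H0 ^ 2 →
      Θ * (((1 - s ^ 2 + s * x) * (be - t * H)) * ((1 - t ^ 2 + t * y) * (al - s * H))) ≤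
        (lam * ((1 - s ^ 2 + s * x) * (be - t * H)) +
          mu * ((1 - t ^ 2 + t * y) * (al - s * H))) ^ 2 →
      eps ^ 2 * Dbar * H0 ^ 2 ≤ 4 * Θ * (al * be) * (n0 - H0 ^ 2) →
      xg ^ 2 / (1 - g ^ 2 + g * xg) ≤
      lam * al * (x ^ 2 / (1 - s ^ 2 + s * x)) + mu * be * (y ^ 2 / (1 - t ^ 2 + t * y)) := by
    intro Θ Dbar H0 hΘ hDb hHH hX hend
    have hDbpos : 0 < Dbar := lt_of_lt_of_le pDg hDb
    -- `n₀ - H² ≥ 0`
    have hn : 0 ≤ n0 - H ^ 2 := by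
      have a1 : 0 ≤ 4 * Θ * (al * be) * (n0 - H0 ^ 2) := le_trans (by positivity) hend
      have a2 : 0 ≤ n0 - H0 ^ 2 := nonneg_of_mul_nonneg_right a1 (by positivity)
      linarith
    have hNn : 0 ≤ (1 - g ^ 2) * ((al - s * H) * (be - t * H)) - (1 - g * H) * Lp := by
      rw [hN]
      exact mul_nonneg (by positivity) hn
    -- `L ≤ D_g`
    have hLD : Lp ≤ (1 - g ^ 2 + g * xg) * ((al - s * H) * (be - t * H)) := by
      have : (1 - g ^ 2 + g * xg) * ((al - s * H) * (be - t * H)) =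
          (1 - g ^ 2) * ((al - s * H) * (be - t * H)) +
          g * (xg * ((al - s * H) * (be - t * H))) := by ring
      rw [this, hH]
      linarith
    have hxsq : xg ^ 2 ≤ H ^ 2 * (1 - g ^ 2 + g * xg) ^ 2 := by
      have a3 : (xg * ((al - s * H) * (be - t * H))) ^ 2 = H ^ 2 * Lp ^ 2 := by
        rw [hH]; ring
      have a4 : Lp ^ 2 ≤ ((1 - g ^ 2 + g * xg) * ((al - s * H) * (be - t * H))) ^ 2 :=
        pow_le_pow_left₀ pL.le hLD 2
      have a5 : xg ^ 2 * ((al - s * H) * (be - t * H)) ^ 2 ≤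
          H ^ 2 * (1 - g ^ 2 + g * xg) ^ 2 * ((al - s * H) * (be - t * H)) ^ 2 := by
        calc xg ^ 2 * ((al - s * H) * (be - t * H)) ^ 2
            = (xg * ((al - s * H) * (be - t * H))) ^ 2 := by ring
          _ = H ^ 2 * Lp ^ 2 := a3
          _ ≤ H ^ 2 * ((1 - g ^ 2 + g * xg) * ((al - s * H) * (be - t * H))) ^ 2 :=
              mul_le_mul_of_nonneg_left a4 (sq_nonneg _)
          _ = _ := by ring
      exact le_of_mul_le_mul_right a5 (by positivity)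
    have hdisc := disc_of_end (lam := lam) (mu := mu) (d := d) (xg := xg) (eps := eps) (Θ := Θ)
      (Dg := 1 - g ^ 2 + g * xg) (Dbar := Dbar) (P := al * be) (n0 := n0) (H := H) (H0 := H0)
      hlam hmu hΘ (mul_pos hal hbe) pDg hDb hHH hxsq hend
    refine elim_core (H := H) (N := (1 - g ^ 2) * ((al - s * H) * (be - t * H)) -
      (1 - g * H) * Lp) (Θ := Θ) hlam hmu hΘ hal hbe rfl rfl rfl rfl rfl rfl pDs pDt pDg pa pb hH
      rfl hX ?_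
    rw [he, hN]
    exact hdisc
  rcases le_total 0 H with hH0 | hH0
  · -- `H ≥ 0`
    have hxg0 : 0 ≤ xg := by
      have : 0 ≤ xg * ((al - s * H) * (be - t * H)) := by rw [hH]; positivity
      exact nonneg_of_mul_nonneg_left this pab
    have hHH2 : H ≤ H2 := by
      rcases c2 with h | ⟨q1, q2, q3⟩
      · exact hhi.trans h
      · exact H_le_of_Xi hlam hmu hws hwt hal hbe pa pb q1 q2 hx2 hH q3
    refine main Θ2 Dbar2 H2 hΘ2 ?_ (pow_le_pow_left₀ hH0 hHH2 2)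
      (hX2 x y H hx hy hH0 hHH2 hhi) f2
    rcases le_total 0 g with hg0 | hg0
    · linarith [mul_le_mul_of_nonneg_left hx2 hg0]
    · linarith [mul_nonpos_of_nonpos_of_nonneg hg0 hxg0]
  · -- `H ≤ 0`
    have hxg0 : xg ≤ 0 := by
      have h5 : xg * ((al - s * H) * (be - t * H)) ≤ 0 := by
        rw [hH]; exact mul_nonpos_of_nonpos_of_nonneg hH0 pL.le
      by_contra hcon
      push Not at hcon
      have := mul_pos hcon pab
      linarith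
    have hHH1 : -H ≤ H1 := by
      rcases c1 with h | ⟨q1, q2, q3⟩
      · linarith
      · refine H_le_of_Xi (s := -s) (t := -t) (c := -xg) (c' := ρ * |d| / 2) hlam hmu hws hwt
          hal hbe ?_ ?_ ?_ ?_ ?_ ?_ ?_
        · have : al - -s * -H = al - s * H := by ring
          rw [this]; exact pa
        · have : be - -t * -H = be - t * H := by ring
          rw [this]; exact pb
        · have : al - -s * H1 = al + s * H1 := by ring
          rw [this]; exact q1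
        · have : be - -t * H1 = be + t * H1 := by ring
          rw [this]; exact q2
        · linarith
        · have e5 : al - -s * -H = al - s * H := by ring
          have e6 : be - -t * -H = be - t * H := by ring
          rw [e5, e6]
          have : -xg * ((al - s * H) * (be - t * H)) =
            -(xg * ((al - s * H) * (be - t * H))) := by ring
          rw [this, hH]; ring
        · have e5 : al - -s * H1 = al + s * H1 := by ring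
          have e6 : be - -t * H1 = be + t * H1 := by ring
          rw [e5, e6]
          exact q3
    refine main Θ1 Dbar1 H1 hΘ1 ?_ ?_ (hX1 x y H hx hy hH0 (by linarith) hlo) f1
    · rcases le_total 0 g with hg0 | hg0
      · linarith [mul_nonpos_of_nonneg_of_nonpos hg0 hxg0]
      · have := mul_le_mul_of_nonpos_left hx1 hg0
        linarith
    · have : H ^ 2 = (-H) ^ 2 := by ring
      rw [this]
      exact pow_le_pow_left₀ (by linarith) hHH1 2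

/-- the standard edge weight `om` satisfies `K_g` convexity on the diagonal: step at `s = t` -/
lemma pairStep_diag {ρ s : ℝ} {Ψ : ℝ → ℝ} (h0 : 0 < ρ) (h1 : ρ < 1) (hs : |s| ≤ 1) :
    PairStep ρ s s Ψ := by
  have hg : (1 + ρ) / 2 * s + (1 - ρ) / 2 * s = s := by ring
  refine ⟨(1 + ρ) / 2, (1 - ρ) / 2, by linarith, by linarith, ?_, ?_⟩
  · intro σ τ _ _ hF hF' _
    rw [hg]
    have hx := FX.of_feas hF
    have hy := FX.of_feas hF'
    obtain ⟨a1, a2⟩ := D_nonneg h0 h1 hs hx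
    obtain ⟨b1, b2⟩ := D_nonneg h0 h1 hs hy
    have hlam : 0 ≤ (1 + ρ) / 2 := by linarith
    have hmu : 0 ≤ (1 - ρ) / 2 := by linarith
    have e1 := om_eq (g := s) (g' := σ) (x := (s - σ) / 2) rfl
    have e2 := om_eq (g := s) (g' := τ) (x := (s - τ) / 2) rfl
    have e3 := om_eq (g := s) (g' := (1 + ρ) / 2 * σ + (1 - ρ) / 2 * τ)
      (x := (1 + ρ) / 2 * ((s - σ) / 2) + (1 - ρ) / 2 * ((s - τ) / 2)) (by ring)
    rw [e1, e2, e3, div_split, div_split, div_split]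
    have hc := cauchy2 hlam hmu a1 b1 a2 b2
    set x := (s - σ) / 2
    set y := (s - τ) / 2
    have hD : (1 + ρ) / 2 * (1 - s ^ 2 + s * x) + (1 - ρ) / 2 * (1 - s ^ 2 + s * y) =
        1 - s ^ 2 + s * ((1 + ρ) / 2 * x + (1 - ρ) / 2 * y) := by ring
    rw [hD] at hc
    have hp : 0 ≤ 1 / ph s := by have := ph_nonneg s; positivity
    have key : ((1 + ρ) / 2 * x + (1 - ρ) / 2 * y) ^ 2 /
        (1 - s ^ 2 + s * ((1 + ρ) / 2 * x + (1 - ρ) / 2 * y)) ≤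
        (1 + ρ) / 2 * (x ^ 2 / (1 - s ^ 2 + s * x)) +
          (1 - ρ) / 2 * (y ^ 2 / (1 - s ^ 2 + s * y)) := by
      have hR : 0 ≤ (1 + ρ) / 2 * (x ^ 2 / (1 - s ^ 2 + s * x)) +
          (1 - ρ) / 2 * (y ^ 2 / (1 - s ^ 2 + s * y)) := by positivity
      have hDg : 0 ≤ 1 - s ^ 2 + s * ((1 + ρ) / 2 * x + (1 - ρ) / 2 * y) := by
        rw [← hD]; positivity
      rcases hDg.eq_or_lt with h | h
      · rw [← h, div_zero]; exact hR
      · rw [div_le_iff₀ h]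
        linarith
    have := mul_le_mul_of_nonneg_left key hp
    refine this.trans (le_of_eq ?_)
    ring
  · rw [hg]
    have : om s s = 0 := by unfold om; simp
    rw [this]
    linarith

/-- the step at one pair in the balanced family -/
theorem pairStep_elim {ρ s t k lam mu g d al be n0 eps G1 G2 H1 H2 Θ1 Θ2 Dbar1 Dbar2 : ℝ}
    {Ψ : ℝ → ℝ}
    (h0 : 0 < ρ) (h1 : ρ < 1) (hs : |s| < 1) (ht : |t| < 1)
    (hlamd : lam = (1 + ρ) / 2) (hmud : mu = (1 - ρ) / 2) (hgd : g = lam * s + mu * t)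
    (hdd : d = s - t)
    (hald : al = 1 - k * mu * d / 2 * (d + g * (1 - s * t)))
    (hbed : be = 1 - k * lam * d / 2 * (d - g * (1 - s * t)))
    (hn0 : n0 = (1 - k * (1 - g ^ 2) * (1 - s * t) / 2) ^ 2 -
      k ^ 2 / 4 * (1 - g ^ 2) * (1 - s ^ 2) * (1 - t ^ 2))
    (heps : eps = 1 - k / 2 * (lam * mu * d ^ 2 - s * t * (1 - g ^ 2)))
    (hal : 0 < al) (hbe : 0 < be) (hG1 : 0 ≤ G1) (hG2 : 0 ≤ G2)
    (b1 : al * ρ ≤ G2 * (1 + ρ - s) ∨ al * ρ ≤ G2 * (1 - ρ + s))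
    (b2 : be * ρ ≤ G2 * (1 + ρ - t) ∨ be * ρ ≤ G2 * (1 - ρ + t))
    (b3 : al * ρ ≤ G1 * (1 + ρ + s) ∨ al * ρ ≤ G1 * (1 - ρ - s))
    (b4 : be * ρ ≤ G1 * (1 + ρ + t) ∨ be * ρ ≤ G1 * (1 - ρ - t))
    (p1 : 0 < al - s * G2) (p2 : 0 < be - t * G2) (p3 : 0 < al + s * G1) (p4 : 0 < be + t * G1)
    (c2 : G2 ≤ H2 ∨ (0 < al - s * H2 ∧ 0 < be - t * H2 ∧
      ρ * |d| / 2 * ((al - s * H2) * (be - t * H2)) ≤
        H2 * (lam * (1 - s ^ 2) * (be - t * H2) + mu * (1 - t ^ 2) * (al - s * H2))))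
    (c1 : G1 ≤ H1 ∨ (0 < al + s * H1 ∧ 0 < be + t * H1 ∧
      ρ * |d| / 2 * ((al + s * H1) * (be + t * H1)) ≤
        H1 * (lam * (1 - s ^ 2) * (be + t * H1) + mu * (1 - t ^ 2) * (al + s * H1))))
    (hΘ1 : 0 < Θ1) (hΘ2 : 0 < Θ2)
    (hX2 : ∀ x y H, FX ρ s x → FX ρ t y → 0 ≤ H → H ≤ H2 → H ≤ G2 →
      Θ2 * (((1 - s ^ 2 + s * x) * (be - t * H)) * ((1 - t ^ 2 + t * y) * (al - s * H))) ≤
      (lam * ((1 - s ^ 2 + s * x) * (be - t * H)) + mu * ((1 - t ^ 2 + t * y) * (al - s * H))) ^ 2)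
    (hX1 : ∀ x y H, FX ρ s x → FX ρ t y → H ≤ 0 → -H1 ≤ H → -G1 ≤ H →
      Θ1 * (((1 - s ^ 2 + s * x) * (be - t * H)) * ((1 - t ^ 2 + t * y) * (al - s * H))) ≤
      (lam * ((1 - s ^ 2 + s * x) * (be - t * H)) + mu * ((1 - t ^ 2 + t * y) * (al - s * H))) ^ 2)
    (e1 : 1 - g ^ 2 ≤ Dbar1) (e2 : 1 - g ^ 2 - g * (ρ * |d| / 2) ≤ Dbar1)
    (e3 : 1 - g ^ 2 ≤ Dbar2) (e4 : 1 - g ^ 2 + g * (ρ * |d| / 2) ≤ Dbar2)
    (f1 : eps ^ 2 * Dbar1 * H1 ^ 2 ≤ 4 * Θ1 * (al * be) * (n0 - H1 ^ 2))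
    (f2 : eps ^ 2 * Dbar2 * H2 ^ 2 ≤ 4 * Θ2 * (al * be) * (n0 - H2 ^ 2))
    (hii : lam * al * (ph s * Ψ s) + mu * be * (ph t * Ψ t) +
      (ρ * d / 2) ^ 2 / (1 - g ^ 2 + g * (ρ * d / 2)) ≤ ph g * Ψ g) :
    PairStep ρ s t Ψ := by
  have hK := K_elim h0 h1 hs ht hlamd hmud hgd hdd hald hbed hn0 heps hal hbe hG1 hG2 b1 b2 b3 b4
    p1 p2 p3 p4 c2 c1 hΘ1 hΘ2 hX2 hX1 e1 e2 e3 e4 f1 f2
  have hlam : 0 < lam := by rw [hlamd]; linarith
  have hmu : 0 < mu := by rw [hmud]; linarith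
  have hsum : lam + mu = 1 := by rw [hlamd, hmud]; ring
  have hg : |g| < 1 := by
    rw [hgd]; exact abs_conv_lt hlam hmu hsum hs ht
  refine pairStep_of_K (al := al) (be := be) h0 h1 hs.le ht.le hal.le hbe.le ?_ ?_ ?_
  · rw [← hlamd, ← hmud, ← hgd]; exact ph_pos hg
  · intro x y hx hy hxy
    rw [← hlamd, ← hmud, ← hdd] at hxy
    rw [← hlamd, ← hmud, ← hgd]
    exact hK x y hx hy hxy
  · rw [← hlamd, ← hmud, ← hgd, ← hdd]
    exact hii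

/-- the unrestricted constant `Θ = 4 lam mu` is always admissible -/
lemma Theta_base {lam mu X Y : ℝ} : 4 * lam * mu * (X * Y) ≤ (lam * X + mu * Y) ^ 2 := by
  nlinarith [sq_nonneg (lam * X - mu * Y)]

/-- a refined constant: `Θ ≤ lam² X/Y` -/
lemma Theta_ref {lam mu X Y Θ : ℝ} (hX : 0 ≤ X)
    (h : Θ * Y ≤ (lam ^ 2) * X + 2 * lam * mu * Y) : Θ * (X * Y) ≤ (lam * X + mu * Y) ^ 2 := by
  have h1 := mul_le_mul_of_nonneg_right h hX
  have h2 : 0 ≤ (mu * Y) ^ 2 := sq_nonneg _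
  nlinarith

/-- the step for a pair with the dictator-type choice -/
theorem pairStep_dict {ρ s t th : ℝ} {Ψ : ℝ → ℝ} (h0 : 0 < ρ) (h1 : ρ < 1) (hs : |s| ≤ 1)
    (ht : |t| ≤ 1) (hth : 0 < th)
    (hg : 0 < ph ((1 + ρ) / 2 * s + (1 - ρ) / 2 * t))
    (h2 : th * ((1 + ρ) / 2 * s + (1 - ρ) / 2 * t) ≤ s)
    (h3 : t ≤ th * ((1 + ρ) / 2 * s + (1 - ρ) / 2 * t))
    (h4 : ρ * ((1 + ρ) / 2 * (s - th * ((1 + ρ) / 2 * s + (1 - ρ) / 2 * t)) * (1 - s) +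
        (1 - ρ) / 2 * (th * ((1 + ρ) / 2 * s + (1 - ρ) / 2 * t) - t) * (1 + t)) ≤
      (1 - ρ) * (th * (1 - ((1 + ρ) / 2 * s + (1 - ρ) / 2 * t) ^ 2) -
        (1 + ρ) / 2 * (1 - s ^ 2) - (1 - ρ) / 2 * (1 - t ^ 2)))
    (hii : (1 + ρ) / 2 * th * (ph s * Ψ s) + (1 - ρ) / 2 * th * (ph t * Ψ t) +
      (ρ * (s - t) / 2) ^ 2 / (1 - ((1 + ρ) / 2 * s + (1 - ρ) / 2 * t) ^ 2 +
          ((1 + ρ) / 2 * s + (1 - ρ) / 2 * t) * (ρ * (s - t) / 2)) ≤
      ph ((1 + ρ) / 2 * s + (1 - ρ) / 2 * t) * Ψ ((1 + ρ) / 2 * s + (1 - ρ) / 2 * t)) :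
    PairStep ρ s t Ψ :=
  pairStep_of_K h0 h1 hs ht hth.le hth.le hg
    (K_dict h0 h1 hs ht hth (box_of_corner h0 h1 h2 h3 h4)) hii

/-- `FlowHyp` from the pair steps for `s > t` with the potential `Ψ = ρ²/c + β(φ - c)` -/
theorem flowHyp_of_pairs {ρ β : ℝ} (h0 : 0 < ρ) (h1 : ρ < 1) (hβ : 0 ≤ β)
    (hβ2 : β * ph ρ ≤ ρ ^ 2 / ph ρ)
    (H : ∀ s t : ℝ, |s| ≤ 1 → |t| ≤ 1 → t < s →
      0 < ph ((1 + ρ) / 2 * s + (1 - ρ) / 2 * t) →
      PairStep ρ s t (fun g => ρ ^ 2 / ph ρ + β * (ph g - ph ρ))) : FlowHyp ρ := by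
  set Ψ : ℝ → ℝ := fun g => ρ ^ 2 / ph ρ + β * (ph g - ph ρ) with hΨ
  have hΨn : ∀ g, 0 ≤ Ψ g := by
    intro g
    simp only [hΨ]
    have := ph_nonneg g
    nlinarith [mul_nonneg hβ this]
  have hΨe : ∀ g, Ψ (-g) = Ψ g := by
    intro g; simp only [hΨ]; rw [ph_neg']
  have hstep : StepR ρ om Ψ := by
    apply stepR_of_pairs
    intro s t hs ht
    by_cases hg : ph ((1 + ρ) / 2 * s + (1 - ρ) / 2 * t) = 0
    · exact pairStep_corner h0 h1 hs ht (fun g _ => hΨn g) hg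
    · have hg' : 0 < ph ((1 + ρ) / 2 * s + (1 - ρ) / 2 * t) :=
        lt_of_le_of_ne (ph_nonneg _) (Ne.symm hg)
      rcases lt_trichotomy t s with h | h | h
      · exact H s t hs ht h hg'
      · rw [h]; exact pairStep_diag h0 h1 hs
      · refine pairStep_symm hΨe (H (-s) (-t) (by rwa [abs_neg]) (by rwa [abs_neg])
          (by linarith) ?_)
        have : (1 + ρ) / 2 * -s + (1 - ρ) / 2 * -t = -((1 + ρ) / 2 * s + (1 - ρ) / 2 * t) := by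
          ring
        rw [this, ph_neg']
        exact hg'
  refine ⟨om, Ψ, β, 0, 0, le_rfl, le_rfl, by linarith, pairOK_om ρ, ?_, ?_⟩
  · intro g _
    simp only [hΨ]
    linarith
  · intro n f _ x
    exact PW_of_stepR h0.le h1.le (hΨn 1) (hΨn (-1)) hstep n f x

end Crest.Agent.R307.Elim
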