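import Crest.Agent.R307.Elim2

/-!
Row 307 (S0471), flow route (helper243): elimination of the `(x,y)`-quantifier of the two-point step for the
rational weight `om`, via `h = x_g / D_g` (condition (NP)).
-/

set_option autoImplicit false

namespace Crest.Agent.R307.ElimNP

open Crest.Agent.R307.Flow Crest.Agent.R307.Elim

/-- algebraic core -/
lemma np_alg {P Q a b h Δ u1 u2 : ℝ} (hP : 0 < P) (hQ : 0 < Q) (hab : a + b = h * Δ)
    (hN : h ^ 2 * (u1 - u2) ^ 2 ≤ 4 * Δ * (P * (1 - h * u2) + Q * (1 - h * u1))) :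
    0 ≤ a ^ 2 * P + b ^ 2 * Q + h ^ 2 * Δ - h ^ 2 * (u1 * a + u2 * b) := by
  have hS : 0 < P + Q := by linarith
  have key : (P + Q) * (a ^ 2 * P + b ^ 2 * Q + h ^ 2 * Δ - h ^ 2 * (u1 * a + u2 * b)) =
      ((a * P - b * Q) - h ^ 2 * (u1 - u2) / 2) ^ 2 + P * Q * (h * Δ) ^ 2 +
        h ^ 2 * (4 * Δ * (P * (1 - h * u2) + Q * (1 - h * u1)) - h ^ 2 * (u1 - u2) ^ 2) / 4 := by
    have hb : b = h * Δ - a := by linarith
    subst hb
    ring
  have h1 : 0 ≤ (P + Q) * (a ^ 2 * P + b ^ 2 * Q + h ^ 2 * Δ - h ^ 2 * (u1 * a + u2 * b)) := by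
    rw [key]
    have h2 := mul_pos hP hQ
    have h3 : 0 ≤ h ^ 2 * (4 * Δ * (P * (1 - h * u2) + Q * (1 - h * u1)) - h ^ 2 * (u1 - u2) ^ 2) :=
      mul_nonneg (sq_nonneg _) (by linarith)
    have h4 : 0 ≤ P * Q * (h * Δ) ^ 2 := by positivity
    have h5 := sq_nonneg ((a * P - b * Q) - h ^ 2 * (u1 - u2) / 2)
    linarith
  by_contra hcon
  push Not at hcon
  have := mul_neg_of_pos_of_neg hS hcon
  linarith

/-- one slice -/
lemma slice_id {lam al s x h w p D a : ℝ} (hlam : lam ≠ 0) (hal : al ≠ 0) (hD : D ≠ 0)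
    (hp : p = al - s * h) (hp0 : p ≠ 0) (hDd : D = w + s * x) (ha : a = lam * (x - h * w / p)) :
    lam * al * (x ^ 2 / D) = a ^ 2 * (p ^ 2 / (lam * al * D)) + 2 * h * a +
      h ^ 2 * (lam * w / p) - h ^ 2 * (s / al * a) := by
  have h1 : al * x - h * D = x * p - h * w := by rw [hp, hDd]; ring
  have h2 : a * p = lam * (al * x - h * D) := by
    rw [h1, ha]; field_simp
  have h3 : D * p = w * al + s * (al * x - h * D) := by rw [hp, hDd]; ring
  have e1 : a ^ 2 * (p ^ 2 / (lam * al * D)) = lam * (al * x - h * D) ^ 2 / (al * D) := by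
    have : a ^ 2 * p ^ 2 = lam ^ 2 * (al * x - h * D) ^ 2 := by
      rw [← mul_pow, h2]; ring
    rw [← mul_div_assoc, this]
    field_simp
  have e2 : a = lam * (al * x - h * D) / p := by
    field_simp; linarith [h2]
  rw [e1, e2]
  have hw : w = (D * p - s * (al * x - h * D)) / al := by
    field_simp; linarith [h3]
  rw [hw]
  field_simp
  rw [hp]
  ring

/-- (NP) implies the K-inequality at the point `(x,y)` -/
theorem np_point {lam mu s t al be x y h n d eps Ds Dt Dg g : ℝ} (hlam : 0 < lam) (hmu : 0 < mu)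
    (hal : 0 < al) (hbe : 0 < be)
    (hg : g = lam * s + mu * t) (hd : d = s - t)
    (hDs : Ds = 1 - s ^ 2 + s * x) (hDt : Dt = 1 - t ^ 2 + t * y)
    (hDg : Dg = 1 - g ^ 2 + g * (lam * x + mu * y))
    (pDs : 0 < Ds) (pDt : 0 < Dt) (pDg : 0 < Dg)
    (hh : h * Dg = lam * x + mu * y)
    (pp : 0 < al - s * h) (pq : 0 < be - t * h) (pg : 0 < 1 - g * h) (hd0 : d ≠ 0)
    (hNn : (1 - g ^ 2) * ((al - s * h) * (be - t * h)) -
      (1 - g * h) * (lam * (1 - s ^ 2) * (be - t * h) + mu * (1 - t ^ 2) * (al - s * h)) =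
      lam * mu * d ^ 2 * n)
    (he : be * s - al * t = d * eps)
    (hNP : eps ^ 2 * h ^ 2 * (1 - g * h) ≤
      4 * al * be * n * (mu * (al - s * h) / Ds + lam * (be - t * h) / Dt)) :
    (lam * x + mu * y) ^ 2 / Dg ≤ lam * al * (x ^ 2 / Ds) + mu * be * (y ^ 2 / Dt) := by
  set p := al - s * h with hpd
  set q := be - t * h with hqd
  set a := lam * (x - h * (1 - s ^ 2) / p) with had
  set b := mu * (y - h * (1 - t ^ 2) / q) with hbd
  set Δ := lam * mu * d ^ 2 * n / ((1 - g * h) * (p * q)) with hΔ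
  have i1 := slice_id (w := 1 - s ^ 2) hlam.ne' hal.ne' pDs.ne' hpd pp.ne' hDs had
  have i2 := slice_id (w := 1 - t ^ 2) hmu.ne' hbe.ne' pDt.ne' hqd pq.ne' hDt hbd
  have hwg : Dg * (1 - g * h) = 1 - g ^ 2 := by
    have : Dg * (1 - g * h) = Dg - g * (h * Dg) := by ring
    rw [this, hh, hDg]; ring
  have hΔ2 : Δ = Dg - (lam * (1 - s ^ 2) / p + mu * (1 - t ^ 2) / q) := by
    rw [hΔ, ← hNn, ← hwg]
    field_simp
  have hab : a + b = h * Δ := by
    rw [hΔ2, mul_sub, hh, had, hbd]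
    ring
  have hL : (lam * x + mu * y) ^ 2 / Dg = h ^ 2 * Dg := by
    rw [← hh]; field_simp
  rw [i1, i2, hL]
  have hP : 0 < p ^ 2 / (lam * al * Ds) := by positivity
  have hQ : 0 < q ^ 2 / (mu * be * Dt) := by positivity
  have key := np_alg (u1 := s / al) (u2 := t / be) hP hQ hab ?_
  · have e : a ^ 2 * (p ^ 2 / (lam * al * Ds)) + 2 * h * a + h ^ 2 * (lam * (1 - s ^ 2) / p) -
        h ^ 2 * (s / al * a) +
      (b ^ 2 * (q ^ 2 / (mu * be * Dt)) + 2 * h * b + h ^ 2 * (mu * (1 - t ^ 2) / q) -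
        h ^ 2 * (t / be * b)) - h ^ 2 * Dg =
      a ^ 2 * (p ^ 2 / (lam * al * Ds)) + b ^ 2 * (q ^ 2 / (mu * be * Dt)) + h ^ 2 * Δ -
        h ^ 2 * (s / al * a + t / be * b) := by
      have h1 : 2 * h * a + 2 * h * b = 2 * h * (h * Δ) := by rw [← hab]; ring
      have h2 : h ^ 2 * (lam * (1 - s ^ 2) / p) + h ^ 2 * (mu * (1 - t ^ 2) / q) =
          h ^ 2 * (Dg - Δ) := by rw [hΔ2]; ring
      linear_combination h1 + h2
    linarith
  · -- the discriminant condition
    have e1 : 1 - h * (s / al) = p / al := by rw [hpd]; field_simp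
    have e2 : 1 - h * (t / be) = q / be := by rw [hqd]; field_simp
    rw [e1, e2]
    have e3 : (s / al - t / be) = d * eps / (al * be) := by
      rw [← he]; field_simp
    rw [e3]
    have e4 : 4 * Δ * (p ^ 2 / (lam * al * Ds) * (q / be) + q ^ 2 / (mu * be * Dt) * (p / al)) =
        d ^ 2 / ((al * be) ^ 2 * (1 - g * h)) *
          (4 * al * be * n * (mu * p / Ds + lam * q / Dt)) := by
      rw [hΔ]
      field_simp
    have e5 : h ^ 2 * (d * eps / (al * be)) ^ 2 =
        d ^ 2 / ((al * be) ^ 2 * (1 - g * h)) * (eps ^ 2 * h ^ 2 * (1 - g * h)) := by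
      have : eps ^ 2 * h ^ 2 * (1 - g * h) = (1 - g * h) * (eps ^ 2 * h ^ 2) := by ring
      rw [this, ← mul_assoc, div_mul_eq_mul_div, mul_div_mul_right _ _ pg.ne']
      field_simp
    rw [e4, e5]
    exact mul_le_mul_of_nonneg_left hNP (by positivity)

/-- universal bound for `D_s` -/
lemma D_le {ρ s x : ℝ} (h0 : 0 < ρ) (h1 : ρ < 1) (hs : |s| ≤ 1) (hF : FX ρ s x) :
    (1 - s ^ 2 + s * x) * (4 * (1 + ρ)) ≤ 4 * (1 + ρ) + ρ ^ 2 := by
  obtain ⟨s1, s2⟩ := abs_le.1 hs
  obtain ⟨f1, f2, f3, f4⟩ := hF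
  rcases le_total 0 s with h | h
  · have := mul_le_mul_of_nonneg_left f2 h
    nlinarith [sq_nonneg (2 * s - ρ)]
  · have := mul_le_mul_of_nonneg_left f4 (neg_nonneg.2 h)
    nlinarith [sq_nonneg (2 * s + ρ)]

/-- a function affine in `h`, nonnegative at `-H1` and `H2`, is nonnegative in between -/
lemma affine_nonneg {u v h H1 H2 : ℝ} (h1 : -H1 ≤ h) (h2 : h ≤ H2) (a1 : 0 ≤ u - v * H1)
    (a2 : 0 ≤ u + v * H2) : 0 ≤ u + v * h := by
  rcases le_total 0 v with hv | hv
  · have := mul_le_mul_of_nonneg_left h1 hv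
    linarith
  · have := mul_le_mul_of_nonneg_left h2 (neg_nonneg.2 hv)
    linarith

lemma affine_pos {u v h H1 H2 : ℝ} (h1 : -H1 ≤ h) (h2 : h ≤ H2) (a1 : 0 < u - v * H1)
    (a2 : 0 < u + v * H2) : 0 < u + v * h := by
  rcases le_total 0 v with hv | hv
  · have := mul_le_mul_of_nonneg_left h1 hv
    linarith
  · have := mul_le_mul_of_nonneg_left h2 (neg_nonneg.2 hv)
    linarith

/-- the K-inequality from end point conditions -/
theorem K_np {ρ s t k lam mu g gb d al be n0 eps kap DB H1 H2 : ℝ}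
    (h0 : 0 < ρ) (h1 : ρ < 1) (hs : |s| < 1) (ht : |t| < 1) (hd0 : d ≠ 0)
    (hlamd : lam = (1 + ρ) / 2) (hmud : mu = (1 - ρ) / 2) (hgd : g = lam * s + mu * t)
    (hgbd : gb = mu * s + lam * t) (hdd : d = s - t)
    (hald : al = 1 - k * mu * d / 2 * (d + g * (1 - s * t)))
    (hbed : be = 1 - k * lam * d / 2 * (d - g * (1 - s * t)))
    (hn0 : n0 = (1 - k * (1 - g ^ 2) * (1 - s * t) / 2) ^ 2 -
      k ^ 2 / 4 * (1 - g ^ 2) * (1 - s ^ 2) * (1 - t ^ 2))
    (heps : eps = 1 - k / 2 * (lam * mu * d ^ 2 - s * t * (1 - g ^ 2)))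
    (hDB : 4 * (1 + ρ) + ρ ^ 2 ≤ DB * (4 * (1 + ρ)))
    (hal : 0 < al) (hbe : 0 < be) (hkap : 0 ≤ kap)
    (p1 : 0 < al - s * H2) (p2 : 0 < be - t * H2) (p3 : 0 < al + s * H1) (p4 : 0 < be + t * H1)
    (r2 : ∀ x y, FX ρ s x → FX ρ t y → |lam * x + mu * y| ≤ ρ * |d| / 2 →
      lam * x + mu * y ≤ H2 * (1 - g ^ 2 + g * (lam * x + mu * y)))
    (r1 : ∀ x y, FX ρ s x → FX ρ t y → |lam * x + mu * y| ≤ ρ * |d| / 2 →
      -(lam * x + mu * y) ≤ H1 * (1 - g ^ 2 + g * (lam * x + mu * y)))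
    (j2 : (1 + kap) * H2 ^ 2 ≤ n0) (j1 : (1 + kap) * H1 ^ 2 ≤ n0)
    (e2 : eps ^ 2 * (1 - g * H2) * DB ≤ 4 * kap * al * be * (mu * al + lam * be - gb * H2))
    (e1 : eps ^ 2 * (1 + g * H1) * DB ≤ 4 * kap * al * be * (mu * al + lam * be + gb * H1)) :
    ∀ x y, FX ρ s x → FX ρ t y → |lam * x + mu * y| ≤ ρ * |d| / 2 →
      (lam * x + mu * y) ^ 2 / (1 - g ^ 2 + g * (lam * x + mu * y)) ≤
      lam * al * (x ^ 2 / (1 - s ^ 2 + s * x)) + mu * be * (y ^ 2 / (1 - t ^ 2 + t * y)) := by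
  intro x y hx hy hxy
  have hlam : 0 < lam := by rw [hlamd]; linarith
  have hmu : 0 < mu := by rw [hmud]; linarith
  have hsum : lam + mu = 1 := by rw [hlamd, hmud]; ring
  have pDs := D_pos h0 h1 hs hx.2.1 hx.2.2.2
  have pDt := D_pos h0 h1 ht hy.2.1 hy.2.2.2
  have hxg := FX.avg hx hy hlam.le hmu.le hsum
  rw [← hgd] at hxg
  have hg : |g| < 1 := by
    rw [hgd]; exact abs_conv_lt hlam hmu hsum hs ht
  have pDg := D_pos h0 h1 hg hxg.2.1 hxg.2.2.2
  have hwg : 0 < 1 - g ^ 2 := one_sub_sq_pos hg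
  have hr2 := r2 x y hx hy hxy
  have hr1 := r1 x y hx hy hxy
  set Dg := 1 - g ^ 2 + g * (lam * x + mu * y) with hDg
  set h := (lam * x + mu * y) / Dg with hh
  have hhD : h * Dg = lam * x + mu * y := by rw [hh]; field_simp
  have b2 : h ≤ H2 := by rw [hh, div_le_iff₀ pDg]; exact hr2
  have b1 : -H1 ≤ h := by
    rw [hh, le_div_iff₀ pDg]; linarith
  clear_value h
  clear hh hr1 hr2 r1 r2
  have pp : 0 < al - s * h := by
    have := affine_pos (u := al) (v := -s) b1 b2 (by linarith) (by linarith)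
    linarith
  have pq : 0 < be - t * h := by
    have := affine_pos (u := be) (v := -t) b1 b2 (by linarith) (by linarith)
    linarith
  have pg : 0 < 1 - g * h := by
    have e : Dg * (1 - g * h) = 1 - g ^ 2 := by
      have : Dg * (1 - g * h) = Dg - g * (h * Dg) := by ring
      rw [this, hhD]; ring
    by_contra hcon
    push Not at hcon
    have := mul_nonpos_of_nonneg_of_nonpos pDg.le hcon
    linarith
  have hNn := balanced_N (lam := lam) (mu := mu) (s := s) (t := t) (k := k) (H := h) hsum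
  have he := balanced_e (lam := lam) (mu := mu) (s := s) (t := t) (k := k) hsum
  rw [← hgd, ← hdd] at hNn he
  rw [← hald, ← hbed, ← hn0] at hNn
  rw [← hald, ← hbed, ← heps] at he
  refine np_point (n := n0 - h ^ 2) (h := h) (eps := eps) hlam hmu hal hbe hgd hdd rfl rfl hDg
    pDs pDt pDg hhD pp pq pg hd0 hNn he ?_
  -- bounds for the denominators
  have hDBp : 0 < DB := by
    by_contra hcon
    push Not at hcon
    have := mul_nonpos_of_nonpos_of_nonneg hcon (show 0 ≤ 4 * (1 + ρ) by linarith)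
    nlinarith [sq_nonneg ρ]
  have q1 : 1 - s ^ 2 + s * x ≤ DB := by
    have := D_le h0 h1 hs.le hx
    exact le_of_mul_le_mul_right (this.trans hDB) (by linarith)
  have q2 : 1 - t ^ 2 + t * y ≤ DB := by
    have := D_le h0 h1 ht.le hy
    exact le_of_mul_le_mul_right (this.trans hDB) (by linarith)
  have m1 : mu * (al - s * h) / DB ≤ mu * (al - s * h) / (1 - s ^ 2 + s * x) :=
    div_le_div_of_nonneg_left (by positivity) pDs q1
  have m2 : lam * (be - t * h) / DB ≤ lam * (be - t * h) / (1 - t ^ 2 + t * y) :=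
    div_le_div_of_nonneg_left (by positivity) pDt q2
  have m3 : (mu * al + lam * be - gb * h) / DB ≤
      mu * (al - s * h) / (1 - s ^ 2 + s * x) + lam * (be - t * h) / (1 - t ^ 2 + t * y) := by
    have : (mu * al + lam * be - gb * h) / DB =
        mu * (al - s * h) / DB + lam * (be - t * h) / DB := by
      rw [hgbd]; ring
    rw [this]; linarith
  have m0 : 0 ≤ (mu * al + lam * be - gb * h) / DB := by
    apply div_nonneg _ hDBp.le
    have : mu * al + lam * be - gb * h = mu * (al - s * h) + lam * (be - t * h) := by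
      rw [hgbd]; ring
    rw [this]; positivity
  have hn : kap * h ^ 2 ≤ n0 - h ^ 2 := by
    have : h ^ 2 ≤ H2 ^ 2 ∨ h ^ 2 ≤ H1 ^ 2 := by
      rcases le_total 0 h with hh0 | hh0
      · left; exact pow_le_pow_left₀ hh0 b2 2
      · right
        have := pow_le_pow_left₀ (show 0 ≤ -h by linarith) (show -h ≤ H1 by linarith) 2
        rwa [neg_sq] at this
    rcases this with h' | h'
    · have := mul_le_mul_of_nonneg_left h' (show 0 ≤ 1 + kap by linarith)
      linarith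
    · have := mul_le_mul_of_nonneg_left h' (show 0 ≤ 1 + kap by linarith)
      linarith
  -- the affine inequality
  have haff : eps ^ 2 * (1 - g * h) * DB ≤ 4 * kap * al * be * (mu * al + lam * be - gb * h) := by
    have := affine_nonneg (u := 4 * kap * al * be * (mu * al + lam * be) - eps ^ 2 * DB)
      (v := eps ^ 2 * g * DB - 4 * kap * al * be * gb) b1 b2 (by linarith) (by linarith)
    linarith
  have haff2 : eps ^ 2 * (1 - g * h) ≤
      4 * kap * al * be * ((mu * al + lam * be - gb * h) / DB) := by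
    have e : 4 * kap * al * be * ((mu * al + lam * be - gb * h) / DB) =
        (4 * kap * al * be * (mu * al + lam * be - gb * h)) / DB := by ring
    rw [e, le_div_iff₀ hDBp]; exact haff
  calc eps ^ 2 * h ^ 2 * (1 - g * h) = h ^ 2 * (eps ^ 2 * (1 - g * h)) := by ring
    _ ≤ h ^ 2 * (4 * kap * al * be * ((mu * al + lam * be - gb * h) / DB)) :=
        mul_le_mul_of_nonneg_left haff2 (sq_nonneg _)
    _ = 4 * al * be * ((mu * al + lam * be - gb * h) / DB) * (kap * h ^ 2) := by ring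
    _ ≤ 4 * al * be * ((mu * al + lam * be - gb * h) / DB) * (n0 - h ^ 2) :=
        mul_le_mul_of_nonneg_left hn (by positivity)
    _ = 4 * al * be * (n0 - h ^ 2) * ((mu * al + lam * be - gb * h) / DB) := by ring
    _ ≤ _ := mul_le_mul_of_nonneg_left m3 (by
        have : 0 ≤ n0 - h ^ 2 := le_trans (by positivity) hn
        positivity)

end Crest.Agent.R307.ElimNP
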