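import Mathlib

/-!
Row 307 (S0472), task T6 (helper675): the explicit inequality (6) of the blueprint.

`Δ(V) = f w - f (w-V) - f (w-δ²) + f (w-V-δ²)`, `f x = x log x`, is the integral over `[0,V]` of the convex
function `u ↦ log ((w-u)/(w-u-δ²))`, so the trapezoid rule gives
`Δ(V) ≤ V/2 * (-log (1-δ²/w) - log (1-δ²/(w-V)))`.
* `δ ≤ 7/10`: compare with `δ² V/(w (w-V))`.
* `δ ≥ 7/10`: compare with `kap V`; for fixed `m` the difference is first increasing and then decreasing in
  `δ`, so only `δ = 7/10` and `δ = 1-m` have to be checked.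
-/

set_option autoImplicit false

open Set Real

namespace Crest.Agent.R307

/-! ### the trapezoid bound -/

theorem secDiff_le_trap {w e V : ℝ} (he : 0 < e) (hV : 0 ≤ V) (h : V + e < w) :
    w * log w - (w - V) * log (w - V) - (w - e) * log (w - e) + (w - V - e) * log (w - V - e)
      ≤ V / 2 * ((log w - log (w - e)) + (log (w - V) - log (w - V - e))) := by
  set D : ℝ → ℝ := fun u => u / 2 * ((log w - log (w - e)) + (log (w - u) - log (w - u - e)))
    - (w * log w - (w - u) * log (w - u) - (w - e) * log (w - e) + (w - u - e) * log (w - u - e))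
    with hD
  have hder : ∀ u ∈ Icc (0 : ℝ) V, HasDerivAt D
      (1 / 2 * ((log w - log (w - e)) + (log (w - u) - log (w - u - e)))
        + u / 2 * (- (1 / (w - u)) + 1 / (w - u - e))
        - (log (w - u) - log (w - u - e))) u := by
    intro u hu
    have h1 : 0 < w - u := by linarith [hu.2]
    have h2 : 0 < w - u - e := by linarith [hu.2]
    have d1 : HasDerivAt (fun u : ℝ => w - u) (-1) u := by
      simpa using (hasDerivAt_id u).const_sub w
    have d2 : HasDerivAt (fun u : ℝ => w - u - e) (-1) u := d1.sub_const e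
    have l1 : HasDerivAt (fun u : ℝ => log (w - u)) (-1 / (w - u)) u := d1.log h1.ne'
    have l2 : HasDerivAt (fun u : ℝ => log (w - u - e)) (-1 / (w - u - e)) u := d2.log h2.ne'
    have m1 := d1.mul l1
    have m2 := d2.mul l2
    have t1 := ((hasDerivAt_id u).div_const 2).mul
      ((l1.sub l2).const_add (log w - log (w - e)))
    have t2 := t1.sub (((((hasDerivAt_const u (w * log w)).sub m1)).sub_const
      ((w - e) * log (w - e))).add m2)
    refine t2.congr_deriv ?_
    simp only [id, Pi.sub_apply]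
    field_simp
    ring
  have hmono : MonotoneOn D (Icc 0 V) := by
    apply monotoneOn_of_deriv_nonneg (convex_Icc 0 V)
    · intro u hu
      exact (hder u hu).continuousAt.continuousWithinAt
    · intro u hu
      rw [interior_Icc] at hu
      exact (hder u ⟨hu.1.le, hu.2.le⟩).differentiableAt.differentiableWithinAt
    · intro u hu
      rw [interior_Icc] at hu
      rw [(hder u ⟨hu.1.le, hu.2.le⟩).deriv]
      have hw : 0 < w := by linarith
      have hwe : 0 < w - e := by linarith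
      have h1 : 0 < w - u := by linarith [hu.2]
      have h2 : 0 < w - u - e := by linarith [hu.2]
      have hlog : log ((w - u) * (w - e) / (w * (w - u - e)))
          = log (w - u) + log (w - e) - log w - log (w - u - e) := by
        rw [log_div (by positivity) (by positivity), log_mul h1.ne' hwe.ne', log_mul hw.ne' h2.ne']
        ring
      have hle := log_le_sub_one_of_pos (x := (w - u) * (w - e) / (w * (w - u - e))) (by positivity)
      rw [hlog] at hle
      have e1 : (w - u) * (w - e) / (w * (w - u - e)) - 1 = u * e / (w * (w - u - e)) := by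
        field_simp
        ring
      have e2 : u * e / (w * (w - u - e)) ≤ u * (- (1 / (w - u)) + 1 / (w - u - e)) := by
        have : u * (- (1 / (w - u)) + 1 / (w - u - e)) = u * e / ((w - u) * (w - u - e)) := by
          field_simp
          ring
        rw [this]
        apply div_le_div_of_nonneg_left
        · exact mul_nonneg hu.1.le he.le
        · positivity
        · apply mul_le_mul_of_nonneg_right _ h2.le
          linarith [hu.1]
      rw [e1] at hle
      nlinarith [hle, e2]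
  have h0 : D 0 = 0 := by
    simp only [hD, sub_zero]
    ring
  have := hmono (left_mem_Icc.2 hV) (right_mem_Icc.2 hV) hV
  rw [h0] at this
  simp only [hD] at this
  linarith

theorem secDiff_le_end {w e V : ℝ} (he : 0 < e) (hV : 0 ≤ V) (h : V + e < w) :
    w * log w - (w - V) * log (w - V) - (w - e) * log (w - e) + (w - V - e) * log (w - V - e)
      ≤ V * (log (w - V) - log (w - V - e)) := by
  have h1 := secDiff_le_trap he hV h
  have hw : 0 < w := by linarith
  have hwe : 0 < w - e := by linarith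
  have h3 : 0 < w - V := by linarith
  have h2 : 0 < w - V - e := by linarith
  have h4 : log w - log (w - e) ≤ log (w - V) - log (w - V - e) := by
    rw [← log_div hw.ne' hwe.ne', ← log_div h3.ne' h2.ne']
    apply log_le_log (by positivity)
    rw [div_le_div_iff₀ hwe h2]
    nlinarith [mul_nonneg hV he.le]
  have h5 : V / 2 * ((log w - log (w - e)) + (log (w - V) - log (w - V - e)))
      ≤ V * (log (w - V) - log (w - V - e)) := by
    nlinarith
  linarith

/-! ### chord bound for the logarithm, numerical values -/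

theorem neg_log_one_sub_le_chord {x x1 : ℝ} (h0 : 0 ≤ x) (hx : x ≤ x1) (h1 : x1 < 1) (hp : 0 < x1) :
    - log (1 - x) ≤ x / x1 * (- log (1 - x1)) := by
  have hc := strictConcaveOn_log_Ioi.concaveOn.2 (show (1 : ℝ) ∈ Ioi 0 by simp)
    (show (1 - x1) ∈ Ioi (0 : ℝ) by simpa using h1)
    (show 0 ≤ 1 - x / x1 by rw [sub_nonneg, div_le_one hp]; exact hx) (show 0 ≤ x / x1 by positivity)
    (by ring)
  simp only [smul_eq_mul, log_one, mul_zero, zero_add, mul_one] at hc
  have e : 1 - x / x1 + x / x1 * (1 - x1) = 1 - x := by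
    field_simp
    ring
  rw [e] at hc
  linarith

theorem bb_lt : 4 / 3 * (log 2) ^ 2 < 0.64062 := by
  have h1 := Real.log_two_lt_d9
  have h2 := Real.log_two_gt_d9
  nlinarith

theorem log_384 : - log (0.384 : ℝ) ≤ 0.957113 := by
  have e : (0.384 : ℝ) = 2 ^ 4 * 3 / 5 ^ 3 := by norm_num
  rw [e, log_div (by norm_num) (by norm_num), log_mul (by norm_num) (by norm_num), log_pow, log_pow]
  have := Real.log_two_gt_d9
  have := Real.log_three_gt_d9
  have := Real.log_five_lt_d9
  push_cast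
  linarith


theorem log_4608 : - log (0.4608 : ℝ) ≤ 0.774792 := by
  have e : (0.4608 : ℝ) = 2 ^ 5 * 3 ^ 2 / 5 ^ 4 := by norm_num
  rw [e, log_div (by norm_num) (by norm_num), log_mul (by norm_num) (by norm_num), log_pow, log_pow,
    log_pow]
  have := Real.log_two_gt_d9
  have := Real.log_three_gt_d9
  have := Real.log_five_lt_d9
  push_cast
  linarith

theorem log_3_10 : - log (0.3 : ℝ) ≤ 1.203973 := by
  have e : (0.3 : ℝ) = 3 / (2 * 5) := by norm_num
  rw [e, log_div (by norm_num) (by norm_num), log_mul (by norm_num) (by norm_num)]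
  have := Real.log_two_lt_d9
  have := Real.log_three_gt_d9
  have := Real.log_five_lt_d9
  linarith

/-! ### first case: `δ ≤ 7/10` -/

theorem explicit_case_small {m δ V : ℝ} (hm : 0 ≤ m) (hδ : 0 < δ) (hδm : δ < 1 - m) (hV : 0 ≤ V)
    (hVw : V ≤ 1 - m ^ 2 - δ) (h7 : δ ≤ 0.7) :
    4 / 3 * (log 2) ^ 2 * ((1 - m ^ 2) * log (1 - m ^ 2) - (1 - m ^ 2 - V) * log (1 - m ^ 2 - V)
      - (1 - m ^ 2 - δ ^ 2) * log (1 - m ^ 2 - δ ^ 2)
      + (1 - m ^ 2 - V - δ ^ 2) * log (1 - m ^ 2 - V - δ ^ 2))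
      ≤ δ ^ 2 * V / ((1 - m ^ 2) * (1 - m ^ 2 - V)) := by
  have hbb := bb_lt
  have hbb0 : 0 < 4 / 3 * (log 2) ^ 2 := by
    have := Real.log_two_gt_d9
    positivity
  set bb := 4 / 3 * (log 2) ^ 2 with hbbdef
  set w := 1 - m ^ 2 with hw
  have hw1 : w ≤ 1 := by nlinarith
  have hwδ : δ * (2 - δ) ≤ w := by nlinarith
  have hδ1 : δ < 1 := by linarith
  have hw0 : 0 < w := by nlinarith
  have hδ2 : 0 < δ ^ 2 := by positivity
  have hδδ : δ ^ 2 < δ := by nlinarith
  have hwV : 0 < w - V := by linarith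
  have hsum : V + δ ^ 2 < w := by linarith
  have hwVe : 0 < w - V - δ ^ 2 := by linarith
  have hwe : 0 < w - δ ^ 2 := by linarith
  set x := δ ^ 2 / (w - V) with hx
  have hx0 : 0 < x := by positivity
  have hxδ : x ≤ δ := by
    rw [hx, div_le_iff₀ hwV]
    nlinarith
  have hx1 : x < 1 := by linarith
  have hlogx : log (w - V) - log (w - V - δ ^ 2) = - log (1 - x) := by
    have : 1 - x = (w - V - δ ^ 2) / (w - V) := by rw [hx]; field_simp
    rw [this, log_div hwVe.ne' hwV.ne']
    ring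
  have hR : δ ^ 2 * V / (w * (w - V)) = x * V / w := by
    rw [hx]; field_simp
  rw [hR]
  have hxV : x * V ≤ x * V / w := by
    rw [le_div_iff₀ hw0]
    nlinarith [mul_nonneg hx0.le hV]
  rcases le_or_gt x 0.616 with hc | hc
  · have h1 := secDiff_le_end hδ2 hV hsum
    rw [hlogx] at h1
    have h2 := neg_log_one_sub_le_chord hx0.le hc (by norm_num) (by norm_num)
    have e : (1 : ℝ) - 0.616 = 0.384 := by norm_num
    rw [e] at h2
    have h3 := log_384
    have h4 : bb * (- log (1 - x)) ≤ x := by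
      calc bb * (- log (1 - x)) ≤ bb * (x / 0.616 * 0.957113) := by
            apply mul_le_mul_of_nonneg_left _ hbb0.le
            refine h2.trans ?_
            apply mul_le_mul_of_nonneg_left h3
            positivity
        _ ≤ 0.64062 * (x / 0.616 * 0.957113) := by
            apply mul_le_mul_of_nonneg_right hbb.le
            positivity
        _ ≤ x := by
            rw [div_mul_eq_mul_div, ← mul_div_assoc, div_le_iff₀ (by norm_num)]
            nlinarith
    calc _ ≤ bb * (V * (- log (1 - x))) := by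
            apply mul_le_mul_of_nonneg_left h1 hbb0.le
      _ = V * (bb * (- log (1 - x))) := by ring
      _ ≤ V * x := by exact mul_le_mul_of_nonneg_left h4 hV
      _ ≤ x * V / w := by linarith
  · have h1 := secDiff_le_trap hδ2 hV hsum
    rw [hlogx] at h1
    set y := δ ^ 2 / w with hy
    have hy0 : 0 < y := by positivity
    have hyle : y ≤ 0.5392 := by
      rw [hy, div_le_iff₀ hw0]
      have h10 : δ * δ ≤ δ * (0.5392 * (2 - δ)) :=
        mul_le_mul_of_nonneg_left (by linarith) hδ.le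
      linarith
    have hlogy : log w - log (w - δ ^ 2) = - log (1 - y) := by
      have : 1 - y = (w - δ ^ 2) / w := by rw [hy]; field_simp
      rw [this, log_div hwe.ne' hw0.ne']
      ring
    rw [hlogy] at h1
    have h2 := neg_log_one_sub_le_chord hy0.le hyle (by norm_num) (by norm_num)
    have e : (1 : ℝ) - 0.5392 = 0.4608 := by norm_num
    rw [e] at h2
    have h3 := log_4608
    have h5 : - log (1 - x) ≤ 1.203973 := by
      refine le_trans ?_ log_3_10
      rw [neg_le_neg_iff]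
      apply log_le_log (by norm_num)
      linarith
    have h6 : - log (1 - y) ≤ 0.70411 / w := by
      refine h2.trans ?_
      have : y / 0.5392 * (- log 0.4608) ≤ y / 0.5392 * 0.774792 :=
        mul_le_mul_of_nonneg_left h3 (by positivity)
      refine this.trans ?_
      rw [hy, le_div_iff₀ hw0]
      have : δ ^ 2 / w / 0.5392 * 0.774792 * w = δ ^ 2 * (0.774792 / 0.5392) := by
        field_simp
      rw [this]
      have h49 : δ ^ 2 ≤ 0.49 := by nlinarith
      calc δ ^ 2 * (0.774792 / 0.5392) ≤ 0.49 * (0.774792 / 0.5392) :=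
            mul_le_mul_of_nonneg_right h49 (by norm_num)
        _ ≤ 0.70411 := by norm_num
    have h7' : - log (1 - x) ≤ 1.203973 / w := by
      refine h5.trans ?_
      rw [le_div_iff₀ hw0]
      linarith
    have h8 : bb * ((- log (1 - y)) + (- log (1 - x))) ≤ 2 * (x / w) := by
      calc bb * ((- log (1 - y)) + (- log (1 - x))) ≤ bb * (0.70411 / w + 1.203973 / w) := by
            apply mul_le_mul_of_nonneg_left _ hbb0.le
            linarith
        _ ≤ 0.64062 * (0.70411 / w + 1.203973 / w) := by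
            apply mul_le_mul_of_nonneg_right hbb.le
            positivity
        _ = 0.64062 * (0.70411 + 1.203973) / w := by ring
        _ ≤ 2 * x / w := by
            apply div_le_div_of_nonneg_right _ hw0.le
            norm_num at hc ⊢
            linarith
        _ = 2 * (x / w) := by ring
    calc _ ≤ bb * (V / 2 * ((- log (1 - y)) + (- log (1 - x)))) := by
            apply mul_le_mul_of_nonneg_left h1 hbb0.le
      _ = V / 2 * (bb * ((- log (1 - y)) + (- log (1 - x)))) := by ring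
      _ ≤ V / 2 * (2 * (x / w)) := mul_le_mul_of_nonneg_left h8 (by linarith)
      _ = x * V / w := by ring

/-! ### second case: `δ ≥ 7/10` -/

/-- the function whose nonnegativity is needed, as a function of `δ`. -/
noncomputable def Gex (c m δ : ℝ) : ℝ :=
  2 * log (1 + m) - log (1 + m - δ) - log (1 + m + δ)
    - c * (1 - m) ^ 2 * (log (1 - m ^ 2) - log (1 - m ^ 2 - δ ^ 2) - log (1 - δ))

/-- `-(p² - δ²)` times the derivative of `Gex`; convex in `δ`. -/
noncomputable def Psix (c m δ : ℝ) : ℝ :=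
  c * (1 - m) ^ 2 * (3 * δ + 1 + 2 * m * (1 + m) * (2 * δ / (1 - m ^ 2 - δ ^ 2))
    + m * (2 + m) * (1 / (1 - δ))) - 2 * δ

theorem hasDerivAt_Gex {c m δ : ℝ} (hm : 0 ≤ m) (h0 : 0 < δ) (h1 : δ < 1) (hw : δ ^ 2 < 1 - m ^ 2) :
    HasDerivAt (Gex c m) (- (Psix c m δ / ((1 + m) ^ 2 - δ ^ 2))) δ := by
  have a1 : 0 < 1 + m - δ := by linarith
  have a2 : 0 < 1 + m + δ := by linarith
  have a3 : 0 < 1 - m ^ 2 - δ ^ 2 := by linarith
  have a4 : 0 < 1 - δ := by linarith
  have a5 : (1 + m) ^ 2 - δ ^ 2 ≠ 0 := by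
    have : (1 + m) ^ 2 - δ ^ 2 = (1 + m - δ) * (1 + m + δ) := by ring
    rw [this]; positivity
  have d1 : HasDerivAt (fun δ : ℝ => 1 + m - δ) (-1) δ := by
    simpa using (hasDerivAt_id δ).const_sub (1 + m)
  have d2 : HasDerivAt (fun δ : ℝ => 1 + m + δ) 1 δ := by
    simpa using (hasDerivAt_id δ).const_add (1 + m)
  have d3 : HasDerivAt (fun δ : ℝ => 1 - m ^ 2 - δ ^ 2) (-(2 * δ)) δ := by
    simpa using (hasDerivAt_pow 2 δ).const_sub (1 - m ^ 2)
  have d4 : HasDerivAt (fun δ : ℝ => 1 - δ) (-1) δ := by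
    simpa using (hasDerivAt_id δ).const_sub 1
  have l1 := d1.log a1.ne'
  have l2 := d2.log a2.ne'
  have l3 := d3.log a3.ne'
  have l4 := d4.log a4.ne'
  have t := (((hasDerivAt_const δ (2 * log (1 + m))).sub l1).sub l2).sub
    ((((hasDerivAt_const δ (log (1 - m ^ 2))).sub l3).sub l4).const_mul (c * (1 - m) ^ 2))
  refine (t.congr_deriv ?_)
  unfold Psix
  have a5' : (1 + m - δ) * (1 + m + δ) ≠ 0 := by positivity
  have e5 : (1 + m) ^ 2 - δ ^ 2 = (1 + m - δ) * (1 + m + δ) := by ring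
  rw [e5]
  field_simp
  ring

theorem Psix_tangent {c m y : ℝ} (hc : 0 < c) (hm : 0 ≤ m) (h0 : 0 ≤ y) (h1 : y < 1)
    (hw : y ^ 2 < 1 - m ^ 2) :
    ∃ S : ℝ, ∀ t : ℝ, 0 ≤ t → t < 1 → t ^ 2 < 1 - m ^ 2 → Psix c m y + S * (t - y) ≤ Psix c m t := by
  refine ⟨c * (1 - m) ^ 2 * (3 + 2 * m * (1 + m) * (2 * (1 - m ^ 2 + y ^ 2) / (1 - m ^ 2 - y ^ 2) ^ 2)
    + m * (2 + m) * (1 / (1 - y) ^ 2)) - 2, fun t ht0 ht1 htw => ?_⟩
  have b1 : 0 < 1 - y := by linarith
  have b2 : 0 < 1 - t := by linarith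
  set w := 1 - m ^ 2 with hwdef
  have b3 : 0 < w - y ^ 2 := by linarith
  have b4 : 0 < w - t ^ 2 := by linarith
  have hw0 : 0 < w := by nlinarith
  have k1 : 1 / (1 - y) + 1 / (1 - y) ^ 2 * (t - y) ≤ 1 / (1 - t) := by
    have e : 1 / (1 - t) - (1 / (1 - y) + 1 / (1 - y) ^ 2 * (t - y))
        = (t - y) ^ 2 / ((1 - t) * (1 - y) ^ 2) := by
      field_simp
      ring
    have : 0 ≤ (t - y) ^ 2 / ((1 - t) * (1 - y) ^ 2) := by positivity
    linarith
  have k2 : 2 * y / (w - y ^ 2) + 2 * (w + y ^ 2) / (w - y ^ 2) ^ 2 * (t - y) ≤ 2 * t / (w - t ^ 2) := by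
    have e : 2 * t / (w - t ^ 2) - (2 * y / (w - y ^ 2) + 2 * (w + y ^ 2) / (w - y ^ 2) ^ 2 * (t - y))
        = 2 * (t - y) ^ 2 * (w * (t + 2 * y) + y ^ 2 * t) / ((w - t ^ 2) * (w - y ^ 2) ^ 2) := by
      field_simp
      ring
    have : 0 ≤ 2 * (t - y) ^ 2 * (w * (t + 2 * y) + y ^ 2 * t) / ((w - t ^ 2) * (w - y ^ 2) ^ 2) := by
      positivity
    linarith
  have c1 : 0 ≤ 2 * m * (1 + m) := by positivity
  have c2 : 0 ≤ m * (2 + m) := by positivity
  have k3 := mul_le_mul_of_nonneg_left k2 c1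
  have k4 := mul_le_mul_of_nonneg_left k1 c2
  have c3 : 0 ≤ c * (1 - m) ^ 2 := by positivity
  have k5 := mul_le_mul_of_nonneg_left (add_le_add k3 k4) c3
  unfold Psix
  rw [← hwdef]
  nlinarith [k5]

theorem Psix_cross {c m x y z : ℝ} (hc : 0 < c) (hm : 0 ≤ m) (hx : 0 ≤ x) (hxy : x ≤ y) (hyz : y ≤ z)
    (hz : z < 1) (hzw : z ^ 2 < 1 - m ^ 2) (h1 : Psix c m x ≤ 0) (h2 : Psix c m z ≤ 0) :
    Psix c m y ≤ 0 := by
  have hy : 0 ≤ y := hx.trans hxy
  obtain ⟨S, hS⟩ := Psix_tangent (c := c) (m := m) (y := y) hc hm hy (by linarith) (by nlinarith)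
  by_contra hcon
  push Not at hcon
  have t1 := hS x hx (by linarith) (by nlinarith)
  have t2 := hS z (by linarith) hz hzw
  rcases le_total 0 S with h | h
  · have := mul_nonneg h (sub_nonneg.2 hyz)
    linarith
  · have := mul_nonneg_of_nonpos_of_nonpos h (sub_nonpos.2 hxy)
    linarith

theorem Psix_seven {c m : ℝ} (hc : 0 < c) (hc' : c ≤ 0.32031) (hm : 0 ≤ m) (hm' : m ≤ 0.3) :
    Psix c m 0.7 ≤ 0 := by
  unfold Psix
  have a3 : 0 < 1 - m ^ 2 - 0.7 ^ 2 := by nlinarith
  have hpos : 0 ≤ 3 * (0.7 : ℝ) + 1 + 2 * m * (1 + m) * (2 * 0.7 / (1 - m ^ 2 - 0.7 ^ 2))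
    + m * (2 + m) * (1 / (1 - 0.7)) := by
    have : (0 : ℝ) < 1 - 0.7 := by norm_num
    positivity
  have h1 : c * (1 - m) ^ 2 * (3 * (0.7 : ℝ) + 1 + 2 * m * (1 + m) * (2 * 0.7 / (1 - m ^ 2 - 0.7 ^ 2))
    + m * (2 + m) * (1 / (1 - 0.7))) ≤ 0.32031 * (1 - m) ^ 2 * (3 * (0.7 : ℝ) + 1 + 2 * m * (1 + m) *
    (2 * 0.7 / (1 - m ^ 2 - 0.7 ^ 2)) + m * (2 + m) * (1 / (1 - 0.7))) := by
    apply mul_le_mul_of_nonneg_right _ hpos
    apply mul_le_mul_of_nonneg_right hc'
    positivity
  refine (sub_le_sub_right h1 _).trans ?_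
  have e : 0.32031 * (1 - m) ^ 2 * (3 * (0.7 : ℝ) + 1 + 2 * m * (1 + m) *
    (2 * 0.7 / (1 - m ^ 2 - 0.7 ^ 2)) + m * (2 + m) * (1 / (1 - 0.7))) - 2 * 0.7
    = (0.32031 * (1 - m) ^ 2 * ((3.1 + m * (2 + m) / 0.3) * (0.51 - m ^ 2) + 2.8 * m * (1 + m))
      - 1.4 * (0.51 - m ^ 2)) / (1 - m ^ 2 - 0.7 ^ 2) := by
    have e1 : (1 : ℝ) - 0.7 = 0.3 := by norm_num
    have e2 : 1 - m ^ 2 - 0.7 ^ 2 = 0.51 - m ^ 2 := by ring
    rw [e1, e2]
    have : (0.51 : ℝ) - m ^ 2 ≠ 0 := by rw [← e2]; exact a3.ne'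
    field_simp
    ring
  rw [e]
  apply div_nonpos_of_nonpos_of_nonneg _ a3.le
  have g0 : 0 ≤ (0.3 - m) := by linarith
  have h : 0 ≤ 0.42 * (0.51 - m ^ 2)
      - 0.32031 * ((1 - m ^ 2) ^ 2 - 0.49 * (1 - m) ^ 2) * (0.93 - m ^ 2) := by
    have q0 := pow_nonneg g0 6
    have q1 := mul_nonneg (pow_nonneg hm 1) (pow_nonneg g0 5)
    have q2 := mul_nonneg (pow_nonneg hm 2) (pow_nonneg g0 4)
    have q3 := mul_nonneg (pow_nonneg hm 3) (pow_nonneg g0 3)
    have q4 := mul_nonneg (pow_nonneg hm 4) (pow_nonneg g0 2)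
    have q5 := mul_nonneg (pow_nonneg hm 5) (pow_nonneg g0 1)
    have q6 := pow_nonneg hm 6
    linarith
  have e3 : 0.32031 * (1 - m) ^ 2 * ((3.1 + m * (2 + m) / 0.3) * (0.51 - m ^ 2) + 2.8 * m * (1 + m))
      - 1.4 * (0.51 - m ^ 2) = - ((0.42 * (0.51 - m ^ 2)
      - 0.32031 * ((1 - m ^ 2) ^ 2 - 0.49 * (1 - m) ^ 2) * (0.93 - m ^ 2)) / 0.3) := by
    ring
  rw [e3]
  have : 0 ≤ (0.42 * (0.51 - m ^ 2)
      - 0.32031 * ((1 - m ^ 2) ^ 2 - 0.49 * (1 - m) ^ 2) * (0.93 - m ^ 2)) / 0.3 := by positivity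
  linarith

theorem Gex_seven {c m : ℝ} (hc : 0 < c) (hc' : c ≤ 0.32031) (hm : 0 ≤ m) (hm' : m ≤ 0.3) :
    0 ≤ Gex c m 0.7 := by
  unfold Gex
  have hp : 0 < 1 + m := by linarith
  have a1 : 0 < 1 + m - 0.7 := by linarith
  have a2 : 0 < 1 + m + 0.7 := by linarith
  have a3 : 0 < 1 - m ^ 2 - 0.7 ^ 2 := by nlinarith
  have a4 : 0 < 1 - m ^ 2 := by nlinarith
  have hl1 : 2 * log (1 + m) - log (1 + m - 0.7) - log (1 + m + 0.7)
      = - log ((1 + m - 0.7) * (1 + m + 0.7) / (1 + m) ^ 2) := by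
    rw [log_div (by positivity) (by positivity), log_mul a1.ne' a2.ne', log_pow]
    push_cast
    ring
  have hl2 : -0.140496 + 0.797526 / (1 + m) ^ 2
      ≤ - log ((1 + m - 0.7) * (1 + m + 0.7) / (1 + m) ^ 2) := by
    set z := (1 + m - 0.7) * (1 + m + 0.7) / (1 + m) ^ 2 with hz
    have hz0 : 0 < z := by positivity
    have h1 := log_le_sub_one_of_pos (x := z / 0.6144) (by positivity)
    rw [log_div hz0.ne' (by norm_num)] at h1
    have h2 : log (0.6144 : ℝ) ≤ -0.487109 := by
      have e : (0.6144 : ℝ) = 2 ^ 7 * 3 / 5 ^ 4 := by norm_num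
      rw [e, log_div (by norm_num) (by norm_num), log_mul (by norm_num) (by norm_num), log_pow, log_pow]
      have := Real.log_two_lt_d9
      have := Real.log_three_lt_d9
      have := Real.log_five_gt_d9
      push_cast
      linarith
    have hz' : z = 1 - 0.49 * (1 / (1 + m) ^ 2) := by
      rw [hz]; field_simp; ring
    have hi : 0 ≤ ((1 + m) ^ 2)⁻¹ := by positivity
    have e4 : 0.797526 / (1 + m) ^ 2 = 0.797526 * (1 / (1 + m) ^ 2) := by ring
    rw [e4]
    rw [hz'] at h1 ⊢
    rw [one_div] at h1 ⊢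
    norm_num at h1 h2 ⊢
    linarith
  have hl3 : log (1 - m ^ 2) - log (1 - m ^ 2 - 0.7 ^ 2) - log (1 - 0.7) ≤ 1.978765 := by
    have e : log (1 - m ^ 2) - log (1 - m ^ 2 - 0.7 ^ 2) - log (1 - 0.7)
        = log ((1 - m ^ 2) / ((1 - m ^ 2 - 0.7 ^ 2) * (1 - 0.7))) := by
      rw [log_div a4.ne' (by have : (0:ℝ) < 1 - 0.7 := by norm_num
                             positivity), log_mul a3.ne' (by norm_num)]
      ring
    rw [e]
    have h1 : (1 - m ^ 2) / ((1 - m ^ 2 - 0.7 ^ 2) * (1 - 0.7)) ≤ 5 ^ 5 / (2 ^ 4 * 3 ^ 3) := by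
      have a5 : (0:ℝ) < 1 - 0.7 := by norm_num
      rw [div_le_div_iff₀ (by positivity) (by norm_num)]
      nlinarith
    have a5 : (0:ℝ) < 1 - 0.7 := by norm_num
    refine (log_le_log (by positivity) h1).trans ?_
    rw [log_div (by norm_num) (by norm_num), log_mul (by norm_num) (by norm_num), log_pow, log_pow,
      log_pow]
    have := Real.log_two_gt_d9
    have := Real.log_three_gt_d9
    have := Real.log_five_lt_d9
    push_cast
    linarith
  have hl4 : c * (1 - m) ^ 2 * (log (1 - m ^ 2) - log (1 - m ^ 2 - 0.7 ^ 2) - log (1 - 0.7))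
      ≤ 0.63382 * (1 - m) ^ 2 := by
    calc c * (1 - m) ^ 2 * (log (1 - m ^ 2) - log (1 - m ^ 2 - 0.7 ^ 2) - log (1 - 0.7))
        ≤ c * (1 - m) ^ 2 * 1.978765 := mul_le_mul_of_nonneg_left hl3 (by positivity)
      _ = (1 - m) ^ 2 * (c * 1.978765) := by ring
      _ ≤ (1 - m) ^ 2 * 0.63382 := by
          apply mul_le_mul_of_nonneg_left _ (sq_nonneg _)
          linarith
      _ = 0.63382 * (1 - m) ^ 2 := by ring
  have hl5 : 0.63382 * (1 - m) ^ 2 ≤ -0.140496 + 0.797526 / (1 + m) ^ 2 := by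
    have e : -0.140496 + 0.797526 / (1 + m) ^ 2
        = (-0.140496 * (1 + m) ^ 2 + 0.797526) / (1 + m) ^ 2 := by field_simp
    rw [e, le_div_iff₀ (by positivity)]
    nlinarith [mul_nonneg (pow_nonneg hm 2) (sub_nonneg.2 hm'), mul_nonneg (pow_nonneg hm 3)
      (sub_nonneg.2 hm'), sq_nonneg (m - 0.13)]
  rw [hl1]
  linarith

/-- polynomial inequality on a piece -/
theorem Gex_end_piece {m A B m0 m1 L T : ℝ} (hm : 0 < m) (hm' : m ≤ 0.3)
    (hL : A - m / m0 ≤ L) (hT : T ≤ B + (m1 - m) / (1 + m))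
    (hpoly : 0 ≤ (1 + m) * (1 - 2 * 0.32031 * (1 - m) ^ 2) * (A - m / m0)
      - (2 - 0.32031 * (1 - m) ^ 2) * (B * (1 + m) + m1 - m)) :
    0 ≤ L - 2 * T - 0.32031 * (1 - m) ^ 2 * (2 * L - T) := by
  have hp : 0 < 1 + m := by linarith
  have c1 : 0 ≤ 1 - 2 * 0.32031 * (1 - m) ^ 2 := by nlinarith
  have c2 : 0 ≤ 2 - 0.32031 * (1 - m) ^ 2 := by nlinarith
  have e1 := mul_le_mul_of_nonneg_left hL c1
  have e2 := mul_le_mul_of_nonneg_left hT c2
  have e3 : 0 ≤ (1 - 2 * 0.32031 * (1 - m) ^ 2) * (A - m / m0)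
      - (2 - 0.32031 * (1 - m) ^ 2) * (B + (m1 - m) / (1 + m)) := by
    have : (1 - 2 * 0.32031 * (1 - m) ^ 2) * (A - m / m0)
      - (2 - 0.32031 * (1 - m) ^ 2) * (B + (m1 - m) / (1 + m))
      = ((1 + m) * (1 - 2 * 0.32031 * (1 - m) ^ 2) * (A - m / m0)
      - (2 - 0.32031 * (1 - m) ^ 2) * (B * (1 + m) + m1 - m)) / (1 + m) := by
      field_simp
      ring
    rw [this]
    positivity
  linarith

theorem neg_log_ge_tangent {m m0 : ℝ} (hm : 0 < m) (hm0 : 0 < m0) :
    - log m0 + 1 - m / m0 ≤ - log m := by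
  have h := log_le_sub_one_of_pos (x := m / m0) (by positivity)
  rw [log_div hm.ne' hm0.ne'] at h
  linarith

theorem log_two_sub_le {m m1 : ℝ} (hm : 0 < m) (hm1 : 0 < m1) :
    log 2 - log (1 + m) ≤ (log 2 - log (1 + m1)) + (m1 - m) / (1 + m) := by
  have h := log_le_sub_one_of_pos (x := (1 + m1) / (1 + m)) (by positivity)
  rw [log_div (by positivity) (by positivity)] at h
  have e : (1 + m1) / (1 + m) - 1 = (m1 - m) / (1 + m) := by
    field_simp
    ring
  rw [e] at h
  linarith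

theorem Gex_end {c m : ℝ} (hc : 0 < c) (hc' : c ≤ 0.32031) (hm : 0 < m) (hm' : m ≤ 0.3) :
    0 ≤ Gex c m (1 - m) := by
  have l2 := Real.log_two_gt_d9
  have l2' := Real.log_two_lt_d9
  have l3 := Real.log_three_gt_d9
  have l3' := Real.log_three_lt_d9
  have l5 := Real.log_five_gt_d9
  have l5' := Real.log_five_lt_d9
  have hq : 0 < 1 - m := by linarith
  have hp : 0 < 1 + m := by linarith
  have e0 : Gex c m (1 - m) = (- log m) - 2 * (log 2 - log (1 + m))
      - c * (1 - m) ^ 2 * (2 * (- log m) - (log 2 - log (1 + m))) := by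
    unfold Gex
    have e1 : 1 + m - (1 - m) = 2 * m := by ring
    have e2 : 1 + m + (1 - m) = 2 := by ring
    have e3 : 1 - m ^ 2 = (1 - m) * (1 + m) := by ring
    have e4 : (1 - m) * (1 + m) - (1 - m) ^ 2 = 2 * m * (1 - m) := by ring
    have e5 : 1 - (1 - m) = m := by ring
    rw [e1, e2, e3, e4, e5, log_mul (by norm_num) hm.ne', log_mul hq.ne' hp.ne',
      log_mul (by positivity) hq.ne', log_mul (by norm_num) hm.ne']
    ring
  rw [e0]
  set L := - log m with hLdef
  set T := log 2 - log (1 + m) with hTdef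
  have hLT : 0 ≤ 2 * L - T := by
    have h1 := neg_log_ge_tangent hm (m0 := 1) (by norm_num)
    rw [log_one] at h1
    have h2 := log_two_sub_le hm (m1 := 1) (by norm_num)
    have e : (1:ℝ) + 1 = 2 := by norm_num
    rw [e] at h2
    have h3 : (1 - m) / (1 + m) ≤ 1 - m := by
      rw [div_le_iff₀ hp]
      nlinarith
    linarith
  have hmain : 0 ≤ L - 2 * T - 0.32031 * (1 - m) ^ 2 * (2 * L - T) := by
    rcases le_or_gt m (1 / 20) with h1 | h1
    · have hL := neg_log_ge_tangent hm (m0 := 3 / 100) (by norm_num)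
      have hT := log_two_sub_le hm (m1 := 3 / 125) (by norm_num)
      have e1 : log (3 / 100 : ℝ) ≤ -3.506557 := by
        have e : (3 / 100 : ℝ) = 3 / (2 ^ 2 * 5 ^ 2) := by norm_num
        rw [e, log_div (by norm_num) (by norm_num), log_mul (by norm_num) (by norm_num), log_pow,
          log_pow]
        push_cast
        linarith
      have e2 : 0.023716 ≤ log (1 + 3 / 125 : ℝ) := by
        have e : (1 + 3 / 125 : ℝ) = 2 ^ 7 / 5 ^ 3 := by norm_num
        rw [e, log_div (by norm_num) (by norm_num), log_pow, log_pow]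
        push_cast
        linarith
      refine Gex_end_piece (A := 4.506557) (B := 0.669432) (m0 := 3 / 100) (m1 := 3 / 125) hm hm'
        (by refine le_trans ?_ hL; linarith) (by refine hT.trans ?_; linarith) ?_
      have g0 : 0 ≤ 1 / 20 - m := by linarith
      have q0 := pow_nonneg g0 4
      have q1 := mul_nonneg (pow_nonneg hm.le 1) (pow_nonneg g0 3)
      have q2 := mul_nonneg (pow_nonneg hm.le 2) (pow_nonneg g0 2)
      have q3 := mul_nonneg (pow_nonneg hm.le 3) (pow_nonneg g0 1)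
      have q4 := pow_nonneg hm.le 4
      linarith
    rcases le_or_gt m (1 / 10) with h2 | h2
    · have hL := neg_log_ge_tangent hm (m0 := 3 / 40) (by norm_num)
      have hT := log_two_sub_le hm (m1 := 2 / 25) (by norm_num)
      have e1 : log (3 / 40 : ℝ) ≤ -2.590267 := by
        have e : (3 / 40 : ℝ) = 3 / (2 ^ 3 * 5) := by norm_num
        rw [e, log_div (by norm_num) (by norm_num), log_mul (by norm_num) (by norm_num), log_pow]
        push_cast
        linarith
      have e2 : 0.076960 ≤ log (1 + 2 / 25 : ℝ) := by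
        have e : (1 + 2 / 25 : ℝ) = 3 ^ 3 / 5 ^ 2 := by norm_num
        rw [e, log_div (by norm_num) (by norm_num), log_pow, log_pow]
        push_cast
        linarith
      refine Gex_end_piece (A := 3.590267) (B := 0.616188) (m0 := 3 / 40) (m1 := 2 / 25) hm hm'
        (by refine le_trans ?_ hL; linarith) (by refine hT.trans ?_; linarith) ?_
      have g0 : 0 ≤ 1 / 10 - m := by linarith
      have g1 : 0 ≤ m - 1 / 20 := by linarith
      have q0 := pow_nonneg g0 4
      have q1 := mul_nonneg (pow_nonneg g1 1) (pow_nonneg g0 3)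
      have q2 := mul_nonneg (pow_nonneg g1 2) (pow_nonneg g0 2)
      have q3 := mul_nonneg (pow_nonneg g1 3) (pow_nonneg g0 1)
      have q4 := pow_nonneg g1 4
      linarith
    rcases le_or_gt m (9 / 50) with h3 | h3
    · have hL := neg_log_ge_tangent hm (m0 := 18 / 125) (by norm_num)
      have hT := log_two_sub_le hm (m1 := 1 / 8) (by norm_num)
      have e1 : log (18 / 125 : ℝ) ≤ -1.937941 := by
        have e : (18 / 125 : ℝ) = 2 * 3 ^ 2 / 5 ^ 3 := by norm_num
        rw [e, log_div (by norm_num) (by norm_num), log_mul (by norm_num) (by norm_num), log_pow,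
          log_pow]
        push_cast
        linarith
      have e2 : 0.117783 ≤ log (1 + 1 / 8 : ℝ) := by
        have e : (1 + 1 / 8 : ℝ) = 3 ^ 2 / 2 ^ 3 := by norm_num
        rw [e, log_div (by norm_num) (by norm_num), log_pow, log_pow]
        push_cast
        linarith
      refine Gex_end_piece (A := 2.937941) (B := 0.575365) (m0 := 18 / 125) (m1 := 1 / 8) hm hm'
        (by refine le_trans ?_ hL; linarith) (by refine hT.trans ?_; linarith) ?_
      have g0 : 0 ≤ 9 / 50 - m := by linarith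
      have g1 : 0 ≤ m - 1 / 10 := by linarith
      have q0 := pow_nonneg g0 4
      have q1 := mul_nonneg (pow_nonneg g1 1) (pow_nonneg g0 3)
      have q2 := mul_nonneg (pow_nonneg g1 2) (pow_nonneg g0 2)
      have q3 := mul_nonneg (pow_nonneg g1 3) (pow_nonneg g0 1)
      have q4 := pow_nonneg g1 4
      linarith
    · have hL := neg_log_ge_tangent hm (m0 := 6 / 25) (by norm_num)
      have hT := log_two_sub_le hm (m1 := 1 / 4) (by norm_num)
      have e1 : log (6 / 25 : ℝ) ≤ -1.427116 := by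
        have e : (6 / 25 : ℝ) = 2 * 3 / 5 ^ 2 := by norm_num
        rw [e, log_div (by norm_num) (by norm_num), log_mul (by norm_num) (by norm_num), log_pow]
        push_cast
        linarith
      have e2 : 0.223143 ≤ log (1 + 1 / 4 : ℝ) := by
        have e : (1 + 1 / 4 : ℝ) = 5 / 2 ^ 2 := by norm_num
        rw [e, log_div (by norm_num) (by norm_num), log_pow]
        push_cast
        linarith
      refine Gex_end_piece (A := 2.427116) (B := 0.470005) (m0 := 6 / 25) (m1 := 1 / 4) hm hm'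
        (by refine le_trans ?_ hL; linarith) (by refine hT.trans ?_; linarith) ?_
      have g0 : 0 ≤ 0.3 - m := by linarith
      have g1 : 0 ≤ m - 9 / 50 := by linarith
      have q0 := pow_nonneg g0 4
      have q1 := mul_nonneg (pow_nonneg g1 1) (pow_nonneg g0 3)
      have q2 := mul_nonneg (pow_nonneg g1 2) (pow_nonneg g0 2)
      have q3 := mul_nonneg (pow_nonneg g1 3) (pow_nonneg g0 1)
      have q4 := pow_nonneg g1 4
      linarith
  have : c * (1 - m) ^ 2 * (2 * L - T) ≤ 0.32031 * (1 - m) ^ 2 * (2 * L - T) := by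
    apply mul_le_mul_of_nonneg_right _ hLT
    apply mul_le_mul_of_nonneg_right hc' (sq_nonneg _)
  linarith

theorem Gex_nonneg {c m δ : ℝ} (hc : 0 < c) (hc' : c ≤ 0.32031) (hm : 0 ≤ m) (h7 : 0.7 ≤ δ)
    (hδm : δ < 1 - m) : 0 ≤ Gex c m δ := by
  have hm' : m ≤ 0.3 := by linarith
  have hδ1 : δ < 1 := by linarith
  have hw : δ ^ 2 < 1 - m ^ 2 := by nlinarith
  have h7' := Psix_seven hc hc' hm hm'
  by_cases hΨ : Psix c m δ ≤ 0
  · refine (Gex_seven hc hc' hm hm').trans ?_
    have hmono : MonotoneOn (Gex c m) (Icc 0.7 δ) := by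
      have hd : ∀ t ∈ Icc (0.7 : ℝ) δ, HasDerivAt (Gex c m)
          (- (Psix c m t / ((1 + m) ^ 2 - t ^ 2))) t := by
        intro t ht
        exact hasDerivAt_Gex hm (by linarith [ht.1]) (by linarith [ht.2])
          (by nlinarith [ht.1, ht.2])
      apply monotoneOn_of_deriv_nonneg (convex_Icc _ _)
      · intro t ht
        exact (hd t ht).continuousAt.continuousWithinAt
      · intro t ht
        rw [interior_Icc] at ht
        exact (hd t ⟨ht.1.le, ht.2.le⟩).differentiableAt.differentiableWithinAt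
      · intro t ht
        rw [interior_Icc] at ht
        rw [(hd t ⟨ht.1.le, ht.2.le⟩).deriv]
        have h1 : Psix c m t ≤ 0 :=
          Psix_cross hc hm (by norm_num) ht.1.le ht.2.le hδ1 hw h7' hΨ
        have h2 : 0 < (1 + m) ^ 2 - t ^ 2 := by nlinarith [ht.1, ht.2]
        rw [neg_nonneg]
        exact div_nonpos_of_nonpos_of_nonneg h1 h2.le
    exact hmono (left_mem_Icc.2 h7) (right_mem_Icc.2 h7) h7
  · push Not at hΨ
    have hm0 : 0 < m := by
      rcases hm.lt_or_eq with h | h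
      · exact h
      · exfalso
        rw [← h] at hΨ
        unfold Psix at hΨ
        norm_num at hΨ
        nlinarith
    refine (Gex_end hc hc' hm0 hm').trans ?_
    have hanti : AntitoneOn (Gex c m) (Icc δ (1 - m)) := by
      have hd : ∀ t ∈ Icc δ (1 - m), HasDerivAt (Gex c m)
          (- (Psix c m t / ((1 + m) ^ 2 - t ^ 2))) t := by
        intro t ht
        exact hasDerivAt_Gex hm (by linarith [ht.1]) (by linarith [ht.2])
          (by nlinarith [ht.1, ht.2])
      apply antitoneOn_of_deriv_nonpos (convex_Icc _ _)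
      · intro t ht
        exact (hd t ht).continuousAt.continuousWithinAt
      · intro t ht
        rw [interior_Icc] at ht
        exact (hd t ⟨ht.1.le, ht.2.le⟩).differentiableAt.differentiableWithinAt
      · intro t ht
        rw [interior_Icc] at ht
        rw [(hd t ⟨ht.1.le, ht.2.le⟩).deriv]
        have h1 : 0 ≤ Psix c m t := by
          by_contra hcon
          push Not at hcon
          have := Psix_cross hc hm (by norm_num) h7 ht.1.le (by linarith [ht.2])
            (by nlinarith [ht.1, ht.2]) h7' hcon.le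
          linarith
        have h2 : 0 < (1 + m) ^ 2 - t ^ 2 := by nlinarith [ht.1, ht.2]
        rw [neg_nonpos]
        exact div_nonneg h1 h2.le
    exact hanti (left_mem_Icc.2 hδm.le) (right_mem_Icc.2 hδm.le) hδm.le

theorem explicit_case_large {m δ V : ℝ} (hm : 0 ≤ m) (hδm : δ < 1 - m) (hV : 0 ≤ V)
    (hVw : V ≤ 1 - m ^ 2 - δ) (h7 : 0.7 ≤ δ) :
    4 / 3 * (log 2) ^ 2 * ((1 - m ^ 2) * log (1 - m ^ 2) - (1 - m ^ 2 - V) * log (1 - m ^ 2 - V)
      - (1 - m ^ 2 - δ ^ 2) * log (1 - m ^ 2 - δ ^ 2)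
      + (1 - m ^ 2 - V - δ ^ 2) * log (1 - m ^ 2 - V - δ ^ 2))
      ≤ - log (1 - δ ^ 2 / (1 + m) ^ 2) / (1 - m) ^ 2 * V := by
  have hbb := bb_lt
  have hbb0 : 0 < 4 / 3 * (log 2) ^ 2 := by
    have := Real.log_two_gt_d9
    positivity
  set bb := 4 / 3 * (log 2) ^ 2 with hbbdef
  have hδ : 0 < δ := by linarith
  have hδ1 : δ < 1 := by linarith
  have hq : 0 < 1 - m := by linarith
  have hp : 0 < 1 + m := by linarith
  have hG := Gex_nonneg (c := bb / 2) (by positivity) (by linarith) hm h7 hδm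
  set w := 1 - m ^ 2 with hw
  have hw0 : 0 < w := by nlinarith
  have hδ2 : 0 < δ ^ 2 := by positivity
  have hδδ : δ ^ 2 < δ := by nlinarith
  have hwV : 0 < w - V := by linarith
  have hsum : V + δ ^ 2 < w := by linarith
  have hwVe : 0 < w - V - δ ^ 2 := by linarith
  have h1 := secDiff_le_trap hδ2 hV hsum
  have h2 : log (w - V) - log (w - V - δ ^ 2) ≤ - log (1 - δ) := by
    have e : log (w - V) - log (w - V - δ ^ 2) = - log ((w - V - δ ^ 2) / (w - V)) := by
      rw [log_div hwVe.ne' hwV.ne']; ring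
    rw [e, neg_le_neg_iff]
    apply log_le_log (by linarith)
    rw [le_div_iff₀ hwV]
    nlinarith
  have h3 : log (1 - δ ^ 2 / (1 + m) ^ 2) = log (1 + m - δ) + log (1 + m + δ) - 2 * log (1 + m) := by
    have e : 1 - δ ^ 2 / (1 + m) ^ 2 = (1 + m - δ) * (1 + m + δ) / (1 + m) ^ 2 := by
      field_simp; ring
    have a1 : 0 < 1 + m - δ := by linarith
    have a2 : 0 < 1 + m + δ := by linarith
    rw [e, log_div (by positivity) (by positivity), log_mul a1.ne' a2.ne', log_pow]
    push_cast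
    ring
  unfold Gex at hG
  rw [← hw] at hG
  have h4 : bb / 2 * (log w - log (w - δ ^ 2) - log (1 - δ))
      ≤ - log (1 - δ ^ 2 / (1 + m) ^ 2) / (1 - m) ^ 2 := by
    rw [h3, le_div_iff₀ (by positivity)]
    linarith
  calc _ ≤ bb * (V / 2 * ((log w - log (w - δ ^ 2)) + (log (w - V) - log (w - V - δ ^ 2)))) :=
        mul_le_mul_of_nonneg_left h1 hbb0.le
    _ ≤ bb * (V / 2 * ((log w - log (w - δ ^ 2)) + (- log (1 - δ)))) := by
        apply mul_le_mul_of_nonneg_left _ hbb0.le
        apply mul_le_mul_of_nonneg_left _ (by linarith)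
        linarith
    _ = V * (bb / 2 * (log w - log (w - δ ^ 2) - log (1 - δ))) := by ring
    _ ≤ V * (- log (1 - δ ^ 2 / (1 + m) ^ 2) / (1 - m) ^ 2) := mul_le_mul_of_nonneg_left h4 hV
    _ = _ := by ring

/-- T6: the explicit inequality (6). -/
theorem explicit_ineq {m δ V : ℝ} (hm : 0 ≤ m) (hδ : 0 < δ) (hδm : δ < 1 - m) (hV : 0 ≤ V)
    (hVw : V ≤ 1 - m ^ 2 - δ) :
    4 / 3 * (log 2) ^ 2 * ((1 - m ^ 2) * log (1 - m ^ 2) - (1 - m ^ 2 - V) * log (1 - m ^ 2 - V)
      - (1 - m ^ 2 - δ ^ 2) * log (1 - m ^ 2 - δ ^ 2)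
      + (1 - m ^ 2 - V - δ ^ 2) * log (1 - m ^ 2 - V - δ ^ 2))
      ≤ max (- log (1 - δ ^ 2 / (1 + m) ^ 2) / (1 - m) ^ 2 * V)
        (δ ^ 2 * V / ((1 - m ^ 2) * (1 - m ^ 2 - V))) := by
  rcases le_total δ 0.7 with h | h
  · exact (explicit_case_small hm hδ hδm hV hVw h).trans (le_max_right _ _)
  · exact (explicit_case_large hm hδm hV hVw h).trans (le_max_left _ _)

end Crest.Agent.R307
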