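import Crest.Agent.R307.FBGlue

set_option autoImplicit false
set_option Elab.async false

namespace Crest.Agent.R307.FBA

open Crest.Agent.KB Crest.Agent.R307.FB

def ps0_10 : List Par := [
  ⟨0, 439, 68, 128, 600, 274, 480, 274, 480, 0, 892, true, false, true, true, false, false⟩,
  ⟨0, 424, 72, 124, 576, 289, 500, 289, 500, 0, 904, true, false, true, true, false, false⟩,
  ⟨0, 447, 92, 124, 676, 278, 489, 278, 447, 0, 884, true, false, true, true, false, true⟩,
  ⟨0, 497, 100, 36, 650, 291, 508, 291, 481, 0, 896, true, false, true, true, false, true⟩,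
  ⟨0, 516, 96, 32, 643, 294, 486, 294, 486, 0, 888, true, false, true, true, false, false⟩]

set_option maxRecDepth 100000 in
theorem r0_10 : run 3 657 8 [23, 23, 19] [512, 512, 512] (ps0_10.map (clause (ch0 11 20)))
    (.node 0 (.node 2 (.leaf 0) (.leaf 1)) (.node 2 (.leaf 2) (.node 1 (.leaf 3) (.leaf 4)))) [(16, 32), (160, 176), (71, 84)] = true := by
  decide +kernel

theorem c0_10 : Cov 8 (ch0 11 20) [(16, 32), (160, 176), (71, 84)] := cov_run r0_10

def ps0_11 : List Par := [
  ⟨0, 498, 68, 92, 619, 293, 455, 293, 455, 0, 884, true, false, true, true, false, false⟩,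
  ⟨0, 504, 84, 92, 675, 283, 445, 283, 445, 0, 864, true, false, true, true, false, false⟩,
  ⟨0, 488, 92, 88, 650, 299, 465, 299, 465, 0, 876, true, false, true, true, false, false⟩]

set_option maxRecDepth 100000 in
theorem r0_11 : run 3 657 8 [23, 23, 19] [512, 512, 512] (ps0_11.map (clause (ch0 11 20)))
    (.node 0 (.leaf 0) (.node 2 (.leaf 1) (.leaf 2))) [(16, 32), (176, 192), (71, 84)] = true := by
  decide +kernel

theorem c0_11 : Cov 8 (ch0 11 20) [(16, 32), (176, 192), (71, 84)] := cov_run r0_11

def ps0_12 : List Par := [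
  ⟨0, 166, 368, 368, 826, 275, 582, 275, 356, 0, 904, true, true, true, true, false, true⟩,
  ⟨0, 354, 132, 176, 779, 289, 659, 289, 410, 0, 916, true, true, true, true, false, true⟩,
  ⟨0, 406, 120, 148, 756, 294, 569, 294, 429, 0, 900, true, false, true, true, false, true⟩,
  ⟨0, 239, 140, 344, 815, 299, 636, 299, 392, 0, 904, true, false, true, true, false, true⟩,
  ⟨0, 214, 328, 312, 859, 307, 645, 307, 355, 0, 888, true, false, true, true, false, true⟩]

set_option maxRecDepth 100000 in
theorem r0_12 : run 3 657 8 [23, 23, 19] [512, 512, 512] (ps0_12.map (clause (ch0 11 20)))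
    (.node 2 (.leaf 0) (.node 0 (.node 0 (.node 1 (.leaf 1) (.leaf 2)) (.leaf 3)) (.leaf 4))) [(32, 64), (128, 160), (59, 84)] = true := by
  decide +kernel

theorem c0_12 : Cov 8 (ch0 11 20) [(32, 64), (128, 160), (59, 84)] := cov_run r0_12

def ps0_13 : List Par := [
  ⟨0, 285, 320, 296, 765, 288, 498, 288, 389, 0, 864, true, false, true, true, false, true⟩]

set_option maxRecDepth 100000 in
theorem r0_13 : run 3 657 8 [23, 23, 19] [512, 512, 512] (ps0_13.map (clause (ch0 11 20)))
    (.leaf 0) [(32, 64), (160, 192), (59, 71)] = true := by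
  decide +kernel

theorem c0_13 : Cov 8 (ch0 11 20) [(32, 64), (160, 192), (59, 71)] := cov_run r0_13

def ps0_14 : List Par := [
  ⟨0, 463, 108, 116, 734, 283, 497, 283, 412, 0, 872, true, false, true, true, false, true⟩,
  ⟨0, 449, 116, 112, 718, 299, 518, 299, 448, 0, 884, true, false, true, true, false, true⟩,
  ⟨0, 478, 128, 108, 777, 304, 526, 304, 413, 0, 868, true, false, true, true, false, true⟩]

set_option maxRecDepth 100000 in
theorem r0_14 : run 3 657 8 [23, 23, 19] [512, 512, 512] (ps0_14.map (clause (ch0 11 20)))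
    (.node 0 (.node 2 (.leaf 0) (.leaf 1)) (.leaf 2)) [(32, 48), (160, 176), (71, 84)] = true := by
  decide +kernel

theorem c0_14 : Cov 8 (ch0 11 20) [(32, 48), (160, 176), (71, 84)] := cov_run r0_14

def ps0_15 : List Par := [
  ⟨0, 515, 100, 88, 716, 288, 453, 288, 428, 0, 856, true, false, true, true, false, true⟩,
  ⟨0, 544, 112, 24, 700, 302, 473, 302, 458, 0, 868, true, false, true, true, false, true⟩,
  ⟨0, 561, 108, 20, 691, 304, 453, 304, 453, 0, 860, true, false, true, true, false, false⟩,
  ⟨0, 529, 120, 80, 743, 310, 481, 310, 432, 0, 852, true, false, true, true, false, true⟩]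

set_option maxRecDepth 100000 in
theorem r0_15 : run 3 657 8 [23, 23, 19] [512, 512, 512] (ps0_15.map (clause (ch0 11 20)))
    (.node 0 (.node 2 (.leaf 0) (.node 1 (.leaf 1) (.leaf 2))) (.leaf 3)) [(32, 48), (176, 192), (71, 84)] = true := by
  decide +kernel

theorem c0_15 : Cov 8 (ch0 11 20) [(32, 48), (176, 192), (71, 84)] := cov_run r0_15

def ps0_16 : List Par := [
  ⟨0, 440, 296, 100, 814, 313, 539, 313, 379, 0, 852, true, false, true, true, false, true⟩,
  ⟨0, 493, 280, 72, 786, 319, 495, 319, 399, 0, 836, true, false, true, true, false, true⟩]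

set_option maxRecDepth 100000 in
theorem r0_16 : run 3 657 8 [23, 23, 19] [512, 512, 512] (ps0_16.map (clause (ch0 11 20)))
    (.node 1 (.leaf 0) (.leaf 1)) [(48, 64), (160, 192), (71, 84)] = true := by
  decide +kernel

theorem c0_16 : Cov 8 (ch0 11 20) [(48, 64), (160, 192), (71, 84)] := cov_run r0_16

def ps0_17 : List Par := [
  ⟨0, 479, 40, 196, 566, 272, 380, 272, 380, 0, 848, true, false, true, true, false, false⟩,
  ⟨0, 545, 52, 64, 529, 296, 414, 296, 414, 0, 876, true, false, true, true, false, false⟩,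
  ⟨0, 592, 48, 40, 557, 299, 381, 299, 381, 0, 860, true, false, true, true, false, false⟩]

set_option maxRecDepth 100000 in
theorem r0_17 : run 3 657 8 [23, 23, 19] [512, 512, 512] (ps0_17.map (clause (ch0 11 20)))
    (.node 2 (.leaf 0) (.node 1 (.leaf 1) (.leaf 2))) [(0, 16), (192, 224), (59, 84)] = true := by
  decide +kernel

theorem c0_17 : Cov 8 (ch0 11 20) [(0, 16), (192, 224), (59, 84)] := cov_run r0_17

def ps0_18 : List Par := [
  ⟨0, 580, 124, 64, 675, 274, 391, 274, 391, 0, 840, true, false, true, true, false, false⟩,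
  ⟨0, 629, 116, 40, 698, 277, 358, 277, 358, 0, 824, true, false, true, true, false, false⟩,
  ⟨0, 553, 64, 60, 651, 295, 416, 295, 416, 0, 868, true, false, true, true, false, false⟩,
  ⟨0, 558, 84, 60, 687, 302, 425, 302, 425, 0, 860, true, false, true, true, false, false⟩,
  ⟨0, 590, 136, 36, 669, 307, 393, 307, 393, 0, 852, true, false, true, true, false, false⟩]

set_option maxRecDepth 100000 in
theorem r0_18 : run 3 657 8 [23, 23, 19] [512, 512, 512] (ps0_18.map (clause (ch0 11 20)))
    (.node 2 (.node 1 (.leaf 0) (.leaf 1)) (.node 1 (.node 0 (.leaf 2) (.leaf 3)) (.leaf 4))) [(16, 32), (192, 224), (59, 84)] = true := by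
  decide +kernel

theorem c0_18 : Cov 8 (ch0 11 20) [(16, 32), (192, 224), (59, 84)] := cov_run r0_18

def ps0_19 : List Par := [
  ⟨0, 667, 36, 48, 605, 278, 320, 278, 320, 0, 812, true, false, true, true, false, false⟩,
  ⟨0, 623, 44, 48, 595, 305, 350, 305, 350, 0, 844, true, false, true, true, false, false⟩,
  ⟨0, 661, 108, 48, 716, 283, 329, 283, 329, 0, 804, true, false, true, true, false, false⟩,
  ⟨0, 622, 124, 44, 688, 314, 363, 314, 363, 0, 840, true, false, true, true, false, false⟩]

set_option maxRecDepth 100000 in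
theorem r0_19 : run 3 657 8 [23, 23, 19] [512, 512, 512] (ps0_19.map (clause (ch0 11 20)))
    (.node 0 (.node 2 (.leaf 0) (.leaf 1)) (.node 2 (.leaf 2) (.leaf 3))) [(0, 32), (224, 256), (59, 84)] = true := by
  decide +kernel

theorem c0_19 : Cov 8 (ch0 11 20) [(0, 32), (224, 256), (59, 84)] := cov_run r0_19

end Crest.Agent.R307.FBA
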