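import Crest.Agent.R307.FBGlue

set_option autoImplicit false
set_option Elab.async false

namespace Crest.Agent.R307.FBA

open Crest.Agent.KB Crest.Agent.R307.FB

def ps0_20 : List Par := [
  ⟨0, 484, 184, 176, 721, 289, 406, 289, 406, 0, 824, true, false, true, true, false, false⟩,
  ⟨0, 542, 208, 56, 712, 299, 424, 299, 424, 0, 836, true, false, true, true, false, false⟩,
  ⟨0, 549, 104, 56, 702, 309, 434, 309, 434, 0, 852, true, false, true, true, false, false⟩,
  ⟨0, 563, 116, 52, 722, 315, 442, 315, 442, 0, 836, true, false, true, true, false, false⟩,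
  ⟨0, 582, 204, 36, 718, 320, 409, 320, 409, 0, 836, true, false, true, true, false, false⟩]

set_option maxRecDepth 100000 in
theorem r0_20 : run 3 657 8 [23, 23, 19] [512, 512, 512] (ps0_20.map (clause (ch0 11 20)))
    (.node 2 (.leaf 0) (.node 1 (.node 2 (.leaf 1) (.node 0 (.leaf 2) (.leaf 3))) (.leaf 4))) [(32, 48), (192, 224), (59, 84)] = true := by
  decide +kernel

theorem c0_20 : Cov 8 (ch0 11 20) [(32, 48), (192, 224), (59, 84)] := cov_run r0_20

def ps0_21 : List Par := [
  ⟨0, 494, 228, 160, 778, 298, 418, 298, 369, 0, 796, true, false, true, true, false, true⟩,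
  ⟨0, 539, 264, 52, 764, 325, 456, 325, 416, 0, 820, true, false, true, true, false, true⟩,
  ⟨0, 582, 252, 32, 744, 331, 422, 331, 422, 0, 804, true, false, true, true, false, false⟩]

set_option maxRecDepth 100000 in
theorem r0_21 : run 3 657 8 [23, 23, 19] [512, 512, 512] (ps0_21.map (clause (ch0 11 20)))
    (.node 2 (.leaf 0) (.node 1 (.leaf 1) (.leaf 2))) [(48, 64), (192, 224), (59, 84)] = true := by
  decide +kernel

theorem c0_21 : Cov 8 (ch0 11 20) [(48, 64), (192, 224), (59, 84)] := cov_run r0_21

def ps0_22 : List Par := [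
  ⟨0, 658, 164, 44, 751, 296, 344, 296, 344, 0, 788, true, false, true, true, false, false⟩,
  ⟨0, 613, 192, 44, 741, 327, 378, 327, 378, 0, 820, true, false, true, true, false, false⟩,
  ⟨0, 649, 220, 40, 762, 341, 392, 341, 392, 0, 788, true, false, true, true, false, false⟩]

set_option maxRecDepth 100000 in
theorem r0_22 : run 3 657 8 [23, 23, 19] [512, 512, 512] (ps0_22.map (clause (ch0 11 20)))
    (.node 0 (.node 2 (.leaf 0) (.leaf 1)) (.leaf 2)) [(32, 64), (224, 256), (59, 84)] = true := by
  decide +kernel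

theorem c0_22 : Cov 8 (ch0 11 20) [(32, 64), (224, 256), (59, 84)] := cov_run r0_22

def ps0_23 : List Par := [
  ⟨0, 200, 500, 264, 901, 312, 749, 312, 286, 0, 848, true, true, true, true, false, true⟩,
  ⟨0, 299, 448, 220, 855, 330, 547, 330, 335, 0, 812, true, false, true, true, false, true⟩,
  ⟨0, 444, 404, 128, 805, 346, 483, 346, 374, 0, 780, true, false, true, true, false, true⟩,
  ⟨0, 588, 368, 32, 765, 360, 471, 360, 406, 0, 748, true, false, true, true, false, true⟩,
  ⟨0, 133, 452, 432, 837, 370, 635, 370, 302, 0, 740, true, false, true, true, false, true⟩]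

set_option maxRecDepth 100000 in
theorem r0_23 : run 3 657 8 [23, 23, 19] [512, 512, 512] (ps0_23.map (clause (ch0 11 20)))
    (.node 0 (.node 1 (.node 1 (.leaf 0) (.leaf 1)) (.node 1 (.leaf 2) (.leaf 3))) (.leaf 4)) [(64, 128), (128, 256), (59, 84)] = true := by
  decide +kernel

theorem c0_23 : Cov 8 (ch0 11 20) [(64, 128), (128, 256), (59, 84)] := cov_run r0_23

def ps0_24 : List Par := [
  ⟨2, 0, 0, 0, 0, 0, 0, 0, 0, 0, 0, false, false, false, false, false, false⟩,
  ⟨0, 225, 636, 196, 832, 382, 613, 269, 216, 0, 616, false, false, true, true, true, true⟩]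

set_option maxRecDepth 100000 in
theorem r0_24 : run 3 657 8 [23, 23, 19] [512, 512, 512] (ps0_24.map (clause (ch0 11 20)))
    (.node 1 (.leaf 0) (.leaf 1)) [(128, 256), (0, 256), (59, 84)] = true := by
  decide +kernel

theorem c0_24 : Cov 8 (ch0 11 20) [(128, 256), (0, 256), (59, 84)] := cov_run r0_24

end Crest.Agent.R307.FBA
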