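import Crest.Agent.R307.FBGlue

set_option autoImplicit false
set_option Elab.async false

namespace Crest.Agent.R307.FBA

open Crest.Agent.KB Crest.Agent.R307.FB

def ps2_0 : List Par := [
  ⟨1, 0, 0, 0, 0, 0, 0, 0, 0, 0, 0, false, false, false, false, false, false⟩]

set_option maxRecDepth 100000 in
theorem r2_0 : run 3 657 8 [23, 23, 19] [512, 512, 512] (ps2_0.map (clause (ch2 11 20)))
    (.leaf 0) [(0, 64), (0, 64), (59, 84)] = true := by
  decide +kernel

theorem c2_0 : Cov 8 (ch2 11 20) [(0, 64), (0, 64), (59, 84)] := cov_run r2_0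

def ps2_1 : List Par := [
  ⟨1, 0, 0, 0, 0, 0, 0, 0, 0, 0, 0, false, false, false, false, false, false⟩]

set_option maxRecDepth 100000 in
theorem r2_1 : run 3 657 8 [23, 23, 19] [512, 512, 512] (ps2_1.map (clause (ch2 11 20)))
    (.leaf 0) [(0, 32), (64, 128), (59, 84)] = true := by
  decide +kernel

theorem c2_1 : Cov 8 (ch2 11 20) [(0, 32), (64, 128), (59, 84)] := cov_run r2_1

def ps2_2 : List Par := [
  ⟨1, 0, 0, 0, 0, 0, 0, 0, 0, 0, 0, false, false, false, false, false, false⟩]

set_option maxRecDepth 100000 in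
theorem r2_2 : run 3 657 8 [23, 23, 19] [512, 512, 512] (ps2_2.map (clause (ch2 11 20)))
    (.leaf 0) [(32, 64), (64, 96), (59, 84)] = true := by
  decide +kernel

theorem c2_2 : Cov 8 (ch2 11 20) [(32, 64), (64, 96), (59, 84)] := cov_run r2_2

def ps2_3 : List Par := [
  ⟨1, 0, 0, 0, 0, 0, 0, 0, 0, 0, 0, false, false, false, false, false, false⟩,
  ⟨1, 0, 0, 0, 0, 0, 0, 0, 0, 0, 0, false, false, false, false, false, false⟩,
  ⟨1, 0, 0, 0, 0, 0, 0, 0, 0, 0, 0, false, false, false, false, false, false⟩,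
  ⟨0, 895, 64, (-76), 703, 366, 252, 366, 252, 0, 652, true, false, true, false, false, false⟩,
  ⟨0, 862, 156, (-68), 671, 396, 307, 396, 307, 0, 636, true, false, true, false, false, false⟩]

set_option maxRecDepth 100000 in
theorem r2_3 : run 3 657 8 [23, 23, 19] [512, 512, 512] (ps2_3.map (clause (ch2 11 20)))
    (.node 1 (.leaf 0) (.node 2 (.leaf 1) (.node 0 (.node 0 (.leaf 2) (.leaf 3)) (.leaf 4)))) [(32, 64), (96, 128), (59, 84)] = true := by
  decide +kernel

theorem c2_3 : Cov 8 (ch2 11 20) [(32, 64), (96, 128), (59, 84)] := cov_run r2_3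

def ps2_4 : List Par := [
  ⟨1, 0, 0, 0, 0, 0, 0, 0, 0, 0, 0, false, false, false, false, false, false⟩]

set_option maxRecDepth 100000 in
theorem r2_4 : run 3 657 8 [23, 23, 19] [512, 512, 512] (ps2_4.map (clause (ch2 11 20)))
    (.leaf 0) [(64, 96), (0, 64), (59, 84)] = true := by
  decide +kernel

theorem c2_4 : Cov 8 (ch2 11 20) [(64, 96), (0, 64), (59, 84)] := cov_run r2_4

def ps2_5 : List Par := [
  ⟨1, 0, 0, 0, 0, 0, 0, 0, 0, 0, 0, false, false, false, false, false, false⟩,
  ⟨1, 0, 0, 0, 0, 0, 0, 0, 0, 0, 0, false, false, false, false, false, false⟩,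
  ⟨1, 0, 0, 0, 0, 0, 0, 0, 0, 0, 0, false, false, false, false, false, false⟩,
  ⟨1, 0, 0, 0, 0, 0, 0, 0, 0, 0, 0, false, false, false, false, false, false⟩,
  ⟨0, 991, 32, (-16), 506, 312, 505, 312, 494, 0, 340, true, false, true, false, false, true⟩]

set_option maxRecDepth 100000 in
theorem r2_5 : run 3 657 8 [23, 23, 19] [512, 512, 512] (ps2_5.map (clause (ch2 11 20)))
    (.node 1 (.leaf 0) (.node 0 (.leaf 1) (.node 1 (.leaf 2) (.node 0 (.leaf 3) (.leaf 4))))) [(96, 128), (0, 64), (59, 84)] = true := by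
  decide +kernel

theorem c2_5 : Cov 8 (ch2 11 20) [(96, 128), (0, 64), (59, 84)] := cov_run r2_5

def ps2_6 : List Par := [
  ⟨0, 877, 232, (-84), 606, 377, 414, 377, 414, 0, 536, true, false, true, false, false, false⟩]

set_option maxRecDepth 100000 in
theorem r2_6 : run 3 657 8 [23, 23, 19] [512, 512, 512] (ps2_6.map (clause (ch2 11 20)))
    (.leaf 0) [(64, 128), (64, 128), (59, 71)] = true := by
  decide +kernel

theorem c2_6 : Cov 8 (ch2 11 20) [(64, 128), (64, 128), (59, 71)] := cov_run r2_6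

def ps2_7 : List Par := [
  ⟨0, 838, 232, (-68), 640, 333, 390, 333, 390, 0, 564, true, false, true, false, false, false⟩,
  ⟨0, 896, 168, (-108), 641, 422, 360, 422, 360, 0, 596, true, false, true, false, false, false⟩,
  ⟨0, 898, 168, (-96), 651, 433, 407, 433, 407, 0, 548, true, false, true, false, false, false⟩]

set_option maxRecDepth 100000 in
theorem r2_7 : run 3 657 8 [23, 23, 19] [512, 512, 512] (ps2_7.map (clause (ch2 11 20)))
    (.node 1 (.leaf 0) (.node 0 (.leaf 1) (.leaf 2))) [(64, 96), (64, 128), (71, 84)] = true := by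
  decide +kernel

theorem c2_7 : Cov 8 (ch2 11 20) [(64, 96), (64, 128), (71, 84)] := cov_run r2_7

def ps2_8 : List Par := [
  ⟨0, 849, 232, (-72), 556, 428, 469, 428, 469, 0, 464, true, false, true, false, false, false⟩]

set_option maxRecDepth 100000 in
theorem r2_8 : run 3 657 8 [23, 23, 19] [512, 512, 512] (ps2_8.map (clause (ch2 11 20)))
    (.leaf 0) [(96, 128), (64, 128), (71, 77)] = true := by
  decide +kernel

theorem c2_8 : Cov 8 (ch2 11 20) [(96, 128), (64, 128), (71, 77)] := cov_run r2_8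

def ps2_9 : List Par := [
  ⟨0, 884, 148, (-52), 569, 362, 455, 362, 455, 0, 460, true, false, true, false, false, false⟩,
  ⟨0, 900, 124, (-24), 523, 342, 510, 342, 497, 0, 384, true, false, true, false, false, true⟩,
  ⟨0, 900, 128, (-32), 561, 373, 512, 373, 479, 0, 400, true, false, true, false, false, true⟩,
  ⟨0, 890, 164, (-80), 596, 459, 467, 459, 467, 0, 492, true, false, true, false, false, false⟩,
  ⟨0, 912, 140, (-68), 584, 473, 525, 473, 463, 0, 432, true, false, true, false, false, true⟩]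

set_option maxRecDepth 100000 in
theorem r2_9 : run 3 657 8 [23, 23, 19] [512, 512, 512] (ps2_9.map (clause (ch2 11 20)))
    (.node 1 (.node 0 (.leaf 0) (.node 1 (.leaf 1) (.leaf 2))) (.node 0 (.leaf 3) (.leaf 4))) [(96, 128), (64, 128), (77, 84)] = true := by
  decide +kernel

theorem c2_9 : Cov 8 (ch2 11 20) [(96, 128), (64, 128), (77, 84)] := cov_run r2_9

def ps2_10 : List Par := [
  ⟨1, 0, 0, 0, 0, 0, 0, 0, 0, 0, 0, false, false, false, false, false, false⟩,
  ⟨1, 0, 0, 0, 0, 0, 0, 0, 0, 0, 0, false, false, false, false, false, false⟩,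
  ⟨0, 962, 36, (-184), 692, 339, 202, 339, 202, 0, 720, true, false, true, true, false, false⟩,
  ⟨0, 961, 48, (-180), 700, 349, 222, 349, 222, 0, 712, true, false, true, true, false, false⟩]

set_option maxRecDepth 100000 in
theorem r2_10 : run 3 657 8 [23, 23, 19] [512, 512, 512] (ps2_10.map (clause (ch2 11 20)))
    (.node 0 (.leaf 0) (.node 2 (.leaf 1) (.node 0 (.leaf 2) (.leaf 3)))) [(0, 32), (128, 160), (59, 84)] = true := by
  decide +kernel

theorem c2_10 : Cov 8 (ch2 11 20) [(0, 32), (128, 160), (59, 84)] := cov_run r2_10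

def ps2_11 : List Par := [
  ⟨0, 1000, 68, (-196), 643, 330, 217, 330, 217, 0, 708, true, false, true, true, false, false⟩,
  ⟨0, 956, 32, (-196), 652, 328, 222, 328, 222, 0, 760, true, false, true, true, false, false⟩,
  ⟨0, 944, 96, (-188), 707, 337, 234, 337, 234, 0, 752, true, false, true, true, false, false⟩]

set_option maxRecDepth 100000 in
theorem r2_11 : run 3 657 8 [23, 23, 19] [512, 512, 512] (ps2_11.map (clause (ch2 11 20)))
    (.node 2 (.leaf 0) (.node 0 (.leaf 1) (.leaf 2))) [(0, 32), (160, 192), (59, 84)] = true := by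
  decide +kernel

theorem c2_11 : Cov 8 (ch2 11 20) [(0, 32), (160, 192), (59, 84)] := cov_run r2_11

def ps2_12 : List Par := [
  ⟨1, 0, 0, 0, 0, 0, 0, 0, 0, 0, 0, false, false, false, false, false, false⟩,
  ⟨0, 939, 132, (-172), 684, 378, 274, 378, 274, 0, 700, true, false, true, true, false, false⟩,
  ⟨0, 972, 136, (-160), 632, 428, 265, 428, 265, 0, 616, true, false, true, false, false, false⟩,
  ⟨0, 922, 164, (-156), 681, 399, 322, 399, 322, 0, 672, true, false, true, true, false, false⟩]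

set_option maxRecDepth 100000 in
theorem r2_12 : run 3 657 8 [23, 23, 19] [512, 512, 512] (ps2_12.map (clause (ch2 11 20)))
    (.node 0 (.node 2 (.leaf 0) (.leaf 1)) (.node 2 (.leaf 2) (.leaf 3))) [(32, 64), (128, 160), (59, 84)] = true := by
  decide +kernel

theorem c2_12 : Cov 8 (ch2 11 20) [(32, 64), (128, 160), (59, 84)] := cov_run r2_12

end Crest.Agent.R307.FBA
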