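import Crest.Agent.R307.FBGlue

set_option autoImplicit false
set_option Elab.async false

namespace Crest.Agent.R307.FBA

open Crest.Agent.KB Crest.Agent.R307.FB

def ps2_13 : List Par := [
  ⟨0, 971, 136, (-180), 710, 361, 286, 361, 286, 0, 732, true, false, true, true, false, false⟩,
  ⟨0, 950, 168, (-164), 735, 375, 330, 375, 330, 0, 704, true, false, true, true, false, false⟩]

set_option maxRecDepth 100000 in
theorem r2_13 : run 3 657 8 [23, 23, 19] [512, 512, 512] (ps2_13.map (clause (ch2 11 20)))
    (.node 0 (.leaf 0) (.leaf 1)) [(32, 64), (160, 192), (59, 84)] = true := by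
  decide +kernel

theorem c2_13 : Cov 8 (ch2 11 20) [(32, 64), (160, 192), (59, 84)] := cov_run r2_13

def ps2_14 : List Par := [
  ⟨0, 1095, 80, (-320), 660, 311, 290, 311, 290, 0, 776, true, false, true, true, false, false⟩,
  ⟨0, 1047, 40, (-316), 651, 316, 299, 316, 299, 0, 816, true, false, true, true, false, false⟩,
  ⟨0, 1030, 108, (-304), 721, 325, 312, 325, 312, 0, 812, true, false, true, true, false, false⟩,
  ⟨0, 1051, 156, (-292), 754, 343, 329, 343, 329, 0, 792, true, false, true, true, false, false⟩,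
  ⟨0, 1020, 192, (-268), 755, 361, 361, 361, 361, 0, 760, true, false, true, true, false, false⟩]

set_option maxRecDepth 100000 in
theorem r2_14 : run 3 657 8 [23, 23, 19] [512, 512, 512] (ps2_14.map (clause (ch2 11 20)))
    (.node 0 (.node 2 (.leaf 0) (.node 0 (.leaf 1) (.leaf 2))) (.node 0 (.leaf 3) (.leaf 4))) [(0, 64), (192, 256), (59, 84)] = true := by
  decide +kernel

theorem c2_14 : Cov 8 (ch2 11 20) [(0, 64), (192, 256), (59, 84)] := cov_run r2_14

def ps2_15 : List Par := [
  ⟨0, 1027, 176, (-244), 682, 418, 388, 418, 388, 0, 664, true, false, true, true, false, false⟩,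
  ⟨0, 1005, 180, (-212), 656, 440, 440, 440, 440, 0, 612, true, false, true, true, false, false⟩,
  ⟨0, 906, 276, (-168), 637, 469, 549, 469, 457, 0, 556, true, false, true, true, false, true⟩]

set_option maxRecDepth 100000 in
theorem r2_15 : run 3 657 8 [23, 23, 19] [512, 512, 512] (ps2_15.map (clause (ch2 11 20)))
    (.node 0 (.node 0 (.leaf 0) (.leaf 1)) (.leaf 2)) [(64, 128), (128, 192), (59, 84)] = true := by
  decide +kernel

theorem c2_15 : Cov 8 (ch2 11 20) [(64, 128), (128, 192), (59, 84)] := cov_run r2_15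

def ps2_16 : List Par := [
  ⟨0, 864, 204, (-104), 740, 378, 396, 378, 396, 0, 692, true, false, true, true, false, false⟩,
  ⟨0, 758, 224, (-32), 739, 365, 411, 365, 411, 0, 720, true, false, true, true, false, false⟩,
  ⟨0, 967, 216, (-208), 735, 391, 460, 391, 419, 0, 672, true, false, true, true, false, true⟩,
  ⟨0, 849, 340, (-168), 717, 411, 567, 411, 380, 0, 616, true, false, true, true, false, true⟩]

set_option maxRecDepth 100000 in
theorem r2_16 : run 3 657 8 [23, 23, 19] [512, 512, 512] (ps2_16.map (clause (ch2 11 20)))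
    (.node 0 (.node 0 (.node 1 (.leaf 0) (.leaf 1)) (.leaf 2)) (.leaf 3)) [(64, 128), (192, 256), (59, 84)] = true := by
  decide +kernel

theorem c2_16 : Cov 8 (ch2 11 20) [(64, 128), (192, 256), (59, 84)] := cov_run r2_16

def ps2_17 : List Par := [
  ⟨1, 0, 0, 0, 0, 0, 0, 0, 0, 0, 0, false, false, false, false, false, false⟩,
  ⟨0, 989, 40, (-4), 438, 286, 486, 286, 476, 0, 224, false, false, true, false, false, true⟩,
  ⟨0, 916, 128, (-16), 488, 327, 638, 327, 489, 0, 308, true, false, true, false, false, true⟩,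
  ⟨0, 997, 32, (-4), 462, 343, 471, 343, 449, 84, 176, false, false, true, false, false, true⟩]

set_option maxRecDepth 100000 in
theorem r2_17 : run 3 657 8 [23, 23, 19] [512, 512, 512] (ps2_17.map (clause (ch2 11 20)))
    (.node 0 (.node 1 (.node 0 (.leaf 0) (.leaf 1)) (.leaf 2)) (.leaf 3)) [(128, 192), (0, 64), (59, 84)] = true := by
  decide +kernel

theorem c2_17 : Cov 8 (ch2 11 20) [(128, 192), (0, 64), (59, 84)] := cov_run r2_17

def ps2_18 : List Par := [
  ⟨0, 902, 164, (-44), 535, 501, 664, 501, 468, 0, 368, true, false, true, false, false, true⟩,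
  ⟨0, 976, 64, (-16), 516, 519, 488, 516, 419, 48, 236, false, false, true, false, true, true⟩]

set_option maxRecDepth 100000 in
theorem r2_18 : run 3 657 8 [23, 23, 19] [512, 512, 512] (ps2_18.map (clause (ch2 11 20)))
    (.node 0 (.leaf 0) (.leaf 1)) [(128, 192), (64, 128), (59, 84)] = true := by
  decide +kernel

theorem c2_18 : Cov 8 (ch2 11 20) [(128, 192), (64, 128), (59, 84)] := cov_run r2_18

def ps2_19 : List Par := [
  ⟨0, 1056, (-32), 4, 492, 344, 426, 344, 406, 192, 48, false, false, true, false, false, true⟩,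
  ⟨0, 1044, (-24), 4, 485, 359, 384, 359, 377, 288, 0, false, false, true, false, false, true⟩,
  ⟨0, 1037, (-20), 16, 580, 363, 388, 363, 363, 280, 0, false, false, true, false, false, true⟩,
  ⟨0, 1031, (-8), 4, 606, 520, 438, 402, 367, 160, 104, false, false, true, false, true, true⟩,
  ⟨0, 1025, (-16), 28, 644, 531, 402, 331, 330, 256, 0, false, false, true, false, true, true⟩]

set_option maxRecDepth 100000 in
theorem r2_19 : run 3 657 8 [23, 23, 19] [512, 512, 512] (ps2_19.map (clause (ch2 11 20)))
    (.node 1 (.node 0 (.leaf 0) (.node 1 (.leaf 1) (.leaf 2))) (.node 0 (.leaf 3) (.leaf 4))) [(192, 256), (0, 128), (59, 84)] = true := by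
  decide +kernel

theorem c2_19 : Cov 8 (ch2 11 20) [(192, 256), (0, 128), (59, 84)] := cov_run r2_19

def ps2_20 : List Par := [
  ⟨0, 807, 272, (-44), 586, 546, 562, 517, 394, 176, 432, false, false, true, true, true, true⟩,
  ⟨0, 684, 416, (-60), 692, 452, 577, 387, 299, 84, 492, false, false, true, true, true, true⟩]

set_option maxRecDepth 100000 in
theorem r2_20 : run 3 657 8 [23, 23, 19] [512, 512, 512] (ps2_20.map (clause (ch2 11 20)))
    (.node 1 (.leaf 0) (.leaf 1)) [(128, 256), (128, 256), (59, 84)] = true := by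
  decide +kernel

theorem c2_20 : Cov 8 (ch2 11 20) [(128, 256), (128, 256), (59, 84)] := cov_run r2_20

end Crest.Agent.R307.FBA
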