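import Crest.Agent.R307.FBGlue

set_option autoImplicit false
set_option Elab.async false

namespace Crest.Agent.R307.FBA

open Crest.Agent.KB Crest.Agent.R307.FB

def ps3_0 : List Par := [
  ⟨3, 0, 917, 545, 0, 0, 0, 0, 0, 0, 0, false, false, false, false, false, false⟩,
  ⟨0, 80, 536, 228, 0, 442, 238, 121, 156, 1024, 0, false, false, false, false, true, true⟩,
  ⟨0, 65, 784, 32, 0, 472, 246, 173, 246, 1004, 0, false, false, false, false, true, false⟩,
  ⟨0, 72, 752, 96, 692, 475, 248, 160, 221, 1000, 0, false, false, false, false, true, true⟩]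

set_option maxRecDepth 100000 in
theorem r3_0 : run 3 657 8 [23, 23, 19] [512, 512, 512] (ps3_0.map (clause (ch3 11 20)))
    (.node 0 (.node 1 (.leaf 0) (.leaf 1)) (.node 1 (.leaf 2) (.leaf 3))) [(0, 64), (0, 32), (59, 84)] = true := by
  decide +kernel

theorem c3_0 : Cov 8 (ch3 11 20) [(0, 64), (0, 32), (59, 84)] := cov_run r3_0

def ps3_1 : List Par := [
  ⟨2, 0, 0, 0, 0, 0, 0, 0, 0, 0, 0, false, false, false, false, false, false⟩,
  ⟨0, 77, 672, 220, 910, 500, 261, 125, 159, 996, 0, false, false, false, false, true, true⟩]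

set_option maxRecDepth 100000 in
theorem r3_1 : run 3 657 8 [23, 23, 19] [512, 512, 512] (ps3_1.map (clause (ch3 11 20)))
    (.node 0 (.leaf 0) (.leaf 1)) [(0, 64), (32, 64), (59, 84)] = true := by
  decide +kernel

theorem c3_1 : Cov 8 (ch3 11 20) [(0, 64), (32, 64), (59, 84)] := cov_run r3_1

def ps3_2 : List Par := [
  ⟨0, 43, 884, 16, 414, 596, 274, 206, 272, 940, 0, false, false, false, false, true, true⟩,
  ⟨0, 50, 876, 20, 583, 595, 274, 200, 264, 936, 0, false, false, false, false, true, true⟩,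
  ⟨0, 55, 868, 28, 718, 596, 274, 193, 254, 936, 0, false, false, false, false, true, true⟩,
  ⟨0, 60, 848, 72, 830, 601, 277, 184, 240, 932, 0, false, false, false, false, true, true⟩,
  ⟨0, 76, 816, 96, 897, 605, 278, 164, 208, 920, 0, false, false, false, false, true, true⟩]

set_option maxRecDepth 100000 in
theorem r3_2 : run 3 657 8 [23, 23, 19] [512, 512, 512] (ps3_2.map (clause (ch3 11 20)))
    (.node 1 (.node 1 (.leaf 0) (.node 1 (.leaf 1) (.leaf 2))) (.node 1 (.leaf 3) (.leaf 4))) [(64, 128), (0, 64), (59, 84)] = true := by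
  decide +kernel

theorem c3_2 : Cov 8 (ch3 11 20) [(64, 128), (0, 64), (59, 84)] := cov_run r3_2

def ps3_3 : List Par := [
  ⟨2, 0, 0, 0, 0, 0, 0, 0, 0, 0, 0, false, false, false, false, false, false⟩,
  ⟨0, 89, 716, 236, 963, 640, 294, 139, 168, 904, 0, false, false, false, false, true, true⟩]

set_option maxRecDepth 100000 in
theorem r3_3 : run 3 657 8 [23, 23, 19] [512, 512, 512] (ps3_3.map (clause (ch3 11 20)))
    (.node 0 (.leaf 0) (.leaf 1)) [(0, 128), (64, 128), (59, 84)] = true := by
  decide +kernel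

theorem c3_3 : Cov 8 (ch3 11 20) [(0, 128), (64, 128), (59, 84)] := cov_run r3_3

def ps3_4 : List Par := [
  ⟨0, 297, 604, 8, 437, 557, 263, 212, 261, 732, 0, false, false, false, false, true, true⟩,
  ⟨0, 312, 604, 4, 379, 604, 293, 233, 292, 716, 0, false, false, true, false, true, true⟩,
  ⟨0, 312, 604, 8, 441, 605, 293, 231, 290, 716, 0, false, false, true, false, true, true⟩]

set_option maxRecDepth 100000 in
theorem r3_4 : run 3 657 8 [23, 23, 19] [512, 512, 512] (ps3_4.map (clause (ch3 11 20)))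
    (.node 2 (.leaf 0) (.node 1 (.leaf 1) (.leaf 2))) [(128, 160), (0, 16), (59, 84)] = true := by
  decide +kernel

theorem c3_4 : Cov 8 (ch3 11 20) [(128, 160), (0, 16), (59, 84)] := cov_run r3_4

def ps3_5 : List Par := [
  ⟨0, 537, 296, 32, 655, 516, 255, 194, 245, 728, 0, false, false, false, false, true, true⟩,
  ⟨0, 544, 300, 12, 586, 572, 268, 203, 259, 712, 0, false, false, false, false, true, true⟩,
  ⟨0, 551, 300, 12, 546, 605, 283, 213, 274, 708, 0, false, false, true, false, true, true⟩,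
  ⟨0, 548, 296, 16, 701, 573, 268, 196, 250, 712, 0, false, false, false, false, true, true⟩,
  ⟨0, 556, 296, 12, 628, 607, 283, 207, 266, 704, 0, false, false, true, false, true, true⟩]

set_option maxRecDepth 100000 in
theorem r3_5 : run 3 657 8 [23, 23, 19] [512, 512, 512] (ps3_5.map (clause (ch3 11 20)))
    (.node 2 (.leaf 0) (.node 1 (.node 2 (.leaf 1) (.leaf 2)) (.node 2 (.leaf 3) (.leaf 4)))) [(128, 144), (16, 32), (59, 84)] = true := by
  decide +kernel

theorem c3_5 : Cov 8 (ch3 11 20) [(128, 144), (16, 32), (59, 84)] := cov_run r3_5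

def ps3_6 : List Par := [
  ⟨0, 648, 228, 24, 592, 558, 293, 226, 284, 668, 0, false, false, true, false, true, true⟩]

set_option maxRecDepth 100000 in
theorem r3_6 : run 3 657 8 [23, 23, 19] [512, 512, 512] (ps3_6.map (clause (ch3 11 20)))
    (.leaf 0) [(144, 160), (16, 32), (59, 84)] = true := by
  decide +kernel

theorem c3_6 : Cov 8 (ch3 11 20) [(144, 160), (16, 32), (59, 84)] := cov_run r3_6

def ps3_7 : List Par := [
  ⟨0, 532, 412, 8, 496, 513, 312, 263, 309, 612, 0, false, false, true, false, true, true⟩,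
  ⟨0, 534, 408, 20, 617, 515, 312, 256, 303, 612, 0, false, false, true, false, true, true⟩]

set_option maxRecDepth 100000 in
theorem r3_7 : run 3 657 8 [23, 23, 19] [512, 512, 512] (ps3_7.map (clause (ch3 11 20)))
    (.node 1 (.leaf 0) (.leaf 1)) [(160, 192), (0, 32), (59, 84)] = true := by
  decide +kernel

theorem c3_7 : Cov 8 (ch3 11 20) [(160, 192), (0, 32), (59, 84)] := cov_run r3_7

def ps3_8 : List Par := [
  ⟨0, 309, 584, 48, 775, 560, 265, 192, 237, 724, 0, false, false, false, false, true, true⟩,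
  ⟨0, 324, 592, 16, 714, 608, 293, 212, 266, 708, 0, false, false, true, false, true, true⟩,
  ⟨0, 332, 584, 20, 784, 610, 294, 203, 254, 704, 0, false, false, true, false, true, true⟩,
  ⟨0, 330, 572, 56, 779, 712, 297, 195, 241, 712, 0, false, false, false, false, true, true⟩,
  ⟨0, 538, 396, 48, 720, 522, 317, 242, 289, 604, 0, false, false, true, false, true, true⟩]

set_option maxRecDepth 100000 in
theorem r3_8 : run 3 657 8 [23, 23, 19] [512, 512, 512] (ps3_8.map (clause (ch3 11 20)))
    (.node 0 (.node 1 (.node 2 (.leaf 0) (.node 1 (.leaf 1) (.leaf 2))) (.leaf 3)) (.leaf 4)) [(128, 192), (32, 64), (59, 84)] = true := by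
  decide +kernel

theorem c3_8 : Cov 8 (ch3 11 20) [(128, 192), (32, 64), (59, 84)] := cov_run r3_8

def ps3_9 : List Par := [
  ⟨0, 632, 372, 12, 531, 448, 357, 349, 350, 496, 0, false, false, true, false, true, true⟩,
  ⟨0, 642, 356, 28, 650, 454, 361, 320, 335, 488, 0, false, false, true, false, true, true⟩]

set_option maxRecDepth 100000 in
theorem r3_9 : run 3 657 8 [23, 23, 19] [512, 512, 512] (ps3_9.map (clause (ch3 11 20)))
    (.node 1 (.leaf 0) (.leaf 1)) [(192, 256), (0, 64), (59, 84)] = true := by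
  decide +kernel

theorem c3_9 : Cov 8 (ch3 11 20) [(192, 256), (0, 64), (59, 84)] := cov_run r3_9

def ps3_10 : List Par := [
  ⟨0, 65, 900, 92, 804, 617, 372, 274, 296, 696, 0, false, false, true, false, true, true⟩]

set_option maxRecDepth 100000 in
theorem r3_10 : run 3 657 8 [23, 23, 19] [512, 512, 512] (ps3_10.map (clause (ch3 11 20)))
    (.leaf 0) [(128, 256), (64, 128), (59, 84)] = true := by
  decide +kernel

theorem c3_10 : Cov 8 (ch3 11 20) [(128, 256), (64, 128), (59, 84)] := cov_run r3_10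

def ps3_11 : List Par := [
  ⟨2, 0, 0, 0, 0, 0, 0, 0, 0, 0, 0, false, false, false, false, false, false⟩,
  ⟨0, 225, 636, 196, 851, 613, 382, 183, 191, 616, 0, false, false, true, true, true, true⟩]

set_option maxRecDepth 100000 in
theorem r3_11 : run 3 657 8 [23, 23, 19] [512, 512, 512] (ps3_11.map (clause (ch3 11 20)))
    (.node 0 (.leaf 0) (.leaf 1)) [(0, 256), (128, 256), (59, 84)] = true := by
  decide +kernel

theorem c3_11 : Cov 8 (ch3 11 20) [(0, 256), (128, 256), (59, 84)] := cov_run r3_11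

end Crest.Agent.R307.FBA
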