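import Crest.Agent.R307.FBA0_0
import Crest.Agent.R307.FBA0_1
import Crest.Agent.R307.FBA0_2
import Crest.Agent.R307.FBA2_0
import Crest.Agent.R307.FBA2_1
import Crest.Agent.R307.FBA3_0

set_option autoImplicit false

namespace Crest.Agent.R307.FBA

open Crest.Agent.KB Crest.Agent.R307.FB

theorem cov0 : Cov 8 (ch0 11 20) [(0, 256), (0, 256), (59, 84)] :=
  (cov_node 0 128 (by norm_num) (cov_node 1 128 (by norm_num) (cov_node 0 64 (by norm_num) (cov_node 1 64 (by norm_num) (cov_node 0 32 (by norm_num) c0_0 c0_1) (cov_node 0 32 (by norm_num) c0_2 c0_3)) c0_4) (cov_node 0 64 (by norm_num) (cov_node 1 192 (by norm_num) (cov_node 0 32 (by norm_num) (cov_node 1 160 (by norm_num) (cov_node 0 16 (by norm_num) c0_5 (cov_node 2 71 (by norm_num) c0_6 c0_7)) (cov_node 0 16 (by norm_num) c0_8 (cov_node 2 71 (by norm_num) c0_9 (cov_node 1 176 (by norm_num) c0_10 c0_11)))) (cov_node 1 160 (by norm_num) c0_12 (cov_node 2 71 (by norm_num) c0_13 (cov_node 0 48 (by norm_num)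 (cov_node 1 176 (by norm_num) c0_14 c0_15) c0_16)))) (cov_node 0 32 (by norm_num) (cov_node 1 224 (by norm_num) (cov_node 0 16 (by norm_num) c0_17 c0_18) c0_19) (cov_node 1 224 (by norm_num) (cov_node 0 48 (by norm_num) c0_20 c0_21) c0_22))) c0_23)) c0_24)

theorem cov2 : Cov 8 (ch2 11 20) [(0, 256), (0, 256), (59, 84)] :=
  (cov_node 0 128 (by norm_num) (cov_node 1 128 (by norm_num) (cov_node 0 64 (by norm_num) (cov_node 1 64 (by norm_num) c2_0 (cov_node 0 32 (by norm_num) c2_1 (cov_node 1 96 (by norm_num) c2_2 c2_3))) (cov_node 1 64 (by norm_num) (cov_node 0 96 (by norm_num) c2_4 c2_5) (cov_node 2 71 (by norm_num) c2_6 (cov_node 0 96 (by norm_num) c2_7 (cov_node 2 77 (by norm_num) c2_8 c2_9))))) (cov_node 0 64 (by norm_num) (cov_node 1 192 (by norm_num) (cov_node 0 32 (by norm_num) (cov_node 1 160 (by norm_num) c2_10 c2_11) (cov_node 1 160 (by norm_num) c2_12 c2_13)) c2_14) (cov_node 1 192 (by norm_num) c2_15 c2_16))) (cov_node 1 128 (by norm_num)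 (cov_node 0 192 (by norm_num) (cov_node 1 64 (by norm_num) c2_17 c2_18) c2_19) c2_20))

theorem cov3 : Cov 8 (ch3 11 20) [(0, 256), (0, 256), (59, 84)] :=
  (cov_node 1 128 (by norm_num) (cov_node 0 128 (by norm_num) (cov_node 1 64 (by norm_num) (cov_node 0 64 (by norm_num) (cov_node 1 32 (by norm_num) c3_0 c3_1) c3_2) c3_3) (cov_node 1 64 (by norm_num) (cov_node 0 192 (by norm_num) (cov_node 1 32 (by norm_num) (cov_node 0 160 (by norm_num) (cov_node 1 16 (by norm_num) c3_4 (cov_node 0 144 (by norm_num) c3_5 c3_6)) c3_7) c3_8) c3_9) c3_10)) c3_11)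

end Crest.Agent.R307.FBA
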