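import Crest.Agent.R307.FBGlue

set_option autoImplicit false
set_option Elab.async false

namespace Crest.Agent.R307.FBA

open Crest.Agent.KB Crest.Agent.R307.FB

def ps0_0 : List Par := [
  ⟨3, 0, 920, 547, 0, 0, 0, 0, 0, 0, 0, false, false, false, false, false, false⟩,
  ⟨0, 92, 548, 156, 0, 238, 442, 238, 223, 0, 1020, true, true, true, true, false, true⟩,
  ⟨0, 61, 176, 428, 0, 246, 472, 246, 472, 0, 1020, true, true, true, true, false, false⟩,
  ⟨0, 81, 396, 336, 666, 257, 493, 257, 376, 0, 1012, true, true, true, true, false, true⟩]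

set_option maxRecDepth 100000 in
theorem r0_0 : run 3 657 8 [23, 23, 19] [512, 512, 512] (ps0_0.map (clause (ch0 11 20)))
    (.node 1 (.node 0 (.leaf 0) (.leaf 1)) (.node 0 (.leaf 2) (.leaf 3))) [(0, 32), (0, 64), (59, 84)] = true := by
  decide +kernel

theorem c0_0 : Cov 8 (ch0 11 20) [(0, 32), (0, 64), (59, 84)] := cov_run r0_0

def ps0_1 : List Par := [
  ⟨2, 0, 0, 0, 0, 0, 0, 0, 0, 0, 0, false, false, false, false, false, false⟩,
  ⟨0, 77, 672, 220, 899, 261, 499, 261, 223, 0, 996, true, true, true, true, false, true⟩]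

set_option maxRecDepth 100000 in
theorem r0_1 : run 3 657 8 [23, 23, 19] [512, 512, 512] (ps0_1.map (clause (ch0 11 20)))
    (.node 1 (.leaf 0) (.leaf 1)) [(32, 64), (0, 64), (59, 84)] = true := by
  decide +kernel

theorem c0_1 : Cov 8 (ch0 11 20) [(32, 64), (0, 64), (59, 84)] := cov_run r0_1

def ps0_2 : List Par := [
  ⟨0, 77, 108, 456, 261, 260, 524, 260, 511, 0, 1000, true, true, true, true, false, true⟩,
  ⟨0, 94, 284, 404, 703, 269, 544, 269, 431, 0, 996, true, true, true, true, false, true⟩,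
  ⟨0, 103, 80, 464, 355, 272, 591, 272, 569, 0, 976, true, true, true, true, false, true⟩,
  ⟨0, 106, 204, 448, 706, 250, 487, 250, 391, 0, 960, true, true, true, true, false, true⟩,
  ⟨0, 103, 228, 412, 655, 279, 607, 279, 472, 0, 968, true, true, true, true, false, true⟩]

set_option maxRecDepth 100000 in
theorem r0_2 : run 3 657 8 [23, 23, 19] [512, 512, 512] (ps0_2.map (clause (ch0 11 20)))
    (.node 1 (.node 0 (.leaf 0) (.leaf 1)) (.node 0 (.leaf 2) (.node 2 (.leaf 3) (.leaf 4)))) [(0, 32), (64, 128), (59, 84)] = true := by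
  decide +kernel

theorem c0_2 : Cov 8 (ch0 11 20) [(0, 32), (64, 128), (59, 84)] := cov_run r0_2

def ps0_3 : List Par := [
  ⟨0, 92, 556, 304, 898, 276, 557, 276, 327, 0, 976, true, true, true, true, false, true⟩,
  ⟨0, 136, 292, 396, 852, 258, 503, 258, 323, 0, 940, true, true, true, true, false, true⟩,
  ⟨0, 135, 328, 356, 830, 289, 628, 289, 385, 0, 948, true, true, true, true, false, true⟩,
  ⟨0, 186, 360, 320, 919, 294, 638, 294, 302, 0, 920, true, true, true, true, false, true⟩]

set_option maxRecDepth 100000 in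
theorem r0_3 : run 3 657 8 [23, 23, 19] [512, 512, 512] (ps0_3.map (clause (ch0 11 20)))
    (.node 1 (.leaf 0) (.node 0 (.node 2 (.leaf 1) (.leaf 2)) (.leaf 3))) [(32, 64), (64, 128), (59, 84)] = true := by
  decide +kernel

theorem c0_3 : Cov 8 (ch0 11 20) [(32, 64), (64, 128), (59, 84)] := cov_run r0_3

def ps0_4 : List Par := [
  ⟨2, 0, 0, 0, 0, 0, 0, 0, 0, 0, 0, false, false, false, false, false, false⟩,
  ⟨0, 124, 640, 208, 954, 275, 555, 168, 131, 0, 904, true, true, true, true, true, true⟩,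
  ⟨0, 147, 568, 252, 928, 294, 638, 294, 222, 0, 880, true, true, true, true, false, true⟩,
  ⟨0, 202, 600, 192, 948, 289, 629, 105, 92, 0, 812, true, true, true, true, true, true⟩]

set_option maxRecDepth 100000 in
theorem r0_4 : run 3 657 8 [23, 23, 19] [512, 512, 512] (ps0_4.map (clause (ch0 11 20)))
    (.node 1 (.leaf 0) (.node 0 (.node 1 (.leaf 1) (.leaf 2)) (.leaf 3))) [(64, 128), (0, 128), (59, 84)] = true := by
  decide +kernel

theorem c0_4 : Cov 8 (ch0 11 20) [(64, 128), (0, 128), (59, 84)] := cov_run r0_4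

def ps0_5 : List Par := [
  ⟨0, 159, 16, 440, 263, 286, 686, 286, 675, 0, 944, true, true, true, true, false, true⟩,
  ⟨0, 154, 44, 448, 501, 253, 534, 253, 490, 0, 924, true, true, true, true, false, true⟩,
  ⟨0, 143, 52, 420, 404, 284, 598, 284, 598, 0, 940, true, false, true, true, false, false⟩]

set_option maxRecDepth 100000 in
theorem r0_5 : run 3 657 8 [23, 23, 19] [512, 512, 512] (ps0_5.map (clause (ch0 11 20)))
    (.node 0 (.leaf 0) (.node 2 (.leaf 1) (.leaf 2))) [(0, 16), (128, 160), (59, 84)] = true := by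
  decide +kernel

theorem c0_5 : Cov 8 (ch0 11 20) [(0, 16), (128, 160), (59, 84)] := cov_run r0_5

def ps0_6 : List Par := [
  ⟨0, 332, 172, 208, 705, 255, 515, 255, 405, 0, 920, true, true, true, true, false, true⟩,
  ⟨0, 398, 156, 168, 677, 260, 549, 260, 424, 0, 900, true, true, true, true, false, true⟩]

set_option maxRecDepth 100000 in
theorem r0_6 : run 3 657 8 [23, 23, 19] [512, 512, 512] (ps0_6.map (clause (ch0 11 20)))
    (.node 1 (.leaf 0) (.leaf 1)) [(16, 32), (128, 160), (59, 71)] = true := by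
  decide +kernel

theorem c0_6 : Cov 8 (ch0 11 20) [(16, 32), (128, 160), (59, 71)] := cov_run r0_6

def ps0_7 : List Par := [
  ⟨0, 323, 84, 196, 588, 279, 635, 279, 502, 0, 936, true, true, true, true, false, true⟩,
  ⟨0, 335, 112, 188, 703, 284, 646, 284, 451, 0, 928, true, true, true, true, false, true⟩,
  ⟨0, 378, 76, 164, 590, 269, 530, 269, 478, 0, 908, true, false, true, true, false, true⟩,
  ⟨0, 364, 80, 160, 557, 285, 549, 285, 525, 0, 920, true, false, true, true, false, true⟩,
  ⟨0, 390, 104, 156, 675, 289, 559, 289, 471, 0, 912, true, false, true, true, false, true⟩]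

set_option maxRecDepth 100000 in
theorem r0_7 : run 3 657 8 [23, 23, 19] [512, 512, 512] (ps0_7.map (clause (ch0 11 20)))
    (.node 1 (.node 0 (.leaf 0) (.leaf 1)) (.node 0 (.node 2 (.leaf 2) (.leaf 3)) (.leaf 4))) [(16, 32), (128, 160), (71, 84)] = true := by
  decide +kernel

theorem c0_7 : Cov 8 (ch0 11 20) [(16, 32), (128, 160), (71, 84)] := cov_run r0_7

def ps0_8 : List Par := [
  ⟨0, 290, 12, 344, 420, 291, 489, 291, 489, 0, 908, true, false, true, true, false, false⟩,
  ⟨0, 284, 36, 352, 552, 262, 456, 262, 456, 0, 884, true, false, true, true, false, false⟩,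
  ⟨0, 264, 44, 332, 507, 292, 493, 292, 493, 0, 908, true, false, true, true, false, false⟩]

set_option maxRecDepth 100000 in
theorem r0_8 : run 3 657 8 [23, 23, 19] [512, 512, 512] (ps0_8.map (clause (ch0 11 20)))
    (.node 0 (.leaf 0) (.node 2 (.leaf 1) (.leaf 2))) [(0, 16), (160, 192), (59, 84)] = true := by
  decide +kernel

theorem c0_8 : Cov 8 (ch0 11 20) [(0, 16), (160, 192), (59, 84)] := cov_run r0_8

def ps0_9 : List Par := [
  ⟨0, 468, 60, 136, 623, 260, 462, 260, 453, 0, 880, true, false, true, true, false, true⟩,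
  ⟨0, 533, 56, 96, 648, 263, 419, 263, 419, 0, 860, true, false, true, true, false, false⟩,
  ⟨0, 309, 80, 332, 696, 268, 470, 268, 424, 0, 872, true, false, true, true, false, true⟩]

set_option maxRecDepth 100000 in
theorem r0_9 : run 3 657 8 [23, 23, 19] [512, 512, 512] (ps0_9.map (clause (ch0 11 20)))
    (.node 0 (.node 1 (.leaf 0) (.leaf 1)) (.leaf 2)) [(16, 32), (160, 192), (59, 71)] = true := by
  decide +kernel

theorem c0_9 : Cov 8 (ch0 11 20) [(16, 32), (160, 192), (59, 71)] := cov_run r0_9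

end Crest.Agent.R307.FBA
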