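import Crest.Agent.R307.FBGlue

set_option autoImplicit false
set_option Elab.async false

namespace Crest.Agent.R307.FBB

open Crest.Agent.KB Crest.Agent.R307.FB

def ps0_11 : List Par := [
  ⟨0, 411, 320, 92, 803, 322, 550, 322, 395, 0, 860, true, false, true, true, false, true⟩,
  ⟨0, 459, 304, 68, 773, 328, 505, 328, 416, 0, 844, true, false, true, true, false, true⟩]

set_option maxRecDepth 100000 in
theorem r0_11 : run 3 717 9 [23, 23, 19] [1024, 1024, 1024] (ps0_11.map (clause (ch0 113 200)))
    (.node 1 (.leaf 0) (.leaf 1)) [(96, 128), (320, 384), (168, 176)] = true := by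
  decide +kernel

theorem c0_11 : Cov 9 (ch0 113 200) [(96, 128), (320, 384), (168, 176)] := cov_run r0_11

def ps0_12 : List Par := [
  ⟨0, 410, 56, 176, 516, 310, 424, 310, 424, 0, 884, true, false, true, true, false, false⟩,
  ⟨0, 510, 68, 60, 625, 304, 426, 304, 426, 0, 876, true, false, true, true, false, false⟩,
  ⟨0, 519, 92, 56, 677, 310, 434, 310, 434, 0, 868, true, false, true, true, false, false⟩,
  ⟨0, 545, 148, 36, 660, 315, 401, 315, 401, 0, 864, true, false, true, true, false, false⟩]

set_option maxRecDepth 100000 in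
theorem r0_12 : run 3 717 9 [23, 23, 19] [1024, 1024, 1024] (ps0_12.map (clause (ch0 113 200)))
    (.node 0 (.leaf 0) (.node 1 (.node 0 (.leaf 1) (.leaf 2)) (.leaf 3))) [(0, 64), (384, 448), (168, 176)] = true := by
  decide +kernel

theorem c0_12 : Cov 9 (ch0 113 200) [(0, 64), (384, 448), (168, 176)] := cov_run r0_12

def ps0_13 : List Par := [
  ⟨0, 575, 48, 48, 568, 315, 360, 315, 360, 0, 856, true, false, true, true, false, false⟩,
  ⟨0, 574, 140, 44, 682, 321, 371, 321, 371, 0, 848, true, false, true, true, false, false⟩]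

set_option maxRecDepth 100000 in
theorem r0_13 : run 3 717 9 [23, 23, 19] [1024, 1024, 1024] (ps0_13.map (clause (ch0 113 200)))
    (.node 0 (.leaf 0) (.leaf 1)) [(0, 64), (448, 512), (168, 176)] = true := by
  decide +kernel

theorem c0_13 : Cov 9 (ch0 113 200) [(0, 64), (448, 512), (168, 176)] := cov_run r0_13

def ps0_14 : List Par := [
  ⟨0, 528, 108, 56, 692, 317, 444, 317, 444, 0, 860, true, false, true, true, false, false⟩,
  ⟨0, 567, 124, 16, 714, 321, 452, 321, 452, 0, 844, true, false, true, true, false, false⟩,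
  ⟨0, 582, 120, 12, 725, 323, 434, 323, 434, 0, 836, true, false, true, true, false, false⟩,
  ⟨0, 543, 224, 32, 718, 328, 418, 328, 418, 0, 844, true, false, true, true, false, false⟩]

set_option maxRecDepth 100000 in
theorem r0_14 : run 3 717 9 [23, 23, 19] [1024, 1024, 1024] (ps0_14.map (clause (ch0 113 200)))
    (.node 1 (.node 0 (.leaf 0) (.node 1 (.leaf 1) (.leaf 2))) (.leaf 3)) [(64, 96), (384, 448), (168, 176)] = true := by
  decide +kernel

theorem c0_14 : Cov 9 (ch0 113 200) [(64, 96), (384, 448), (168, 176)] := cov_run r0_14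

def ps0_15 : List Par := [
  ⟨0, 503, 288, 48, 751, 334, 466, 334, 433, 0, 828, true, false, true, true, false, true⟩,
  ⟨0, 544, 276, 28, 736, 340, 432, 340, 432, 0, 812, true, false, true, true, false, false⟩]

set_option maxRecDepth 100000 in
theorem r0_15 : run 3 717 9 [23, 23, 19] [1024, 1024, 1024] (ps0_15.map (clause (ch0 113 200)))
    (.node 1 (.leaf 0) (.leaf 1)) [(96, 128), (384, 448), (168, 176)] = true := by
  decide +kernel

theorem c0_15 : Cov 9 (ch0 113 200) [(96, 128), (384, 448), (168, 176)] := cov_run r0_15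

def ps0_16 : List Par := [
  ⟨0, 571, 212, 40, 729, 336, 387, 336, 387, 0, 828, true, false, true, true, false, false⟩,
  ⟨0, 574, 256, 36, 757, 349, 401, 349, 401, 0, 800, true, false, true, true, false, false⟩]

set_option maxRecDepth 100000 in
theorem r0_16 : run 3 717 9 [23, 23, 19] [1024, 1024, 1024] (ps0_16.map (clause (ch0 113 200)))
    (.node 0 (.leaf 0) (.leaf 1)) [(64, 128), (448, 512), (168, 176)] = true := by
  decide +kernel

theorem c0_16 : Cov 9 (ch0 113 200) [(64, 128), (448, 512), (168, 176)] := cov_run r0_16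

def ps0_17 : List Par := [
  ⟨0, 141, 660, 196, 884, 321, 657, 321, 299, 0, 848, true, false, true, true, false, true⟩,
  ⟨0, 225, 600, 168, 832, 341, 632, 341, 349, 0, 816, true, false, true, true, false, true⟩,
  ⟨0, 349, 552, 96, 780, 362, 622, 362, 389, 0, 788, true, false, true, true, false, true⟩,
  ⟨0, 463, 512, 28, 758, 380, 612, 380, 419, 0, 756, true, false, true, true, false, true⟩]

set_option maxRecDepth 100000 in
theorem r0_17 : run 3 717 9 [23, 23, 19] [1024, 1024, 1024] (ps0_17.map (clause (ch0 113 200)))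
    (.node 1 (.node 1 (.leaf 0) (.leaf 1)) (.node 1 (.leaf 2) (.leaf 3))) [(128, 256), (256, 512), (168, 176)] = true := by
  decide +kernel

theorem c0_17 : Cov 9 (ch0 113 200) [(128, 256), (256, 512), (168, 176)] := cov_run r0_17

def ps0_18 : List Par := [
  ⟨2, 0, 0, 0, 0, 0, 0, 0, 0, 0, 0, false, false, false, false, false, false⟩,
  ⟨0, 210, 680, 160, 834, 391, 622, 283, 225, 0, 616, false, false, true, true, true, true⟩]

set_option maxRecDepth 100000 in
theorem r0_18 : run 3 717 9 [23, 23, 19] [1024, 1024, 1024] (ps0_18.map (clause (ch0 113 200)))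
    (.node 1 (.leaf 0) (.leaf 1)) [(256, 512), (0, 512), (168, 176)] = true := by
  decide +kernel

theorem c0_18 : Cov 9 (ch0 113 200) [(256, 512), (0, 512), (168, 176)] := cov_run r0_18

end Crest.Agent.R307.FBB
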