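import Crest.Agent.R307.FBGlue

set_option autoImplicit false
set_option Elab.async false

namespace Crest.Agent.R307.FBB

open Crest.Agent.KB Crest.Agent.R307.FB

def ps2_0 : List Par := [
  ⟨1, 0, 0, 0, 0, 0, 0, 0, 0, 0, 0, false, false, false, false, false, false⟩]

set_option maxRecDepth 100000 in
theorem r2_0 : run 3 717 9 [23, 23, 19] [1024, 1024, 1024] (ps2_0.map (clause (ch2 113 200)))
    (.leaf 0) [(0, 128), (0, 128), (168, 176)] = true := by
  decide +kernel

theorem c2_0 : Cov 9 (ch2 113 200) [(0, 128), (0, 128), (168, 176)] := cov_run r2_0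

def ps2_1 : List Par := [
  ⟨1, 0, 0, 0, 0, 0, 0, 0, 0, 0, 0, false, false, false, false, false, false⟩]

set_option maxRecDepth 100000 in
theorem r2_1 : run 3 717 9 [23, 23, 19] [1024, 1024, 1024] (ps2_1.map (clause (ch2 113 200)))
    (.leaf 0) [(0, 64), (128, 256), (168, 176)] = true := by
  decide +kernel

theorem c2_1 : Cov 9 (ch2 113 200) [(0, 64), (128, 256), (168, 176)] := cov_run r2_1

def ps2_2 : List Par := [
  ⟨1, 0, 0, 0, 0, 0, 0, 0, 0, 0, 0, false, false, false, false, false, false⟩]

set_option maxRecDepth 100000 in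
theorem r2_2 : run 3 717 9 [23, 23, 19] [1024, 1024, 1024] (ps2_2.map (clause (ch2 113 200)))
    (.leaf 0) [(64, 128), (128, 192), (168, 176)] = true := by
  decide +kernel

theorem c2_2 : Cov 9 (ch2 113 200) [(64, 128), (128, 192), (168, 176)] := cov_run r2_2

def ps2_3 : List Par := [
  ⟨1, 0, 0, 0, 0, 0, 0, 0, 0, 0, 0, false, false, false, false, false, false⟩,
  ⟨0, 787, 140, (-28), 696, 362, 265, 362, 265, 0, 676, true, false, true, false, false, false⟩,
  ⟨0, 800, 64, (-28), 668, 389, 255, 389, 255, 0, 684, true, false, true, false, false, false⟩,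
  ⟨0, 802, 76, (-24), 663, 402, 280, 402, 280, 0, 672, true, false, true, false, false, false⟩]

set_option maxRecDepth 100000 in
theorem r2_3 : run 3 717 9 [23, 23, 19] [1024, 1024, 1024] (ps2_3.map (clause (ch2 113 200)))
    (.node 1 (.leaf 0) (.node 1 (.leaf 1) (.node 0 (.leaf 2) (.leaf 3)))) [(64, 96), (192, 256), (168, 176)] = true := by
  decide +kernel

theorem c2_3 : Cov 9 (ch2 113 200) [(64, 96), (192, 256), (168, 176)] := cov_run r2_3

def ps2_4 : List Par := [
  ⟨0, 820, 168, (-64), 722, 346, 303, 346, 303, 0, 640, true, false, true, false, false, false⟩,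
  ⟨0, 851, 80, (-72), 658, 414, 305, 414, 305, 0, 656, true, false, true, false, false, false⟩,
  ⟨0, 857, 84, (-68), 645, 428, 333, 428, 333, 0, 636, true, false, true, false, false, false⟩]

set_option maxRecDepth 100000 in
theorem r2_4 : run 3 717 9 [23, 23, 19] [1024, 1024, 1024] (ps2_4.map (clause (ch2 113 200)))
    (.node 1 (.leaf 0) (.node 0 (.leaf 1) (.leaf 2))) [(96, 128), (192, 256), (168, 176)] = true := by
  decide +kernel

theorem c2_4 : Cov 9 (ch2 113 200) [(96, 128), (192, 256), (168, 176)] := cov_run r2_4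

def ps2_5 : List Par := [
  ⟨1, 0, 0, 0, 0, 0, 0, 0, 0, 0, 0, false, false, false, false, false, false⟩]

set_option maxRecDepth 100000 in
theorem r2_5 : run 3 717 9 [23, 23, 19] [1024, 1024, 1024] (ps2_5.map (clause (ch2 113 200)))
    (.leaf 0) [(128, 192), (0, 128), (168, 176)] = true := by
  decide +kernel

theorem c2_5 : Cov 9 (ch2 113 200) [(128, 192), (0, 128), (168, 176)] := cov_run r2_5

def ps2_6 : List Par := [
  ⟨1, 0, 0, 0, 0, 0, 0, 0, 0, 0, 0, false, false, false, false, false, false⟩]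

set_option maxRecDepth 100000 in
theorem r2_6 : run 3 717 9 [23, 23, 19] [1024, 1024, 1024] (ps2_6.map (clause (ch2 113 200)))
    (.leaf 0) [(192, 256), (0, 64), (168, 176)] = true := by
  decide +kernel

theorem c2_6 : Cov 9 (ch2 113 200) [(192, 256), (0, 64), (168, 176)] := cov_run r2_6

def ps2_7 : List Par := [
  ⟨1, 0, 0, 0, 0, 0, 0, 0, 0, 0, 0, false, false, false, false, false, false⟩,
  ⟨1, 0, 0, 0, 0, 0, 0, 0, 0, 0, 0, false, false, false, false, false, false⟩,
  ⟨1, 0, 0, 0, 0, 0, 0, 0, 0, 0, 0, false, false, false, false, false, false⟩,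
  ⟨0, 922, 56, (-12), 534, 313, 475, 313, 475, 0, 420, true, false, true, false, false, false⟩]

set_option maxRecDepth 100000 in
theorem r2_7 : run 3 717 9 [23, 23, 19] [1024, 1024, 1024] (ps2_7.map (clause (ch2 113 200)))
    (.node 1 (.leaf 0) (.node 0 (.leaf 1) (.node 1 (.leaf 2) (.leaf 3)))) [(192, 224), (64, 128), (168, 176)] = true := by
  decide +kernel

theorem c2_7 : Cov 9 (ch2 113 200) [(192, 224), (64, 128), (168, 176)] := cov_run r2_7

def ps2_8 : List Par := [
  ⟨1, 0, 0, 0, 0, 0, 0, 0, 0, 0, 0, false, false, false, false, false, false⟩,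
  ⟨1, 0, 0, 0, 0, 0, 0, 0, 0, 0, 0, false, false, false, false, false, false⟩,
  ⟨1, 0, 0, 0, 0, 0, 0, 0, 0, 0, 0, false, false, false, false, false, false⟩,
  ⟨1, 0, 0, 0, 0, 0, 0, 0, 0, 0, 0, false, false, false, false, false, false⟩,
  ⟨0, 974, 12, (-4), 481, 306, 536, 306, 506, 0, 332, true, false, true, false, false, true⟩]

set_option maxRecDepth 100000 in
theorem r2_8 : run 3 717 9 [23, 23, 19] [1024, 1024, 1024] (ps2_8.map (clause (ch2 113 200)))
    (.node 0 (.leaf 0) (.node 1 (.leaf 1) (.node 0 (.leaf 2) (.node 1 (.leaf 3) (.leaf 4))))) [(224, 256), (64, 96), (168, 176)] = true := by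
  decide +kernel

theorem c2_8 : Cov 9 (ch2 113 200) [(224, 256), (64, 96), (168, 176)] := cov_run r2_8

def ps2_9 : List Par := [
  ⟨1, 0, 0, 0, 0, 0, 0, 0, 0, 0, 0, false, false, false, false, false, false⟩]

set_option maxRecDepth 100000 in
theorem r2_9 : run 3 717 9 [23, 23, 19] [1024, 1024, 1024] (ps2_9.map (clause (ch2 113 200)))
    (.leaf 0) [(224, 232), (96, 112), (168, 176)] = true := by
  decide +kernel

theorem c2_9 : Cov 9 (ch2 113 200) [(224, 232), (96, 112), (168, 176)] := cov_run r2_9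

def ps2_10 : List Par := [
  ⟨1, 0, 0, 0, 0, 0, 0, 0, 0, 0, 0, false, false, false, false, false, false⟩]

set_option maxRecDepth 100000 in
theorem r2_10 : run 3 717 9 [23, 23, 19] [1024, 1024, 1024] (ps2_10.map (clause (ch2 113 200)))
    (.leaf 0) [(232, 240), (96, 104), (168, 176)] = true := by
  decide +kernel

theorem c2_10 : Cov 9 (ch2 113 200) [(232, 240), (96, 104), (168, 176)] := cov_run r2_10

def ps2_11 : List Par := [
  ⟨1, 0, 0, 0, 0, 0, 0, 0, 0, 0, 0, false, false, false, false, false, false⟩,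
  ⟨1, 0, 0, 0, 0, 0, 0, 0, 0, 0, 0, false, false, false, false, false, false⟩,
  ⟨1, 0, 0, 0, 0, 0, 0, 0, 0, 0, 0, false, false, false, false, false, false⟩,
  ⟨1, 0, 0, 0, 0, 0, 0, 0, 0, 0, 0, false, false, false, false, false, false⟩,
  ⟨0, 964, 4, 0, 494, 314, 507, 314, 507, 0, 360, true, false, true, false, false, false⟩]

set_option maxRecDepth 100000 in
theorem r2_11 : run 3 717 9 [23, 23, 19] [1024, 1024, 1024] (ps2_11.map (clause (ch2 113 200)))
    (.node 2 (.leaf 0) (.node 0 (.leaf 1) (.node 1 (.leaf 2) (.node 1 (.leaf 3) (.leaf 4))))) [(232, 240), (104, 112), (168, 176)] = true := by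
  decide +kernel

theorem c2_11 : Cov 9 (ch2 113 200) [(232, 240), (104, 112), (168, 176)] := cov_run r2_11

def ps2_12 : List Par := [
  ⟨0, 957, 16, (-12), 513, 322, 493, 322, 493, 0, 388, true, false, true, false, false, false⟩]

set_option maxRecDepth 100000 in
theorem r2_12 : run 3 717 9 [23, 23, 19] [1024, 1024, 1024] (ps2_12.map (clause (ch2 113 200)))
    (.leaf 0) [(224, 232), (112, 128), (168, 176)] = true := by
  decide +kernel

theorem c2_12 : Cov 9 (ch2 113 200) [(224, 232), (112, 128), (168, 176)] := cov_run r2_12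

def ps2_13 : List Par := [
  ⟨0, 966, 12, (-12), 514, 314, 491, 314, 491, 0, 364, true, false, true, false, false, false⟩]

set_option maxRecDepth 100000 in
theorem r2_13 : run 3 717 9 [23, 23, 19] [1024, 1024, 1024] (ps2_13.map (clause (ch2 113 200)))
    (.leaf 0) [(232, 240), (112, 128), (168, 172)] = true := by
  decide +kernel

theorem c2_13 : Cov 9 (ch2 113 200) [(232, 240), (112, 128), (168, 172)] := cov_run r2_13

def ps2_14 : List Par := [
  ⟨0, 963, 12, (-12), 502, 323, 502, 323, 502, 0, 368, true, false, true, false, false, false⟩]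

set_option maxRecDepth 100000 in
theorem r2_14 : run 3 717 9 [23, 23, 19] [1024, 1024, 1024] (ps2_14.map (clause (ch2 113 200)))
    (.leaf 0) [(232, 240), (112, 128), (172, 174)] = true := by
  decide +kernel

theorem c2_14 : Cov 9 (ch2 113 200) [(232, 240), (112, 128), (172, 174)] := cov_run r2_14

def ps2_15 : List Par := [
  ⟨0, 961, 4, (-4), 503, 318, 500, 318, 500, 0, 372, true, false, true, false, false, false⟩,
  ⟨0, 966, 0, (-4), 497, 320, 505, 320, 505, 0, 364, true, false, true, false, false, false⟩,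
  ⟨0, 967, 0, (-4), 497, 321, 509, 321, 506, 0, 360, true, false, true, false, false, true⟩,
  ⟨0, 960, 4, (-4), 509, 324, 501, 324, 501, 0, 372, true, false, true, false, false, false⟩,
  ⟨0, 963, 4, (-4), 503, 327, 510, 327, 504, 0, 364, true, false, true, false, false, true⟩]

set_option maxRecDepth 100000 in
theorem r2_15 : run 3 717 9 [23, 23, 19] [1024, 1024, 1024] (ps2_15.map (clause (ch2 113 200)))
    (.node 1 (.node 0 (.leaf 0) (.node 0 (.leaf 1) (.leaf 2))) (.node 0 (.leaf 3) (.leaf 4))) [(232, 240), (112, 128), (174, 176)] = true := by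
  decide +kernel

theorem c2_15 : Cov 9 (ch2 113 200) [(232, 240), (112, 128), (174, 176)] := cov_run r2_15

end Crest.Agent.R307.FBB
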