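import Crest.Agent.R307.FBGlue

set_option autoImplicit false
set_option Elab.async false

namespace Crest.Agent.R307.FBB

open Crest.Agent.KB Crest.Agent.R307.FB

def ps2_16 : List Par := [
  ⟨1, 0, 0, 0, 0, 0, 0, 0, 0, 0, 0, false, false, false, false, false, false⟩]

set_option maxRecDepth 100000 in
theorem r2_16 : run 3 717 9 [23, 23, 19] [1024, 1024, 1024] (ps2_16.map (clause (ch2 113 200)))
    (.leaf 0) [(240, 248), (96, 112), (168, 172)] = true := by
  decide +kernel

theorem c2_16 : Cov 9 (ch2 113 200) [(240, 248), (96, 112), (168, 172)] := cov_run r2_16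

def ps2_17 : List Par := [
  ⟨1, 0, 0, 0, 0, 0, 0, 0, 0, 0, 0, false, false, false, false, false, false⟩,
  ⟨0, 972, 4, (-4), 485, 310, 522, 310, 507, 0, 340, true, false, true, false, false, true⟩,
  ⟨0, 967, 4, 0, 490, 312, 514, 312, 507, 0, 352, true, false, true, false, false, true⟩,
  ⟨0, 967, 4, 0, 493, 315, 515, 315, 506, 0, 352, true, false, true, false, false, true⟩,
  ⟨0, 972, 4, (-4), 494, 315, 522, 315, 503, 0, 344, true, false, true, false, false, true⟩]

set_option maxRecDepth 100000 in
theorem r2_17 : run 3 717 9 [23, 23, 19] [1024, 1024, 1024] (ps2_17.map (clause (ch2 113 200)))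
    (.node 1 (.node 0 (.leaf 0) (.leaf 1)) (.node 0 (.node 1 (.leaf 2) (.leaf 3)) (.leaf 4))) [(240, 248), (96, 112), (172, 176)] = true := by
  decide +kernel

theorem c2_17 : Cov 9 (ch2 113 200) [(240, 248), (96, 112), (172, 176)] := cov_run r2_17

def ps2_18 : List Par := [
  ⟨0, 975, 12, (-8), 492, 317, 537, 317, 502, 0, 336, true, false, true, false, false, true⟩]

set_option maxRecDepth 100000 in
theorem r2_18 : run 3 717 9 [23, 23, 19] [1024, 1024, 1024] (ps2_18.map (clause (ch2 113 200)))
    (.leaf 0) [(248, 256), (96, 112), (168, 176)] = true := by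
  decide +kernel

theorem c2_18 : Cov 9 (ch2 113 200) [(248, 256), (96, 112), (168, 176)] := cov_run r2_18

def ps2_19 : List Par := [
  ⟨0, 949, 44, (-8), 502, 330, 540, 330, 503, 0, 356, true, false, true, false, false, true⟩]

set_option maxRecDepth 100000 in
theorem r2_19 : run 3 717 9 [23, 23, 19] [1024, 1024, 1024] (ps2_19.map (clause (ch2 113 200)))
    (.leaf 0) [(240, 256), (112, 128), (168, 176)] = true := by
  decide +kernel

theorem c2_19 : Cov 9 (ch2 113 200) [(240, 256), (112, 128), (168, 176)] := cov_run r2_19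

def ps2_20 : List Par := [
  ⟨0, 837, 176, (-72), 682, 326, 354, 326, 354, 0, 584, true, false, true, false, false, false⟩,
  ⟨0, 843, 176, (-60), 595, 366, 426, 366, 426, 0, 532, true, false, true, false, false, false⟩]

set_option maxRecDepth 100000 in
theorem r2_20 : run 3 717 9 [23, 23, 19] [1024, 1024, 1024] (ps2_20.map (clause (ch2 113 200)))
    (.node 0 (.leaf 0) (.leaf 1)) [(128, 192), (128, 192), (168, 176)] = true := by
  decide +kernel

theorem c2_20 : Cov 9 (ch2 113 200) [(128, 192), (128, 192), (168, 176)] := cov_run r2_20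

def ps2_21 : List Par := [
  ⟨0, 820, 184, (-56), 687, 375, 363, 375, 363, 0, 596, true, false, true, false, false, false⟩,
  ⟨0, 813, 192, (-60), 632, 450, 385, 450, 385, 0, 612, true, false, true, false, false, false⟩,
  ⟨0, 826, 188, (-48), 630, 406, 428, 406, 428, 0, 548, true, false, true, false, false, false⟩,
  ⟨0, 819, 196, (-52), 619, 468, 439, 468, 439, 0, 564, true, false, true, false, false, false⟩]

set_option maxRecDepth 100000 in
theorem r2_21 : run 3 717 9 [23, 23, 19] [1024, 1024, 1024] (ps2_21.map (clause (ch2 113 200)))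
    (.node 0 (.node 1 (.leaf 0) (.leaf 1)) (.node 1 (.leaf 2) (.leaf 3))) [(128, 192), (192, 256), (168, 176)] = true := by
  decide +kernel

theorem c2_21 : Cov 9 (ch2 113 200) [(128, 192), (192, 256), (168, 176)] := cov_run r2_21

def ps2_22 : List Par := [
  ⟨0, 926, 64, (-56), 561, 381, 459, 381, 459, 0, 476, true, false, true, false, false, false⟩,
  ⟨0, 921, 56, (-12), 540, 329, 478, 329, 478, 0, 428, true, false, true, false, false, false⟩,
  ⟨0, 919, 56, (-12), 550, 345, 480, 345, 480, 0, 432, true, false, true, false, false, false⟩,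
  ⟨0, 928, 60, (-36), 544, 391, 490, 391, 490, 0, 444, true, false, true, false, false, false⟩]

set_option maxRecDepth 100000 in
theorem r2_22 : run 3 717 9 [23, 23, 19] [1024, 1024, 1024] (ps2_22.map (clause (ch2 113 200)))
    (.node 0 (.leaf 0) (.node 1 (.node 1 (.leaf 1) (.leaf 2)) (.leaf 3))) [(192, 224), (128, 192), (168, 176)] = true := by
  decide +kernel

theorem c2_22 : Cov 9 (ch2 113 200) [(192, 224), (128, 192), (168, 176)] := cov_run r2_22

def ps2_23 : List Par := [
  ⟨0, 944, 48, (-28), 515, 350, 499, 350, 499, 0, 392, true, false, true, false, false, false⟩]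

set_option maxRecDepth 100000 in
theorem r2_23 : run 3 717 9 [23, 23, 19] [1024, 1024, 1024] (ps2_23.map (clause (ch2 113 200)))
    (.leaf 0) [(224, 240), (128, 160), (168, 172)] = true := by
  decide +kernel

theorem c2_23 : Cov 9 (ch2 113 200) [(224, 240), (128, 160), (168, 172)] := cov_run r2_23

def ps2_24 : List Par := [
  ⟨0, 953, 16, (-12), 517, 338, 497, 338, 497, 0, 396, true, false, true, false, false, false⟩,
  ⟨0, 958, 12, (-4), 509, 334, 510, 334, 505, 0, 376, true, false, true, false, false, true⟩,
  ⟨0, 957, 12, (-4), 520, 339, 510, 339, 500, 0, 380, true, false, true, false, false, true⟩,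
  ⟨0, 951, 16, (-12), 525, 355, 499, 355, 499, 0, 400, true, false, true, false, false, false⟩,
  ⟨0, 960, 12, (-12), 527, 356, 513, 356, 496, 0, 384, true, false, true, false, false, true⟩]

set_option maxRecDepth 100000 in
theorem r2_24 : run 3 717 9 [23, 23, 19] [1024, 1024, 1024] (ps2_24.map (clause (ch2 113 200)))
    (.node 1 (.node 0 (.leaf 0) (.node 1 (.leaf 1) (.leaf 2))) (.node 0 (.leaf 3) (.leaf 4))) [(224, 240), (128, 160), (172, 176)] = true := by
  decide +kernel

theorem c2_24 : Cov 9 (ch2 113 200) [(224, 240), (128, 160), (172, 176)] := cov_run r2_24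

def ps2_25 : List Par := [
  ⟨0, 955, 44, (-24), 520, 362, 545, 362, 496, 0, 368, true, false, true, false, false, true⟩]

set_option maxRecDepth 100000 in
theorem r2_25 : run 3 717 9 [23, 23, 19] [1024, 1024, 1024] (ps2_25.map (clause (ch2 113 200)))
    (.leaf 0) [(240, 256), (128, 160), (168, 176)] = true := by
  decide +kernel

theorem c2_25 : Cov 9 (ch2 113 200) [(240, 256), (128, 160), (168, 176)] := cov_run r2_25

def ps2_26 : List Par := [
  ⟨0, 881, 140, (-32), 542, 400, 549, 400, 495, 0, 416, true, false, true, false, false, true⟩]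

set_option maxRecDepth 100000 in
theorem r2_26 : run 3 717 9 [23, 23, 19] [1024, 1024, 1024] (ps2_26.map (clause (ch2 113 200)))
    (.leaf 0) [(224, 256), (160, 192), (168, 176)] = true := by
  decide +kernel

theorem c2_26 : Cov 9 (ch2 113 200) [(224, 256), (160, 192), (168, 176)] := cov_run r2_26

def ps2_27 : List Par := [
  ⟨0, 937, 72, (-84), 582, 485, 473, 485, 473, 0, 508, true, false, true, false, false, false⟩,
  ⟨0, 949, 64, (-76), 555, 498, 505, 498, 496, 0, 476, true, false, true, false, false, true⟩,
  ⟨0, 890, 152, (-64), 567, 506, 562, 506, 478, 0, 444, true, false, true, false, false, true⟩]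

set_option maxRecDepth 100000 in
theorem r2_27 : run 3 717 9 [23, 23, 19] [1024, 1024, 1024] (ps2_27.map (clause (ch2 113 200)))
    (.node 0 (.node 0 (.leaf 0) (.leaf 1)) (.leaf 2)) [(192, 256), (192, 256), (168, 176)] = true := by
  decide +kernel

theorem c2_27 : Cov 9 (ch2 113 200) [(192, 256), (192, 256), (168, 176)] := cov_run r2_27

def ps2_28 : List Par := [
  ⟨0, 907, 32, (-184), 617, 361, 219, 361, 219, 0, 744, true, false, true, true, false, false⟩,
  ⟨0, 900, 96, (-180), 667, 365, 246, 365, 246, 0, 736, true, false, true, true, false, false⟩,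
  ⟨0, 900, 36, (-192), 628, 340, 231, 340, 231, 0, 772, true, false, true, true, false, false⟩,
  ⟨0, 889, 108, (-184), 692, 346, 251, 346, 251, 0, 768, true, false, true, true, false, false⟩]

set_option maxRecDepth 100000 in
theorem r2_28 : run 3 717 9 [23, 23, 19] [1024, 1024, 1024] (ps2_28.map (clause (ch2 113 200)))
    (.node 1 (.node 0 (.leaf 0) (.leaf 1)) (.node 0 (.leaf 2) (.leaf 3))) [(0, 64), (256, 384), (168, 176)] = true := by
  decide +kernel

theorem c2_28 : Cov 9 (ch2 113 200) [(0, 64), (256, 384), (168, 176)] := cov_run r2_28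

def ps2_29 : List Par := [
  ⟨0, 884, 152, (-168), 676, 385, 292, 385, 292, 0, 716, true, false, true, true, false, false⟩,
  ⟨0, 868, 188, (-152), 682, 404, 341, 404, 341, 0, 688, true, false, true, true, false, false⟩,
  ⟨0, 839, 252, (-164), 687, 390, 358, 390, 358, 0, 748, true, false, true, true, false, false⟩]

set_option maxRecDepth 100000 in
theorem r2_29 : run 3 717 9 [23, 23, 19] [1024, 1024, 1024] (ps2_29.map (clause (ch2 113 200)))
    (.node 1 (.node 0 (.leaf 0) (.leaf 1)) (.leaf 2)) [(64, 128), (256, 384), (168, 176)] = true := by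
  decide +kernel

theorem c2_29 : Cov 9 (ch2 113 200) [(64, 128), (256, 384), (168, 176)] := cov_run r2_29

end Crest.Agent.R307.FBB
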