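import Crest.Agent.R307.FBGlue

set_option autoImplicit false
set_option Elab.async false

namespace Crest.Agent.R307.FBB

open Crest.Agent.KB Crest.Agent.R307.FB

def ps2_30 : List Par := [
  ⟨0, 988, 44, (-308), 626, 327, 308, 327, 308, 0, 828, true, false, true, true, false, false⟩,
  ⟨0, 971, 124, (-296), 722, 331, 319, 331, 319, 0, 824, true, false, true, true, false, false⟩,
  ⟨0, 761, 276, (-112), 709, 374, 371, 374, 371, 0, 776, true, false, true, true, false, false⟩,
  ⟨0, 653, 296, (-36), 705, 362, 388, 362, 388, 0, 804, true, false, true, true, false, false⟩]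

set_option maxRecDepth 100000 in
theorem r2_30 : run 3 717 9 [23, 23, 19] [1024, 1024, 1024] (ps2_30.map (clause (ch2 113 200)))
    (.node 0 (.node 0 (.leaf 0) (.leaf 1)) (.node 1 (.leaf 2) (.leaf 3))) [(0, 128), (384, 512), (168, 176)] = true := by
  decide +kernel

theorem c2_30 : Cov 9 (ch2 113 200) [(0, 128), (384, 512), (168, 176)] := cov_run r2_30

def ps2_31 : List Par := [
  ⟨0, 933, 216, (-232), 672, 425, 412, 425, 412, 0, 676, true, false, true, true, false, false⟩,
  ⟨0, 860, 208, (-120), 626, 453, 455, 453, 455, 0, 596, true, false, true, true, false, false⟩,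
  ⟨0, 842, 224, (-120), 633, 430, 470, 430, 470, 0, 628, true, false, true, true, false, false⟩,
  ⟨0, 820, 336, (-160), 621, 478, 586, 478, 472, 0, 568, true, false, true, true, false, true⟩]

set_option maxRecDepth 100000 in
theorem r2_31 : run 3 717 9 [23, 23, 19] [1024, 1024, 1024] (ps2_31.map (clause (ch2 113 200)))
    (.node 0 (.node 0 (.leaf 0) (.node 1 (.leaf 1) (.leaf 2))) (.leaf 3)) [(128, 256), (256, 384), (168, 176)] = true := by
  decide +kernel

theorem c2_31 : Cov 9 (ch2 113 200) [(128, 256), (256, 384), (168, 176)] := cov_run r2_31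

def ps2_32 : List Par := [
  ⟨0, 776, 244, (-96), 711, 388, 423, 388, 423, 0, 704, true, false, true, true, false, false⟩,
  ⟨0, 782, 244, (-84), 692, 403, 478, 403, 438, 0, 656, true, false, true, true, false, true⟩,
  ⟨0, 608, 396, (-28), 698, 386, 491, 386, 453, 0, 732, true, false, true, true, false, true⟩,
  ⟨0, 759, 396, (-152), 710, 420, 603, 420, 393, 0, 624, true, false, true, true, false, true⟩]

set_option maxRecDepth 100000 in
theorem r2_32 : run 3 717 9 [23, 23, 19] [1024, 1024, 1024] (ps2_32.map (clause (ch2 113 200)))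
    (.node 0 (.node 1 (.node 0 (.leaf 0) (.leaf 1)) (.leaf 2)) (.leaf 3)) [(128, 256), (384, 512), (168, 176)] = true := by
  decide +kernel

theorem c2_32 : Cov 9 (ch2 113 200) [(128, 256), (384, 512), (168, 176)] := cov_run r2_32

def ps2_33 : List Par := [
  ⟨1, 0, 0, 0, 0, 0, 0, 0, 0, 0, 0, false, false, false, false, false, false⟩,
  ⟨1, 0, 0, 0, 0, 0, 0, 0, 0, 0, 0, false, false, false, false, false, false⟩,
  ⟨0, 979, 28, (-8), 443, 297, 508, 297, 499, 0, 272, false, false, true, false, false, true⟩,
  ⟨0, 961, 60, 0, 415, 288, 494, 288, 492, 0, 236, false, false, true, false, false, true⟩,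
  ⟨0, 957, 64, (-4), 452, 296, 494, 296, 485, 0, 240, false, false, true, false, false, true⟩]

set_option maxRecDepth 100000 in
theorem r2_33 : run 3 717 9 [23, 23, 19] [1024, 1024, 1024] (ps2_33.map (clause (ch2 113 200)))
    (.node 0 (.node 1 (.leaf 0) (.node 0 (.leaf 1) (.leaf 2))) (.node 1 (.leaf 3) (.leaf 4))) [(256, 320), (0, 64), (168, 176)] = true := by
  decide +kernel

theorem c2_33 : Cov 9 (ch2 113 200) [(256, 320), (0, 64), (168, 176)] := cov_run r2_33

def ps2_34 : List Par := [
  ⟨1, 0, 0, 0, 0, 0, 0, 0, 0, 0, 0, false, false, false, false, false, false⟩,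
  ⟨0, 988, 8, (-4), 469, 298, 513, 298, 498, 0, 292, false, false, true, false, false, true⟩,
  ⟨0, 965, 36, (-8), 482, 307, 520, 307, 500, 0, 316, false, false, true, false, false, true⟩,
  ⟨0, 980, 28, (-12), 478, 311, 509, 311, 490, 0, 280, false, false, true, false, false, true⟩,
  ⟨0, 920, 100, (-16), 502, 335, 524, 335, 494, 0, 324, false, false, true, false, false, true⟩]

set_option maxRecDepth 100000 in
theorem r2_34 : run 3 717 9 [23, 23, 19] [1024, 1024, 1024] (ps2_34.map (clause (ch2 113 200)))
    (.node 1 (.node 0 (.node 1 (.node 0 (.leaf 0) (.leaf 1)) (.leaf 2)) (.leaf 3)) (.leaf 4)) [(256, 288), (64, 128), (168, 176)] = true := by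
  decide +kernel

theorem c2_34 : Cov 9 (ch2 113 200) [(256, 288), (64, 128), (168, 176)] := cov_run r2_34

def ps2_35 : List Par := [
  ⟨0, 961, 64, (-16), 495, 343, 501, 343, 475, 0, 256, false, false, true, false, false, true⟩]

set_option maxRecDepth 100000 in
theorem r2_35 : run 3 717 9 [23, 23, 19] [1024, 1024, 1024] (ps2_35.map (clause (ch2 113 200)))
    (.leaf 0) [(288, 320), (64, 128), (168, 176)] = true := by
  decide +kernel

theorem c2_35 : Cov 9 (ch2 113 200) [(288, 320), (64, 128), (168, 176)] := cov_run r2_35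

def ps2_36 : List Par := [
  ⟨0, 961, 68, (-4), 443, 304, 472, 304, 463, 0, 172, false, false, true, false, false, true⟩,
  ⟨0, 955, 76, (-8), 509, 349, 476, 349, 451, 0, 192, false, false, true, false, false, true⟩]

set_option maxRecDepth 100000 in
theorem r2_36 : run 3 717 9 [23, 23, 19] [1024, 1024, 1024] (ps2_36.map (clause (ch2 113 200)))
    (.node 1 (.leaf 0) (.leaf 1)) [(320, 384), (0, 128), (168, 176)] = true := by
  decide +kernel

theorem c2_36 : Cov 9 (ch2 113 200) [(320, 384), (0, 128), (168, 176)] := cov_run r2_36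

def ps2_37 : List Par := [
  ⟨0, 843, 204, (-32), 533, 418, 535, 418, 480, 0, 348, false, false, true, false, false, true⟩,
  ⟨0, 922, 120, (-52), 541, 522, 550, 522, 451, 0, 380, false, false, true, false, false, true⟩,
  ⟨0, 956, 84, (-40), 535, 532, 523, 532, 420, 0, 312, false, false, true, false, false, true⟩,
  ⟨0, 945, 92, (-16), 568, 424, 483, 424, 424, 0, 216, false, false, true, false, false, true⟩,
  ⟨0, 928, 116, (-24), 610, 535, 492, 460, 384, 0, 244, false, false, true, false, true, true⟩]

set_option maxRecDepth 100000 in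
theorem r2_37 : run 3 717 9 [23, 23, 19] [1024, 1024, 1024] (ps2_37.map (clause (ch2 113 200)))
    (.node 0 (.node 1 (.leaf 0) (.node 0 (.leaf 1) (.leaf 2))) (.node 1 (.leaf 3) (.leaf 4))) [(256, 384), (128, 256), (168, 176)] = true := by
  decide +kernel

theorem c2_37 : Cov 9 (ch2 113 200) [(256, 384), (128, 256), (168, 176)] := cov_run r2_37

def ps2_38 : List Par := [
  ⟨0, 1033, (-8), 0, 489, 364, 436, 364, 417, 104, 60, false, false, true, false, false, true⟩,
  ⟨0, 1041, (-20), 4, 483, 369, 395, 369, 387, 212, 0, false, false, true, false, false, true⟩,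
  ⟨0, 1036, (-16), 8, 577, 373, 398, 373, 374, 204, 0, false, false, true, false, false, true⟩,
  ⟨0, 1021, 8, (-4), 604, 552, 448, 417, 377, 76, 116, false, false, true, false, true, true⟩,
  ⟨0, 1028, (-12), 16, 643, 563, 412, 342, 340, 188, 0, false, false, true, false, true, true⟩]

set_option maxRecDepth 100000 in
theorem r2_38 : run 3 717 9 [23, 23, 19] [1024, 1024, 1024] (ps2_38.map (clause (ch2 113 200)))
    (.node 1 (.node 0 (.leaf 0) (.node 1 (.leaf 1) (.leaf 2))) (.node 0 (.leaf 3) (.leaf 4))) [(384, 512), (0, 256), (168, 176)] = true := by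
  decide +kernel

theorem c2_38 : Cov 9 (ch2 113 200) [(384, 512), (0, 256), (168, 176)] := cov_run r2_38

end Crest.Agent.R307.FBB
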