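import Crest.Agent.R307.FBGlue

set_option autoImplicit false
set_option Elab.async false

namespace Crest.Agent.R307.FBB

open Crest.Agent.KB Crest.Agent.R307.FB

def ps2_39 : List Par := [
  ⟨0, 750, 360, (-88), 579, 525, 573, 525, 407, 0, 444, false, false, true, true, false, true⟩,
  ⟨0, 666, 448, (-88), 683, 446, 587, 409, 311, 0, 500, false, false, true, true, true, true⟩,
  ⟨0, 1019, 52, (-48), 688, 525, 469, 302, 282, 20, 232, false, false, true, true, true, true⟩,
  ⟨0, 1019, 0, 8, 716, 538, 425, 237, 237, 128, 112, false, false, true, true, true, true⟩]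

set_option maxRecDepth 100000 in
theorem r2_39 : run 3 717 9 [23, 23, 19] [1024, 1024, 1024] (ps2_39.map (clause (ch2 113 200)))
    (.node 0 (.node 1 (.leaf 0) (.leaf 1)) (.node 0 (.leaf 2) (.leaf 3))) [(256, 512), (256, 512), (168, 176)] = true := by
  decide +kernel

theorem c2_39 : Cov 9 (ch2 113 200) [(256, 512), (256, 512), (168, 176)] := cov_run r2_39

end Crest.Agent.R307.FBB
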