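import Crest.Agent.R307.FBGlue

set_option autoImplicit false
set_option Elab.async false

namespace Crest.Agent.R307.FBB

open Crest.Agent.KB Crest.Agent.R307.FB

def ps3_0 : List Par := [
  ⟨3, 0, 928, 466, 0, 0, 0, 0, 0, 0, 0, false, false, false, false, false, false⟩,
  ⟨0, 87, 572, 128, 0, 466, 245, 168, 245, 1020, 0, false, false, false, false, true, false⟩,
  ⟨2, 0, 0, 0, 0, 0, 0, 0, 0, 0, 0, false, false, false, false, false, false⟩]

set_option maxRecDepth 100000 in
theorem r3_0 : run 3 717 9 [23, 23, 19] [1024, 1024, 1024] (ps3_0.map (clause (ch3 113 200)))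
    (.node 1 (.node 0 (.leaf 0) (.leaf 1)) (.leaf 2)) [(0, 64), (0, 128), (168, 176)] = true := by
  decide +kernel

theorem c3_0 : Cov 9 (ch3 113 200) [(0, 64), (0, 128), (168, 176)] := cov_run r3_0

def ps3_1 : List Par := [
  ⟨0, 124, 584, 80, 323, 481, 249, 171, 248, 1000, 0, false, false, false, false, true, true⟩,
  ⟨0, 170, 568, 56, 446, 500, 254, 176, 252, 972, 0, false, false, false, false, true, true⟩,
  ⟨0, 70, 712, 180, 911, 529, 269, 128, 164, 996, 0, false, false, false, false, true, true⟩]

set_option maxRecDepth 100000 in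
theorem r3_1 : run 3 717 9 [23, 23, 19] [1024, 1024, 1024] (ps3_1.map (clause (ch3 113 200)))
    (.node 1 (.node 0 (.leaf 0) (.leaf 1)) (.leaf 2)) [(64, 128), (0, 128), (168, 176)] = true := by
  decide +kernel

theorem c3_1 : Cov 9 (ch3 113 200) [(64, 128), (0, 128), (168, 176)] := cov_run r3_1

def ps3_2 : List Par := [
  ⟨2, 0, 0, 0, 0, 0, 0, 0, 0, 0, 0, false, false, false, false, false, false⟩]

set_option maxRecDepth 100000 in
theorem r3_2 : run 3 717 9 [23, 23, 19] [1024, 1024, 1024] (ps3_2.map (clause (ch3 113 200)))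
    (.leaf 0) [(0, 128), (128, 256), (168, 176)] = true := by
  decide +kernel

theorem c3_2 : Cov 9 (ch3 113 200) [(0, 128), (128, 256), (168, 176)] := cov_run r3_2

def ps3_3 : List Par := [
  ⟨0, 99, 784, 16, 366, 552, 266, 190, 264, 932, 0, false, false, false, false, true, true⟩,
  ⟨0, 104, 772, 44, 685, 554, 267, 182, 251, 928, 0, false, false, false, false, true, true⟩,
  ⟨0, 109, 740, 108, 904, 559, 269, 163, 217, 924, 0, false, false, false, false, true, true⟩]

set_option maxRecDepth 100000 in
theorem r3_3 : run 3 717 9 [23, 23, 19] [1024, 1024, 1024] (ps3_3.map (clause (ch3 113 200)))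
    (.node 1 (.node 1 (.leaf 0) (.leaf 1)) (.leaf 2)) [(128, 192), (0, 128), (168, 176)] = true := by
  decide +kernel

theorem c3_3 : Cov 9 (ch3 113 200) [(128, 192), (0, 128), (168, 176)] := cov_run r3_3

def ps3_4 : List Par := [
  ⟨0, 369, 436, 12, 399, 589, 273, 199, 272, 824, 0, false, false, false, false, true, true⟩,
  ⟨0, 533, 172, 32, 702, 572, 270, 187, 256, 824, 0, false, false, false, false, true, true⟩,
  ⟨0, 575, 156, 28, 646, 591, 274, 193, 261, 792, 0, false, false, false, false, true, true⟩]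

set_option maxRecDepth 100000 in
theorem r3_4 : run 3 717 9 [23, 23, 19] [1024, 1024, 1024] (ps3_4.map (clause (ch3 113 200)))
    (.node 1 (.leaf 0) (.node 0 (.leaf 1) (.leaf 2))) [(192, 224), (0, 64), (168, 176)] = true := by
  decide +kernel

theorem c3_4 : Cov 9 (ch3 113 200) [(192, 224), (0, 64), (168, 176)] := cov_run r3_4

def ps3_5 : List Par := [
  ⟨0, 457, 372, 4, 386, 632, 281, 211, 280, 764, 0, false, false, false, false, true, true⟩,
  ⟨0, 458, 372, 8, 429, 633, 282, 209, 279, 764, 0, false, false, false, false, true, true⟩]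

set_option maxRecDepth 100000 in
theorem r3_5 : run 3 717 9 [23, 23, 19] [1024, 1024, 1024] (ps3_5.map (clause (ch3 113 200)))
    (.node 1 (.leaf 0) (.leaf 1)) [(224, 256), (0, 32), (168, 176)] = true := by
  decide +kernel

theorem c3_5 : Cov 9 (ch3 113 200) [(224, 256), (0, 32), (168, 176)] := cov_run r3_5

def ps3_6 : List Par := [
  ⟨0, 620, 136, 12, 593, 609, 277, 199, 267, 764, 0, false, false, false, false, true, true⟩,
  ⟨0, 621, 136, 16, 721, 611, 278, 192, 255, 760, 0, false, false, false, false, true, true⟩,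
  ⟨0, 712, 36, 12, 545, 621, 280, 202, 269, 732, 0, false, false, false, false, true, true⟩,
  ⟨0, 730, 32, 12, 544, 633, 282, 205, 272, 716, 0, false, false, false, false, true, true⟩,
  ⟨0, 661, 120, 16, 646, 634, 282, 198, 262, 728, 0, false, false, false, false, true, true⟩]

set_option maxRecDepth 100000 in
theorem r3_6 : run 3 717 9 [23, 23, 19] [1024, 1024, 1024] (ps3_6.map (clause (ch3 113 200)))
    (.node 0 (.node 1 (.leaf 0) (.leaf 1)) (.node 1 (.node 0 (.leaf 2) (.leaf 3)) (.leaf 4))) [(224, 256), (32, 64), (168, 176)] = true := by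
  decide +kernel

theorem c3_6 : Cov 9 (ch3 113 200) [(224, 256), (32, 64), (168, 176)] := cov_run r3_6

def ps3_7 : List Par := [
  ⟨0, 368, 420, 80, 885, 597, 277, 176, 233, 820, 0, false, false, false, false, true, true⟩,
  ⟨0, 461, 364, 40, 781, 638, 284, 189, 248, 756, 0, false, false, false, false, true, true⟩,
  ⟨0, 464, 356, 56, 879, 642, 286, 169, 214, 748, 0, false, false, false, false, true, true⟩]

set_option maxRecDepth 100000 in
theorem r3_7 : run 3 717 9 [23, 23, 19] [1024, 1024, 1024] (ps3_7.map (clause (ch3 113 200)))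
    (.node 0 (.leaf 0) (.node 1 (.leaf 1) (.leaf 2))) [(192, 256), (64, 128), (168, 176)] = true := by
  decide +kernel

theorem c3_7 : Cov 9 (ch3 113 200) [(192, 256), (64, 128), (168, 176)] := cov_run r3_7

def ps3_8 : List Par := [
  ⟨0, 77, 760, 192, 958, 681, 303, 142, 174, 904, 0, false, false, false, false, true, true⟩]

set_option maxRecDepth 100000 in
theorem r3_8 : run 3 717 9 [23, 23, 19] [1024, 1024, 1024] (ps3_8.map (clause (ch3 113 200)))
    (.leaf 0) [(128, 256), (128, 256), (168, 176)] = true := by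
  decide +kernel

theorem c3_8 : Cov 9 (ch3 113 200) [(128, 256), (128, 256), (168, 176)] := cov_run r3_8

def ps3_9 : List Par := [
  ⟨2, 0, 0, 0, 0, 0, 0, 0, 0, 0, 0, false, false, false, false, false, false⟩]

set_option maxRecDepth 100000 in
theorem r3_9 : run 3 717 9 [23, 23, 19] [1024, 1024, 1024] (ps3_9.map (clause (ch3 113 200)))
    (.leaf 0) [(0, 256), (256, 512), (168, 176)] = true := by
  decide +kernel

theorem c3_9 : Cov 9 (ch3 113 200) [(0, 256), (256, 512), (168, 176)] := cov_run r3_9

def ps3_10 : List Par := [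
  ⟨0, 555, 300, 0, 369, 614, 291, 223, 290, 700, 0, false, false, true, false, true, true⟩,
  ⟨0, 556, 300, 4, 455, 614, 291, 222, 288, 700, 0, false, false, true, false, true, true⟩]

set_option maxRecDepth 100000 in
theorem r3_10 : run 3 717 9 [23, 23, 19] [1024, 1024, 1024] (ps3_10.map (clause (ch3 113 200)))
    (.node 1 (.leaf 0) (.leaf 1)) [(256, 288), (0, 32), (168, 176)] = true := by
  decide +kernel

theorem c3_10 : Cov 9 (ch3 113 200) [(256, 288), (0, 32), (168, 176)] := cov_run r3_10

def ps3_11 : List Par := [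
  ⟨0, 699, 104, 8, 552, 614, 286, 211, 277, 700, 0, false, false, true, false, true, true⟩,
  ⟨0, 700, 104, 12, 634, 616, 287, 205, 268, 696, 0, false, false, true, false, true, true⟩,
  ⟨0, 737, 88, 8, 547, 589, 291, 218, 282, 664, 0, false, false, true, false, true, true⟩,
  ⟨0, 738, 88, 12, 654, 590, 291, 211, 273, 664, 0, false, false, true, false, true, true⟩]

set_option maxRecDepth 100000 in
theorem r3_11 : run 3 717 9 [23, 23, 19] [1024, 1024, 1024] (ps3_11.map (clause (ch3 113 200)))
    (.node 0 (.node 1 (.leaf 0) (.leaf 1)) (.node 1 (.leaf 2) (.leaf 3))) [(256, 288), (32, 64), (168, 176)] = true := by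
  decide +kernel

theorem c3_11 : Cov 9 (ch3 113 200) [(256, 288), (32, 64), (168, 176)] := cov_run r3_11

def ps3_12 : List Par := [
  ⟨0, 650, 232, 8, 447, 566, 301, 236, 298, 636, 0, false, false, true, false, true, true⟩,
  ⟨0, 769, 76, 20, 597, 567, 296, 224, 286, 632, 0, false, false, true, false, true, true⟩,
  ⟨0, 805, 60, 16, 608, 545, 301, 231, 291, 600, 0, false, false, true, false, true, true⟩]

set_option maxRecDepth 100000 in
theorem r3_12 : run 3 717 9 [23, 23, 19] [1024, 1024, 1024] (ps3_12.map (clause (ch3 113 200)))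
    (.node 1 (.leaf 0) (.node 0 (.leaf 1) (.leaf 2))) [(288, 320), (0, 64), (168, 176)] = true := by
  decide +kernel

theorem c3_12 : Cov 9 (ch3 113 200) [(288, 320), (0, 64), (168, 176)] := cov_run r3_12

end Crest.Agent.R307.FBB
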