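import Crest.Agent.R307.FBGlue

set_option autoImplicit false
set_option Elab.async false

namespace Crest.Agent.R307.FBB

open Crest.Agent.KB Crest.Agent.R307.FB

def ps3_13 : List Par := [
  ⟨0, 555, 296, 36, 740, 620, 293, 203, 261, 692, 0, false, false, true, false, true, true⟩,
  ⟨0, 560, 288, 48, 840, 623, 295, 184, 232, 684, 0, false, false, true, false, true, true⟩,
  ⟨0, 650, 224, 48, 764, 574, 305, 216, 273, 628, 0, false, false, true, false, true, true⟩]

set_option maxRecDepth 100000 in
theorem r3_13 : run 3 717 9 [23, 23, 19] [1024, 1024, 1024] (ps3_13.map (clause (ch3 113 200)))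
    (.node 0 (.node 1 (.leaf 0) (.leaf 1)) (.leaf 2)) [(256, 320), (64, 128), (168, 176)] = true := by
  decide +kernel

theorem c3_13 : Cov 9 (ch3 113 200) [(256, 320), (64, 128), (168, 176)] := cov_run r3_13

def ps3_14 : List Par := [
  ⟨0, 544, 404, 4, 499, 523, 320, 269, 318, 568, 0, false, false, true, false, true, true⟩,
  ⟨0, 542, 404, 16, 600, 525, 321, 263, 312, 568, 0, false, false, true, false, true, true⟩,
  ⟨0, 549, 392, 36, 721, 532, 326, 248, 297, 560, 0, false, false, true, false, true, true⟩]

set_option maxRecDepth 100000 in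
theorem r3_14 : run 3 717 9 [23, 23, 19] [1024, 1024, 1024] (ps3_14.map (clause (ch3 113 200)))
    (.node 1 (.node 1 (.leaf 0) (.leaf 1)) (.leaf 2)) [(320, 384), (0, 128), (168, 176)] = true := by
  decide +kernel

theorem c3_14 : Cov 9 (ch3 113 200) [(320, 384), (0, 128), (168, 176)] := cov_run r3_14

def ps3_15 : List Par := [
  ⟨0, 800, 180, 8, 535, 458, 344, 308, 338, 440, 0, false, false, true, false, true, true⟩,
  ⟨0, 970, 36, 4, 503, 407, 368, 360, 361, 320, 0, false, false, true, false, true, true⟩,
  ⟨0, 666, 336, 20, 648, 463, 370, 330, 345, 432, 0, false, false, true, false, true, true⟩]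

set_option maxRecDepth 100000 in
theorem r3_15 : run 3 717 9 [23, 23, 19] [1024, 1024, 1024] (ps3_15.map (clause (ch3 113 200)))
    (.node 1 (.node 0 (.leaf 0) (.leaf 1)) (.leaf 2)) [(384, 512), (0, 128), (168, 176)] = true := by
  decide +kernel

theorem c3_15 : Cov 9 (ch3 113 200) [(384, 512), (0, 128), (168, 176)] := cov_run r3_15

def ps3_16 : List Par := [
  ⟨0, 73, 904, 72, 806, 641, 382, 282, 305, 676, 0, false, false, true, false, true, true⟩]

set_option maxRecDepth 100000 in
theorem r3_16 : run 3 717 9 [23, 23, 19] [1024, 1024, 1024] (ps3_16.map (clause (ch3 113 200)))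
    (.leaf 0) [(256, 512), (128, 256), (168, 176)] = true := by
  decide +kernel

theorem c3_16 : Cov 9 (ch3 113 200) [(256, 512), (128, 256), (168, 176)] := cov_run r3_16

def ps3_17 : List Par := [
  ⟨0, 210, 680, 160, 856, 622, 391, 190, 198, 616, 0, false, false, true, true, true, true⟩]

set_option maxRecDepth 100000 in
theorem r3_17 : run 3 717 9 [23, 23, 19] [1024, 1024, 1024] (ps3_17.map (clause (ch3 113 200)))
    (.leaf 0) [(256, 512), (256, 512), (168, 176)] = true := by
  decide +kernel

theorem c3_17 : Cov 9 (ch3 113 200) [(256, 512), (256, 512), (168, 176)] := cov_run r3_17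

end Crest.Agent.R307.FBB
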