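import Crest.Agent.R307.FBB0_0
import Crest.Agent.R307.FBB0_1
import Crest.Agent.R307.FBB2_0
import Crest.Agent.R307.FBB2_1
import Crest.Agent.R307.FBB2_2
import Crest.Agent.R307.FBB2_3
import Crest.Agent.R307.FBB3_0
import Crest.Agent.R307.FBB3_1

set_option autoImplicit false

namespace Crest.Agent.R307.FBB

open Crest.Agent.KB Crest.Agent.R307.FB

theorem cov0 : Cov 9 (ch0 113 200) [(0, 512), (0, 512), (168, 176)] :=
  (cov_node 0 256 (by norm_num) (cov_node 1 256 (by norm_num) (cov_node 0 128 (by norm_num) (cov_node 1 128 (by norm_num) (cov_node 0 64 (by norm_num) c0_0 c0_1) c0_2) c0_3) (cov_node 0 128 (by norm_num) (cov_node 1 384 (by norm_num) (cov_node 0 64 (by norm_num) (cov_node 1 320 (by norm_num) c0_4 (cov_node 0 32 (by norm_num) c0_5 (cov_node 1 352 (by norm_num) c0_6 c0_7))) (cov_node 1 320 (by norm_num) c0_8 (cov_node 0 96 (by norm_num) (cov_node 1 352 (by norm_num) c0_9 c0_10) c0_11))) (cov_node 0 64 (by norm_num) (cov_node 1 448 (by norm_num) c0_12 c0_13)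 (cov_node 1 448 (by norm_num) (cov_node 0 96 (by norm_num) c0_14 c0_15) c0_16))) c0_17)) c0_18)

theorem cov2 : Cov 9 (ch2 113 200) [(0, 512), (0, 512), (168, 176)] :=
  (cov_node 0 256 (by norm_num) (cov_node 1 256 (by norm_num) (cov_node 0 128 (by norm_num) (cov_node 1 128 (by norm_num) c2_0 (cov_node 0 64 (by norm_num) c2_1 (cov_node 1 192 (by norm_num) c2_2 (cov_node 0 96 (by norm_num) c2_3 c2_4)))) (cov_node 1 128 (by norm_num) (cov_node 0 192 (by norm_num) c2_5 (cov_node 1 64 (by norm_num) c2_6 (cov_node 0 224 (by norm_num) c2_7 (cov_node 1 96 (by norm_num) c2_8 (cov_node 0 240 (by norm_num) (cov_node 1 112 (by norm_num) (cov_node 0 232 (by norm_num) c2_9 (cov_node 1 104 (by norm_num) c2_10 c2_11)) (cov_node 0 232 (by norm_num) c2_12 (cov_node 2 172 (by norm_num) c2_13 (cov_node 2 174 (by norm_num) c2_14 c2_15)))) (cov_node 1 112 (by norm_num) (cov_node 0 248 (by norm_num) (cov_node 2 172 (by norm_num) c2_16 c2_17) c2_18) c2_19)))))) (cov_node 0 192 (by norm_num)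 (cov_node 1 192 (by norm_num) c2_20 c2_21) (cov_node 1 192 (by norm_num) (cov_node 0 224 (by norm_num) c2_22 (cov_node 1 160 (by norm_num) (cov_node 0 240 (by norm_num) (cov_node 2 172 (by norm_num) c2_23 c2_24) c2_25) c2_26)) c2_27)))) (cov_node 0 128 (by norm_num) (cov_node 1 384 (by norm_num) (cov_node 0 64 (by norm_num) c2_28 c2_29) c2_30) (cov_node 1 384 (by norm_num) c2_31 c2_32))) (cov_node 1 256 (by norm_num) (cov_node 0 384 (by norm_num) (cov_node 1 128 (by norm_num) (cov_node 0 320 (by norm_num) (cov_node 1 64 (by norm_num) c2_33 (cov_node 0 288 (by norm_num) c2_34 c2_35)) c2_36) c2_37) c2_38) c2_39))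

theorem cov3 : Cov 9 (ch3 113 200) [(0, 512), (0, 512), (168, 176)] :=
  (cov_node 0 256 (by norm_num) (cov_node 1 256 (by norm_num) (cov_node 0 128 (by norm_num) (cov_node 1 128 (by norm_num) (cov_node 0 64 (by norm_num) c3_0 c3_1) c3_2) (cov_node 1 128 (by norm_num) (cov_node 0 192 (by norm_num) c3_3 (cov_node 1 64 (by norm_num) (cov_node 0 224 (by norm_num) c3_4 (cov_node 1 32 (by norm_num) c3_5 c3_6)) c3_7)) c3_8)) c3_9) (cov_node 1 256 (by norm_num) (cov_node 1 128 (by norm_num) (cov_node 0 384 (by norm_num) (cov_node 0 320 (by norm_num) (cov_node 1 64 (by norm_num) (cov_node 0 288 (by norm_num) (cov_node 1 32 (by norm_num) c3_10 c3_11) c3_12) c3_13) c3_14) c3_15) c3_16) c3_17))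

end Crest.Agent.R307.FBB
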