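import Crest.Agent.R307.FBGlue

set_option autoImplicit false
set_option Elab.async false

namespace Crest.Agent.R307.FBB

open Crest.Agent.KB Crest.Agent.R307.FB

def ps0_0 : List Par := [
  ⟨3, 0, 928, 466, 0, 0, 0, 0, 0, 0, 0, false, false, false, false, false, false⟩,
  ⟨0, 87, 572, 128, 0, 245, 466, 245, 233, 0, 1020, true, true, true, true, false, true⟩,
  ⟨0, 45, 200, 384, 0, 253, 498, 253, 498, 0, 1020, true, true, true, true, false, false⟩,
  ⟨0, 75, 436, 288, 641, 265, 521, 265, 395, 0, 1012, true, true, true, true, false, true⟩]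

set_option maxRecDepth 100000 in
theorem r0_0 : run 3 717 9 [23, 23, 19] [1024, 1024, 1024] (ps0_0.map (clause (ch0 113 200)))
    (.node 1 (.node 0 (.leaf 0) (.leaf 1)) (.node 0 (.leaf 2) (.leaf 3))) [(0, 64), (0, 128), (168, 176)] = true := by
  decide +kernel

theorem c0_0 : Cov 9 (ch0 113 200) [(0, 64), (0, 128), (168, 176)] := cov_run r0_0

def ps0_1 : List Par := [
  ⟨2, 0, 0, 0, 0, 0, 0, 0, 0, 0, 0, false, false, false, false, false, false⟩,
  ⟨0, 70, 712, 180, 900, 269, 529, 269, 233, 0, 996, true, true, true, true, false, true⟩]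

set_option maxRecDepth 100000 in
theorem r0_1 : run 3 717 9 [23, 23, 19] [1024, 1024, 1024] (ps0_1.map (clause (ch0 113 200)))
    (.node 1 (.leaf 0) (.leaf 1)) [(64, 128), (0, 128), (168, 176)] = true := by
  decide +kernel

theorem c0_1 : Cov 9 (ch0 113 200) [(64, 128), (0, 128), (168, 176)] := cov_run r0_1

def ps0_2 : List Par := [
  ⟨0, 10, 112, 496, 272, 281, 630, 281, 612, 0, 1004, true, true, true, true, false, true⟩,
  ⟨0, 38, 288, 440, 622, 287, 645, 287, 497, 0, 996, true, true, true, true, false, true⟩,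
  ⟨0, 86, 388, 364, 810, 297, 668, 297, 403, 0, 976, true, true, true, true, false, true⟩,
  ⟨0, 142, 428, 296, 901, 302, 679, 302, 315, 0, 948, true, true, true, true, false, true⟩]

set_option maxRecDepth 100000 in
theorem r0_2 : run 3 717 9 [23, 23, 19] [1024, 1024, 1024] (ps0_2.map (clause (ch0 113 200)))
    (.node 0 (.node 0 (.leaf 0) (.leaf 1)) (.node 0 (.leaf 2) (.leaf 3))) [(0, 128), (128, 256), (168, 176)] = true := by
  decide +kernel

theorem c0_2 : Cov 9 (ch0 113 200) [(0, 128), (128, 256), (168, 176)] := cov_run r0_2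

def ps0_3 : List Par := [
  ⟨2, 0, 0, 0, 0, 0, 0, 0, 0, 0, 0, false, false, false, false, false, false⟩,
  ⟨0, 121, 676, 168, 959, 283, 588, 177, 137, 0, 904, true, true, true, true, true, true⟩,
  ⟨0, 191, 628, 120, 940, 294, 632, 273, 189, 0, 880, true, true, true, true, true, true⟩,
  ⟨0, 225, 596, 116, 916, 302, 679, 302, 232, 0, 864, true, true, true, true, false, true⟩,
  ⟨0, 200, 628, 156, 956, 298, 669, 110, 95, 0, 800, true, true, true, true, true, true⟩]

set_option maxRecDepth 100000 in
theorem r0_3 : run 3 717 9 [23, 23, 19] [1024, 1024, 1024] (ps0_3.map (clause (ch0 113 200)))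
    (.node 1 (.leaf 0) (.node 0 (.node 1 (.leaf 1) (.node 1 (.leaf 2) (.leaf 3))) (.leaf 4))) [(128, 256), (0, 256), (168, 176)] = true := by
  decide +kernel

theorem c0_3 : Cov 9 (ch0 113 200) [(128, 256), (0, 256), (168, 176)] := cov_run r0_3

def ps0_4 : List Par := [
  ⟨0, 120, 72, 400, 327, 294, 610, 294, 610, 0, 948, true, false, true, true, false, false⟩,
  ⟨0, 142, 88, 384, 530, 293, 615, 293, 553, 0, 940, true, false, true, true, false, true⟩,
  ⟨0, 166, 116, 364, 653, 297, 627, 297, 492, 0, 932, true, false, true, true, false, true⟩]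

set_option maxRecDepth 100000 in
theorem r0_4 : run 3 717 9 [23, 23, 19] [1024, 1024, 1024] (ps0_4.map (clause (ch0 113 200)))
    (.node 0 (.leaf 0) (.node 0 (.leaf 1) (.leaf 2))) [(0, 64), (256, 320), (168, 176)] = true := by
  decide +kernel

theorem c0_4 : Cov 9 (ch0 113 200) [(0, 64), (256, 320), (168, 176)] := cov_run r0_4

def ps0_5 : List Par := [
  ⟨0, 230, 64, 320, 429, 304, 507, 304, 507, 0, 916, true, false, true, true, false, false⟩]

set_option maxRecDepth 100000 in
theorem r0_5 : run 3 717 9 [23, 23, 19] [1024, 1024, 1024] (ps0_5.map (clause (ch0 113 200)))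
    (.leaf 0) [(0, 32), (320, 384), (168, 176)] = true := by
  decide +kernel

theorem c0_5 : Cov 9 (ch0 113 200) [(0, 32), (320, 384), (168, 176)] := cov_run r0_5

def ps0_6 : List Par := [
  ⟨0, 405, 80, 120, 567, 297, 510, 297, 510, 0, 908, true, false, true, true, false, false⟩,
  ⟨0, 477, 104, 36, 630, 300, 519, 300, 504, 0, 900, true, false, true, true, false, true⟩,
  ⟨0, 499, 100, 28, 632, 303, 496, 303, 496, 0, 892, true, false, true, true, false, false⟩]

set_option maxRecDepth 100000 in
theorem r0_6 : run 3 717 9 [23, 23, 19] [1024, 1024, 1024] (ps0_6.map (clause (ch0 113 200)))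
    (.node 0 (.leaf 0) (.node 1 (.leaf 1) (.leaf 2))) [(32, 64), (320, 352), (168, 176)] = true := by
  decide +kernel

theorem c0_6 : Cov 9 (ch0 113 200) [(32, 64), (320, 352), (168, 176)] := cov_run r0_6

def ps0_7 : List Par := [
  ⟨0, 460, 72, 88, 604, 301, 465, 301, 465, 0, 892, true, false, true, true, false, false⟩,
  ⟨0, 515, 100, 24, 644, 305, 474, 305, 474, 0, 884, true, false, true, true, false, false⟩,
  ⟨0, 531, 96, 20, 661, 306, 454, 306, 454, 0, 876, true, false, true, true, false, false⟩]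

set_option maxRecDepth 100000 in
theorem r0_7 : run 3 717 9 [23, 23, 19] [1024, 1024, 1024] (ps0_7.map (clause (ch0 113 200)))
    (.node 0 (.leaf 0) (.node 1 (.leaf 1) (.leaf 2))) [(32, 64), (352, 384), (168, 176)] = true := by
  decide +kernel

theorem c0_7 : Cov 9 (ch0 113 200) [(32, 64), (352, 384), (168, 176)] := cov_run r0_7

def ps0_8 : List Par := [
  ⟨0, 194, 136, 344, 739, 303, 638, 303, 448, 0, 920, true, false, true, true, false, true⟩,
  ⟨0, 228, 152, 320, 801, 308, 647, 308, 409, 0, 908, true, false, true, true, false, true⟩,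
  ⟨0, 204, 348, 288, 849, 316, 656, 316, 371, 0, 892, true, false, true, true, false, true⟩]

set_option maxRecDepth 100000 in
theorem r0_8 : run 3 717 9 [23, 23, 19] [1024, 1024, 1024] (ps0_8.map (clause (ch0 113 200)))
    (.node 0 (.node 0 (.leaf 0) (.leaf 1)) (.leaf 2)) [(64, 128), (256, 320), (168, 176)] = true := by
  decide +kernel

theorem c0_8 : Cov 9 (ch0 113 200) [(64, 128), (256, 320), (168, 176)] := cov_run r0_8

def ps0_9 : List Par := [
  ⟨0, 491, 124, 32, 710, 305, 528, 305, 460, 0, 888, true, false, true, true, false, true⟩,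
  ⟨0, 508, 120, 28, 696, 308, 505, 308, 470, 0, 880, true, false, true, true, false, true⟩,
  ⟨0, 448, 136, 104, 760, 313, 537, 313, 431, 0, 876, true, false, true, true, false, true⟩]

set_option maxRecDepth 100000 in
theorem r0_9 : run 3 717 9 [23, 23, 19] [1024, 1024, 1024] (ps0_9.map (clause (ch0 113 200)))
    (.node 0 (.node 1 (.leaf 0) (.leaf 1)) (.leaf 2)) [(64, 96), (320, 352), (168, 176)] = true := by
  decide +kernel

theorem c0_9 : Cov 9 (ch0 113 200) [(64, 96), (320, 352), (168, 176)] := cov_run r0_9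

def ps0_10 : List Par := [
  ⟨0, 539, 36, 24, 672, 307, 479, 307, 479, 0, 872, true, false, true, true, false, false⟩,
  ⟨0, 548, 40, 24, 701, 310, 483, 310, 462, 0, 868, true, false, true, true, false, true⟩,
  ⟨0, 541, 112, 20, 690, 313, 463, 313, 463, 0, 868, true, false, true, true, false, false⟩,
  ⟨0, 535, 132, 24, 734, 316, 492, 316, 442, 0, 860, true, false, true, true, false, true⟩,
  ⟨0, 551, 128, 20, 724, 319, 471, 319, 451, 0, 852, true, false, true, true, false, true⟩]

set_option maxRecDepth 100000 in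
theorem r0_10 : run 3 717 9 [23, 23, 19] [1024, 1024, 1024] (ps0_10.map (clause (ch0 113 200)))
    (.node 0 (.node 1 (.node 0 (.leaf 0) (.leaf 1)) (.leaf 2)) (.node 1 (.leaf 3) (.leaf 4))) [(64, 96), (352, 384), (168, 176)] = true := by
  decide +kernel

theorem c0_10 : Cov 9 (ch0 113 200) [(64, 96), (352, 384), (168, 176)] := cov_run r0_10

end Crest.Agent.R307.FBB
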