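import Crest.Agent.R307.FBA
import Crest.Agent.R307.FBB
import Crest.Agent.R307.EdgeFlow2

/-!
Row 307 (S0471), flow regime `c ∈ [.7887, .899]` (helper886): box certificates for the interior pairs,
edges by helper472 (`flowHyp_of_interior`).
-/

set_option autoImplicit false

namespace Crest.Agent.R307.FBFlow

open Crest.Agent.R307.Flow Crest.Agent.R307.Elim Crest.Agent.R307.FB Crest.Agent.R307.Edge

lemma rho_bounds {ρ r : ℝ} (hρ : ρ = 2 * r / (1 + r ^ 2)) (h0 : 0 < r) (h1 : r ≤ 11 / 32) :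
    0 < ρ ∧ ρ ≤ 13 / 20 ∧ ρ ^ 2 ≤ 1 / 2 := by
  have hp : 0 < ρ := by rw [hρ]; positivity
  have h2 : ρ ≤ 13 / 20 := by
    rw [hρ, div_le_iff₀ (by positivity)]
    nlinarith
  exact ⟨hp, h2, by nlinarith⟩

theorem flowHyp_A {ρ r : ℝ} (hρ : ρ = 2 * r / (1 + r ^ 2)) (hr : (59 : ℝ) / 256 ≤ r)
    (hr' : r ≤ 84 / 256) : FlowHyp ρ := by
  have hr0 : 0 < r := by linarith
  obtain ⟨h0, h1, h2⟩ := rho_bounds hρ hr0 (by linarith)
  refine flowHyp_of_interior (b := 11 / 20) h0 (by linarith)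
    (Or.inl ⟨h1, by norm_num, by norm_num⟩) ?_
  intro s t hs ht hst
  have key := slab (N := 8) (S := 256) (lo := 59) (hi := 84) (bn := 11) (bd := 20) (by norm_num)
    FBA.cov0 FBA.cov2 FBA.cov3 hr0 (by linarith) hρ (by push_cast; linarith) (by push_cast; linarith)
    (by norm_num) h2 (by push_cast; nlinarith [sq_nonneg ρ]) hs ht hst
  have e : (fun g : ℝ => ρ ^ 2 / ph ρ + ρ ^ 2 * (11 / 20) * (ph g - ph ρ)) =
      fun g : ℝ => ρ ^ 2 / ph ρ + ((11 : ℤ) : ℝ) / ((20 : ℤ) : ℝ) * ρ ^ 2 * (ph g - ph ρ) := by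
    funext g; push_cast; ring
  rw [e]
  exact key

theorem flowHyp_B {ρ r : ℝ} (hρ : ρ = 2 * r / (1 + r ^ 2)) (hr : (84 : ℝ) / 256 ≤ r)
    (hr' : r ≤ 88 / 256) : FlowHyp ρ := by
  have hr0 : 0 < r := by linarith
  obtain ⟨h0, h1, h2⟩ := rho_bounds hρ hr0 (by linarith)
  refine flowHyp_of_interior (b := 113 / 200) h0 (by linarith)
    (Or.inl ⟨h1, by norm_num, by norm_num⟩) ?_
  intro s t hs ht hst
  have key := slab (N := 9) (S := 512) (lo := 168) (hi := 176) (bn := 113) (bd := 200) (by norm_num)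
    FBB.cov0 FBB.cov2 FBB.cov3 hr0 (by linarith) hρ (by push_cast; linarith) (by push_cast; linarith)
    (by norm_num) h2 (by push_cast; nlinarith [sq_nonneg ρ]) hs ht hst
  have e : (fun g : ℝ => ρ ^ 2 / ph ρ + ρ ^ 2 * (113 / 200) * (ph g - ph ρ)) =
      fun g : ℝ => ρ ^ 2 / ph ρ + ((113 : ℤ) : ℝ) / ((200 : ℤ) : ℝ) * ρ ^ 2 * (ph g - ph ρ) := by
    funext g; push_cast; ring
  rw [e]
  exact key

/-- **Regime L, middle part**: `FlowHyp (√(1-c²))` for `.7887 ≤ c ≤ .899`. -/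
theorem flow_L2 (c : ℝ) (h : (7887 / 10000 : ℝ) ≤ c) (h1 : c ≤ 899 / 1000) :
    FlowHyp (Real.sqrt (1 - c ^ 2)) := by
  have hc : 0 < 1 + c := by linarith
  have hc1 : 0 < 1 - c := by linarith
  obtain ⟨r, hr⟩ : ∃ r : ℝ, r = Real.sqrt ((1 - c) / (1 + c)) := ⟨_, rfl⟩
  have hr2 : r ^ 2 = (1 - c) / (1 + c) := by rw [hr]; exact Real.sq_sqrt (by positivity)
  have hr0 : 0 < r := by rw [hr]; exact Real.sqrt_pos.2 (by positivity)
  have hρ : Real.sqrt (1 - c ^ 2) = 2 * r / (1 + r ^ 2) := by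
    have e : 1 + r ^ 2 = 2 / (1 + c) := by rw [hr2]; field_simp; ring
    have e2 : 2 * r / (1 + r ^ 2) = r * (1 + c) := by rw [e]; field_simp
    rw [e2]
    have e3 : 1 - c ^ 2 = (r * (1 + c)) ^ 2 := by
      rw [mul_pow, hr2]; field_simp; ring
    rw [e3]
    exact Real.sqrt_sq (by positivity)
  have lo : (59 : ℝ) / 256 ≤ r := by
    rw [hr]
    apply Real.le_sqrt_of_sq_le
    rw [le_div_iff₀ hc]
    nlinarith
  have hi : r ≤ 88 / 256 := by
    rw [hr]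
    apply Real.sqrt_le_iff.mpr
    refine ⟨by norm_num, ?_⟩
    rw [div_le_iff₀ hc]
    nlinarith
  rcases le_total r (84 / 256) with h3 | h3
  · exact flowHyp_A hρ lo h3
  · exact flowHyp_B hρ h3 hi

end Crest.Agent.R307.FBFlow
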