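import Crest.Agent.R307.FBPair2

/-!
Row 307 (S0471), flow regime: charts, coverings and the final statement for one slab (helper886).
-/

set_option autoImplicit false
set_option linter.unusedVariables false

namespace Crest.Agent.R307.FB

open Crest.Agent.R307.Flow Crest.Agent.R307.Elim Crest.Agent.KB

/-- the clauses cover the box `b` -/
def Cov (s : ℕ) (B : Bs) (b : Box) : Prop :=
  ∀ x : ℕ → ℝ, InBox 3 s b x → ∃ p : Par, ∀ E ∈ clause B p, 0 ≤ E.val x (fun _ => 1)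

theorem cov_run {w s : ℕ} {Xl M : List ℕ} {ps : List Par} {B : Bs} {tr : Tr} {b : Box}
    (h : run 3 w s Xl M (ps.map (clause B)) tr b = true) : Cov s B b := by
  intro x hx
  obtain ⟨cl, hcl, h2⟩ := run_sound _ _ _ _ _ _ _ _ h x hx
  obtain ⟨p, -, rfl⟩ := List.mem_map.mp hcl
  exact ⟨p, h2⟩

theorem cov_node {s : ℕ} {B : Bs} {b : Box} (i : ℕ) (m : ℤ) (hi : i < 3)
    (h1 : Cov s B (Box.setc b i (ba b i, m))) (h2 : Cov s B (Box.setc b i (m, bb b i))) :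
    Cov s B b := by
  intro x hx
  have hxi := hx i hi
  rcases le_total (x i * 2 ^ s) (m : ℝ) with hm | hm
  · exact h1 x (InBox_setc hx i _ ⟨hxi.1, hm⟩)
  · exact h2 x (InBox_setc hx i _ ⟨hm, hxi.2⟩)

/-- half-angle pairs -/
structure Half (n d a s f : ℝ) : Prop where
  h1 : n ^ 2 + d ^ 2 = a
  h2 : d ^ 2 - n ^ 2 = a * s
  h3 : 2 * (n * d) = a * f
  pa : 0 < a

lemma half_pos {s f : ℝ} (hs : |s| < 1) (hf : f ^ 2 = 1 - s ^ 2) :
    Half (f / (1 + s)) 1 (2 / (1 + s)) s f := by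
  have h := abs_lt.mp hs
  have h1 : 0 < 1 + s := by linarith
  have e : (f / (1 + s)) ^ 2 = (1 - s) / (1 + s) := by
    rw [div_pow, hf, div_eq_div_iff (by positivity) h1.ne']; ring
  refine ⟨?_, ?_, ?_, by positivity⟩
  · rw [e]; field_simp; ring
  · rw [e]; field_simp; ring
  · field_simp

lemma half_neg {s f : ℝ} (hs : |s| < 1) (hf : f ^ 2 = 1 - s ^ 2) :
    Half 1 (f / (1 - s)) (2 / (1 - s)) s f := by
  have h := abs_lt.mp hs
  have h1 : 0 < 1 - s := by linarith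
  have e : (f / (1 - s)) ^ 2 = (1 + s) / (1 - s) := by
    rw [div_pow, hf, div_eq_div_iff (by positivity) h1.ne']; ring
  refine ⟨?_, ?_, ?_, by positivity⟩
  · rw [e]; field_simp; ring
  · rw [e]; field_simp; ring
  · field_simp

/-- the point -/
noncomputable def mkR (ρ s t bn bd : ℝ) : RP :=
  ⟨s, t, ph s, ph t, (1 + ph s * ph t - s * t) / 2, (s * ph t + t * ph s) / 2, ρ, ph ρ, bn, bd⟩

lemma mkSp {B : Bs} {x : ℕ → ℝ} {a b e ρ s t pn pd qn qd : ℝ}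
    (e1 : B.pn.val x (fun _ => 1) = pn) (e2 : B.pd.val x (fun _ => 1) = pd)
    (e3 : B.qn.val x (fun _ => 1) = qn) (e4 : B.qd.val x (fun _ => 1) = qd)
    (hp : Half pn pd a s (ph s)) (hq : Half qn qd b t (ph t))
    (he : 1 + x 2 ^ 2 = e) (hr : 2 * x 2 = e * ρ) (hc : 1 - x 2 ^ 2 = e * ph ρ)
    (hdict : B.dict = true → 0 ≤ s ∧ t ≤ 0) :
    Sp B x a b e (mkR ρ s t B.bn B.bd) := by
  obtain ⟨p1, p2, p3, pa⟩ := hp
  obtain ⟨q1, q2, q3, pb⟩ := hq
  refine ⟨rfl, rfl, ?_, ?_, he, ?_, ?_, ?_, ?_, ?_, ?_, hr, hc, hdict⟩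
  · rw [e1, e2]; exact p1
  · rw [e3, e4]; exact q1
  · rw [e1, e2]; exact p2
  · rw [e3, e4]; exact q2
  · rw [e1, e2]; exact p3
  · rw [e3, e4]; exact q3
  · rw [e1, e2, e3, e4]
    simp only [mkR]
    have r1 : pn ^ 2 = a * (1 - s) / 2 := by linarith
    have r2 : pd ^ 2 = a * (1 + s) / 2 := by linarith
    have r3 : qn ^ 2 = b * (1 - t) / 2 := by linarith
    have r4 : qd ^ 2 = b * (1 + t) / 2 := by linarith
    have e5 : (pn * qd + qn * pd) ^ 2 = pn ^ 2 * qd ^ 2 + qn ^ 2 * pd ^ 2 +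
      (2 * (pn * pd)) * (2 * (qn * qd)) / 2 := by ring
    rw [e5, p3, q3, r1, r2, r3, r4]; ring
  · rw [e1, e2, e3, e4]
    simp only [mkR]
    have e5 : (pn * qd + qn * pd) * (pd * qd - pn * qn) =
      (2 * (pn * pd)) * (qd ^ 2 - qn ^ 2) / 2 + (2 * (qn * qd)) * (pd ^ 2 - pn ^ 2) / 2 := by ring
    rw [e5, p3, q3, p2, q2]; ring

lemma mkGR {ρ s t bn bd : ℝ} (h0 : 0 < ρ) (h1 : ρ < 1) (hs : |s| < 1) (ht : |t| < 1) (hst : t < s)
    (hbd : 0 < bd) (hK : bn * (1 - ρ ^ 2) ≤ bd) :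
    GR (mkR ρ s t bn bd) (ph ((mkR ρ s t bn bd).g2 / 2)) := by
  have sq : ∀ {z : ℝ}, |z| < 1 → ph z ^ 2 = 1 - z ^ 2 ∧ 0 < ph z := by
    intro z hz
    have h : 0 < 1 - z ^ 2 := by
      have := abs_lt.mp hz
      nlinarith
    exact ⟨Real.sq_sqrt h.le, Real.sqrt_pos.2 h⟩
  have hg : |(mkR ρ s t bn bd).g2 / 2| < 1 := by
    have a1 := abs_lt.mp hs
    have a2 := abs_lt.mp ht
    simp only [RP.g2, RP.lam2, RP.mu2, mkR]
    rw [abs_lt]
    constructor <;> nlinarith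
  have hρa : |ρ| < 1 := by rw [abs_of_pos h0]; exact h1
  refine ⟨⟨h0, h1, (sq hρa).2, (sq hρa).1, hs, ht, hst, (sq hs).1, (sq hs).2, (sq ht).1, (sq ht).2,
    (sq hg).1, (sq hg).2, rfl, rfl, ?_, rfl, rfl, rfl, rfl, ?_, ?_⟩, rfl, rfl, rfl, rfl, hbd, ?_⟩
  · simp only [RP.g2]; ring
  · simp only [RP.L2]; ring
  · simp only [RP.wq4, RP.wg4, RP.rd]; ring
  · simp only [mkR]
    rw [(sq hρa).1]; exact hK

/-- the three charts -/
def ch0 (bn bd : ℤ) : Bs := ⟨.X 0 1, .W 0 1, .X 1 1, .W 1 1, bn, bd, false⟩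
def ch2 (bn bd : ℤ) : Bs := ⟨.X 0 1, .W 0 1, .W 1 1, .X 1 1, bn, bd, true⟩
def ch3 (bn bd : ℤ) : Bs := ⟨.W 0 1, .X 0 1, .W 1 1, .X 1 1, bn, bd, false⟩

/-- the point of the box -/
def pt (x y r : ℝ) : ℕ → ℝ
  | 0 => x
  | 1 => y
  | _ => r

lemma inbox_pt {N : ℕ} {lo hi : ℤ} {S : ℕ} {x y r : ℝ} (hS : S = 2 ^ N)
    (hx : 0 ≤ x) (hx1 : x ≤ 1) (hy : 0 ≤ y) (hy1 : y ≤ 1) (hr : (lo : ℝ) ≤ r * S)
    (hr1 : r * S ≤ hi) : InBox 3 N [(0, S), (0, S), (lo, hi)] (pt x y r) := by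
  have hS2 : ((S : ℕ) : ℝ) = 2 ^ N := by rw [hS]; push_cast; rfl
  have hp : (0 : ℝ) < 2 ^ N := by positivity
  rw [hS2] at hr hr1
  intro i hi'
  interval_cases i
  · simp only [ba, bb, pt, List.getD_cons_zero]
    push_cast
    rw [hS2]
    constructor
    · positivity
    · nlinarith
  · simp only [ba, bb, pt, List.getD_cons_succ, List.getD_cons_zero]
    push_cast
    rw [hS2]
    constructor
    · positivity
    · nlinarith
  · simp only [ba, bb, pt, List.getD_cons_succ, List.getD_cons_zero]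
    exact ⟨hr, hr1⟩

/-- one slab -/
theorem slab {N S : ℕ} {lo hi bn bd : ℤ} (hS : S = 2 ^ N)
    (c0 : Cov N (ch0 bn bd) [(0, S), (0, S), (lo, hi)])
    (c2 : Cov N (ch2 bn bd) [(0, S), (0, S), (lo, hi)])
    (c3 : Cov N (ch3 bn bd) [(0, S), (0, S), (lo, hi)])
    {ρ r : ℝ} (hr0 : 0 < r) (hr1 : r < 1) (hρ : ρ = 2 * r / (1 + r ^ 2))
    (hr : (lo : ℝ) ≤ r * S) (hr' : r * S ≤ hi) (hbd : 0 < bd) (hρ2 : ρ ^ 2 ≤ 1 / 2)
    (hK : (bn : ℝ) * (1 - ρ ^ 2) ≤ bd) {s t : ℝ} (hs : |s| < 1) (ht : |t| < 1) (hst : t < s) :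
    PairStep ρ s t (fun g => ρ ^ 2 / ph ρ + (bn : ℝ) / bd * ρ ^ 2 * (ph g - ph ρ)) := by
  have h0 : 0 < ρ := by rw [hρ]; positivity
  have h1 : ρ < 1 := by
    rw [hρ, div_lt_one (by positivity)]
    nlinarith [mul_pos (sub_pos.2 hr1) (sub_pos.2 hr1)]
  have hbd' : (0 : ℝ) < (bd : ℝ) := by exact_mod_cast hbd
  have hG := mkGR (bn := bn) (bd := bd) h0 h1 hs ht hst hbd' hK
  have hphρ : ph ρ = (1 - r ^ 2) / (1 + r ^ 2) := by
    unfold ph
    have e : 1 - ρ ^ 2 = ((1 - r ^ 2) / (1 + r ^ 2)) ^ 2 := by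
      rw [hρ]; field_simp; ring
    rw [e]
    exact Real.sqrt_sq (div_nonneg (by nlinarith) (by positivity))
  have pe : 0 < 1 + r ^ 2 := by positivity
  have hrr : 2 * r = (1 + r ^ 2) * ρ := by rw [hρ]; field_simp
  have hcc : 1 - r ^ 2 = (1 + r ^ 2) * ph ρ := by rw [hphρ]; field_simp
  have hfs := hG.G.hfs
  have hft := hG.G.hft
  have hfs0 := hG.G.hfs0
  have hft0 := hG.G.hft0
  simp only [mkR] at hfs hft hfs0 hft0
  have as := abs_lt.mp hs
  have at' := abs_lt.mp ht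
  have hfs1 : ph s ≤ 1 := by nlinarith [sq_nonneg s]
  have hft1 : ph t ≤ 1 := by nlinarith [sq_nonneg t]
  have fin : ∀ {B : Bs} {x : ℕ → ℝ} {a b : ℝ}, B.bn = bn → B.bd = bd → x 2 = r → 0 < a → 0 < b →
      Sp B x a b (1 + r ^ 2) (mkR ρ s t B.bn B.bd) →
      (∃ p : Par, ∀ E ∈ clause B p, 0 ≤ E.val x (fun _ => 1)) →
      PairStep ρ s t (fun g => ρ ^ 2 / ph ρ + (bn : ℝ) / bd * ρ ^ 2 * (ph g - ph ρ)) := by
    intro B x a b hb1 hb2 _ pa pb hSp hex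
    obtain ⟨p, hp⟩ := hex
    rw [hb1, hb2] at hSp
    exact pair_of_clause hSp hG pa pb pe hρ2 hp
  by_cases hs0 : 0 ≤ s
  · have u1 : 0 ≤ ph s / (1 + s) := by
      have : 0 < 1 + s := by linarith
      positivity
    have u2 : ph s / (1 + s) ≤ 1 := by rw [div_le_one (by linarith)]; linarith
    by_cases ht0 : 0 ≤ t
    · have v1 : 0 ≤ ph t / (1 + t) := by
        have : 0 < 1 + t := by linarith
        positivity
      have v2 : ph t / (1 + t) ≤ 1 := by rw [div_le_one (by linarith)]; linarith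
      have hs' := half_pos hs hfs
      have ht' := half_pos ht hft
      exact fin (B := ch0 bn bd) (x := pt (ph s / (1 + s)) (ph t / (1 + t)) r) rfl rfl rfl hs'.pa ht'.pa
        (mkSp (by simp [ch0, Ex.val, pt]) (by simp [ch0, Ex.val]) (by simp [ch0, Ex.val, pt])
          (by simp [ch0, Ex.val]) hs' ht' rfl hrr hcc (by simp [ch0]))
        (c0 _ (inbox_pt hS u1 u2 v1 v2 hr hr'))
    · have v1 : 0 ≤ ph t / (1 - t) := by
        have : 0 < 1 - t := by linarith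
        positivity
      have v2 : ph t / (1 - t) ≤ 1 := by rw [div_le_one (by linarith)]; linarith
      have hs' := half_pos hs hfs
      have ht' := half_neg ht hft
      exact fin (B := ch2 bn bd) (x := pt (ph s / (1 + s)) (ph t / (1 - t)) r) rfl rfl rfl hs'.pa ht'.pa
        (mkSp (by simp [ch2, Ex.val, pt]) (by simp [ch2, Ex.val]) (by simp [ch2, Ex.val])
          (by simp [ch2, Ex.val, pt]) hs' ht' rfl hrr hcc (fun _ => ⟨hs0, by linarith⟩))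
        (c2 _ (inbox_pt hS u1 u2 v1 v2 hr hr'))
  · have u1 : 0 ≤ ph s / (1 - s) := by
      have : 0 < 1 - s := by linarith
      positivity
    have u2 : ph s / (1 - s) ≤ 1 := by rw [div_le_one (by linarith)]; linarith
    have v1 : 0 ≤ ph t / (1 - t) := by
      have : 0 < 1 - t := by linarith
      positivity
    have v2 : ph t / (1 - t) ≤ 1 := by rw [div_le_one (by linarith)]; linarith
    have hs' := half_neg hs hfs
    have ht' := half_neg ht hft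
    exact fin (B := ch3 bn bd) (x := pt (ph s / (1 - s)) (ph t / (1 - t)) r) rfl rfl rfl hs'.pa ht'.pa
      (mkSp (by simp [ch3, Ex.val]) (by simp [ch3, Ex.val, pt]) (by simp [ch3, Ex.val])
        (by simp [ch3, Ex.val, pt]) hs' ht' rfl hrr hcc (by simp [ch3]))
      (c3 _ (inbox_pt hS u1 u2 v1 v2 hr hr'))

end Crest.Agent.R307.FB
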