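import Crest.Agent.R307.Elim2

/-!
Row 307 (S0471), flow regime: the scalar inequality (ii) in the form used by the box certificates.
-/

set_option autoImplicit false

namespace Crest.Agent.R307.FB

open Crest.Agent.R307.Flow

/-- the scalar data of a pair -/
structure Geo (ρ c s t fs ft fg lam mu g d Sg C2 SC L wq : ℝ) : Prop where
  h0 : 0 < ρ
  h1 : ρ < 1
  hc0 : 0 < c
  hc : c ^ 2 = 1 - ρ ^ 2
  hs : |s| < 1
  ht : |t| < 1
  hst : t < s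
  hfs : fs ^ 2 = 1 - s ^ 2
  hfs0 : 0 < fs
  hft : ft ^ 2 = 1 - t ^ 2
  hft0 : 0 < ft
  hfg : fg ^ 2 = 1 - g ^ 2
  hfg0 : 0 < fg
  hlam : lam = (1 + ρ) / 2
  hmu : mu = (1 - ρ) / 2
  hg : g = lam * s + mu * t
  hd : d = s - t
  hSg : Sg = 1 - s * t
  hC2 : C2 = (1 + fs * ft - s * t) / 2
  hSC : SC = (s * ft + t * fs) / 2
  hL : L = lam * fs + mu * ft
  hwq : wq = 1 - g ^ 2 + g * (ρ * d / 2)

variable {ρ c s t fs ft fg lam mu g d Sg C2 SC L wq : ℝ}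

lemma Geo.st_lt (G : Geo ρ c s t fs ft fg lam mu g d Sg C2 SC L wq) : |s * t| < 1 := by
  rw [abs_mul]
  have := G.hs
  have := G.ht
  have h1 := abs_nonneg s
  have h2 := abs_nonneg t
  nlinarith

lemma Geo.C2_pos (G : Geo ρ c s t fs ft fg lam mu g d Sg C2 SC L wq) : 0 < C2 := by
  rw [G.hC2]
  have h1 := (abs_lt.mp G.st_lt).2
  have h2 := mul_pos G.hfs0 G.hft0
  linarith

lemma Geo.Sg_pos (G : Geo ρ c s t fs ft fg lam mu g d Sg C2 SC L wq) : 0 < Sg := by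
  rw [G.hSg]
  have h1 := (abs_lt.mp G.st_lt).2
  linarith

lemma Geo.lam_pos (G : Geo ρ c s t fs ft fg lam mu g d Sg C2 SC L wq) : 0 < lam := by
  rw [G.hlam]; linarith [G.h0]

lemma Geo.mu_pos (G : Geo ρ c s t fs ft fg lam mu g d Sg C2 SC L wq) : 0 < mu := by
  rw [G.hmu]; linarith [G.h1]

lemma Geo.L_pos (G : Geo ρ c s t fs ft fg lam mu g d Sg C2 SC L wq) : 0 < L := by
  rw [G.hL]
  have := mul_pos G.lam_pos G.hfs0
  have := mul_pos G.mu_pos G.hft0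
  linarith

lemma Geo.d_pos (G : Geo ρ c s t fs ft fg lam mu g d Sg C2 SC L wq) : 0 < d := by
  rw [G.hd]; linarith [G.hst]

lemma Geo.g_abs (G : Geo ρ c s t fs ft fg lam mu g d Sg C2 SC L wq) : |g| < 1 := by
  have hs := abs_lt.mp G.hs
  have ht := abs_lt.mp G.ht
  have h1 := G.lam_pos
  have h2 := G.mu_pos
  have h3 : lam + mu = 1 := by rw [G.hlam, G.hmu]; ring
  rw [G.hg, abs_lt]
  constructor <;> nlinarith

lemma Geo.wq_pos (G : Geo ρ c s t fs ft fg lam mu g d Sg C2 SC L wq) : 0 < wq := by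
  have e : wq = 1 - g * ((s + t) / 2) := by
    rw [G.hwq, G.hg, G.hd, G.hlam, G.hmu]; ring
  have hg := G.g_abs
  have h1 : |(s + t) / 2| < 1 := by
    have hs := abs_lt.mp G.hs
    have ht := abs_lt.mp G.ht
    rw [abs_lt]
    constructor <;> linarith
  have h2 : |g * ((s + t) / 2)| < 1 := by
    rw [abs_mul]
    have := abs_nonneg g
    have := abs_nonneg ((s + t) / 2)
    nlinarith
  rw [e]
  linarith [(abs_lt.mp h2).2]

lemma Geo.gap (G : Geo ρ c s t fs ft fg lam mu g d Sg C2 SC L wq) :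
    (fg ^ 2 - L ^ 2) * C2 = lam * mu * d ^ 2 := by
  have h3 : mu = 1 - lam := by rw [G.hlam, G.hmu]; ring
  have e1 : fg ^ 2 - L ^ 2 = 2 * (lam * mu) * (1 - s * t - fs * ft) := by
    rw [G.hfg, G.hL, G.hg]
    have : (lam * fs + mu * ft) ^ 2 = lam ^ 2 * (1 - s ^ 2) + mu ^ 2 * (1 - t ^ 2) +
        2 * (lam * mu) * (fs * ft) := by
      rw [← G.hfs, ← G.hft]; ring
    rw [this, h3]; ring
  rw [e1, G.hC2, G.hd]
  have e2 : (fs * ft) ^ 2 = (1 - s ^ 2) * (1 - t ^ 2) := by rw [mul_pow, G.hfs, G.hft]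
  have : 2 * (lam * mu) * (1 - s * t - fs * ft) * ((1 + fs * ft - s * t) / 2) =
      lam * mu * ((1 - s * t) ^ 2 - (fs * ft) ^ 2) := by ring
  rw [this, e2]; ring

lemma Geo.sub_L (G : Geo ρ c s t fs ft fg lam mu g d Sg C2 SC L wq) {M : ℝ} (hM : fg ≤ M) :
    lam * mu * d ^ 2 * (1 / (C2 * (M + L))) ≤ fg - L := by
  have hC := G.C2_pos
  have hL := G.L_pos
  have hf := G.hfg0
  have e : fg - L = lam * mu * d ^ 2 * (1 / (C2 * (fg + L))) := by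
    rw [← G.gap]
    field_simp
    ring
  rw [e]
  have h1 : 1 / (C2 * (M + L)) ≤ 1 / (C2 * (fg + L)) := by
    apply one_div_le_one_div_of_le (by positivity)
    exact mul_le_mul_of_nonneg_left (by linarith) hC.le
  have h2 : 0 ≤ lam * mu * d ^ 2 := by
    have := G.lam_pos
    have := G.mu_pos
    positivity
  exact mul_le_mul_of_nonneg_left h1 h2

lemma Geo.four (G : Geo ρ c s t fs ft fg lam mu g d Sg C2 SC L wq) : 4 * (lam * mu) = c ^ 2 := by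
  rw [G.hc, G.hlam, G.hmu]; ring

/-- (ii) for the balanced family; `τ = k/2` -/
theorem ii_core (G : Geo ρ c s t fs ft fg lam mu g d Sg C2 SC L wq) {τ M b : ℝ}
    (hM : fg ≤ M) (hK : 0 ≤ c - b * c ^ 3)
    (hT : 0 ≤ (c - b * c ^ 3) * (1 / (C2 * (M + L)) + τ * (C2 * (fs + ft) - g * Sg * SC) / C2) +
      b * c ^ 2 * (1 + τ * (fs ^ 2 + ft ^ 2 - g * Sg * (s + t))) - 1 / wq) :
    lam * (1 - τ * (mu * d * (d + g * Sg))) * (fs * (ρ ^ 2 / c + b * ρ ^ 2 * (fs - c))) +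
      mu * (1 - τ * (lam * d * (d - g * Sg))) * (ft * (ρ ^ 2 / c + b * ρ ^ 2 * (ft - c))) +
      (ρ * d / 2) ^ 2 / wq ≤ fg * (ρ ^ 2 / c + b * ρ ^ 2 * (fg - c)) := by
  have hc := G.hc0
  have hC := G.C2_pos
  have hw := G.wq_pos
  have h3 : mu = 1 - lam := by rw [G.hlam, G.hmu]; ring
  have k1 := G.sub_L hM
  -- the `L` part
  have e1 : lam * (1 - τ * (mu * d * (d + g * Sg))) * fs + mu * (1 - τ * (lam * d * (d - g * Sg))) * ft =
      L - τ * (lam * mu * d ^ 2) * ((C2 * (fs + ft) - g * Sg * SC) / C2) := by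
    have r1 : (fs - ft) * C2 = -(SC * d) := by
      rw [G.hC2, G.hSC, G.hd]
      have a1 : (fs - ft) * ((1 + fs * ft - s * t) / 2) =
        (fs - ft + fs ^ 2 * ft - fs * ft ^ 2 - s * t * fs + s * t * ft) / 2 := by ring
      rw [a1, G.hfs, G.hft]; ring
    have r2 : (C2 * (fs + ft) - g * Sg * SC) / C2 * d = d * (fs + ft) + g * Sg * (fs - ft) := by
      rw [div_mul_eq_mul_div, div_eq_iff hC.ne']
      have : (d * (fs + ft) + g * Sg * (fs - ft)) * C2 = d * (fs + ft) * C2 + g * Sg * ((fs - ft) * C2) := by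
        ring
      rw [this, r1]; ring
    have r3 : τ * (lam * mu * d ^ 2) * ((C2 * (fs + ft) - g * Sg * SC) / C2) =
        τ * (lam * mu * d) * ((C2 * (fs + ft) - g * Sg * SC) / C2 * d) := by ring
    rw [r3, r2, G.hL]; ring
  have e2 : lam * (1 - τ * (mu * d * (d + g * Sg))) * fs ^ 2 +
      mu * (1 - τ * (lam * d * (d - g * Sg))) * ft ^ 2 =
      fg ^ 2 - lam * mu * d ^ 2 * (1 + τ * (fs ^ 2 + ft ^ 2 - g * Sg * (s + t))) := by
    rw [G.hfs, G.hft, G.hfg, G.hd]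
    have : g ^ 2 = (lam * s + mu * t) ^ 2 := by rw [G.hg]
    rw [this, h3]
    ring
  have e3 : lam * (1 - τ * (mu * d * (d + g * Sg))) * (fs * (ρ ^ 2 / c + b * ρ ^ 2 * (fs - c))) +
      mu * (1 - τ * (lam * d * (d - g * Sg))) * (ft * (ρ ^ 2 / c + b * ρ ^ 2 * (ft - c))) =
      (ρ ^ 2 / c - b * ρ ^ 2 * c) * (lam * (1 - τ * (mu * d * (d + g * Sg))) * fs +
        mu * (1 - τ * (lam * d * (d - g * Sg))) * ft) +
      b * ρ ^ 2 * (lam * (1 - τ * (mu * d * (d + g * Sg))) * fs ^ 2 +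
        mu * (1 - τ * (lam * d * (d - g * Sg))) * ft ^ 2) := by ring
  rw [e3, e1, e2]
  have e4 : (ρ * d / 2) ^ 2 / wq = ρ ^ 2 / c ^ 2 * (lam * mu * d ^ 2) * (1 / wq) := by
    have : (ρ * d / 2) ^ 2 = ρ ^ 2 / c ^ 2 * (lam * mu * d ^ 2) := by
      have h4 : lam * mu = c ^ 2 / 4 := by linarith [G.four]
      rw [h4]
      field_simp
      ring
    rw [this]; ring
  rw [e4]
  have e5 : fg * (ρ ^ 2 / c + b * ρ ^ 2 * (fg - c)) -
      ((ρ ^ 2 / c - b * ρ ^ 2 * c) * (L - τ * (lam * mu * d ^ 2) *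
        ((C2 * (fs + ft) - g * Sg * SC) / C2)) +
      b * ρ ^ 2 * (fg ^ 2 - lam * mu * d ^ 2 * (1 + τ * (fs ^ 2 + ft ^ 2 - g * Sg * (s + t)))) +
      ρ ^ 2 / c ^ 2 * (lam * mu * d ^ 2) * (1 / wq)) =
      ρ ^ 2 / c ^ 2 * (lam * mu * d ^ 2) *
        ((c - b * c ^ 3) * (1 / (C2 * (M + L)) + τ * (C2 * (fs + ft) - g * Sg * SC) / C2) +
      b * c ^ 2 * (1 + τ * (fs ^ 2 + ft ^ 2 - g * Sg * (s + t))) - 1 / wq) +
      ρ ^ 2 / c ^ 2 * (c - b * c ^ 3) * (fg - L - lam * mu * d ^ 2 * (1 / (C2 * (M + L)))) := by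
    have r1 : ρ ^ 2 / c - b * ρ ^ 2 * c = ρ ^ 2 / c ^ 2 * (c - b * c ^ 3) := by
      field_simp
    have r2 : b * ρ ^ 2 = ρ ^ 2 / c ^ 2 * (b * c ^ 2) := by
      field_simp
    have r3 : fg * (ρ ^ 2 / c + b * ρ ^ 2 * (fg - c)) = (ρ ^ 2 / c - b * ρ ^ 2 * c) * fg +
      b * ρ ^ 2 * fg ^ 2 := by ring
    rw [r3, r1, r2]
    ring
  have h4 : 0 ≤ ρ ^ 2 / c ^ 2 * (lam * mu * d ^ 2) := by
    have := G.lam_pos
    have := G.mu_pos
    positivity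
  have h5 : 0 ≤ ρ ^ 2 / c ^ 2 * (c - b * c ^ 3) := mul_nonneg (by positivity) hK
  have h6 := mul_nonneg h4 hT
  have h7 := mul_nonneg h5 (sub_nonneg.2 k1)
  linarith [e5]

/-- (ii) for the dictator family: `th = 1 - lam mu d (d-2ρ)/den` -/
theorem ii_dict (G : Geo ρ c s t fs ft fg lam mu g d Sg C2 SC L wq) {b V den wz th : ℝ}
    (hV : V = 1 - g ^ 2 + c ^ 2 + 2 * c * L) (hden : 0 < den)
    (hwz : wz = lam * fs ^ 2 + mu * ft ^ 2)
    (hth : th = 1 - lam * mu * d * (d - 2 * ρ) / den) (hK : 0 ≤ c - b * c ^ 3)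
    (hT : 0 ≤ (c - b * c ^ 3) * (2 * c / (C2 * V) + (d - 2 * ρ) * L / (d * den)) +
      b * c ^ 2 * (1 + (d - 2 * ρ) * wz / (d * den)) - 1 / wq) :
    lam * th * (fs * (ρ ^ 2 / c + b * ρ ^ 2 * (fs - c))) +
      mu * th * (ft * (ρ ^ 2 / c + b * ρ ^ 2 * (ft - c))) +
      (ρ * d / 2) ^ 2 / wq ≤ fg * (ρ ^ 2 / c + b * ρ ^ 2 * (fg - c)) := by
  have hc := G.hc0
  have hC := G.C2_pos
  have hw := G.wq_pos
  have hd := G.d_pos
  have hL := G.L_pos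
  have h3 : mu = 1 - lam := by rw [G.hlam, G.hmu]; ring
  have hM : fg ≤ (1 - g ^ 2 + c ^ 2) / (2 * c) := by
    rw [le_div_iff₀ (by positivity), ← G.hfg]
    nlinarith [sq_nonneg (fg - c)]
  have k1 := G.sub_L hM
  have k0 : 1 / (C2 * ((1 - g ^ 2 + c ^ 2) / (2 * c) + L)) = 2 * c / (C2 * V) := by
    have hV' : (1 - g ^ 2 + c ^ 2) / (2 * c) + L = V / (2 * c) := by
      rw [hV]; field_simp
    rw [hV']
    have : 0 < V := by
      rw [hV, ← G.hfg]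
      positivity
    field_simp
  rw [k0] at k1
  have e0 : 1 - th = lam * mu * d ^ 2 * ((d - 2 * ρ) / (d * den)) := by
    rw [hth]; field_simp; ring
  have e2 : wz = fg ^ 2 - lam * mu * d ^ 2 := by
    rw [hwz, G.hfs, G.hft, G.hfg, G.hd]
    have : g ^ 2 = (lam * s + mu * t) ^ 2 := by rw [G.hg]
    rw [this, h3]
    ring
  have e4 : (ρ * d / 2) ^ 2 / wq = ρ ^ 2 / c ^ 2 * (lam * mu * d ^ 2) * (1 / wq) := by
    have : (ρ * d / 2) ^ 2 = ρ ^ 2 / c ^ 2 * (lam * mu * d ^ 2) := by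
      have h4 : lam * mu = c ^ 2 / 4 := by linarith [G.four]
      rw [h4]
      field_simp
      ring
    rw [this]; ring
  rw [e4]
  have r1 : ρ ^ 2 / c - b * ρ ^ 2 * c = ρ ^ 2 / c ^ 2 * (c - b * c ^ 3) := by
    field_simp
  have r2 : b * ρ ^ 2 = ρ ^ 2 / c ^ 2 * (b * c ^ 2) := by
    field_simp
  have e5 : fg * (ρ ^ 2 / c + b * ρ ^ 2 * (fg - c)) -
      (lam * th * (fs * (ρ ^ 2 / c + b * ρ ^ 2 * (fs - c))) +
      mu * th * (ft * (ρ ^ 2 / c + b * ρ ^ 2 * (ft - c))) +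
      ρ ^ 2 / c ^ 2 * (lam * mu * d ^ 2) * (1 / wq)) =
      ρ ^ 2 / c ^ 2 * (lam * mu * d ^ 2) *
        ((c - b * c ^ 3) * (2 * c / (C2 * V) + (d - 2 * ρ) * L / (d * den)) +
      b * c ^ 2 * (1 + (d - 2 * ρ) * wz / (d * den)) - 1 / wq) +
      ρ ^ 2 / c ^ 2 * (c - b * c ^ 3) * (fg - L - lam * mu * d ^ 2 * (2 * c / (C2 * V))) := by
    have q1 : lam * th * (fs * (ρ ^ 2 / c + b * ρ ^ 2 * (fs - c))) +
      mu * th * (ft * (ρ ^ 2 / c + b * ρ ^ 2 * (ft - c))) =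
        (ρ ^ 2 / c - b * ρ ^ 2 * c) * (L - (1 - th) * L) + b * ρ ^ 2 * (wz - (1 - th) * wz) := by
      rw [G.hL, hwz]; ring
    have q2 : fg * (ρ ^ 2 / c + b * ρ ^ 2 * (fg - c)) = (ρ ^ 2 / c - b * ρ ^ 2 * c) * fg +
      b * ρ ^ 2 * fg ^ 2 := by ring
    have q3 : fg ^ 2 = wz + lam * mu * d ^ 2 := by rw [e2]; ring
    rw [q1, q2, q3, e0, r1, r2]
    ring
  have h4 : 0 ≤ ρ ^ 2 / c ^ 2 * (lam * mu * d ^ 2) := by
    have := G.lam_pos
    have := G.mu_pos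
    positivity
  have h5 : 0 ≤ ρ ^ 2 / c ^ 2 * (c - b * c ^ 3) := mul_nonneg (by positivity) hK
  have h6 := mul_nonneg h4 hT
  have h7 := mul_nonneg h5 (sub_nonneg.2 k1)
  linarith [e5]

end Crest.Agent.R307.FB
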