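import Crest.Agent.R307.FBDefs
import Crest.Agent.R307.FBReal

/-!
Row 307 (S0471), flow regime: from the clause inequalities to `PairStep` (helper886).
-/

set_option autoImplicit false
set_option linter.unusedVariables false

namespace Crest.Agent.R307.FB

open Crest.Agent.R307.Flow Crest.Agent.R307.Elim

/-- geometric data of the point `R` -/
structure GR (R : RP) (fg : ℝ) : Prop where
  G : Geo R.rho R.c R.s R.t R.fs R.ft fg (R.lam2 / 2) (R.mu2 / 2) (R.g2 / 2) R.d R.Sig R.C2 R.SC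
    (R.L2 / 2) (R.wq4 / 4)
  pfs : R.fs = ph R.s
  pft : R.ft = ph R.t
  pfg : fg = ph (R.g2 / 2)
  pc : R.c = ph R.rho
  hbd : 0 < R.bd
  hK : R.bn * R.c ^ 2 ≤ R.bd

/-- the potential -/
noncomputable def Psi (R : RP) : ℝ → ℝ :=
  fun g => R.rho ^ 2 / ph R.rho + R.bn / R.bd * R.rho ^ 2 * (ph g - ph R.rho)

lemma f_from {P al be eps n0 n1 H D c2 : ℝ} (hP : 0 < P) (hal : 0 < al) (hbe : 0 < be)
    (hc2 : 0 ≤ c2) (hn : n1 ≤ n0)
    (h : 0 ≤ 16384 * c2 * (al * P * (be * P)) * (1024 ^ 2 * n1 * P - (1024 * H) * (1024 * H) * P) -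
      (1024 * H) * (1024 * H) * ((eps * P) * (eps * P) * P * (4096 * D))) :
    eps ^ 2 * D * H ^ 2 ≤ 4 * c2 * (al * be) * (n0 - H ^ 2) := by
  have e : 16384 * c2 * (al * P * (be * P)) * (1024 ^ 2 * n1 * P - (1024 * H) * (1024 * H) * P) -
      (1024 * H) * (1024 * H) * ((eps * P) * (eps * P) * P * (4096 * D)) =
      (4096 * 1024 ^ 2 * P ^ 3) * (4 * c2 * (al * be) * (n1 - H ^ 2) - eps ^ 2 * D * H ^ 2) := by ring
  rw [e] at h
  have h1 := nonneg_of_mul_nonneg_right h (by positivity)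
  have h2 : 0 ≤ 4 * c2 * (al * be) * (n0 - n1) := by
    have := sub_nonneg.2 hn
    positivity
  have h3 : 4 * c2 * (al * be) * (n0 - H ^ 2) =
    4 * c2 * (al * be) * (n1 - H ^ 2) + 4 * c2 * (al * be) * (n0 - n1) := by ring
  linarith

lemma b_from {P al o G x r : ℝ} (hP : 0 < P) (h : 0 ≤ (1024 * G) * (o * P) - 1024 * r * (al * P)) :
    al * r ≤ G * o := by
  have e : (1024 * G) * (o * P) - 1024 * r * (al * P) = (1024 * P) * (G * o - al * r) := by ring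
  rw [e] at h
  have := nonneg_of_mul_nonneg_right h (by positivity)
  linarith

lemma p_from {P al G x : ℝ} (hP : 0 < P) (h : 0 ≤ 1024 * (al * P) - (1024 * G) * (x * P) - P) :
    0 < al - x * G := by
  have e : 1024 * (al * P) - (1024 * G) * (x * P) - P = P * (1024 * (al - x * G) - 1) := by ring
  rw [e] at h
  have := nonneg_of_mul_nonneg_right h hP
  linarith

lemma x_from {P a b H rd lw mw : ℝ} (hP : 0 < P)
    (h : 0 ≤ ((1024 * H) * P) * (2 * lw * (1024 * P * b) + 2 * mw * (1024 * P * a)) -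
      rd * ((1024 * P * a) * (1024 * P * b))) :
    rd / 2 * (a * b) ≤ H * (lw * b + mw * a) := by
  have e : ((1024 * H) * P) * (2 * lw * (1024 * P * b) + 2 * mw * (1024 * P * a)) -
      rd * ((1024 * P * a) * (1024 * P * b)) =
      (2 * 1024 ^ 2 * P ^ 2) * (H * (lw * b + mw * a) - rd / 2 * (a * b)) := by ring
  rw [e] at h
  have := nonneg_of_mul_nonneg_right h (by positivity)
  linarith

lemma sg_cases (b : Bool) : ((sg b : ℤ) : ℝ) = 1 ∨ ((sg b : ℤ) : ℝ) = -1 := by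
  cases b <;> simp [sg]

variable {R : RP} {fg : ℝ} {p : Par}

/-- `m ≥ φ_g` -/
lemma m_ge (hG : GR R fg) (hm : 0 ≤ R.m p) (hm2 : 0 ≤ R.om2 p) : fg ≤ R.m p / 1024 := by
  have h1 : fg ^ 2 ≤ (R.m p / 1024) ^ 2 := by
    rw [hG.G.hfg]
    simp only [RP.om2, RP.wg4] at hm2
    nlinarith
  exact le_of_sq_le_sq' h1 (by positivity)
where
  le_of_sq_le_sq' {a b : ℝ} (h : a ^ 2 ≤ b ^ 2) (hb : 0 ≤ b) : a ≤ b := by
    nlinarith [abs_le_of_sq_le_sq h hb, le_abs_self a]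

lemma wg4_eq (R : RP) : R.wg4 = 4 * (1 - (R.g2 / 2) ^ 2) := by simp only [RP.wg4]; ring

lemma PP_pos (hG : GR R fg) (hm : 0 ≤ R.m p) : 0 < R.PP p := by
  have h1 := hG.G.Sg_pos
  have h2 : 0 < R.wg4 := by
    rw [wg4_eq, ← hG.G.hfg]
    have := hG.G.hfg0
    positivity
  have h3 := hG.G.hfs0
  have h4 := hG.G.hft0
  simp only [RP.PP, RP.wS1, RP.wSig, RP.mff]
  positivity

lemma mL_eq (R : RP) (p : Par) : R.mL p = 2048 * (R.m p / 1024 + R.L2 / 2) := by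
  simp only [RP.mL]; ring

lemma hKp (hG : GR R fg) : 0 ≤ R.c - R.bn / R.bd * R.c ^ 3 := by
  have h1 := hG.G.hc0
  have h2 := hG.hbd
  have h3 := hG.hK
  have e : R.c - R.bn / R.bd * R.c ^ 3 = R.c / R.bd * (R.bd - R.bn * R.c ^ 2) := by
    field_simp
  rw [e]
  have := sub_nonneg.2 h3
  positivity

/-- the scalar inequality for the balanced family from `oII` -/
lemma ii_bal (hG : GR R fg) (hm : 0 ≤ R.m p) (hm2 : 0 ≤ R.om2 p) (h : 0 ≤ R.oII p) :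
    (R.lam2 / 2) * (1 - (4 * p.et / R.PP p) * ((R.mu2 / 2) * R.d * (R.d + (R.g2 / 2) * R.Sig))) *
        (R.fs * Psi R R.s) +
      (R.mu2 / 2) * (1 - (4 * p.et / R.PP p) * ((R.lam2 / 2) * R.d * (R.d - (R.g2 / 2) * R.Sig))) *
        (R.ft * Psi R R.t) +
      (R.rho * R.d / 2) ^ 2 / (R.wq4 / 4) ≤ fg * Psi R (R.g2 / 2) := by
  have hP := PP_pos hG hm
  have hC := hG.G.C2_pos
  have hw := hG.G.wq_pos
  have hL := hG.G.L_pos
  have hb := hG.hbd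
  have hM := m_ge hG hm hm2
  have key := ii_core hG.G (τ := 4 * p.et / R.PP p) (b := R.bn / R.bd) hM (hKp hG) ?_
  · simp only [Psi, ← hG.pc, ← hG.pfs, ← hG.pft, ← hG.pfg]
    exact key
  · have hmL : 0 < R.mL p := by rw [mL_eq]; positivity
    have e0 : R.m p / 1024 + R.L2 / 2 = R.mL p / 2048 := by rw [mL_eq]; ring
    rw [e0]
    have hw4 : 0 < R.wq4 := by linarith
    have e : (R.c - R.bn / R.bd * R.c ^ 3) * (1 / (R.C2 * (R.mL p / 2048)) +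
        4 * ↑p.et / R.PP p * (R.C2 * (R.fs + R.ft) - R.g2 / 2 * R.Sig * R.SC) / R.C2) +
        R.bn / R.bd * R.c ^ 2 * (1 + 4 * ↑p.et / R.PP p *
          (R.fs ^ 2 + R.ft ^ 2 - R.g2 / 2 * R.Sig * (R.s + R.t))) - 1 / (R.wq4 / 4) =
        R.oII p / (R.bd * R.C2 * R.mL p * R.PP p * R.wq4) := by
      rw [eq_div_iff (by positivity)]
      simp only [RP.oII, RP.K3, RP.bc2, RP.c2, RP.CmL, RP.gS, RP.ws, RP.wt]
      field_simp
      ring
    rw [e]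
    exact div_nonneg h (by positivity)

set_option maxHeartbeats 4000000 in
/-- kind 0 -/
theorem pair0 (hG : GR R fg)
    (cl : 0 ≤ R.m p ∧ 0 ≤ R.om2 p ∧ 0 ≤ R.oal p ∧ 0 ≤ R.obe p ∧ 0 ≤ R.ob1 p ∧ 0 ≤ R.ob2 p ∧
      0 ≤ R.ob3 p ∧ 0 ≤ R.ob4 p ∧ 0 ≤ R.op1 p ∧ 0 ≤ R.op2 p ∧ 0 ≤ R.op3 p ∧ 0 ≤ R.op4 p ∧
      0 ≤ R.oga1 p ∧ 0 ≤ R.oga2 p ∧ 0 ≤ R.oII p ∧ 0 ≤ R.of2 p ∧ 0 ≤ R.of1 p)
    (hx1 : p.H1 ≥ p.G1 ∨ (0 ≤ R.oA1 p ∧ 0 ≤ R.oB1 p ∧ 0 ≤ R.oX1 p))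
    (hx2 : p.H2 ≥ p.G2 ∨ (0 ≤ R.oA2 p ∧ 0 ≤ R.oB2 p ∧ 0 ≤ R.oX2 p))
    (hG1 : 0 ≤ p.G1) (hG2 : 0 ≤ p.G2) (hga1 : 0 ≤ p.ga1) (hga2 : 0 ≤ p.ga2) :
    PairStep R.rho R.s R.t (Psi R) := by
  obtain ⟨cm, cm2, cal, cbe, cb1, cb2, cb3, cb4, cp1, cp2, cp3, cp4, cga1, cga2, cII, cf2, cf1⟩ := cl
  have hP := PP_pos hG cm
  have g := hG.G
  have hc2 : R.c ^ 2 = 4 * (R.lam2 / 2 * (R.mu2 / 2)) := g.four.symm
  obtain ⟨τ, hτ⟩ : ∃ τ : ℝ, τ = 4 * (p.et : ℝ) / R.PP p := ⟨_, rfl⟩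
  have hτP : τ * R.PP p = 4 * p.et := by rw [hτ]; field_simp
  obtain ⟨al, hal⟩ : ∃ al : ℝ, al = 1 - τ * ((R.mu2 / 2) * R.d * (R.d + (R.g2 / 2) * R.Sig)) := ⟨_, rfl⟩
  obtain ⟨be, hbe⟩ : ∃ be : ℝ, be = 1 - τ * ((R.lam2 / 2) * R.d * (R.d - (R.g2 / 2) * R.Sig)) := ⟨_, rfl⟩
  have halP : R.alP p = al * R.PP p := by
    rw [hal]
    simp only [RP.alP, RP.gS]
    linear_combination (R.mu2 / 2 * R.d * (R.d + R.g2 / 2 * R.Sig)) * hτP
  have hbeP : R.beP p = be * R.PP p := by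
    rw [hbe]
    simp only [RP.beP, RP.gS]
    linear_combination (R.lam2 / 2 * R.d * (R.d - R.g2 / 2 * R.Sig)) * hτP
  have pal : 0 < al := by
    simp only [RP.oal, halP] at cal
    have e : 128 * (al * R.PP p) - R.PP p = R.PP p * (128 * al - 1) := by ring
    rw [e] at cal
    have := nonneg_of_mul_nonneg_right cal hP
    linarith
  have pbe : 0 < be := by
    simp only [RP.obe, hbeP] at cbe
    have e : 128 * (be * R.PP p) - R.PP p = R.PP p * (128 * be - 1) := by ring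
    rw [e] at cbe
    have := nonneg_of_mul_nonneg_right cbe hP
    linarith
  obtain ⟨G1, hG1'⟩ : ∃ G1 : ℝ, (p.G1 : ℝ) = 1024 * G1 := ⟨p.G1 / 1024, by ring⟩
  obtain ⟨G2, hG2'⟩ : ∃ G2 : ℝ, (p.G2 : ℝ) = 1024 * G2 := ⟨p.G2 / 1024, by ring⟩
  obtain ⟨H1, hH1'⟩ : ∃ H1 : ℝ, (p.H1 : ℝ) = 1024 * H1 := ⟨p.H1 / 1024, by ring⟩
  obtain ⟨H2, hH2'⟩ : ∃ H2 : ℝ, (p.H2 : ℝ) = 1024 * H2 := ⟨p.H2 / 1024, by ring⟩
  have pG1 : 0 ≤ G1 := by
    have : (0 : ℝ) ≤ p.G1 := by exact_mod_cast hG1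
    linarith
  have pG2 : 0 ≤ G2 := by
    have : (0 : ℝ) ≤ p.G2 := by exact_mod_cast hG2
    linarith
  have pga1 : (0 : ℝ) ≤ p.ga1 := by exact_mod_cast hga1
  have pga2 : (0 : ℝ) ≤ p.ga2 := by exact_mod_cast hga2
  have hdpos := g.d_pos
  have habsd : |R.d| = R.d := abs_of_pos hdpos
  have hρ := g.h0
  -- the quantities n0, eps
  obtain ⟨n1, hn1⟩ : ∃ n1 : ℝ, n1 = (1 - (p.et : ℝ) / 1024) *
      (1 - τ * ((1 - (R.g2 / 2) ^ 2) * R.Sig) + τ * (R.m p / 1024 * R.fs * R.ft)) := ⟨_, rfl⟩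
  have hPe : R.PP p = 4096 * ((1 - (R.g2 / 2) ^ 2) * R.Sig + R.m p / 1024 * R.fs * R.ft) := by
    simp only [RP.PP, RP.wS1, RP.wSig, RP.mff, RP.wg4]; ring
  have hN1 : R.N1 p = 1024 ^ 2 * n1 * R.PP p := by
    rw [hn1]
    have e1 : τ * ((1 - (R.g2 / 2) ^ 2) * R.Sig) * R.PP p = 4 * p.et * ((1 - (R.g2 / 2) ^ 2) * R.Sig) := by
      rw [← hτP]; ring
    have e2 : τ * (R.m p / 1024 * R.fs * R.ft) * R.PP p = 4 * p.et * (R.m p / 1024 * R.fs * R.ft) := by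
      rw [← hτP]; ring
    have e3 : 1024 ^ 2 * ((1 - (p.et : ℝ) / 1024) *
      (1 - τ * ((1 - (R.g2 / 2) ^ 2) * R.Sig) + τ * (R.m p / 1024 * R.fs * R.ft))) * R.PP p =
      1024 * (1024 - p.et) * (R.PP p - τ * ((1 - (R.g2 / 2) ^ 2) * R.Sig) * R.PP p +
        τ * (R.m p / 1024 * R.fs * R.ft) * R.PP p) := by ring
    rw [e3, e1, e2]
    simp only [RP.N1, RP.wS1, RP.wSig, RP.mff, RP.wg4]
    ring
  have hη : τ * ((1 - (R.g2 / 2) ^ 2) * R.Sig) + τ * (R.m p / 1024 * R.fs * R.ft) = p.et / 1024 := by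
    have : τ * R.PP p = 4096 * (τ * ((1 - (R.g2 / 2) ^ 2) * R.Sig) +
      τ * (R.m p / 1024 * R.fs * R.ft)) := by rw [hPe]; ring
    rw [hτP] at this
    linarith
  have hn01 : n1 ≤ (1 - (2 * τ) * (1 - (R.g2 / 2) ^ 2) * (1 - R.s * R.t) / 2) ^ 2 -
      (2 * τ) ^ 2 / 4 * (1 - (R.g2 / 2) ^ 2) * (1 - R.s ^ 2) * (1 - R.t ^ 2) := by
    rw [hn1, ← hη, ← g.hSg]
    have e1 : (1 - (τ * ((1 - (R.g2 / 2) ^ 2) * R.Sig) + τ * (R.m p / 1024 * R.fs * R.ft))) *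
      (1 - τ * ((1 - (R.g2 / 2) ^ 2) * R.Sig) + τ * (R.m p / 1024 * R.fs * R.ft)) =
      (1 - τ * ((1 - (R.g2 / 2) ^ 2) * R.Sig)) ^ 2 - τ ^ 2 * (R.m p / 1024) ^ 2 *
        (R.fs ^ 2 * R.ft ^ 2) := by ring
    rw [e1, g.hfs, g.hft]
    have h1 : 1 - (R.g2 / 2) ^ 2 ≤ (R.m p / 1024) ^ 2 := by
      rw [← g.hfg]
      have h2 := m_ge hG cm cm2
      have h3 := g.hfg0
      nlinarith
    have h2 : 0 ≤ τ ^ 2 * ((1 - R.s ^ 2) * (1 - R.t ^ 2)) := by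
      rw [← g.hfs, ← g.hft]; positivity
    have h3 := mul_le_mul_of_nonneg_right h1 h2
    have e5 : (1 - (2 * τ) * (1 - (R.g2 / 2) ^ 2) * R.Sig / 2) ^ 2 -
      (2 * τ) ^ 2 / 4 * (1 - (R.g2 / 2) ^ 2) * (1 - R.s ^ 2) * (1 - R.t ^ 2) -
      ((1 - τ * ((1 - (R.g2 / 2) ^ 2) * R.Sig)) ^ 2 - τ ^ 2 * (R.m p / 1024) ^ 2 *
        ((1 - R.s ^ 2) * (1 - R.t ^ 2))) = (R.m p / 1024) ^ 2 * (τ ^ 2 * ((1 - R.s ^ 2) * (1 - R.t ^ 2))) -
        (1 - (R.g2 / 2) ^ 2) * (τ ^ 2 * ((1 - R.s ^ 2) * (1 - R.t ^ 2))) := by ring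
    have h4 := sub_nonneg.2 h3
    rw [← e5] at h4
    exact sub_nonneg.1 h4
  have heps : R.epsP p = (1 - (2 * τ) / 2 * ((R.lam2 / 2) * (R.mu2 / 2) * R.d ^ 2 -
      R.s * R.t * (1 - (R.g2 / 2) ^ 2))) * R.PP p := by
    have e : (1 - (2 * τ) / 2 * ((R.lam2 / 2) * (R.mu2 / 2) * R.d ^ 2 -
      R.s * R.t * (1 - (R.g2 / 2) ^ 2))) * R.PP p = R.PP p - (τ * R.PP p) *
        ((R.lam2 / 2) * (R.mu2 / 2) * R.d ^ 2 - R.s * R.t * (1 - (R.g2 / 2) ^ 2)) := by ring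
    rw [e, hτP]
    simp only [RP.epsP, RP.z4, RP.lmd, RP.wg4]
    ring
  have hA2 : ∀ H : ℝ, 1024 * R.alP p - (1024 * H) * R.sP p = 1024 * R.PP p * (al - R.s * H) := by
    intro H
    rw [halP]; simp only [RP.sP]; ring
  have hB2 : ∀ H : ℝ, 1024 * R.beP p - (1024 * H) * R.tP p = 1024 * R.PP p * (be - R.t * H) := by
    intro H
    rw [hbeP]; simp only [RP.tP]; ring
  have hA1 : ∀ H : ℝ, 1024 * R.alP p + (1024 * H) * R.sP p = 1024 * R.PP p * (al + R.s * H) := by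
    intro H
    rw [halP]; simp only [RP.sP]; ring
  have hB1 : ∀ H : ℝ, 1024 * R.beP p + (1024 * H) * R.tP p = 1024 * R.PP p * (be + R.t * H) := by
    intro H
    rw [hbeP]; simp only [RP.tP]; ring
  have strict : ∀ a : ℝ, 0 ≤ 1024 * R.PP p * a - R.PP p → 0 < a := by
    intro a h
    have e : 1024 * R.PP p * a - R.PP p = R.PP p * (1024 * a - 1) := by ring
    rw [e] at h
    have := nonneg_of_mul_nonneg_right h hP
    linarith
  have hΘ : 0 < 4 * (R.lam2 / 2) * (R.mu2 / 2) := by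
    have := g.lam_pos
    have := g.mu_pos
    positivity
  have hii := ii_bal hG cm cm2 cII
  rw [← hτ] at hii
  rw [← hal, ← hbe] at hii
  refine pairStep_elim (k := 2 * τ) (lam := R.lam2 / 2) (mu := R.mu2 / 2) (g := R.g2 / 2)
    (d := R.d) (al := al) (be := be) (G1 := G1) (G2 := G2) (H1 := H1) (H2 := H2)
    (Θ1 := 4 * (R.lam2 / 2) * (R.mu2 / 2)) (Θ2 := 4 * (R.lam2 / 2) * (R.mu2 / 2))
    (Dbar1 := 1 - (R.g2 / 2) ^ 2 + p.ga1 / 1024 * (R.rho * R.d / 2))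
    (Dbar2 := 1 - (R.g2 / 2) ^ 2 + p.ga2 / 1024 * (R.rho * R.d / 2))
    g.h0 g.h1 g.hs g.ht g.hlam g.hmu g.hg g.hd ?_ ?_ rfl rfl pal pbe pG1 pG2
    ?_ ?_ ?_ ?_ ?_ ?_ ?_ ?_ ?_ ?_ hΘ hΘ ?_ ?_ ?_ ?_ ?_ ?_ ?_ ?_ ?_
  · rw [hal, g.hSg]; ring
  · rw [hbe, g.hSg]; ring
  · simp only [RP.ob1, RP.ralP, hG2', halP] at cb1
    have h := b_from hP (al := al) (r := R.rho) (o := 1 + (sg p.o1 : ℝ) * (R.s - R.rho)) (G := G2)
      (x := 0) (by linarith [cb1])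
    rcases sg_cases p.o1 with h1 | h1 <;> rw [h1] at h
    · right; linarith [h, show G2 * (1 + 1 * (R.s - R.rho)) = G2 * (1 - R.rho + R.s) by ring]
    · left; linarith [h, show G2 * (1 + -1 * (R.s - R.rho)) = G2 * (1 + R.rho - R.s) by ring]
  · simp only [RP.ob2, RP.rbeP, hG2', hbeP] at cb2
    have h := b_from hP (al := be) (r := R.rho) (o := 1 + (sg p.o2 : ℝ) * (R.t - R.rho)) (G := G2)
      (x := 0) (by linarith [cb2])
    rcases sg_cases p.o2 with h1 | h1 <;> rw [h1] at h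
    · right; linarith [h, show G2 * (1 + 1 * (R.t - R.rho)) = G2 * (1 - R.rho + R.t) by ring]
    · left; linarith [h, show G2 * (1 + -1 * (R.t - R.rho)) = G2 * (1 + R.rho - R.t) by ring]
  · simp only [RP.ob3, RP.ralP, hG1', halP] at cb3
    have h := b_from hP (al := al) (r := R.rho) (o := 1 + (sg p.o3 : ℝ) * (R.s + R.rho)) (G := G1)
      (x := 0) (by linarith [cb3])
    rcases sg_cases p.o3 with h1 | h1 <;> rw [h1] at h
    · left; linarith [h, show G1 * (1 + 1 * (R.s + R.rho)) = G1 * (1 + R.rho + R.s) by ring]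
    · right; linarith [h, show G1 * (1 + -1 * (R.s + R.rho)) = G1 * (1 - R.rho - R.s) by ring]
  · simp only [RP.ob4, RP.rbeP, hG1', hbeP] at cb4
    have h := b_from hP (al := be) (r := R.rho) (o := 1 + (sg p.o4 : ℝ) * (R.t + R.rho)) (G := G1)
      (x := 0) (by linarith [cb4])
    rcases sg_cases p.o4 with h1 | h1 <;> rw [h1] at h
    · left; linarith [h, show G1 * (1 + 1 * (R.t + R.rho)) = G1 * (1 + R.rho + R.t) by ring]
    · right; linarith [h, show G1 * (1 + -1 * (R.t + R.rho)) = G1 * (1 - R.rho - R.t) by ring]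
  · simp only [RP.op1, hG2', hA2] at cp1
    exact strict _ cp1
  · simp only [RP.op2, hG2', hB2] at cp2
    exact strict _ cp2
  · simp only [RP.op3, hG1', hA1] at cp3
    exact strict _ cp3
  · simp only [RP.op4, hG1', hB1] at cp4
    exact strict _ cp4
  · rcases hx2 with h | ⟨ha, hb, hx⟩
    · left
      have : (p.G2 : ℝ) ≤ p.H2 := by exact_mod_cast h
      linarith
    · right
      simp only [RP.oA2, RP.A2, hH2', hA2] at ha
      simp only [RP.oB2, RP.B2, hH2', hB2] at hb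
      refine ⟨strict _ ha, strict _ hb, ?_⟩
      rw [habsd]
      simp only [RP.oX2, RP.A2, RP.B2, hH2', hA2, hB2, RP.lws, RP.mwt, RP.rd, RP.ws, RP.wt] at hx
      refine x_from (lw := R.lam2 / 2 * (1 - R.s ^ 2)) (mw := R.mu2 / 2 * (1 - R.t ^ 2)) hP ?_
      rw [← g.hfs, ← g.hft]
      linarith [hx]
  · rcases hx1 with h | ⟨ha, hb, hx⟩
    · left
      have : (p.G1 : ℝ) ≤ p.H1 := by exact_mod_cast h
      linarith
    · right
      simp only [RP.oA1, RP.A1, hH1', hA1] at ha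
      simp only [RP.oB1, RP.B1, hH1', hB1] at hb
      refine ⟨strict _ ha, strict _ hb, ?_⟩
      rw [habsd]
      simp only [RP.oX1, RP.A1, RP.B1, hH1', hA1, hB1, RP.lws, RP.mwt, RP.rd, RP.ws, RP.wt] at hx
      refine x_from (lw := R.lam2 / 2 * (1 - R.s ^ 2)) (mw := R.mu2 / 2 * (1 - R.t ^ 2)) hP ?_
      rw [← g.hfs, ← g.hft]
      linarith [hx]
  · intro x y H _ _ _ _ _
    exact Theta_base
  · intro x y H _ _ _ _ _
    exact Theta_base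
  · have : 0 ≤ (p.ga1 : ℝ) / 1024 * (R.rho * R.d / 2) := by positivity
    linarith
  · rw [habsd]
    simp only [RP.oga1] at cga1
    have : -(R.g2 / 2) ≤ (p.ga1 : ℝ) / 1024 := by linarith
    have h2 := mul_le_mul_of_nonneg_right this (by positivity : 0 ≤ R.rho * R.d / 2)
    linarith
  · have : 0 ≤ (p.ga2 : ℝ) / 1024 * (R.rho * R.d / 2) := by positivity
    linarith
  · rw [habsd]
    simp only [RP.oga2] at cga2
    have : (R.g2 / 2) ≤ (p.ga2 : ℝ) / 1024 := by linarith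
    have h2 := mul_le_mul_of_nonneg_right this (by positivity : 0 ≤ R.rho * R.d / 2)
    linarith
  · have e : 4 * (4 * (R.lam2 / 2) * (R.mu2 / 2)) * (al * be) = 4 * R.c ^ 2 * (al * be) := by
      rw [hc2]; ring
    rw [e]
    refine f_from hP pal pbe (sq_nonneg _) hn01 ?_
    simp only [RP.of1, RP.abP, RP.e2P, halP, hbeP, heps, hN1, hH1', RP.c2, RP.rd] at cf1
    have e4 : 1024 * R.wg4 + 2 * ((p.ga1 : ℝ) * (R.rho * R.d)) =
      4096 * (1 - (R.g2 / 2) ^ 2 + p.ga1 / 1024 * (R.rho * R.d / 2)) := by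
      simp only [RP.wg4]; ring
    rw [e4] at cf1
    rw [pow_two R.c]
    exact cf1
  · have e : 4 * (4 * (R.lam2 / 2) * (R.mu2 / 2)) * (al * be) = 4 * R.c ^ 2 * (al * be) := by
      rw [hc2]; ring
    rw [e]
    refine f_from hP pal pbe (sq_nonneg _) hn01 ?_
    simp only [RP.of2, RP.abP, RP.e2P, halP, hbeP, heps, hN1, hH2', RP.c2, RP.rd] at cf2
    have e4 : 1024 * R.wg4 + 2 * ((p.ga2 : ℝ) * (R.rho * R.d)) =
      4096 * (1 - (R.g2 / 2) ^ 2 + p.ga2 / 1024 * (R.rho * R.d / 2)) := by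
      simp only [RP.wg4]; ring
    rw [e4] at cf2
    rw [pow_two R.c]
    exact cf2
  · rw [← hG.pfs, ← hG.pft, ← hG.pfg, ← g.hwq]
    exact hii

end Crest.Agent.R307.FB
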