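import Crest.Agent.R307.FBPair

/-!
Row 307 (S0471), flow regime: `PairStep` from the clause inequalities, kinds 1, 3, and the
combination (helper886).
-/

set_option autoImplicit false
set_option linter.unusedVariables false

namespace Crest.Agent.R307.FB

open Crest.Agent.R307.Flow Crest.Agent.R307.Elim Crest.Agent.KB

variable {R : RP} {fg : ℝ} {p : Par}

lemma ii_zero (hG : GR R fg) (hm : 0 ≤ R.m p) (hm2 : 0 ≤ R.om2 p) (h : 0 ≤ R.oII0 p) :
    (R.lam2 / 2) * 1 * (R.fs * Psi R R.s) + (R.mu2 / 2) * 1 * (R.ft * Psi R R.t) +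
      (R.rho * R.d / 2) ^ 2 / (R.wq4 / 4) ≤ fg * Psi R (R.g2 / 2) := by
  have hP := PP_pos hG hm
  have hC := hG.G.C2_pos
  have hw := hG.G.wq_pos
  have hL := hG.G.L_pos
  have hb := hG.hbd
  have hM := m_ge hG hm hm2
  have key := ii_core hG.G (τ := 0) (b := R.bn / R.bd) hM (hKp hG) ?_
  · simp only [zero_mul, sub_zero] at key
    simp only [Psi, ← hG.pc, ← hG.pfs, ← hG.pft, ← hG.pfg]
    exact key
  · have hmL : 0 < R.mL p := by rw [mL_eq]; positivity
    have e0 : R.m p / 1024 + R.L2 / 2 = R.mL p / 2048 := by rw [mL_eq]; ring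
    rw [e0]
    have hw4 : 0 < R.wq4 := by linarith
    have e : (R.c - R.bn / R.bd * R.c ^ 3) * (1 / (R.C2 * (R.mL p / 2048)) +
        0 * (R.C2 * (R.fs + R.ft) - R.g2 / 2 * R.Sig * R.SC) / R.C2) +
        R.bn / R.bd * R.c ^ 2 * (1 + 0 *
          (R.fs ^ 2 + R.ft ^ 2 - R.g2 / 2 * R.Sig * (R.s + R.t))) - 1 / (R.wq4 / 4) =
        R.oII0 p / (R.bd * R.C2 * R.mL p * R.wq4) := by
      rw [eq_div_iff (by positivity)]
      simp only [RP.oII0, RP.K3, RP.bc2, RP.c2, RP.CmL]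
      field_simp
      ring
    rw [e]
    exact div_nonneg h (by positivity)

set_option maxHeartbeats 1000000 in
/-- kind 3 -/
theorem pair3 (hG : GR R fg) (hr : R.rho ^ 2 ≤ 1 / 2)
    (cl : 0 ≤ R.m p ∧ 0 ≤ R.om2 p ∧ 0 ≤ R.oII0 p) :
    PairStep R.rho R.s R.t (Psi R) := by
  obtain ⟨cm, cm2, cII⟩ := cl
  have g := hG.G
  have hii := ii_zero hG cm cm2 cII
  have hΘ : 0 < 4 * (R.lam2 / 2) * (R.mu2 / 2) := by
    have := g.lam_pos
    have := g.mu_pos
    positivity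
  have hdpos := g.d_pos
  have habsd : |R.d| = R.d := abs_of_pos hdpos
  have hρ := g.h0
  have hs := abs_lt.mp g.hs
  have ht := abs_lt.mp g.ht
  have hga := abs_lt.mp g.g_abs
  have hc2 : R.c ^ 2 = 4 * (R.lam2 / 2 * (R.mu2 / 2)) := g.four.symm
  have hd2 : R.d ≤ 2 := by rw [g.hd]; linarith
  have hD : 1 - (R.g2 / 2) ^ 2 + 1 * (R.rho * R.d / 2) ≤ 2 := by
    have h1 : R.rho * R.d / 2 ≤ 1 := by nlinarith [g.h1]
    nlinarith [sq_nonneg (R.g2 / 2)]
  have hD0 : 0 ≤ 1 - (R.g2 / 2) ^ 2 + 1 * (R.rho * R.d / 2) := by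
    have h1 : 0 ≤ R.rho * R.d / 2 := by positivity
    have h2 : (R.g2 / 2) ^ 2 ≤ 1 := by
      have := g.hfg
      nlinarith [sq_nonneg fg]
    linarith
  have hf : (1 : ℝ) ^ 2 * (1 - (R.g2 / 2) ^ 2 + 1 * (R.rho * R.d / 2)) * R.rho ^ 2 ≤
      4 * (4 * (R.lam2 / 2) * (R.mu2 / 2)) * (1 * 1) * (1 - R.rho ^ 2) := by
    have e : 4 * (4 * (R.lam2 / 2) * (R.mu2 / 2)) * (1 * 1) = 4 * (1 - R.rho ^ 2) := by
      rw [← g.hc, hc2]; ring
    rw [e]
    have h1 : (1 : ℝ) ^ 2 * (1 - (R.g2 / 2) ^ 2 + 1 * (R.rho * R.d / 2)) * R.rho ^ 2 ≤ 2 * R.rho ^ 2 := by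
      rw [one_pow, one_mul]
      exact mul_le_mul_of_nonneg_right hD (sq_nonneg _)
    have h2 : 0 ≤ R.rho ^ 2 := sq_nonneg _
    have h3 : 0 ≤ (1 / 2 - R.rho ^ 2) * (2 - R.rho ^ 2) := mul_nonneg (by linarith) (by linarith)
    have e2 : 4 * (1 - R.rho ^ 2) * (1 - R.rho ^ 2) - 2 * R.rho ^ 2 =
      4 * ((1 / 2 - R.rho ^ 2) * (2 - R.rho ^ 2)) := by ring
    linarith
  refine pairStep_elim (k := 0) (lam := R.lam2 / 2) (mu := R.mu2 / 2) (g := R.g2 / 2)
    (d := R.d) (al := 1) (be := 1) (n0 := 1) (eps := 1) (G1 := R.rho) (G2 := R.rho) (H1 := R.rho)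
    (H2 := R.rho)
    (Θ1 := 4 * (R.lam2 / 2) * (R.mu2 / 2)) (Θ2 := 4 * (R.lam2 / 2) * (R.mu2 / 2))
    (Dbar1 := 1 - (R.g2 / 2) ^ 2 + 1 * (R.rho * R.d / 2))
    (Dbar2 := 1 - (R.g2 / 2) ^ 2 + 1 * (R.rho * R.d / 2))
    g.h0 g.h1 g.hs g.ht g.hlam g.hmu g.hg g.hd (by ring) (by ring) (by ring) (by ring)
    one_pos one_pos hρ.le hρ.le
    ?_ ?_ ?_ ?_ ?_ ?_ ?_ ?_ (Or.inl le_rfl) (Or.inl le_rfl) hΘ hΘ ?_ ?_ ?_ ?_ ?_ ?_ hf hf ?_
  · rcases le_total R.s R.rho with h | h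
    · left; linarith [mul_nonneg hρ.le (sub_nonneg.2 h)]
    · right; linarith [mul_nonneg hρ.le (sub_nonneg.2 h)]
  · rcases le_total R.t R.rho with h | h
    · left; linarith [mul_nonneg hρ.le (sub_nonneg.2 h)]
    · right; linarith [mul_nonneg hρ.le (sub_nonneg.2 h)]
  · rcases le_total (-R.s) R.rho with h | h
    · left; linarith [mul_nonneg hρ.le (sub_nonneg.2 h)]
    · right; linarith [mul_nonneg hρ.le (sub_nonneg.2 h)]
  · rcases le_total (-R.t) R.rho with h | h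
    · left; linarith [mul_nonneg hρ.le (sub_nonneg.2 h)]
    · right; linarith [mul_nonneg hρ.le (sub_nonneg.2 h)]
  · linarith [g.h1, mul_pos hρ (by linarith [hs.2] : 0 < 1 - R.s)]
  · linarith [g.h1, mul_pos hρ (by linarith [ht.2] : 0 < 1 - R.t)]
  · linarith [g.h1, mul_pos hρ (by linarith [hs.1] : 0 < 1 + R.s)]
  · linarith [g.h1, mul_pos hρ (by linarith [ht.1] : 0 < 1 + R.t)]
  · intro x y H _ _ _ _ _
    exact Theta_base
  · intro x y H _ _ _ _ _
    exact Theta_base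
  · have : 0 ≤ R.rho * R.d / 2 := by positivity
    linarith
  · rw [habsd]
    have h2 := mul_le_mul_of_nonneg_right (by linarith [hga.1] : -(R.g2 / 2) ≤ 1)
      (by positivity : 0 ≤ R.rho * R.d / 2)
    linarith
  · have : 0 ≤ R.rho * R.d / 2 := by positivity
    linarith
  · rw [habsd]
    have h2 := mul_le_mul_of_nonneg_right (by linarith [hga.2] : (R.g2 / 2) ≤ 1)
      (by positivity : 0 ≤ R.rho * R.d / 2)
    linarith
  · rw [← hG.pfs, ← hG.pft, ← hG.pfg, ← g.hwq]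
    exact hii

set_option maxHeartbeats 1000000 in
/-- kind 1 -/
theorem pair1 (hG : GR R fg) (hs0 : 0 ≤ R.s) (ht0 : R.t ≤ 0)
    (cl : 0 ≤ R.oden ∧ 0 ≤ R.od3 ∧ 0 ≤ R.od4 ∧ 0 ≤ R.oDI) :
    PairStep R.rho R.s R.t (Psi R) := by
  obtain ⟨c1, c3, c4, cD⟩ := cl
  have g := hG.G
  have hC := g.C2_pos
  have hw := g.wq_pos
  have hL := g.L_pos
  have hb := hG.hbd
  have hc := g.hc0
  have hd := g.d_pos
  have hρ := g.h0
  have hρ1 := g.h1
  have hs := abs_lt.mp g.hs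
  have ht := abs_lt.mp g.ht
  have hden : 0 < R.den4 / 4 := by
    simp only [RP.oden] at c1
    linarith
  -- num > 0
  have hnum : 0 < R.num4 := by
    have e : R.num4 = 2 * (R.mu2) * ((R.lam2 * R.fs ^ 2 + R.mu2 * R.ft ^ 2)) +
        2 * R.rho * (R.lam2 * (R.s * (1 - R.s))) + 2 * R.rho * (R.mu2 * ((-R.t) * (1 + R.t))) := by
      rw [g.hfs, g.hft]
      simp only [RP.num4, RP.den4, RP.wg4, RP.g2, RP.lmd, RP.d, RP.d2, RP.lam2, RP.mu2]
      ring
    have h1 : 0 < R.lam2 := by have := g.lam_pos; linarith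
    have h2 : 0 < R.mu2 := by have := g.mu_pos; linarith
    have h3 := g.hfs0
    have h4 := g.hft0
    have h5 : 0 ≤ R.s * (1 - R.s) := mul_nonneg hs0 (by linarith)
    have h6 : 0 ≤ (-R.t) * (1 + R.t) := mul_nonneg (by linarith) (by linarith)
    rw [e]
    positivity
  obtain ⟨th, hth⟩ : ∃ th : ℝ, th = 1 - (R.lam2 / 2) * (R.mu2 / 2) * R.d * (R.d - 2 * R.rho) / (R.den4 / 4) :=
    ⟨_, rfl⟩
  have hthn : th = R.num4 / R.den4 := by
    rw [hth]
    have : 0 < R.den4 := by linarith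
    simp only [RP.num4, RP.lmd, RP.d2]
    field_simp
    ring
  have hden4 : 0 < R.den4 := by linarith
  have hthp : 0 < th := by rw [hthn]; exact div_pos hnum hden4
  have hthd : th * R.den4 = R.num4 := by rw [hthn]; field_simp
  have hgg : (1 + R.rho) / 2 * R.s + (1 - R.rho) / 2 * R.t = R.g2 / 2 := by
    simp only [RP.g2, RP.lam2, RP.mu2]; ring
  -- the scalar inequality
  have hV : 0 < R.V4 := by
    simp only [RP.V4, RP.c2]
    have h1 : 0 < R.wg4 := by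
      rw [wg4_eq, ← g.hfg]
      have := g.hfg0
      positivity
    have h2 : 0 < R.L2 := by linarith
    positivity
  have hw4 : 0 < R.wq4 := by linarith
  have hii := ii_dict g (b := R.bn / R.bd) (V := R.V4 / 4) (den := R.den4 / 4) (wz := R.wz2 / 2)
    (th := th) (by simp only [RP.V4, RP.c2, RP.wg4]; ring) hden
    (by simp only [RP.wz2, RP.ws, RP.wt]; ring) hth (hKp hG) (by
      have e : (R.c - R.bn / R.bd * R.c ^ 3) * (2 * R.c / (R.C2 * (R.V4 / 4)) +
          (R.d - 2 * R.rho) * (R.L2 / 2) / (R.d * (R.den4 / 4))) +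
          R.bn / R.bd * R.c ^ 2 * (1 + (R.d - 2 * R.rho) * (R.wz2 / 2) / (R.d * (R.den4 / 4))) -
          1 / (R.wq4 / 4) = R.oDI / (R.bd * R.C2 * R.V4 * R.d * R.den4 * R.wq4) := by
        rw [eq_div_iff (by positivity)]
        simp only [RP.oDI, RP.K3, RP.bc2, RP.c2, RP.dden, RP.CV, RP.d2]
        field_simp
        ring
      rw [e]
      exact div_nonneg cD (by positivity))
  refine pairStep_dict (th := th) g.h0 g.h1 g.hs.le g.ht.le hthp ?_ ?_ ?_ ?_ ?_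
  · rw [hgg, ← hG.pfg]; exact g.hfg0
  · rw [hgg, hthn]
    simp only [RP.od3] at c3
    rw [div_mul_eq_mul_div, div_le_iff₀ hden4]
    linarith
  · rw [hgg, hthn]
    simp only [RP.od4] at c4
    rw [div_mul_eq_mul_div, le_div_iff₀ hden4]
    linarith
  · rw [hgg]
    apply le_of_eq
    have h1 : th * R.den4 - R.num4 = 0 := by rw [hthd]; ring
    simp only [RP.num4, RP.den4, RP.lmd, RP.d2, RP.d, RP.wg4, RP.lam2, RP.mu2, RP.g2] at h1 ⊢
    linear_combination (-1 / 4) * h1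
  · rw [hgg, ← hG.pfs, ← hG.pft, ← hG.pfg]
    have e1 : (1 + R.rho) / 2 = R.lam2 / 2 := by simp only [RP.lam2]
    have e2 : (1 - R.rho) / 2 = R.mu2 / 2 := by simp only [RP.mu2]
    rw [e1, e2]
    have e3 : 1 - (R.g2 / 2) ^ 2 + R.g2 / 2 * (R.rho * (R.s - R.t) / 2) = R.wq4 / 4 := by
      rw [g.hwq, g.hd]
    rw [e3, ← g.hd]
    simp only [Psi, ← hG.pc, ← hG.pfs, ← hG.pft, ← hG.pfg]
    exact hii

/-- all kinds -/
theorem pair_of_clause {B : Bs} {x : ℕ → ℝ} {a b e : ℝ} (hS : Sp B x a b e R) (hG : GR R fg)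
    (pa : 0 < a) (pb : 0 < b) (pe : 0 < e) (hr : R.rho ^ 2 ≤ 1 / 2)
    (hcl : ∀ E ∈ clause B p, 0 ≤ E.val x (fun _ => 1)) : PairStep R.rho R.s R.t (Psi R) := by
  unfold clause at hcl
  split at hcl
  · -- kind 0
    have h0 : ∀ E ∈ clause0 B p, 0 ≤ E.val x (fun _ => 1) := fun E hE =>
      hcl E (by simp only [List.mem_append]; exact Or.inr (Or.inr (Or.inr hE)))
    have hc : ∀ E ∈ cons0 p, 0 ≤ E.val x (fun _ => 1) := fun E hE =>
      hcl E (by simp only [List.mem_append]; exact Or.inl hE)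
    have hx1 : ∀ E ∈ ex1 B p, 0 ≤ E.val x (fun _ => 1) := fun E hE =>
      hcl E (by simp only [List.mem_append]; exact Or.inr (Or.inl hE))
    have hx2 : ∀ E ∈ ex2 B p, 0 ≤ E.val x (fun _ => 1) := fun E hE =>
      hcl E (by simp only [List.mem_append]; exact Or.inr (Or.inr (Or.inl hE)))
    have k1 := hc (.c p.G1) (by simp [cons0])
    have k2 := hc (.c p.G2) (by simp [cons0])
    have k3 := hc (.c p.ga1) (by simp [cons0])
    have k4 := hc (.c p.ga2) (by simp [cons0])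
    simp only [Ex.val, Int.cast_nonneg_iff] at k1 k2 k3 k4
    refine pair0 hG (cl0 hS pa pb pe h0) ?_ ?_ k1 k2 k3 k4
    · by_cases hh : p.h1 = true
      · exact Or.inr (clx1 hS pa pb pe hh hx1)
      · left
        have := hx1 (.c (p.H1 - p.G1)) (by simp [ex1, hh])
        simp only [Ex.val, Int.cast_nonneg_iff] at this
        omega
    · by_cases hh : p.h2 = true
      · exact Or.inr (clx2 hS pa pb pe hh hx2)
      · left
        have := hx2 (.c (p.H2 - p.G2)) (by simp [ex2, hh])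
        simp only [Ex.val, Int.cast_nonneg_iff] at this
        omega
  · -- kind 1
    split_ifs at hcl with hd
    · exact pair1 hG (hS.hdict hd).1 (hS.hdict hd).2 (cl1 hS pa pb pe hcl)
    · exfalso
      have := hcl (.c (-1)) (by simp)
      simp only [Ex.val] at this
      norm_num at this
  · -- kind 2
    exfalso
    have h := cl2 hS pa pb pe hcl
    simp only [RP.otr] at h
    have := hG.G.hst
    linarith
  · exact pair3 hG hr (cl3 hS pa pb pe hcl)

end Crest.Agent.R307.FB
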