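import Crest.Agent.R307.Calc

/-!
Row 307, task T11a: elementary bounds for `psi`, `kappa`, `log` (helper129).
-/

set_option autoImplicit false

open Crest.CubeNoise Set

namespace Crest.Agent.R307

/-- monotonicity on `[0,1)` from a nonnegative derivative. -/
private theorem mono_of_hasDerivAt {f f' : ℝ → ℝ}
    (hd : ∀ x : ℝ, 0 ≤ x → x < 1 → HasDerivAt f (f' x) x)
    (hn : ∀ x : ℝ, 0 < x → x < 1 → 0 ≤ f' x) : MonotoneOn f (Ico 0 1) := by
  refine monotoneOn_of_deriv_nonneg (convex_Ico 0 1) ?_ ?_ ?_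
  · intro x hx
    exact (hd x hx.1 hx.2).continuousAt.continuousWithinAt
  · rw [interior_Ico]
    intro x hx
    exact (hd x hx.1.le hx.2).differentiableAt.differentiableWithinAt
  · rw [interior_Ico]
    intro x hx
    rw [(hd x hx.1.le hx.2).deriv]
    exact hn x hx.1 hx.2

private theorem nonneg_of_hasDerivAt {f f' : ℝ → ℝ}
    (hd : ∀ x : ℝ, 0 ≤ x → x < 1 → HasDerivAt f (f' x) x)
    (hn : ∀ x : ℝ, 0 < x → x < 1 → 0 ≤ f' x) (h0 : f 0 = 0) {x : ℝ} (hx0 : 0 ≤ x) (hx1 : x < 1) :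
    0 ≤ f x := by
  have := mono_of_hasDerivAt hd hn (left_mem_Ico.mpr one_pos) ⟨hx0, hx1⟩ hx0
  rwa [h0] at this

/-- `x + x^3/3 ≤ artanh x` -/
theorem add_cube_le_artanh {x : ℝ} (h0 : 0 ≤ x) (h1 : x < 1) :
    x + x ^ 3 / 3 ≤ Real.artanh x := by
  have h := nonneg_of_hasDerivAt (f := fun x => Real.artanh x - x - x ^ 3 / 3)
    (f' := fun x => x ^ 4 / (1 - x ^ 2)) (fun y hy0 hy1 => by
      have h3 := one_sub_sq_pos hy0 hy1
      refine (((hasDerivAt_artanh (abs_lt_one_of_mem hy0 hy1)).sub (hasDerivAt_id y)).sub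
        ((hasDerivAt_pow 3 y).div_const 3)).congr_deriv ?_
      field_simp
      push_cast
      ring) (fun y hy0 hy1 => by
      have h3 := one_sub_sq_pos hy0.le hy1
      positivity) (by simp) h0 h1
  try simp only at h
  linarith

/-- `artanh t ≤ t (1 - (2/3) t^2 - (2/15) t^4) / (1 - t^2)` -/
theorem artanh_le_poly {t : ℝ} (h0 : 0 ≤ t) (h1 : t < 1) :
    Real.artanh t ≤ (t - 2 / 3 * t ^ 3 - 2 / 15 * t ^ 5) / (1 - t ^ 2) := by
  have h := nonneg_of_hasDerivAt
    (f := fun t => (t - 2 / 3 * t ^ 3 - 2 / 15 * t ^ 5) / (1 - t ^ 2) - Real.artanh t)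
    (f' := fun t => 2 / 5 * t ^ 6 / (1 - t ^ 2) ^ 2) (fun y hy0 hy1 => by
      have h3 := one_sub_sq_pos hy0 hy1
      have e1 : HasDerivAt (fun x : ℝ => 1 - x ^ 2) (-(2 * y)) y := by
        have := (hasDerivAt_pow 2 y).const_sub 1
        simpa using this
      have e2 : HasDerivAt (fun t : ℝ => t - 2 / 3 * t ^ 3 - 2 / 15 * t ^ 5)
          (1 - 2 / 3 * (3 * y ^ 2) - 2 / 15 * (5 * y ^ 4)) y := by
        have a := (hasDerivAt_pow 3 y).const_mul (2 / 3 : ℝ)
        have b := (hasDerivAt_pow 5 y).const_mul (2 / 15 : ℝ)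
        have := ((hasDerivAt_id y).sub a).sub b
        refine this.congr_deriv ?_
        push_cast
        ring
      refine ((e2.div e1 h3.ne').sub
        (hasDerivAt_artanh (abs_lt_one_of_mem hy0 hy1))).congr_deriv ?_
      field_simp
      ring) (fun y hy0 hy1 => by positivity) (by simp) h0 h1
  try simp only at h
  linarith

/-- lower bound for `kappa`. -/
theorem kappa_ge_poly {t : ℝ} (h0 : 0 ≤ t) (h1 : t < 1) :
    2 + 2 / 3 * t ^ 2 + 26 / 45 * t ^ 4 ≤ kappa t := by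
  rcases eq_or_lt_of_le h0 with h | h
  · rw [← h, kappa_zero]; norm_num
  rw [kappa_of_pos h]
  have hA := artanh_pos' h h1
  have h3 := one_sub_sq_pos h0 h1
  have hle := artanh_le_poly h0 h1
  rw [le_div_iff₀ h3] at hle
  have hs1 : t ^ 2 < 1 := by nlinarith
  have hs0 : 0 ≤ t ^ 2 := sq_nonneg t
  have key : 1 + 2 / 3 * t ^ 2 + 26 / 45 * t ^ 4 ≤ t / ((1 - t ^ 2) * Real.artanh t) := by
    rw [le_div_iff₀ (mul_pos h3 hA)]
    have hc : 0 ≤ 1 + 2 / 3 * t ^ 2 + 26 / 45 * t ^ 4 := by positivity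
    have h5 : (1 + 2 / 3 * t ^ 2 + 26 / 45 * t ^ 4) * (Real.artanh t * (1 - t ^ 2)) ≤
        (1 + 2 / 3 * t ^ 2 + 26 / 45 * t ^ 4) * (t - 2 / 3 * t ^ 3 - 2 / 15 * t ^ 5) :=
      mul_le_mul_of_nonneg_left hle hc
    have h6 : (1 + 2 / 3 * t ^ 2 + 26 / 45 * t ^ 4) * (t - 2 / 3 * t ^ 3 - 2 / 15 * t ^ 5) ≤ t := by
      have : t - (1 + 2 / 3 * t ^ 2 + 26 / 45 * t ^ 4) * (t - 2 / 3 * t ^ 3 - 2 / 15 * t ^ 5) =
          64 / 135 * t ^ 7 + 52 / 675 * t ^ 9 := by ring
      have h7 : 0 ≤ 64 / 135 * t ^ 7 + 52 / 675 * t ^ 9 := by positivity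
      linarith
    calc (1 + 2 / 3 * t ^ 2 + 26 / 45 * t ^ 4) * ((1 - t ^ 2) * Real.artanh t)
        = (1 + 2 / 3 * t ^ 2 + 26 / 45 * t ^ 4) * (Real.artanh t * (1 - t ^ 2)) := by ring
      _ ≤ _ := h5
      _ ≤ t := h6
  linarith

/-- `psi` grows at least like its second Taylor polynomial. -/
theorem psi_sub_psi_ge {x y : ℝ} (hy : 0 ≤ y) (hyx : y ≤ x) (hx : x < 1) :
    (x ^ 2 - y ^ 2) / 2 + (x ^ 4 - y ^ 4) / 12 ≤ psi x - psi y := by
  have hmono := mono_of_hasDerivAt (f := fun x => psi x - x ^ 2 / 2 - x ^ 4 / 12)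
    (f' := fun x => Real.artanh x - x - x ^ 3 / 3) (fun z hz0 hz1 => by
      refine (((hasDerivAt_psi (abs_lt_one_of_mem hz0 hz1)).sub
        ((hasDerivAt_pow 2 z).div_const 2)).sub ((hasDerivAt_pow 4 z).div_const 12)).congr_deriv ?_
      push_cast
      ring) (fun z hz0 hz1 => by linarith [add_cube_le_artanh hz0.le hz1])
  have h := hmono ⟨hy, lt_of_le_of_lt hyx hx⟩ ⟨hy.trans hyx, hx⟩ hyx
  try simp only at h
  linarith

private theorem le_psi_poly_aux {x : ℝ} (h0 : 0 ≤ x) (h1 : x < 1) : x ^ 2 / 2 ≤ psi x := by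
  have h := psi_sub_psi_ge le_rfl h0 h1
  rw [psi_zero] at h
  have : 0 ≤ x ^ 4 := by positivity
  nlinarith

theorem le_psi_poly {x : ℝ} (hx : |x| ≤ 1) : x ^ 2 / 2 ≤ psi x := by
  have key : ∀ y : ℝ, 0 ≤ y → y ≤ 1 → y ^ 2 / 2 ≤ psi y := by
    intro y hy0 hy1
    rcases eq_or_lt_of_le hy1 with h | h
    · rw [h, psi_one]
      have := Real.log_two_gt_d9
      norm_num
      linarith
    · exact le_psi_poly_aux hy0 h
  have h := key |x| (abs_nonneg x) hx
  rw [sq_abs] at h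
  rcases abs_choice x with h' | h' <;> rw [h'] at h
  · exact h
  · rwa [psi_neg] at h

private theorem aux_deriv {x : ℝ} (h0 : 0 ≤ x) (h1 : x < 1) :
    0 ≤ x / (1 - x ^ 2) - 5 * Real.artanh x + 4 * x + 2 / 3 * x ^ 3 := by
  have h := nonneg_of_hasDerivAt
    (f := fun x => x / (1 - x ^ 2) - 5 * Real.artanh x + 4 * x + 2 / 3 * x ^ 3)
    (f' := fun x => 2 * x ^ 6 / (1 - x ^ 2) ^ 2) (fun y hy0 hy1 => by
      have h3 := one_sub_sq_pos hy0 hy1
      have e1 : HasDerivAt (fun x : ℝ => 1 - x ^ 2) (-(2 * y)) y := by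
        have := (hasDerivAt_pow 2 y).const_sub 1
        simpa using this
      refine (((((hasDerivAt_id y).div e1 h3.ne').sub
        ((hasDerivAt_artanh (abs_lt_one_of_mem hy0 hy1)).const_mul 5)).add
        ((hasDerivAt_id y).const_mul 4)).add
        ((hasDerivAt_pow 3 y).const_mul (2 / 3 : ℝ))).congr_deriv ?_
      simp only [id]
      push_cast
      field_simp
      ring) (fun y hy0 hy1 => by positivity) (by simp) h0 h1
  exact h

private theorem aux_N {x : ℝ} (h0 : 0 ≤ x) (h1 : x < 1) :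
    0 ≤ x * Real.artanh x - 6 * psi x + 2 * x ^ 2 + x ^ 4 / 6 := by
  have h := nonneg_of_hasDerivAt
    (f := fun x => x * Real.artanh x - 6 * psi x + 2 * x ^ 2 + x ^ 4 / 6)
    (f' := fun x => x / (1 - x ^ 2) - 5 * Real.artanh x + 4 * x + 2 / 3 * x ^ 3)
    (fun y hy0 hy1 => by
      have hy := abs_lt_one_of_mem hy0 hy1
      refine (((((hasDerivAt_id y).mul (hasDerivAt_artanh hy)).sub
        ((hasDerivAt_psi hy).const_mul 6)).add ((hasDerivAt_pow 2 y).const_mul (2 : ℝ))).add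
        ((hasDerivAt_pow 4 y).div_const 6)).congr_deriv ?_
      simp only [id]
      push_cast
      ring) (fun y hy0 hy1 => aux_deriv hy0.le hy1) (by simp [psi_zero]) h0 h1
  exact h

theorem psi_le_poly {x : ℝ} (hx : |x| ≤ 1) :
    psi x ≤ x ^ 2 / 2 + x ^ 4 / 12 + 11 / 100 * x ^ 6 := by
  have key : ∀ s : ℝ, 0 < s → s ≤ 1 →
      psi s ≤ s ^ 2 / 2 + s ^ 4 / 12 + 11 / 100 * s ^ 6 := by
    intro s hs0 hs1
    have hd : ∀ x : ℝ, 0 < x → x < 1 →
        HasDerivAt (fun x => (psi x - x ^ 2 / 2 - x ^ 4 / 12) / x ^ 6)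
        ((x * Real.artanh x - 6 * psi x + 2 * x ^ 2 + x ^ 4 / 6) / x ^ 7) x := by
      intro x hx0 hx1
      have hx := abs_lt_one_of_mem hx0.le hx1
      refine ((((hasDerivAt_psi hx).sub ((hasDerivAt_pow 2 x).div_const 2)).sub
        ((hasDerivAt_pow 4 x).div_const 12)).div (hasDerivAt_pow 6 x)
        (by positivity)).congr_deriv ?_
      simp only [Pi.sub_apply]
      push_cast
      field_simp
      ring
    have hmono : MonotoneOn (fun x => (psi x - x ^ 2 / 2 - x ^ 4 / 12) / x ^ 6) (Icc s 1) := by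
      refine monotoneOn_of_deriv_nonneg (convex_Icc s 1) ?_ ?_ ?_
      · refine ContinuousOn.div ?_ (continuousOn_pow 6) ?_
        · have := continuous_psi
          fun_prop
        · intro x hx
          have : 0 < x := lt_of_lt_of_le hs0 hx.1
          positivity
      · rw [interior_Icc]
        intro x hx
        exact (hd x (hs0.trans hx.1) hx.2).differentiableAt.differentiableWithinAt
      · rw [interior_Icc]
        intro x hx
        have hx0 := hs0.trans hx.1
        rw [(hd x hx0 hx.2).deriv]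
        exact div_nonneg (aux_N hx0.le hx.2) (by positivity)
    have h := hmono (left_mem_Icc.mpr hs1) (right_mem_Icc.mpr hs1) hs1
    simp only [psi_one, one_pow, div_one] at h
    rw [div_le_iff₀ (by positivity)] at h
    have hl := Real.log_two_lt_d9
    have hc : Real.log 2 - 1 / 2 - 1 / 12 ≤ 11 / 100 := by linarith
    have hp : 0 ≤ s ^ 6 := by positivity
    nlinarith [mul_le_mul_of_nonneg_right hc hp]
  rcases eq_or_ne x 0 with h0 | h0
  · rw [h0, psi_zero]; norm_num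
  have hpos : 0 < |x| := abs_pos.mpr h0
  have h := key |x| hpos hx
  have e4 : |x| ^ 4 = x ^ 4 := by
    rw [show (4 : ℕ) = 2 * 2 from rfl, pow_mul, pow_mul, sq_abs]
  have e6 : |x| ^ 6 = x ^ 6 := by
    rw [show (6 : ℕ) = 2 * 3 from rfl, pow_mul, pow_mul, sq_abs]
  rw [sq_abs, e4, e6] at h
  rcases abs_choice x with h' | h' <;> rw [h'] at h
  · exact h
  · rwa [psi_neg] at h

theorem neg_log_one_sub_ge {t : ℝ} (h0 : 0 ≤ t) (h1 : t < 1) :
    t + t ^ 2 / 2 + t ^ 3 / 3 ≤ -Real.log (1 - t) := by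
  have h := nonneg_of_hasDerivAt (f := fun t => -Real.log (1 - t) - t - t ^ 2 / 2 - t ^ 3 / 3)
    (f' := fun t => t ^ 3 / (1 - t)) (fun y hy0 hy1 => by
      have h3 : 0 < 1 - y := by linarith
      have d2 : HasDerivAt (fun y : ℝ => Real.log (1 - y)) (-1 / (1 - y)) y := by
        have := ((hasDerivAt_id y).const_sub 1).log (by simpa using h3.ne')
        simpa using this
      refine (((d2.neg.sub (hasDerivAt_id y)).sub ((hasDerivAt_pow 2 y).div_const 2)).sub
        ((hasDerivAt_pow 3 y).div_const 3)).congr_deriv ?_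
      push_cast
      field_simp
      ring) (fun y hy0 hy1 => by
      have h3 : 0 < 1 - y := by linarith
      positivity) (by simp) h0 h1
  try simp only at h
  linarith

theorem log_two_div_le {m : ℝ} (h0 : 0 ≤ m) (h1 : m < 1) :
    Real.log (2 / (1 + m)) ≤ (1 - m) * (3 + m) / (4 * (1 + m)) := by
  have hd : ∀ x : ℝ, 0 ≤ x → HasDerivAt
      (fun m : ℝ => (1 - m) * (3 + m) / (4 * (1 + m)) + Real.log (1 + m))
      (-((1 - x) ^ 2 / (4 * (1 + x) ^ 2))) x := by
    intro x hx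
    have h3 : 0 < 1 + x := by linarith
    have e1 : HasDerivAt (fun m : ℝ => (1 - m) * (3 + m)) ((-1) * (3 + x) + (1 - x) * 1) x := by
      have a := (hasDerivAt_id x).const_sub 1
      have b := (hasDerivAt_id x).const_add 3
      exact a.mul b
    have e2 : HasDerivAt (fun m : ℝ => 4 * (1 + m)) (4 * 1) x :=
      ((hasDerivAt_id x).const_add 1).const_mul 4
    have d1 : HasDerivAt (fun y : ℝ => Real.log (1 + y)) (1 / (1 + x)) x := by
      have := ((hasDerivAt_id x).const_add 1).log (by simpa using h3.ne')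
      simpa using this
    refine ((e1.div e2 (by positivity)).add d1).congr_deriv ?_
    field_simp
    ring
  have hanti : AntitoneOn
      (fun m : ℝ => (1 - m) * (3 + m) / (4 * (1 + m)) + Real.log (1 + m)) (Icc 0 1) := by
    refine antitoneOn_of_deriv_nonpos (convex_Icc 0 1) ?_ ?_ ?_
    · intro x hx
      exact (hd x hx.1).continuousAt.continuousWithinAt
    · rw [interior_Icc]
      intro x hx
      exact (hd x hx.1.le).differentiableAt.differentiableWithinAt
    · rw [interior_Icc]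
      intro x hx
      rw [(hd x hx.1.le).deriv]
      have h3 : 0 < 1 + x := by linarith [hx.1]
      have : 0 ≤ (1 - x) ^ 2 / (4 * (1 + x) ^ 2) := by positivity
      linarith
  have h := hanti ⟨h0, h1.le⟩ (right_mem_Icc.mpr zero_le_one) h1.le
  try simp only at h
  norm_num at h
  rw [Real.log_div two_ne_zero (by linarith)]
  linarith

end Crest.Agent.R307
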