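import Crest.Agent.R307.Calc

/-!
Row 307, task T11a (stronger versions, helper437; the method is helper129's of `FFa.lean`).
-/

set_option autoImplicit false

open Crest.CubeNoise Set

namespace Crest.Agent.R307.FFe

theorem mono_of_hasDerivAt {f f' : ℝ → ℝ}
    (hd : ∀ x : ℝ, 0 ≤ x → x < 1 → HasDerivAt f (f' x) x)
    (hn : ∀ x : ℝ, 0 < x → x < 1 → 0 ≤ f' x) : MonotoneOn f (Ico 0 1) := by
  refine monotoneOn_of_deriv_nonneg (convex_Ico 0 1) ?_ ?_ ?_
  · intro x hx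
    exact (hd x hx.1 hx.2).continuousAt.continuousWithinAt
  · rw [interior_Ico]
    intro x hx
    exact (hd x hx.1.le hx.2).differentiableAt.differentiableWithinAt
  · rw [interior_Ico]
    intro x hx
    rw [(hd x hx.1.le hx.2).deriv]
    exact hn x hx.1 hx.2

theorem nonneg_of_hasDerivAt {f f' : ℝ → ℝ}
    (hd : ∀ x : ℝ, 0 ≤ x → x < 1 → HasDerivAt f (f' x) x)
    (hn : ∀ x : ℝ, 0 < x → x < 1 → 0 ≤ f' x) (h0 : f 0 = 0) {x : ℝ} (hx0 : 0 ≤ x) (hx1 : x < 1) :
    0 ≤ f x := by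
  have := mono_of_hasDerivAt hd hn (left_mem_Ico.mpr one_pos) ⟨hx0, hx1⟩ hx0
  rwa [h0] at this

/-- `x + x^3/3 + x^5/5 ≤ artanh x` -/
theorem artanh_ge3 {x : ℝ} (h0 : 0 ≤ x) (h1 : x < 1) :
    x + x ^ 3 / 3 + x ^ 5 / 5 ≤ Real.artanh x := by
  have h := nonneg_of_hasDerivAt (f := fun x => Real.artanh x - x - x ^ 3 / 3 - x ^ 5 / 5)
    (f' := fun x => x ^ 6 / (1 - x ^ 2)) (fun y hy0 hy1 => by
      have h3 := one_sub_sq_pos hy0 hy1
      refine ((((hasDerivAt_artanh (abs_lt_one_of_mem hy0 hy1)).sub (hasDerivAt_id y)).sub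
        ((hasDerivAt_pow 3 y).div_const 3)).sub ((hasDerivAt_pow 5 y).div_const 5)).congr_deriv ?_
      field_simp
      push_cast
      ring) (fun y hy0 hy1 => by
      have h3 := one_sub_sq_pos hy0.le hy1
      positivity) (by simp) h0 h1
  try simp only at h
  linarith

theorem psi_sub_psi_ge3 {x y : ℝ} (hy : 0 ≤ y) (hyx : y ≤ x) (hx : x < 1) :
    (x ^ 2 - y ^ 2) / 2 + (x ^ 4 - y ^ 4) / 12 + (x ^ 6 - y ^ 6) / 30 ≤ psi x - psi y := by
  have hmono := mono_of_hasDerivAt (f := fun x => psi x - x ^ 2 / 2 - x ^ 4 / 12 - x ^ 6 / 30)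
    (f' := fun x => Real.artanh x - x - x ^ 3 / 3 - x ^ 5 / 5) (fun z hz0 hz1 => by
      refine ((((hasDerivAt_psi (abs_lt_one_of_mem hz0 hz1)).sub
        ((hasDerivAt_pow 2 z).div_const 2)).sub ((hasDerivAt_pow 4 z).div_const 12)).sub
        ((hasDerivAt_pow 6 z).div_const 30)).congr_deriv ?_
      push_cast
      ring) (fun z hz0 hz1 => by linarith [artanh_ge3 hz0.le hz1])
  have h := hmono ⟨hy, lt_of_le_of_lt hyx hx⟩ ⟨hy.trans hyx, hx⟩ hyx
  simp only at h
  linarith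

theorem psi_ge3 {x : ℝ} (h0 : 0 ≤ x) (h1 : x < 1) :
    x ^ 2 / 2 + x ^ 4 / 12 + x ^ 6 / 30 ≤ psi x := by
  have h := psi_sub_psi_ge3 le_rfl h0 h1
  rw [psi_zero] at h
  norm_num at h
  linarith

private theorem aux_deriv {x : ℝ} (h0 : 0 ≤ x) (h1 : x < 1) :
    0 ≤ x / (1 - x ^ 2) - 7 * Real.artanh x + 6 * x + 4 / 3 * x ^ 3 + 2 / 5 * x ^ 5 := by
  have h := nonneg_of_hasDerivAt
    (f := fun x => x / (1 - x ^ 2) - 7 * Real.artanh x + 6 * x + 4 / 3 * x ^ 3 + 2 / 5 * x ^ 5)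
    (f' := fun x => 2 * x ^ 8 / (1 - x ^ 2) ^ 2) (fun y hy0 hy1 => by
      have h3 := one_sub_sq_pos hy0 hy1
      have e1 : HasDerivAt (fun x : ℝ => 1 - x ^ 2) (-(2 * y)) y := by
        have := (hasDerivAt_pow 2 y).const_sub 1
        simpa using this
      refine ((((((hasDerivAt_id y).div e1 h3.ne').sub
        ((hasDerivAt_artanh (abs_lt_one_of_mem hy0 hy1)).const_mul 7)).add
        ((hasDerivAt_id y).const_mul 6)).add
        ((hasDerivAt_pow 3 y).const_mul (4 / 3 : ℝ))).add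
        ((hasDerivAt_pow 5 y).const_mul (2 / 5 : ℝ))).congr_deriv ?_
      simp only [id]
      push_cast
      field_simp
      ring) (fun y hy0 hy1 => by positivity) (by simp) h0 h1
  exact h

private theorem aux_N {x : ℝ} (h0 : 0 ≤ x) (h1 : x < 1) :
    0 ≤ x * Real.artanh x - 8 * psi x + 3 * x ^ 2 + x ^ 4 / 3 + x ^ 6 / 15 := by
  have h := nonneg_of_hasDerivAt
    (f := fun x => x * Real.artanh x - 8 * psi x + 3 * x ^ 2 + x ^ 4 / 3 + x ^ 6 / 15)
    (f' := fun x => x / (1 - x ^ 2) - 7 * Real.artanh x + 6 * x + 4 / 3 * x ^ 3 + 2 / 5 * x ^ 5)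
    (fun y hy0 hy1 => by
      have hy := abs_lt_one_of_mem hy0 hy1
      refine ((((((hasDerivAt_id y).mul (hasDerivAt_artanh hy)).sub
        ((hasDerivAt_psi hy).const_mul 8)).add ((hasDerivAt_pow 2 y).const_mul (3 : ℝ))).add
        ((hasDerivAt_pow 4 y).div_const 3)).add ((hasDerivAt_pow 6 y).div_const 15)).congr_deriv ?_
      simp only [id]
      push_cast
      ring) (fun y hy0 hy1 => aux_deriv hy0.le hy1) (by simp [psi_zero]) h0 h1
  exact h

theorem psi_le4 {s : ℝ} (h0 : 0 ≤ s) (hs1 : s ≤ 1) :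
    psi s ≤ s ^ 2 / 2 + s ^ 4 / 12 + s ^ 6 / 30 + s ^ 8 / 13 := by
  rcases eq_or_lt_of_le h0 with h0' | hs0
  · rw [← h0', psi_zero]; norm_num
  have hd : ∀ x : ℝ, 0 < x → x < 1 →
      HasDerivAt (fun x => (psi x - x ^ 2 / 2 - x ^ 4 / 12 - x ^ 6 / 30) / x ^ 8)
      ((x * Real.artanh x - 8 * psi x + 3 * x ^ 2 + x ^ 4 / 3 + x ^ 6 / 15) / x ^ 9) x := by
    intro x hx0 hx1
    have hx := abs_lt_one_of_mem hx0.le hx1
    refine (((((hasDerivAt_psi hx).sub ((hasDerivAt_pow 2 x).div_const 2)).sub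
      ((hasDerivAt_pow 4 x).div_const 12)).sub ((hasDerivAt_pow 6 x).div_const 30)).div
      (hasDerivAt_pow 8 x) (by positivity)).congr_deriv ?_
    simp only [Pi.sub_apply]
    push_cast
    field_simp
    ring
  have hmono : MonotoneOn (fun x => (psi x - x ^ 2 / 2 - x ^ 4 / 12 - x ^ 6 / 30) / x ^ 8)
      (Icc s 1) := by
    refine monotoneOn_of_deriv_nonneg (convex_Icc s 1) ?_ ?_ ?_
    · refine ContinuousOn.div ?_ (continuousOn_pow 8) ?_
      · have := continuous_psi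
        fun_prop
      · intro x hx
        have : 0 < x := lt_of_lt_of_le hs0 hx.1
        positivity
    · rw [interior_Icc]
      intro x hx
      exact (hd x (hs0.trans hx.1) hx.2).differentiableAt.differentiableWithinAt
    · rw [interior_Icc]
      intro x hx
      have hx0 := hs0.trans hx.1
      rw [(hd x hx0 hx.2).deriv]
      exact div_nonneg (aux_N hx0.le hx.2) (by positivity)
  have h := hmono (left_mem_Icc.mpr hs1) (right_mem_Icc.mpr hs1) hs1
  simp only [psi_one, one_pow, div_one] at h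
  rw [div_le_iff₀ (by positivity)] at h
  have hl := Real.log_two_lt_d9
  have hc : Real.log 2 - 1 / 2 - 1 / 12 - 1 / 30 ≤ 1 / 13 := by linarith
  have hp : 0 ≤ s ^ 8 := by positivity
  nlinarith [mul_le_mul_of_nonneg_right hc hp]

theorem neg_log_ge4 {t : ℝ} (h0 : 0 ≤ t) (h1 : t < 1) :
    t + t ^ 2 / 2 + t ^ 3 / 3 + t ^ 4 / 4 ≤ -Real.log (1 - t) := by
  have h := nonneg_of_hasDerivAt
    (f := fun t => -Real.log (1 - t) - t - t ^ 2 / 2 - t ^ 3 / 3 - t ^ 4 / 4)
    (f' := fun t => t ^ 4 / (1 - t)) (fun y hy0 hy1 => by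
      have h3 : 0 < 1 - y := by linarith
      have d2 : HasDerivAt (fun y : ℝ => Real.log (1 - y)) (-1 / (1 - y)) y := by
        have := ((hasDerivAt_id y).const_sub 1).log (by simpa using h3.ne')
        simpa using this
      refine ((((d2.neg.sub (hasDerivAt_id y)).sub ((hasDerivAt_pow 2 y).div_const 2)).sub
        ((hasDerivAt_pow 3 y).div_const 3)).sub ((hasDerivAt_pow 4 y).div_const 4)).congr_deriv ?_
      push_cast
      field_simp
      ring) (fun y hy0 hy1 => by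
      have h3 : 0 < 1 - y := by linarith
      positivity) (by simp) h0 h1
  try simp only at h
  linarith

end Crest.Agent.R307.FFe
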