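import Crest.Agent.R307.Persp

/-!
Row 307 (S0472-T11c, task 982, helper731): lower bound for `LL` with the variance term.
-/

set_option autoImplicit false

open Set Crest.CubeNoise

namespace Crest.Agent.R307

/-- `3 t / (3 - t^2) ≤ artanh t` on `[0,1)`. -/
theorem FFc.artanh_ge {t : ℝ} (h0 : 0 ≤ t) (h1 : t < 1) : 3 * t / (3 - t ^ 2) ≤ Real.artanh t := by
  have hd : ∀ x : ℝ, 0 ≤ x → x < 1 → HasDerivAt (fun x => Real.artanh x - 3 * x / (3 - x ^ 2))
      (4 * x ^ 4 / ((1 - x ^ 2) * (3 - x ^ 2) ^ 2)) x := by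
    intro x hx0 hx1
    have h3 := one_sub_sq_pos hx0 hx1
    have h4 : 0 < 3 - x ^ 2 := by linarith
    have e1 : HasDerivAt (fun x : ℝ => 3 - x ^ 2) (-(2 * x)) x := by
      have := (hasDerivAt_pow 2 x).const_sub 3
      simpa using this
    have e2 : HasDerivAt (fun x : ℝ => 3 * x) 3 x := by
      have := (hasDerivAt_id x).const_mul 3
      simpa using this
    refine ((hasDerivAt_artanh (abs_lt_one_of_mem hx0 hx1)).sub
      (e2.div e1 h4.ne')).congr_deriv ?_
    field_simp
    ring
  have hmono : MonotoneOn (fun x => Real.artanh x - 3 * x / (3 - x ^ 2)) (Ico 0 1) := by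
    refine monotoneOn_of_deriv_nonneg (convex_Ico 0 1) ?_ ?_ ?_
    · intro x hx
      exact (hd x hx.1 hx.2).continuousAt.continuousWithinAt
    · rw [interior_Ico]
      intro x hx
      exact (hd x hx.1.le hx.2).differentiableAt.differentiableWithinAt
    · rw [interior_Ico]
      intro x hx
      rw [(hd x hx.1.le hx.2).deriv]
      have h3 := one_sub_sq_pos hx.1.le hx.2
      positivity
  have := hmono (left_mem_Ico.mpr one_pos) ⟨h0, h1⟩ h0
  simp at this
  linarith

/-- `(4/3) artanh t ≤ kappa' t` on `(0,1)`. -/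
theorem FFc.kappa'_ge {t : ℝ} (h0 : 0 < t) (h1 : t < 1) : 4 / 3 * Real.artanh t ≤ kappa' t := by
  have hA := artanh_pos' h0 h1
  have h3 := one_sub_sq_pos h0.le h1
  have hl := FFc.artanh_ge h0.le h1
  have hh := artanh_le h0.le h1
  unfold kappa'
  set A := Real.artanh t with hAdef
  rw [le_div_iff₀ (by positivity)]
  have h4 : 0 < 3 - t ^ 2 := by linarith
  -- `l = 3t/(3-t²)`, `h = t/(1-t²)`
  set l := 3 * t / (3 - t ^ 2) with hldef
  set h := t / (1 - t ^ 2) with hhdef
  have hl' : l * (3 - t ^ 2) = 3 * t := by rw [hldef]; field_simp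
  have hh' : h * (1 - t ^ 2) = t := by rw [hhdef]; field_simp
  have hlpos : 0 < l := by rw [hldef]; positivity
  have hhpos : 0 < h := by rw [hhdef]; positivity
  set c := 4 / 3 * (1 - t ^ 2) ^ 2 with hc
  have hcpos : 0 < c := by rw [hc]; positivity
  -- values of `φ x = (1+t²) x - t - c x³` at the end points
  have hφl : 0 ≤ (1 + t ^ 2) * l - t - c * l ^ 3 := by
    have e : (1 + t ^ 2) * l - t - c * l ^ 3 =
        8 * t ^ 5 * (6 - 4 * t ^ 2) / (3 - t ^ 2) ^ 3 := by
      rw [hldef, hc]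
      field_simp
      ring
    rw [e]
    have : 0 < 6 - 4 * t ^ 2 := by nlinarith
    positivity
  have hφh : 0 ≤ (1 + t ^ 2) * h - t - c * h ^ 3 := by
    have e : (1 + t ^ 2) * h - t - c * h ^ 3 = 2 / 3 * t ^ 3 / (1 - t ^ 2) := by
      rw [hhdef, hc]
      field_simp
      ring
    rw [e]
    positivity
  -- concavity
  have key : 0 ≤ (1 + t ^ 2) * A - t - c * A ^ 3 := by
    rcases eq_or_lt_of_le (hl.trans hh) with hlh | hlh
    · have : A = l := le_antisymm (hlh ▸ hh) hl
      rw [this]; exact hφl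
    · have e : ((1 + t ^ 2) * A - t - c * A ^ 3) * (h - l) =
          ((1 + t ^ 2) * l - t - c * l ^ 3) * (h - A) + ((1 + t ^ 2) * h - t - c * h ^ 3) * (A - l)
          + c * (h - l) * (h - A) * (A - l) * (A + h + l) := by ring
      have h5 : 0 ≤ ((1 + t ^ 2) * A - t - c * A ^ 3) * (h - l) := by
        rw [e]
        have a1 : 0 ≤ h - A := by linarith
        have a2 : 0 ≤ A - l := by linarith
        have a3 : 0 ≤ h - l := by linarith
        have a4 : 0 ≤ A + h + l := by positivity
        have b1 := mul_nonneg hφl a1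
        have b2 := mul_nonneg hφh a2
        have b3 : 0 ≤ c * (h - l) * (h - A) * (A - l) * (A + h + l) := by positivity
        linarith
      exact nonneg_of_mul_nonneg_left h5 (by linarith)
  have e : 4 / 3 * A * ((1 - t ^ 2) ^ 2 * A ^ 2) = c * A ^ 3 := by rw [hc]; ring
  rw [e]
  linarith

/-- `kappa r - (4/3) psi r` is monotone on `[0,1)`. -/
theorem FFc.monotoneOn_kappa_sub : MonotoneOn (fun x => kappa x - 4 / 3 * psi x) (Ico 0 1) := by
  refine monotoneOn_of_deriv_nonneg (convex_Ico 0 1) ?_ ?_ ?_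
  · exact continuousOn_kappa.sub (continuous_psi.continuousOn.const_mul _ |>.mono (subset_univ _))
  · rw [interior_Ico]
    intro x hx
    exact ((hasDerivAt_kappa hx.1 hx.2).sub ((hasDerivAt_psi
      (abs_lt_one_of_mem hx.1.le hx.2)).const_mul (4 / 3))).differentiableAt.differentiableWithinAt
  · rw [interior_Ico]
    intro x hx
    have he : HasDerivAt (fun x => kappa x - 4 / 3 * psi x) (kappa' x - 4 / 3 * Real.artanh x) x :=
      (hasDerivAt_kappa hx.1 hx.2).sub ((hasDerivAt_psi
        (abs_lt_one_of_mem hx.1.le hx.2)).const_mul (4 / 3))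
    rw [he.deriv]
    linarith [FFc.kappa'_ge hx.1 hx.2]

/-- the tangent inequality of `SS - (2/3) I^2` in the parameters. -/
theorem FFc.tangent {t r : ℝ} (h0 : 0 ≤ t) (h1 : t < 1) (hr0 : 0 ≤ r) (hr1 : r < 1) :
    sF t - 2 / 3 * psi t ^ 2 + (kappa t - 2 - 4 / 3 * psi t) * (psi r - psi t) ≤
      sF r - 2 / 3 * psi r ^ 2 := by
  set f : ℝ → ℝ := fun x => sF x - 2 / 3 * psi x ^ 2 - (kappa t - 2 - 4 / 3 * psi t) * psi x with hf
  have hd : ∀ x : ℝ, 0 ≤ x → x < 1 → HasDerivAt f
      (((kappa x - 4 / 3 * psi x) - (kappa t - 4 / 3 * psi t)) * Real.artanh x) x := by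
    intro x hx0 hx1
    have hx := abs_lt_one_of_mem hx0 hx1
    refine (((hasDerivAt_sF hx).sub (((hasDerivAt_psi hx).pow 2).const_mul (2 / 3))).sub
      ((hasDerivAt_psi hx).const_mul (kappa t - 2 - 4 / 3 * psi t))).congr_deriv ?_
    have hk := kappa_mul_artanh hx0 hx1
    push_cast
    have e : x / (1 - x ^ 2) = kappa x * Real.artanh x - Real.artanh x := by linarith
    rw [e]
    ring
  have hcont : ContinuousOn f (Ico 0 1) := fun x hx =>
    (hd x hx.1 hx.2).continuousAt.continuousWithinAt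
  have hmain : f t ≤ f r := by
    rcases le_total t r with htt | htt
    · have hmono : MonotoneOn f (Ico t 1) := by
        refine monotoneOn_of_deriv_nonneg (convex_Ico t 1)
          (hcont.mono (Ico_subset_Ico_left h0)) ?_ ?_
        · rw [interior_Ico]
          intro x hx
          exact (hd x (h0.trans hx.1.le) hx.2).differentiableAt.differentiableWithinAt
        · rw [interior_Ico]
          intro x hx
          have hx0 : 0 ≤ x := h0.trans hx.1.le
          rw [(hd x hx0 hx.2).deriv]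
          have hk := FFc.monotoneOn_kappa_sub ⟨h0, h1⟩ ⟨hx0, hx.2⟩ hx.1.le
          simp only at hk
          exact mul_nonneg (by linarith) (Real.artanh_nonneg hx0)
      exact hmono ⟨le_rfl, h1⟩ ⟨htt, hr1⟩ htt
    · have hanti : AntitoneOn f (Icc 0 t) := by
        refine antitoneOn_of_deriv_nonpos (convex_Icc 0 t)
          (hcont.mono (fun x hx => ⟨hx.1, lt_of_le_of_lt hx.2 h1⟩)) ?_ ?_
        · rw [interior_Icc]
          intro x hx
          exact (hd x hx.1.le (hx.2.trans h1)).differentiableAt.differentiableWithinAt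
        · rw [interior_Icc]
          intro x hx
          rw [(hd x hx.1.le (hx.2.trans h1)).deriv]
          have hk := FFc.monotoneOn_kappa_sub ⟨hx.1.le, hx.2.trans h1⟩ ⟨h0, h1⟩ hx.2.le
          simp only at hk
          exact mul_nonpos_of_nonpos_of_nonneg (by linarith) (Real.artanh_nonneg hx.1.le)
      exact hanti ⟨hr0, htt⟩ ⟨h0, le_rfl⟩ htt
  rw [hf] at hmain
  simp only at hmain
  nlinarith

/-- **`LL` lower bound with variance term.** -/
theorem LL_ge_SS_add {m d : ℝ} (h0 : 0 ≤ m) (hd : 0 < d) (hd1 : d < 1 - m) :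
    SS (io (m+d) (m-d)) + (1-m^2)/6 * (psi (d/(1-m)) - psi (d/(1+m)))^2 ≤ LL (m+d) (m-d) := by
  have ha : |m + d| < 1 := by rw [abs_lt]; constructor <;> linarith
  have hb : |m - d| < 1 := by rw [abs_lt]; constructor <;> linarith
  have hio := io_persp ha hb
  have hLL := LL_persp ha hb
  have e1 : (m + d + (m - d)) / 2 = m := by ring
  have e2 : (m + d - (m - d)) / 2 = d := by ring
  rw [e1, e2] at hio hLL
  have hm1 : 0 < 1 - m := by linarith
  have hp1 : 0 < 1 + m := by linarith
  have hx0 : 0 ≤ d / (1 + m) := by positivity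
  have hx1 : d / (1 + m) < 1 := by rw [div_lt_one hp1]; linarith
  have hy0 : 0 ≤ d / (1 - m) := by positivity
  have hy1 : d / (1 - m) < 1 := by rw [div_lt_one hm1]; linarith
  have hpx := psi_lt_log_two (abs_lt_one_of_mem hx0 hx1)
  have hpy := psi_lt_log_two (abs_lt_one_of_mem hy0 hy1)
  have hpx0 := psi_nonneg (d / (1 + m))
  have hpy0 := psi_nonneg (d / (1 - m))
  set p := psi (d / (1 + m)) with hp
  set q := psi (d / (1 - m)) with hq
  set I := io (m + d) (m - d) with hI
  have hI0 : 0 ≤ I := by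
    rw [hio]
    have := mul_nonneg hp1.le hpx0
    have := mul_nonneg hm1.le hpy0
    linarith
  have hI1 : I < Real.log 2 := by
    rw [hio]
    nlinarith [mul_lt_mul_of_pos_left hpx hp1, mul_lt_mul_of_pos_left hpy hm1]
  have hm := hinv_mem (y := Real.log 2 - I) (by linarith)
  have hpsi := Persp.psi_hinv hI0 hI1
  have h1 := FFc.tangent hm.1 hm.2 hx0 hx1
  have h2 := FFc.tangent hm.1 hm.2 hy0 hy1
  rw [hpsi] at h1 h2
  rw [← hp] at h1
  rw [← hq] at h2
  have hSS : SS I = sF (hinv (Real.log 2 - I)) := rfl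
  rw [hSS, hLL]
  set t := hinv (Real.log 2 - I) with ht
  set K := kappa t - 2 - 4 / 3 * I with hK
  have h3 := mul_le_mul_of_nonneg_left h1 (by linarith : 0 ≤ (1 + m) / 2)
  have h4 := mul_le_mul_of_nonneg_left h2 (by linarith : 0 ≤ (1 - m) / 2)
  have e3 : (1 + m) / 2 * (p - I) + (1 - m) / 2 * (q - I) = 0 := by rw [hio]; ring
  have e4 : (1 + m) / 2 * p ^ 2 + (1 - m) / 2 * q ^ 2 - I ^ 2 = (1 - m ^ 2) / 4 * (q - p) ^ 2 := by
    rw [hio]; ring
  have e5 : (1 + m) / 2 * (K * (p - I)) + (1 - m) / 2 * (K * (q - I)) = 0 := by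
    have : (1 + m) / 2 * (K * (p - I)) + (1 - m) / 2 * (K * (q - I)) =
      K * ((1 + m) / 2 * (p - I) + (1 - m) / 2 * (q - I)) := by ring
    rw [this, e3, mul_zero]
  linarith

end Crest.Agent.R307
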