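import Mathlib
import Crest.Prelude.Def_CubeNoise

/-!
Row 307: S0470 from the rate bound (part 1 of S0472), by an ODE comparison along the noise semigroup.
-/

set_option autoImplicit false

open Crest.CubeNoise Set Filter Topology

namespace Crest.Agent.R307.Ode

lemma spin_not (b : Bool) : spin (!b) = - spin b := by cases b <;> simp [spin]

lemma spin_mul_self (b : Bool) : spin b * spin b = 1 := by cases b <;> simp [spin]

/-- noise weights -/
noncomputable def wt {n : ℕ} (ρ : ℝ) (x y : Fin n → Bool) : ℝ :=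
  ∏ i, (1 + ρ * spin (x i) * spin (y i)) / 2

lemma noise_eq {n : ℕ} (ρ : ℝ) (u : (Fin n → Bool) → ℝ) (x : Fin n → Bool) :
    noise ρ u x = ∑ y, wt ρ x y * u y := rfl

lemma wt_symm {n : ℕ} (ρ : ℝ) (x y : Fin n → Bool) : wt ρ x y = wt ρ y x := by
  unfold wt
  refine Finset.prod_congr rfl fun i _ => ?_
  ring

lemma sum_wt {n : ℕ} (ρ : ℝ) (x : Fin n → Bool) : ∑ y, wt ρ x y = 1 := by
  unfold wt
  have h := Finset.prod_univ_sum (fun _ : Fin n => (Finset.univ : Finset Bool))
    (fun i b => (1 + ρ * spin (x i) * spin b) / 2)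
  rw [Fintype.piFinset_univ] at h
  rw [← h]
  refine Finset.prod_eq_one fun i _ => ?_
  simp [spin]
  ring

lemma wt_pos {n : ℕ} {ρ : ℝ} (h0 : |ρ| < 1) (x y : Fin n → Bool) : 0 < wt ρ x y := by
  unfold wt
  refine Finset.prod_pos fun i _ => ?_
  have h1 := abs_lt.1 h0
  rcases x i with _ | _ <;> rcases y i with _ | _ <;> simp [spin] <;> linarith

lemma wt_nonneg {n : ℕ} {ρ : ℝ} (h0 : |ρ| ≤ 1) (x y : Fin n → Bool) : 0 ≤ wt ρ x y := by
  unfold wt
  refine Finset.prod_nonneg fun i _ => ?_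
  have h1 := abs_le.1 h0
  rcases x i with _ | _ <;> rcases y i with _ | _ <;> simp [spin] <;> linarith

lemma wt_one {n : ℕ} (x y : Fin n → Bool) : wt 1 x y = if x = y then 1 else 0 := by
  unfold wt
  split_ifs with h
  · subst h
    refine Finset.prod_eq_one fun i _ => ?_
    rw [one_mul, spin_mul_self]; norm_num
  · obtain ⟨i, hi⟩ : ∃ i, x i ≠ y i := by
      by_contra hc
      push Not at hc
      exact h (funext hc)
    refine Finset.prod_eq_zero (Finset.mem_univ i) ?_
    rcases hx : x i with _ | _ <;> rcases hy : y i with _ | _ <;> simp_all [spin]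

lemma noise_one {n : ℕ} (u : (Fin n → Bool) → ℝ) : noise 1 u = u := by
  funext x
  rw [noise_eq]
  simp [wt_one]

lemma noise_neg {n : ℕ} (ρ : ℝ) (u : (Fin n → Bool) → ℝ) (x : Fin n → Bool) :
    noise (-ρ) u x = noise ρ u (fun i => !x i) := by
  rw [noise_eq, noise_eq]
  refine Finset.sum_congr rfl fun y _ => ?_
  congr 1
  unfold wt
  refine Finset.prod_congr rfl fun i _ => ?_
  rw [spin_not]; ring

lemma cubeAverage_comp_not {n : ℕ} (g : (Fin n → Bool) → ℝ) :
    cubeAverage (fun x => g (fun i => !x i)) = cubeAverage g := by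
  unfold cubeAverage
  congr 1
  have hinv : Function.Involutive (fun x : Fin n → Bool => fun i => !x i) := by
    intro x; funext i; simp
  exact Equiv.sum_comp (hinv.toPerm) g

lemma information_noise_neg {n : ℕ} (ρ : ℝ) (u : (Fin n → Bool) → ℝ) :
    information (noise (-ρ) u) = information (noise ρ u) := by
  have h : noise (-ρ) u = fun x => noise ρ u (fun i => !x i) := funext (noise_neg ρ u)
  unfold information
  rw [h, cubeAverage_comp_not (noise ρ u)]
  congr 1
  exact cubeAverage_comp_not (fun x => signEntropy (noise ρ u x))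

lemma information_noise_abs {n : ℕ} (ρ : ℝ) (u : (Fin n → Bool) → ℝ) :
    information (noise ρ u) = information (noise |ρ| u) := by
  rcases abs_choice ρ with h | h
  · rw [h]
  · rw [h, information_noise_neg]

lemma cubeAverage_noise {n : ℕ} (ρ : ℝ) (u : (Fin n → Bool) → ℝ) :
    cubeAverage (noise ρ u) = cubeAverage u := by
  unfold cubeAverage
  congr 1
  simp_rw [noise_eq]
  rw [Finset.sum_comm]
  refine Finset.sum_congr rfl fun y _ => ?_
  rw [← Finset.sum_mul]
  simp_rw [wt_symm ρ _ y]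
  rw [sum_wt, one_mul]

lemma abs_noise_le {n : ℕ} {ρ : ℝ} (h0 : |ρ| ≤ 1) {u : (Fin n → Bool) → ℝ}
    (hu : ∀ x, |u x| ≤ 1) (x : Fin n → Bool) : |noise ρ u x| ≤ 1 := by
  rw [noise_eq]
  calc |∑ y, wt ρ x y * u y| ≤ ∑ y, |wt ρ x y * u y| := Finset.abs_sum_le_sum_abs _ _
    _ ≤ ∑ y, wt ρ x y := by
        refine Finset.sum_le_sum fun y _ => ?_
        rw [abs_mul, abs_of_nonneg (wt_nonneg h0 x y)]
        exact mul_le_of_le_one_right (wt_nonneg h0 x y) (hu y)
    _ = 1 := sum_wt ρ x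

lemma noise_lt_one {n : ℕ} {ρ : ℝ} (h0 : |ρ| < 1) {u : (Fin n → Bool) → ℝ}
    (hu : ∀ x, |u x| ≤ 1) (hne : ∃ y, u y ≠ 1) (x : Fin n → Bool) : noise ρ u x < 1 := by
  rw [noise_eq, ← sum_wt ρ x]
  obtain ⟨y, hy⟩ := hne
  refine Finset.sum_lt_sum (fun z _ => ?_) ⟨y, Finset.mem_univ y, ?_⟩
  · exact mul_le_of_le_one_right (wt_pos h0 x z).le (le_of_abs_le (hu z))
  · exact mul_lt_of_lt_one_right (wt_pos h0 x y) (lt_of_le_of_ne (le_of_abs_le (hu y)) hy)

lemma noise_neg_fun {n : ℕ} (ρ : ℝ) (u : (Fin n → Bool) → ℝ) (x : Fin n → Bool) :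
    noise ρ (fun y => - u y) x = - noise ρ u x := by
  rw [noise_eq, noise_eq, ← Finset.sum_neg_distrib]
  refine Finset.sum_congr rfl fun y _ => ?_
  ring

lemma neg_one_lt_noise {n : ℕ} {ρ : ℝ} (h0 : |ρ| < 1) {u : (Fin n → Bool) → ℝ}
    (hu : ∀ x, |u x| ≤ 1) (hne : ∃ y, u y ≠ -1) (x : Fin n → Bool) : -1 < noise ρ u x := by
  have h := noise_lt_one (u := fun y => - u y) h0 (fun y => by rw [abs_neg]; exact hu y)
    (by obtain ⟨y, hy⟩ := hne
        refine ⟨y, fun h => hy ?_⟩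
        linarith) x
  rw [noise_neg_fun] at h
  linarith

/-- derivative of the noise weights in the parameter -/
lemma hasDerivAt_wt {n : ℕ} (ρ : ℝ) (x y : Fin n → Bool) :
    HasDerivAt (fun r => wt r x y)
      (∑ i, (∏ j ∈ Finset.univ.erase i, (1 + ρ * spin (x j) * spin (y j)) / 2) *
        (spin (x i) * spin (y i) / 2)) ρ := by
  unfold wt
  have h := HasDerivAt.fun_finsetProd (u := (Finset.univ : Finset (Fin n)))
    (f := fun i r => (1 + r * spin (x i) * spin (y i)) / 2)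
    (f' := fun i => spin (x i) * spin (y i) / 2) (x := ρ) (fun i _ => by
      have h1 : HasDerivAt (fun r : ℝ => 1 + r * spin (x i) * spin (y i))
          (1 * spin (x i) * spin (y i)) ρ := by
        exact (((hasDerivAt_id ρ).mul_const (spin (x i))).mul_const (spin (y i))).const_add 1
      have h2 := h1.div_const 2
      simpa using h2)
  simpa [smul_eq_mul] using h

lemma wt_sub_wt_flip {n : ℕ} (ρ : ℝ) (x y : Fin n → Bool) (i : Fin n) :
    wt ρ x y - wt ρ (flipBit i x) y =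
      2 * ρ * ((∏ j ∈ Finset.univ.erase i, (1 + ρ * spin (x j) * spin (y j)) / 2) *
        (spin (x i) * spin (y i) / 2)) := by
  unfold wt
  rw [← Finset.mul_prod_erase Finset.univ _ (Finset.mem_univ i),
    ← Finset.mul_prod_erase Finset.univ (fun j => (1 + ρ * spin (flipBit i x j) * spin (y j)) / 2)
      (Finset.mem_univ i)]
  have h1 : ∏ j ∈ Finset.univ.erase i, (1 + ρ * spin (flipBit i x j) * spin (y j)) / 2 =
      ∏ j ∈ Finset.univ.erase i, (1 + ρ * spin (x j) * spin (y j)) / 2 := by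
    refine Finset.prod_congr rfl fun j hj => ?_
    have hji : j ≠ i := Finset.ne_of_mem_erase hj
    simp [flipBit, hji]
  have h2 : flipBit i x i = !x i := by simp [flipBit]
  rw [h1, h2, spin_not]
  ring

lemma hasDerivAt_noise {n : ℕ} {ρ : ℝ} (h0 : ρ ≠ 0) (u : (Fin n → Bool) → ℝ)
    (x : Fin n → Bool) :
    HasDerivAt (fun r => noise r u x)
      ((∑ i, (noise ρ u x - noise ρ u (flipBit i x))) / 2 / ρ) ρ := by
  have h : HasDerivAt (fun r => ∑ y, wt r x y * u y)
      (∑ y, (∑ i, (∏ j ∈ Finset.univ.erase i, (1 + ρ * spin (x j) * spin (y j)) / 2) *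
        (spin (x i) * spin (y i) / 2)) * u y) ρ :=
    HasDerivAt.fun_sum fun y _ => (hasDerivAt_wt ρ x y).mul_const (u y)
  have he : (∑ i, (noise ρ u x - noise ρ u (flipBit i x))) / 2 / ρ =
      ∑ y, (∑ i, (∏ j ∈ Finset.univ.erase i, (1 + ρ * spin (x j) * spin (y j)) / 2) *
        (spin (x i) * spin (y i) / 2)) * u y := by
    simp_rw [noise_eq, ← Finset.sum_sub_distrib, ← sub_mul, wt_sub_wt_flip]
    rw [Finset.sum_comm, Finset.sum_div, Finset.sum_div]
    refine Finset.sum_congr rfl fun y _ => ?_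
    rw [← Finset.sum_mul, ← Finset.mul_sum]
    field_simp
  rw [he]
  exact h

/-- `psi r = log 2 - signEntropy r`. -/
noncomputable def ps (r : ℝ) : ℝ := Real.log 2 - signEntropy r

lemma signEntropy_continuous : Continuous signEntropy := by
  unfold signEntropy
  fun_prop

lemma ps_continuous : Continuous ps := by
  unfold ps
  exact continuous_const.sub signEntropy_continuous

lemma hasDerivAt_signEntropy {r : ℝ} (h1 : -1 < r) (h2 : r < 1) :
    HasDerivAt signEntropy (-Real.artanh r) r := by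
  have h3 : HasDerivAt (fun s : ℝ => (1 + s) / 2) (1 / 2) r := by
    have := ((hasDerivAt_id r).const_add 1).div_const 2
    simpa using this
  have h4 := (Real.hasDerivAt_binEntropy (p := (1 + r) / 2) (by linarith) (by linarith)).comp r h3
  have h5 : (Real.log (1 - (1 + r) / 2) - Real.log ((1 + r) / 2)) * (1 / 2) = -Real.artanh r := by
    rw [Real.artanh_eq_half_log ⟨h1.le, h2.le⟩]
    have e1 : 1 - (1 + r) / 2 = (1 - r) / 2 := by ring
    rw [e1, Real.log_div (by linarith) (by norm_num), Real.log_div (by linarith) (by norm_num),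
      Real.log_div (by linarith) (by linarith)]
    ring
  rw [h5] at h4
  exact h4

lemma hasDerivAt_ps {r : ℝ} (h1 : -1 < r) (h2 : r < 1) :
    HasDerivAt ps (Real.artanh r) r := by
  have h := (hasDerivAt_signEntropy h1 h2).const_sub (Real.log 2)
  rw [neg_neg] at h
  exact h

lemma ps_zero : ps 0 = 0 := by
  unfold ps signEntropy
  have e : ((1 : ℝ) + 0) / 2 = 2⁻¹ := by norm_num
  rw [e, Real.binEntropy_two_inv, sub_self]

lemma ps_one : ps 1 = Real.log 2 := by
  unfold ps signEntropy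
  norm_num

lemma ps_nonneg (r : ℝ) : 0 ≤ ps r := by
  unfold ps signEntropy
  have := Real.binEntropy_le_log_two (p := (1 + r) / 2)
  linarith

lemma ps_strictMonoOn : StrictMonoOn ps (Icc 0 1) := by
  intro a ha b hb hab
  have h := Real.binEntropy_strictAntiOn (a := (1 + a) / 2) (b := (1 + b) / 2)
    ⟨by linarith [ha.1], by linarith [ha.2]⟩ ⟨by linarith [hb.1], by linarith [hb.2]⟩ (by linarith)
  unfold ps signEntropy
  linarith

lemma ps_mono {a b : ℝ} (ha : 0 ≤ a) (hab : a ≤ b) (hb : b ≤ 1) : ps a ≤ ps b :=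
  ps_strictMonoOn.monotoneOn ⟨ha, hab.trans hb⟩ ⟨ha.trans hab, hb⟩ hab

/-- information along the semigroup -/
noncomputable def Y {n : ℕ} (u : (Fin n → Bool) → ℝ) (ρ : ℝ) : ℝ := information (noise ρ u)

lemma Y_eq {n : ℕ} (u : (Fin n → Bool) → ℝ) (ρ : ℝ) :
    Y u ρ = signEntropy (cubeAverage u) - (∑ x, signEntropy (noise ρ u x)) / 2 ^ n := by
  unfold Y information
  rw [cubeAverage_noise]
  rfl

lemma continuous_noise {n : ℕ} (u : (Fin n → Bool) → ℝ) (x : Fin n → Bool) :
    Continuous (fun r => noise r u x) := by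
  unfold noise
  fun_prop

lemma Y_continuous {n : ℕ} (u : (Fin n → Bool) → ℝ) : Continuous (Y u) := by
  have h : Y u = fun ρ => signEntropy (cubeAverage u) -
      (∑ x, signEntropy (noise ρ u x)) / 2 ^ n := funext (Y_eq u)
  rw [h]
  refine continuous_const.sub (Continuous.div_const ?_ _)
  exact continuous_finsetSum _ fun x _ => signEntropy_continuous.comp (continuous_noise u x)

lemma hasDerivAt_Y {n : ℕ} {u : (Fin n → Bool) → ℝ} {ρ : ℝ} (h0 : ρ ≠ 0)
    (hlt : ∀ x, |noise ρ u x| < 1) :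
    HasDerivAt (Y u) (production (noise ρ u) / ρ) ρ := by
  have h : Y u = fun ρ => signEntropy (cubeAverage u) -
      (∑ x, signEntropy (noise ρ u x)) / 2 ^ n := funext (Y_eq u)
  rw [h]
  have h1 : HasDerivAt (fun r => ∑ x, signEntropy (noise r u x))
      (∑ x, -Real.artanh (noise ρ u x) *
        ((∑ i, (noise ρ u x - noise ρ u (flipBit i x))) / 2 / ρ)) ρ := by
    refine HasDerivAt.fun_sum fun x _ => ?_
    have hx := abs_lt.1 (hlt x)
    exact HasDerivAt.comp (h₂ := signEntropy) (h := fun r => noise r u x) ρ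
      (hasDerivAt_signEntropy hx.1 hx.2) (hasDerivAt_noise h0 u x)
  have h2 := (h1.div_const (2 ^ n)).const_sub (signEntropy (cubeAverage u))
  have h3 : -((∑ x, -Real.artanh (noise ρ u x) *
        ((∑ i, (noise ρ u x - noise ρ u (flipBit i x))) / 2 / ρ)) / 2 ^ n) =
      production (noise ρ u) / ρ := by
    unfold production cubeAverage
    rw [← neg_div, ← Finset.sum_neg_distrib, div_right_comm]
    congr 1
    rw [Finset.sum_div]
    refine Finset.sum_congr rfl fun x _ => ?_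
    ring
  rw [h3] at h2
  exact h2

/-- the rate bound, part 1 of S0472 -/
def Rate : Prop :=
  ∀ (n : ℕ) (g : (Fin n → Bool) → ℝ), (∀ x, |g x| < 1) → ∀ r : ℝ, 0 ≤ r → r < 1 →
    Real.log 2 - signEntropy r = information g → r * Real.artanh r ≤ production g

lemma signEntropy_pos {r : ℝ} (h : |r| < 1) : 0 < signEntropy r := by
  have h1 := abs_lt.1 h
  exact Real.binEntropy_pos (by linarith) (by linarith)

lemma signEntropy_le (r : ℝ) : signEntropy r ≤ Real.log 2 := Real.binEntropy_le_log_two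

lemma information_lt {n : ℕ} {g : (Fin n → Bool) → ℝ} (hg : ∀ x, |g x| < 1) :
    information g < Real.log 2 := by
  unfold information
  have h1 := signEntropy_le (cubeAverage g)
  have h2 : 0 < cubeAverage (fun x => signEntropy (g x)) := by
    unfold cubeAverage
    refine div_pos (Finset.sum_pos (fun x _ => signEntropy_pos (hg x)) Finset.univ_nonempty)
      (by positivity)
  linarith

lemma information_nonneg {n : ℕ} {g : (Fin n → Bool) → ℝ} (hg : ∀ x, |g x| ≤ 1) :
    0 ≤ information g := by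
  have hc := Real.strictConcave_binEntropy.concaveOn
  have hcard : (Finset.univ : Finset (Fin n → Bool)).card = 2 ^ n := by simp
  have hw : ∑ _x : Fin n → Bool, ((1 : ℝ) / 2 ^ n) = 1 := by
    rw [Finset.sum_const, hcard]
    simp
  have h := hc.le_map_sum (t := (Finset.univ : Finset (Fin n → Bool)))
    (w := fun _ => (1 : ℝ) / 2 ^ n) (p := fun x => (1 + g x) / 2)
    (fun _ _ => by positivity) hw (fun x _ => by
      have := abs_le.1 (hg x)
      exact ⟨by linarith [this.1], by linarith [this.2]⟩)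
  have e1 : ∑ x : Fin n → Bool, ((1 : ℝ) / 2 ^ n) • ((1 + g x) / 2) =
      (1 + cubeAverage g) / 2 := by
    simp only [smul_eq_mul]
    rw [← Finset.mul_sum, ← Finset.sum_div, Finset.sum_add_distrib, Finset.sum_const, hcard]
    unfold cubeAverage
    have : (2 : ℝ) ^ n ≠ 0 := by positivity
    simp only [nsmul_eq_mul, Nat.cast_pow, Nat.cast_ofNat, mul_one]
    field_simp
  rw [e1] at h
  have e2 : ∑ x : Fin n → Bool, ((1 : ℝ) / 2 ^ n) • Real.binEntropy ((1 + g x) / 2) =
      cubeAverage (fun x => signEntropy (g x)) := by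
    simp only [smul_eq_mul]
    rw [← Finset.mul_sum]
    unfold cubeAverage signEntropy
    ring
  rw [e2] at h
  unfold information
  have e3 : signEntropy (cubeAverage g) = Real.binEntropy ((1 + cubeAverage g) / 2) := rfl
  rw [e3]
  linarith

lemma exists_ps_eq {y : ℝ} (h0 : 0 ≤ y) (h1 : y < Real.log 2) :
    ∃ r, 0 ≤ r ∧ r < 1 ∧ ps r = y := by
  have h := intermediate_value_Icc (a := (0 : ℝ)) (b := 1) zero_le_one
    (f := ps) ps_continuous.continuousOn
  rw [ps_zero, ps_one] at h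
  obtain ⟨r, hr, hry⟩ := h ⟨h0, h1.le⟩
  refine ⟨r, hr.1, lt_of_le_of_ne hr.2 ?_, hry⟩
  rintro rfl
  rw [ps_one] at hry
  linarith

lemma production_nonneg (H : Rate) {n : ℕ} {g : (Fin n → Bool) → ℝ} (hg : ∀ x, |g x| < 1) :
    0 ≤ production g := by
  obtain ⟨r, h0, h1, hr⟩ := exists_ps_eq (information_nonneg fun x => (hg x).le)
    (information_lt hg)
  exact (mul_nonneg h0 (Real.artanh_nonneg h0)).trans (H n g hg r h0 h1 hr)

lemma abs_noise_lt_one {n : ℕ} {ρ : ℝ} (h0 : |ρ| < 1) {u : (Fin n → Bool) → ℝ}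
    (hu : ∀ x, |u x| ≤ 1) (h1 : ∃ y, u y ≠ 1) (h2 : ∃ y, u y ≠ -1) (x : Fin n → Bool) :
    |noise ρ u x| < 1 :=
  abs_lt.2 ⟨neg_one_lt_noise h0 hu h2 x, noise_lt_one h0 hu h1 x⟩

lemma Y_monotoneOn (H : Rate) {n : ℕ} {u : (Fin n → Bool) → ℝ}
    (hu : ∀ x, |u x| ≤ 1) (h1 : ∃ y, u y ≠ 1) (h2 : ∃ y, u y ≠ -1) :
    MonotoneOn (Y u) (Icc 0 1) := by
  have hlt : ∀ ρ ∈ interior (Icc (0 : ℝ) 1), 0 < ρ ∧ ∀ x, |noise ρ u x| < 1 := by
    intro ρ hρ
    rw [interior_Icc] at hρ
    exact ⟨hρ.1, abs_noise_lt_one (by rw [abs_of_pos hρ.1]; exact hρ.2) hu h1 h2⟩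
  refine monotoneOn_of_deriv_nonneg (convex_Icc 0 1) (Y_continuous u).continuousOn ?_ ?_
  · intro ρ hρ
    exact (hasDerivAt_Y (hlt ρ hρ).1.ne' (hlt ρ hρ).2).differentiableAt.differentiableWithinAt
  · intro ρ hρ
    rw [(hasDerivAt_Y (hlt ρ hρ).1.ne' (hlt ρ hρ).2).deriv]
    exact div_nonneg (production_nonneg H (hlt ρ hρ).2) (hlt ρ hρ).1.le

/-- comparison along the semigroup with a slightly slower barrier -/
lemma compare (H : Rate) {n : ℕ} {u : (Fin n → Bool) → ℝ}
    (hu : ∀ x, |u x| ≤ 1) (h1 : ∃ y, u y ≠ 1) (h2 : ∃ y, u y ≠ -1)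
    {σ c a T : ℝ} (hσ0 : 0 < σ) (hσ1 : σ < 1) (hc0 : 0 < c) (hc1 : c < 1)
    (ha0 : 0 < a) (ha1 : a < 1) (hT : 0 ≤ T) (hY : Y u σ ≤ ps c) :
    Y u (σ * Real.exp (-T)) ≤ ps (c * Real.exp (-(a * T))) := by
  have hσt : ∀ t : ℝ, 0 ≤ t → 0 < σ * Real.exp (-t) ∧ σ * Real.exp (-t) < 1 := by
    intro t ht
    refine ⟨by positivity, ?_⟩
    have : Real.exp (-t) ≤ 1 := Real.exp_le_one_iff.2 (by linarith)
    calc σ * Real.exp (-t) ≤ σ * 1 := by gcongr
      _ < 1 := by linarith
  have hct : ∀ t : ℝ, 0 ≤ t → 0 < c * Real.exp (-(a * t)) ∧ c * Real.exp (-(a * t)) < 1 := by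
    intro t ht
    refine ⟨by positivity, ?_⟩
    have : Real.exp (-(a * t)) ≤ 1 := Real.exp_le_one_iff.2 (by nlinarith)
    calc c * Real.exp (-(a * t)) ≤ c * 1 := by gcongr
      _ < 1 := by linarith
  have hlt : ∀ t : ℝ, 0 ≤ t → ∀ x, |noise (σ * Real.exp (-t)) u x| < 1 := fun t ht =>
    abs_noise_lt_one (by rw [abs_of_pos (hσt t ht).1]; exact (hσt t ht).2) hu h1 h2
  have hf : ∀ t : ℝ, 0 ≤ t → HasDerivAt (fun t => Y u (σ * Real.exp (-t)))
      (-production (noise (σ * Real.exp (-t)) u)) t := by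
    intro t ht
    have e1 : HasDerivAt (fun t : ℝ => σ * Real.exp (-t)) (-(σ * Real.exp (-t))) t := by
      have h5 := ((hasDerivAt_neg t).exp).const_mul σ
      have h6 : σ * (Real.exp (-t) * -1) = -(σ * Real.exp (-t)) := by ring
      rw [h6] at h5
      exact h5
    have e2 := (hasDerivAt_Y (u := u) (hσt t ht).1.ne' (hlt t ht)).comp t e1
    have e3 : production (noise (σ * Real.exp (-t)) u) / (σ * Real.exp (-t)) *
        -(σ * Real.exp (-t)) = -production (noise (σ * Real.exp (-t)) u) := by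
      have := (hσt t ht).1.ne'
      field_simp
    rw [e3] at e2
    exact e2
  have hB : ∀ t : ℝ, 0 ≤ t → HasDerivAt (fun t => ps (c * Real.exp (-(a * t))))
      (-(a * ((c * Real.exp (-(a * t))) * Real.artanh (c * Real.exp (-(a * t)))))) t := by
    intro t ht
    have e1 : HasDerivAt (fun t : ℝ => c * Real.exp (-(a * t)))
        (-(a * (c * Real.exp (-(a * t))))) t := by
      have e0 : HasDerivAt (fun t : ℝ => -(a * t)) (-a) t := by
        have h5 := ((hasDerivAt_id t).const_mul a).neg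
        rw [mul_one] at h5
        exact h5
      have h5 := (e0.exp).const_mul c
      have h6 : c * (Real.exp (-(a * t)) * -a) = -(a * (c * Real.exp (-(a * t)))) := by ring
      rw [h6] at h5
      exact h5
    have e2 := (hasDerivAt_ps (r := c * Real.exp (-(a * t))) (by linarith [(hct t ht).1])
      (hct t ht).2).comp t e1
    have e3 : Real.artanh (c * Real.exp (-(a * t))) * -(a * (c * Real.exp (-(a * t)))) =
        -(a * ((c * Real.exp (-(a * t))) * Real.artanh (c * Real.exp (-(a * t))))) := by ring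
    rw [e3] at e2
    exact e2
  have key := image_le_of_deriv_right_lt_deriv_boundary' (a := 0) (b := T)
    (f := fun t => Y u (σ * Real.exp (-t)))
    (f' := fun t => -production (noise (σ * Real.exp (-t)) u))
    (B := fun t => ps (c * Real.exp (-(a * t))))
    (B' := fun t => -(a * ((c * Real.exp (-(a * t))) * Real.artanh (c * Real.exp (-(a * t))))))
    (fun t ht => (hf t ht.1).continuousAt.continuousWithinAt)
    (fun t ht => (hf t ht.1).hasDerivWithinAt)
    (by simpa using hY)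
    (fun t ht => (hB t ht.1).continuousAt.continuousWithinAt)
    (fun t ht => (hB t ht.1).hasDerivWithinAt)
    (by
      intro t ht heq
      have hr := hct t ht.1
      have h3 := H n _ (hlt t ht.1) _ hr.1.le hr.2 heq.symm
      have h4 : 0 < c * Real.exp (-(a * t)) * Real.artanh (c * Real.exp (-(a * t))) :=
        mul_pos hr.1 (Real.artanh_pos hr)
      show -production _ < -(a * _)
      nlinarith)
  exact key ⟨hT, le_refl T⟩

lemma compare_exp (H : Rate) {n : ℕ} {u : (Fin n → Bool) → ℝ}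
    (hu : ∀ x, |u x| ≤ 1) (h1 : ∃ y, u y ≠ 1) (h2 : ∃ y, u y ≠ -1)
    {σ c T : ℝ} (hσ0 : 0 < σ) (hσ1 : σ < 1) (hc0 : 0 < c) (hc1 : c < 1)
    (hT : 0 ≤ T) (hY : Y u σ ≤ ps c) :
    Y u (σ * Real.exp (-T)) ≤ ps (c * Real.exp (-T)) := by
  have hcont : Continuous (fun a : ℝ => ps (c * Real.exp (-(a * T)))) :=
    ps_continuous.comp (by fun_prop)
  have hlim : Tendsto (fun a : ℝ => ps (c * Real.exp (-(a * T)))) (𝓝[<] 1)
      (𝓝 (ps (c * Real.exp (-(1 * T))))) := (hcont.tendsto 1).mono_left nhdsWithin_le_nhds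
  rw [one_mul] at hlim
  refine ge_of_tendsto hlim ?_
  have hmem : Ioo (0 : ℝ) 1 ∈ 𝓝[<] (1 : ℝ) := Ioo_mem_nhdsLT (by norm_num)
  filter_upwards [hmem] with a ha
  exact compare H hu h1 h2 hσ0 hσ1 hc0 hc1 ha.1 ha.2 hT hY

lemma compare_div (H : Rate) {n : ℕ} {u : (Fin n → Bool) → ℝ}
    (hu : ∀ x, |u x| ≤ 1) (h1 : ∃ y, u y ≠ 1) (h2 : ∃ y, u y ≠ -1)
    {ρ σ c : ℝ} (hρ0 : 0 < ρ) (hρσ : ρ ≤ σ) (hσ1 : σ < 1) (hc0 : 0 < c) (hc1 : c < 1)
    (hY : Y u σ ≤ ps c) : Y u ρ ≤ ps (c * (ρ / σ)) := by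
  have hσ0 : 0 < σ := hρ0.trans_le hρσ
  have h := compare_exp H hu h1 h2 (T := Real.log (σ / ρ)) hσ0 hσ1 hc0 hc1
    (Real.log_nonneg (by rw [le_div_iff₀ hρ0]; linarith)) hY
  have e : Real.exp (-Real.log (σ / ρ)) = ρ / σ := by
    rw [← Real.log_inv, Real.exp_log (by positivity), inv_div]
  rw [e] at h
  have e2 : σ * (ρ / σ) = ρ := by field_simp
  rw [e2] at h
  exact h

/-- `S0470` follows from the rate bound. -/
theorem s0470_of_rate (H : Rate) (n : ℕ) (u : (Fin n → Bool) → ℝ)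
    (hu : ∀ x, |u x| ≤ 1) (ρ : ℝ) (hρ : |ρ| ≤ 1) (r : ℝ) (hr : 0 ≤ r) (hr1 : r ≤ 1)
    (hI : information u = Real.log 2 - signEntropy r) :
    information (noise ρ u) ≤ Real.log 2 - signEntropy (|ρ| * r) := by
  rw [information_noise_abs]
  generalize hs : |ρ| = s at *
  have hs0 : 0 ≤ s := by rw [← hs]; exact abs_nonneg ρ
  show Y u s ≤ ps (s * r)
  have hI' : Y u 1 = ps r := by
    unfold Y
    rw [noise_one]
    exact hI
  by_cases hc : (∃ y, u y ≠ 1) ∧ (∃ y, u y ≠ -1)
  swap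
  · -- constant function `±1`
    have hconst : ∃ e : ℝ, (e = 1 ∨ e = -1) ∧ ∀ y, u y = e := by
      rw [not_and_or] at hc
      push Not at hc
      rcases hc with hc | hc
      · exact ⟨1, Or.inl rfl, hc⟩
      · exact ⟨-1, Or.inr rfl, hc⟩
    obtain ⟨e, he, hue⟩ := hconst
    have hn : ∀ x, noise s u x = e := by
      intro x
      rw [noise_eq]
      simp_rw [hue]
      rw [← Finset.sum_mul, sum_wt, one_mul]
    have hY0 : Y u s = 0 := by
      unfold Y information
      have hfun : noise s u = fun _ => e := funext hn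
      rw [hfun]
      have h2n : (2 : ℝ) ^ n ≠ 0 := by positivity
      have hce : ∀ w : ℝ, cubeAverage (fun _ : Fin n → Bool => w) = w := by
        intro w
        unfold cubeAverage
        rw [Finset.sum_const]
        simp
      rw [hce e, hce, sub_self]
    rw [hY0]
    exact ps_nonneg _
  obtain ⟨h1, h2⟩ := hc
  have hmono := Y_monotoneOn H hu h1 h2
  -- closed condition: enough for `0 < s < 1`
  suffices hopen : ∀ t ∈ Ioo (0 : ℝ) 1, Y u t ≤ ps (t * r) by
    have hcl : IsClosed {t : ℝ | Y u t ≤ ps (t * r)} :=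
      isClosed_le (Y_continuous u) (ps_continuous.comp (by fun_prop))
    have hsub : closure (Ioo (0 : ℝ) 1) ⊆ {t : ℝ | Y u t ≤ ps (t * r)} :=
      closure_minimal hopen hcl
    rw [closure_Ioo (by norm_num)] at hsub
    exact hsub ⟨hs0, hρ⟩
  intro t ht
  rcases hr.eq_or_lt with hr0 | hr0
  · -- `r = 0`
    have h3 : Y u t ≤ Y u 1 := hmono ⟨ht.1.le, ht.2.le⟩ ⟨zero_le_one, le_refl 1⟩ ht.2.le
    rw [hI', ← hr0] at h3
    rw [← hr0, mul_zero]
    exact h3
  -- for every `σ ∈ (t, 1)`: `Y t ≤ ps (r * (t / σ))`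
  have hσ : ∀ σ ∈ Ioo t 1, Y u t ≤ ps (r * (t / σ)) := by
    intro σ hσ
    have hσ0 : 0 < σ := ht.1.trans hσ.1
    have htσ : 0 < t / σ := div_pos ht.1 hσ0
    have htσ1 : t / σ ≤ 1 := by rw [div_le_one hσ0]; exact hσ.1.le
    have h3 : Y u σ ≤ Y u 1 := hmono ⟨hσ0.le, hσ.2.le⟩ ⟨zero_le_one, le_refl 1⟩ hσ.2.le
    rw [hI'] at h3
    have hg : ∀ x, |noise σ u x| < 1 :=
      abs_noise_lt_one (by rw [abs_of_pos hσ0]; exact hσ.2) hu h1 h2
    obtain ⟨c, hc0, hc1, hcY⟩ := exists_ps_eq (information_nonneg fun x => (hg x).le)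
      (information_lt hg)
    have hcr : c ≤ r := by
      by_contra hcon
      push Not at hcon
      have := ps_strictMonoOn ⟨hr, hr1⟩ ⟨hc0, hc1.le⟩ hcon
      have h5 : ps c = Y u σ := hcY
      linarith
    rcases hc0.eq_or_lt with hc0' | hc0'
    · have h4 : Y u t ≤ Y u σ := hmono ⟨ht.1.le, ht.2.le⟩ ⟨hσ0.le, hσ.2.le⟩ hσ.1.le
      have h5 : ps c = Y u σ := hcY
      rw [← h5, ← hc0', ps_zero] at h4
      exact h4.trans (ps_nonneg _)
    · have h4 := compare_div H hu h1 h2 ht.1 hσ.1.le hσ.2 hc0' hc1 (le_of_eq hcY.symm)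
      refine h4.trans (ps_mono (by positivity) (by gcongr) ?_)
      calc r * (t / σ) ≤ 1 * 1 := by gcongr
        _ = 1 := one_mul 1
  have hlim : Tendsto (fun σ : ℝ => ps (r * (t / σ))) (𝓝[<] 1) (𝓝 (ps (r * (t / 1)))) := by
    have hca : ContinuousAt (fun σ : ℝ => ps (r * (t / σ))) 1 := by
      refine ps_continuous.continuousAt.comp ?_
      exact continuousAt_const.mul (continuousAt_const.div continuousAt_id one_ne_zero)
    exact hca.tendsto.mono_left nhdsWithin_le_nhds
  rw [div_one, mul_comm r t] at hlim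
  refine ge_of_tendsto hlim ?_
  filter_upwards [Ioo_mem_nhdsLT ht.2] with σ hσ'
  exact hσ σ hσ'

end Crest.Agent.R307.Ode
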