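import Crest.Agent.R307.SubDefs

/-!
Row 307 (S0472-T1, task 803, helper286): perspective identities, calculus of `sF`, `SS`, `PP`.
-/

set_option autoImplicit false

open Set Crest.CubeNoise

namespace Crest.Agent.R307

/-- placeholder so that the namespace exists -/
theorem Persp.trivial_ns : True := trivial

open Persp

/-! ### domain bookkeeping -/

section dom

variable {a b : ℝ}

theorem Persp.abs_mid_lt_one (ha : |a| < 1) (hb : |b| < 1) : |(a + b) / 2| < 1 := by
  obtain ⟨ha1, ha2⟩ := abs_lt.mp ha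
  obtain ⟨hb1, hb2⟩ := abs_lt.mp hb
  rw [abs_lt]; constructor <;> linarith

theorem Persp.one_add_mid_pos (ha : |a| < 1) (hb : |b| < 1) : 0 < 1 + (a + b) / 2 := by
  linarith [(abs_lt.mp (abs_mid_lt_one ha hb)).1]

theorem Persp.one_sub_mid_pos (ha : |a| < 1) (hb : |b| < 1) : 0 < 1 - (a + b) / 2 := by
  linarith [(abs_lt.mp (abs_mid_lt_one ha hb)).2]

theorem abs_dp_lt_one (ha : |a| < 1) (hb : |b| < 1) :
    |((a - b) / 2) / (1 + (a + b) / 2)| < 1 := by
  have h := one_add_mid_pos ha hb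
  obtain ⟨ha1, ha2⟩ := abs_lt.mp ha
  obtain ⟨hb1, hb2⟩ := abs_lt.mp hb
  rw [abs_div, abs_of_pos h, div_lt_one h, abs_lt]
  constructor <;> linarith

theorem abs_dm_lt_one (ha : |a| < 1) (hb : |b| < 1) :
    |((a - b) / 2) / (1 - (a + b) / 2)| < 1 := by
  have h := one_sub_mid_pos ha hb
  obtain ⟨ha1, ha2⟩ := abs_lt.mp ha
  obtain ⟨hb1, hb2⟩ := abs_lt.mp hb
  rw [abs_div, abs_of_pos h, div_lt_one h, abs_lt]
  constructor <;> linarith

end dom

/-! ### perspective identities -/

theorem Persp.psi_eq_logs {x : ℝ} (hx : |x| ≤ 1) :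
    psi x = ((1 + x) * Real.log (1 + x) + (1 - x) * Real.log (1 - x)) / 2 := by
  unfold psi
  rw [signEntropy_eq_logs hx]
  ring

/-- `P * psi (d / P)` in logs, for `|d| < P`. -/
theorem Persp.mul_psi_div {P d : ℝ} (h1 : 0 < P + d) (h2 : 0 < P - d) :
    P * psi (d / P) = ((P + d) * (Real.log (P + d) - Real.log P)
      + (P - d) * (Real.log (P - d) - Real.log P)) / 2 := by
  have hP : 0 < P := by linarith
  have habs : |d / P| ≤ 1 := by
    rw [abs_div, abs_of_pos hP, div_le_one hP, abs_le]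
    constructor <;> linarith
  rw [psi_eq_logs habs]
  have e1 : 1 + d / P = (P + d) / P := by field_simp
  have e2 : 1 - d / P = (P - d) / P := by field_simp
  rw [e1, e2, Real.log_div h1.ne' hP.ne', Real.log_div h2.ne' hP.ne']
  field_simp

/-- `P * (d / P * artanh (d / P))` in logs, for `|d| < P`. -/
theorem Persp.mul_artanh_div {P d : ℝ} (h1 : 0 < P + d) (h2 : 0 < P - d) :
    P * (d / P * Real.artanh (d / P)) = d * (Real.log (P + d) - Real.log (P - d)) / 2 := by
  have hP : 0 < P := by linarith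
  have habs : |d / P| < 1 := by
    rw [abs_div, abs_of_pos hP, div_lt_one hP, abs_lt]
    constructor <;> linarith
  rw [artanh_eq_log_sub habs]
  have e1 : 1 + d / P = (P + d) / P := by field_simp
  have e2 : 1 - d / P = (P - d) / P := by field_simp
  rw [e1, e2, Real.log_div h1.ne' hP.ne', Real.log_div h2.ne' hP.ne']
  field_simp
  ring

theorem kk_persp {a b : ℝ} (ha : |a| < 1) (hb : |b| < 1) :
    kk a b = ((1 + (a + b) / 2) * ((((a - b) / 2) / (1 + (a + b) / 2))
        * Real.artanh (((a - b) / 2) / (1 + (a + b) / 2)))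
      + (1 - (a + b) / 2) * ((((a - b) / 2) / (1 - (a + b) / 2))
        * Real.artanh (((a - b) / 2) / (1 - (a + b) / 2)))) / 2 := by
  obtain ⟨ha1, ha2⟩ := abs_lt.mp ha
  obtain ⟨hb1, hb2⟩ := abs_lt.mp hb
  rw [mul_artanh_div (by linarith) (by linarith), mul_artanh_div (by linarith) (by linarith)]
  unfold kk
  rw [artanh_eq_log_sub ha, artanh_eq_log_sub hb]
  have e1 : 1 + (a + b) / 2 + (a - b) / 2 = 1 + a := by ring
  have e2 : 1 + (a + b) / 2 - (a - b) / 2 = 1 + b := by ring
  have e3 : 1 - (a + b) / 2 + (a - b) / 2 = 1 - b := by ring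
  have e4 : 1 - (a + b) / 2 - (a - b) / 2 = 1 - a := by ring
  rw [e1, e2, e3, e4]
  ring

theorem io_persp {a b : ℝ} (ha : |a| < 1) (hb : |b| < 1) :
    io a b = ((1 + (a + b) / 2) * psi (((a - b) / 2) / (1 + (a + b) / 2))
      + (1 - (a + b) / 2) * psi (((a - b) / 2) / (1 - (a + b) / 2))) / 2 := by
  obtain ⟨ha1, ha2⟩ := abs_lt.mp ha
  obtain ⟨hb1, hb2⟩ := abs_lt.mp hb
  rw [mul_psi_div (by linarith) (by linarith), mul_psi_div (by linarith) (by linarith)]
  unfold io
  rw [signEntropy_eq_logs ha.le, signEntropy_eq_logs hb.le,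
    signEntropy_eq_logs (abs_mid_lt_one ha hb).le]
  have e1 : 1 + (a + b) / 2 + (a - b) / 2 = 1 + a := by ring
  have e2 : 1 + (a + b) / 2 - (a - b) / 2 = 1 + b := by ring
  have e3 : 1 - (a + b) / 2 + (a - b) / 2 = 1 - b := by ring
  have e4 : 1 - (a + b) / 2 - (a - b) / 2 = 1 - a := by ring
  rw [e1, e2, e3, e4]
  ring

theorem LL_persp {a b : ℝ} (ha : |a| < 1) (hb : |b| < 1) :
    LL a b = ((1 + (a + b) / 2) * sF (((a - b) / 2) / (1 + (a + b) / 2))
      + (1 - (a + b) / 2) * sF (((a - b) / 2) / (1 - (a + b) / 2))) / 2 := by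
  unfold LL
  rw [kk_persp ha hb, io_persp ha hb]
  unfold sF
  ring

/-! ### `sF` -/

theorem Persp.psi_abs (x : ℝ) : psi |x| = psi x := by
  unfold psi; rw [signEntropy_abs]

theorem Persp.artanh_neg_all (x : ℝ) : Real.artanh (-x) = -Real.artanh x := by
  unfold Real.artanh
  rcases lt_or_ge |x| 1 with h | h
  · have := artanh_neg' h
    simpa [Real.artanh] using this
  · have hx : (1 + x) * (1 - x) ≤ 0 := by
      have : 1 ≤ x ^ 2 := by
        rw [← sq_abs]; nlinarith
      nlinarith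
    have h1 : (1 + x) / (1 - x) ≤ 0 := by
      rcases eq_or_ne (1 - x) 0 with h0 | h0
      · rw [h0]; simp
      · have : (1 + x) / (1 - x) = ((1 + x) * (1 - x)) / (1 - x) ^ 2 := by
          field_simp
        rw [this]
        exact div_nonpos_of_nonpos_of_nonneg hx (sq_nonneg _)
    have h2 : (1 + -x) / (1 - -x) ≤ 0 := by
      rcases eq_or_ne (1 + x) 0 with h0 | h0
      · have : 1 - -x = 0 := by linarith
        rw [this]; simp
      · have : (1 + -x) / (1 - -x) = ((1 + x) * (1 - x)) / (1 + x) ^ 2 := by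
          rw [sub_neg_eq_add]
          field_simp
          ring
        rw [this]
        exact div_nonpos_of_nonpos_of_nonneg hx (sq_nonneg _)
    rw [Real.sqrt_eq_zero_of_nonpos h1, Real.sqrt_eq_zero_of_nonpos h2]
    simp

theorem sF_neg (x : ℝ) : sF (-x) = sF x := by
  unfold sF
  rw [artanh_neg_all, psi_neg]
  ring

theorem sF_abs (x : ℝ) : sF |x| = sF x := by
  rcases abs_choice x with h | h <;> rw [h]
  exact sF_neg x

theorem hasDerivAt_sF {x : ℝ} (hx : |x| < 1) :
    HasDerivAt sF (x / (1 - x ^ 2) - Real.artanh x) x := by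
  refine (((hasDerivAt_id x).mul (hasDerivAt_artanh hx)).sub
    ((hasDerivAt_psi hx).const_mul 2)).congr_deriv ?_
  simp only [id]
  ring

theorem Persp.one_sub_sq_pos_of_abs {x : ℝ} (hx : |x| < 1) : 0 < 1 - x ^ 2 := by
  have := (sq_lt_one_iff_abs_lt_one x).mpr hx
  linarith

/-- derivative of `x / (1-x^2) - artanh x`. -/
theorem hasDerivAt_sF' {x : ℝ} (hx : |x| < 1) :
    HasDerivAt (fun x => x / (1 - x ^ 2) - Real.artanh x) (2 * x ^ 2 / (1 - x ^ 2) ^ 2) x := by
  have h3 := one_sub_sq_pos_of_abs hx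
  have e1 : HasDerivAt (fun x : ℝ => 1 - x ^ 2) (-(2 * x)) x := by
    have := (hasDerivAt_pow 2 x).const_sub 1
    simpa using this
  refine (((hasDerivAt_id x).div e1 h3.ne').sub (hasDerivAt_artanh hx)).congr_deriv ?_
  simp only [id]
  field_simp
  ring

theorem continuousOn_sF : ContinuousOn sF (Ioo (-1) 1) := fun _ hx =>
  (hasDerivAt_sF (abs_lt.mpr hx)).continuousAt.continuousWithinAt

/-- the derivative of `sF` is monotone on `(-1,1)`. -/
theorem monotoneOn_sF' : MonotoneOn (fun x => x / (1 - x ^ 2) - Real.artanh x) (Ioo (-1) 1) := by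
  refine monotoneOn_of_deriv_nonneg (convex_Ioo _ _) ?_ ?_ ?_
  · intro x hx
    exact (hasDerivAt_sF' (abs_lt.mpr hx)).continuousAt.continuousWithinAt
  · rw [interior_Ioo]
    intro x hx
    exact (hasDerivAt_sF' (abs_lt.mpr hx)).differentiableAt.differentiableWithinAt
  · rw [interior_Ioo]
    intro x hx
    rw [(hasDerivAt_sF' (abs_lt.mpr hx)).deriv]
    have := one_sub_sq_pos_of_abs (abs_lt.mpr hx)
    positivity

theorem convexOn_sF : ConvexOn ℝ (Ioo (-1) 1) sF := by
  refine MonotoneOn.convexOn_of_deriv (convex_Ioo _ _) continuousOn_sF ?_ ?_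
  · rw [interior_Ioo]
    intro x hx
    exact (hasDerivAt_sF (abs_lt.mpr hx)).differentiableAt.differentiableWithinAt
  · rw [interior_Ioo]
    intro x hx y hy hxy
    rw [(hasDerivAt_sF (abs_lt.mpr hx)).deriv, (hasDerivAt_sF (abs_lt.mpr hy)).deriv]
    exact monotoneOn_sF' hx hy hxy

theorem monotoneOn_sF : MonotoneOn sF (Ico 0 1) := by
  refine monotoneOn_of_deriv_nonneg (convex_Ico 0 1) ?_ ?_ ?_
  · exact continuousOn_sF.mono fun x hx => ⟨by linarith [hx.1], hx.2⟩
  · rw [interior_Ico]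
    intro x hx
    exact (hasDerivAt_sF (abs_lt_one_of_mem hx.1.le hx.2)).differentiableAt.differentiableWithinAt
  · rw [interior_Ico]
    intro x hx
    rw [(hasDerivAt_sF (abs_lt_one_of_mem hx.1.le hx.2)).deriv]
    linarith [artanh_le hx.1.le hx.2]

theorem sF_nonneg_of_mem {x : ℝ} (h0 : 0 ≤ x) (h1 : x < 1) : 0 ≤ sF x := by
  have := monotoneOn_sF (left_mem_Ico.mpr one_pos) ⟨h0, h1⟩ h0
  rwa [sF_zero] at this

theorem sF_nonneg {x : ℝ} (hx : |x| < 1) : 0 ≤ sF x := by
  rw [← sF_abs]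
  exact sF_nonneg_of_mem (abs_nonneg x) hx

/-- `x ^ 4 / 6 ≤ sF x` on `(-1,1)`. -/
theorem pow_four_le_sF {x : ℝ} (hx : |x| < 1) : x ^ 4 / 6 ≤ sF x := by
  have hd0 : ∀ x : ℝ, |x| < 1 → HasDerivAt (fun x : ℝ => x ^ 3 * (2 / 3)) (2 * x ^ 2) x := by
    intro x _
    refine ((hasDerivAt_pow 3 x).mul_const (2 / 3)).congr_deriv ?_
    push_cast
    ring
  -- first: `2/3 x^3 ≤ x/(1-x^2) - artanh x` on `[0,1)`
  have h1 : MonotoneOn (fun x : ℝ => (x / (1 - x ^ 2) - Real.artanh x) - x ^ 3 * (2 / 3))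
      (Ico 0 1) := by
    refine monotoneOn_of_deriv_nonneg (convex_Ico 0 1) ?_ ?_ ?_
    · intro x hx
      have hx' := abs_lt_one_of_mem hx.1 hx.2
      exact ((hasDerivAt_sF' hx').sub (hd0 x hx')).continuousAt.continuousWithinAt
    · rw [interior_Ico]
      intro x hx
      have hx' := abs_lt_one_of_mem hx.1.le hx.2
      exact ((hasDerivAt_sF' hx').sub (hd0 x hx')).differentiableAt.differentiableWithinAt
    · rw [interior_Ico]
      intro x hx
      have hx' := abs_lt_one_of_mem hx.1.le hx.2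
      have he : HasDerivAt (fun x : ℝ => (x / (1 - x ^ 2) - Real.artanh x) - x ^ 3 * (2 / 3))
        (2 * x ^ 2 / (1 - x ^ 2) ^ 2 - 2 * x ^ 2) x := (hasDerivAt_sF' hx').sub (hd0 x hx')
      rw [he.deriv]
      have h3 := one_sub_sq_pos hx.1.le hx.2
      have h4 : (1 - x ^ 2) ^ 2 ≤ 1 := by
        have : 1 - x ^ 2 ≤ 1 := by nlinarith [sq_nonneg x]
        exact pow_le_one₀ h3.le this
      have h5 : 2 * x ^ 2 ≤ 2 * x ^ 2 / (1 - x ^ 2) ^ 2 := by
        rw [le_div_iff₀ (by positivity)]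
        nlinarith [sq_nonneg x]
      linarith
  have h2 : ∀ x : ℝ, 0 ≤ x → x < 1 → x ^ 3 * (2 / 3) ≤ x / (1 - x ^ 2) - Real.artanh x := by
    intro x h0 hx1
    have := h1 (left_mem_Ico.mpr one_pos) ⟨h0, hx1⟩ h0
    simp at this
    linarith
  have hd4 : ∀ x : ℝ, HasDerivAt (fun x : ℝ => x ^ 4 / 6) (x ^ 3 * (2 / 3)) x := by
    intro x
    refine ((hasDerivAt_pow 4 x).div_const 6).congr_deriv ?_
    push_cast
    ring
  have h3 : MonotoneOn (fun x : ℝ => sF x - x ^ 4 / 6) (Ico 0 1) := by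
    refine monotoneOn_of_deriv_nonneg (convex_Ico 0 1) ?_ ?_ ?_
    · intro x hx
      have hx' := abs_lt_one_of_mem hx.1 hx.2
      exact ((hasDerivAt_sF hx').sub (hd4 x)).continuousAt.continuousWithinAt
    · rw [interior_Ico]
      intro x hx
      have hx' := abs_lt_one_of_mem hx.1.le hx.2
      exact ((hasDerivAt_sF hx').sub (hd4 x)).differentiableAt.differentiableWithinAt
    · rw [interior_Ico]
      intro x hx
      have hx' := abs_lt_one_of_mem hx.1.le hx.2
      have he : HasDerivAt (fun x : ℝ => sF x - x ^ 4 / 6)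
        (x / (1 - x ^ 2) - Real.artanh x - x ^ 3 * (2 / 3)) x := (hasDerivAt_sF hx').sub (hd4 x)
      rw [he.deriv]
      have := h2 x hx.1.le hx.2
      linarith
  have h4 := h3 (left_mem_Ico.mpr one_pos) ⟨abs_nonneg x, hx⟩ (abs_nonneg x)
  simp only [sF_zero, sF_abs] at h4
  have h5 : |x| ^ 4 = x ^ 4 := by
    have : |x| ^ 4 = (|x| ^ 2) ^ 2 := by ring
    rw [this, sq_abs]; ring
  rw [h5] at h4
  norm_num at h4
  linarith

/-! ### `io`, `LL` -/

theorem io_nonneg {a b : ℝ} (ha : |a| < 1) (hb : |b| < 1) : 0 ≤ io a b := by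
  rw [io_persp ha hb]
  have h1 := one_add_mid_pos ha hb
  have h2 := one_sub_mid_pos ha hb
  have h3 := psi_nonneg (((a - b) / 2) / (1 + (a + b) / 2))
  have h4 := psi_nonneg (((a - b) / 2) / (1 - (a + b) / 2))
  positivity

theorem LL_nonneg {a b : ℝ} (ha : |a| < 1) (hb : |b| < 1) : 0 ≤ LL a b := by
  rw [LL_persp ha hb]
  have h1 := one_add_mid_pos ha hb
  have h2 := one_sub_mid_pos ha hb
  have h3 := sF_nonneg (abs_dp_lt_one ha hb)
  have h4 := sF_nonneg (abs_dm_lt_one ha hb)
  positivity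

theorem io_comm (a b : ℝ) : io a b = io b a := by
  unfold io; rw [add_comm b a, add_comm (signEntropy b)]

theorem Persp.kk_comm (a b : ℝ) : kk a b = kk b a := by
  unfold kk; ring

theorem LL_comm (a b : ℝ) : LL a b = LL b a := by
  unfold LL; rw [kk_comm, io_comm]

theorem Persp.io_self (a : ℝ) : io a a = 0 := by
  unfold io
  have : (a + a) / 2 = a := by ring
  rw [this]; ring

theorem Persp.kk_self (a : ℝ) : kk a a = 0 := by
  unfold kk; ring

theorem Persp.LL_self (a : ℝ) : LL a a = 0 := by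
  unfold LL; rw [kk_self, io_self]; ring

theorem Persp.io_neg (a b : ℝ) : io (-a) (-b) = io a b := by
  unfold io
  have : (-a + -b) / 2 = -((a + b) / 2) := by ring
  rw [this, signEntropy_neg, signEntropy_neg, signEntropy_neg]

theorem Persp.kk_neg (a b : ℝ) : kk (-a) (-b) = kk a b := by
  unfold kk
  rw [artanh_neg_all, artanh_neg_all]
  ring

theorem Persp.LL_neg (a b : ℝ) : LL (-a) (-b) = LL a b := by
  unfold LL; rw [kk_neg, io_neg]

/-! ### `SS` -/

/-- value of `SS` for `I ≤ 0`. -/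
theorem SS_of_nonpos {I : ℝ} (h : I ≤ 0) : SS I = 0 := by
  rcases eq_or_lt_of_le h with h | h
  · rw [h, SS_zero]
  · exact SS_of_neg h

/-- every `0 ≤ I < log 2` is `psi r`, with `r = hinv (log 2 - I)`. -/
theorem Persp.psi_hinv {I : ℝ} (h0 : 0 ≤ I) (h1 : I < Real.log 2) :
    psi (hinv (Real.log 2 - I)) = I := by
  unfold psi
  rw [signEntropy_hinv (by linarith) (by linarith)]
  ring

theorem SS_nonneg {I : ℝ} (h1 : I < Real.log 2) : 0 ≤ SS I := by
  unfold SS
  have := hinv_mem (y := Real.log 2 - I) (by linarith)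
  exact sF_nonneg_of_mem this.1 this.2

theorem sF_tangent_le {t r : ℝ} (h0 : 0 ≤ t) (h1 : t < 1) (hr0 : 0 ≤ r) (hr1 : r < 1) :
    sF t + (kappa t - 2) * (psi r - psi t) ≤ sF r := by
  have := F_tangent_le h0 h1 hr0 hr1
  unfold sF
  linarith

/-- the tangent line at `t = 0` of the slope: `sF t ≤ (kappa t - 2) * psi t`. -/
theorem sF_le_kappa_mul_psi {t : ℝ} (h0 : 0 ≤ t) (h1 : t < 1) :
    sF t ≤ (kappa t - 2) * psi t := by
  have := sF_tangent_le h0 h1 le_rfl one_pos
  rw [sF_zero, psi_zero] at this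
  linarith

/-- **tangent lines of `SS`** -/
theorem SS_tangent {t I : ℝ} (h0 : 0 ≤ t) (h1 : t < 1) (hI : I < Real.log 2) :
    sF t + (kappa t - 2) * (I - psi t) ≤ SS I := by
  rcases le_or_gt 0 I with hI0 | hI0
  · have hm := hinv_mem (y := Real.log 2 - I) (by linarith)
    have h := sF_tangent_le h0 h1 hm.1 hm.2
    rw [psi_hinv hI0 hI] at h
    exact h
  · rw [SS_of_neg hI0]
    have h := sF_le_kappa_mul_psi h0 h1
    have hk := two_le_kappa h0 h1
    nlinarith [mul_nonneg (by linarith : 0 ≤ kappa t - 2) (by linarith : 0 ≤ -I)]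

theorem SS_mono {I J : ℝ} (hIJ : I ≤ J) (hJ : J < Real.log 2) : SS I ≤ SS J := by
  rcases le_or_gt I 0 with hI0 | hI0
  · rw [SS_of_nonpos hI0]
    exact SS_nonneg hJ
  · have hm := hinv_mem (y := Real.log 2 - I) (by linarith)
    have h := SS_tangent hm.1 hm.2 hJ
    rw [psi_hinv hI0.le (by linarith)] at h
    have hk := two_le_kappa hm.1 hm.2
    have : 0 ≤ (kappa (hinv (Real.log 2 - I)) - 2) * (J - I) :=
      mul_nonneg (by linarith) (by linarith)
    show sF _ ≤ _
    linarith

theorem monotoneOn_SS : MonotoneOn SS (Iio (Real.log 2)) := fun _ _ _ hy hxy => SS_mono hxy hy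

/-- supporting line of `SS` at every point. -/
theorem SS_support {I J : ℝ} (hI : I < Real.log 2) (hJ : J < Real.log 2) :
    SS I + (kappa (hinv (Real.log 2 - I)) - 2) * (J - I) ≤ SS J := by
  rcases le_or_gt 0 I with hI0 | hI0
  · have hm := hinv_mem (y := Real.log 2 - I) (by linarith)
    have h := SS_tangent hm.1 hm.2 hJ
    rwa [psi_hinv hI0 hI] at h
  · rw [hinv_of_gt (by linarith), kappa_zero, SS_of_neg hI0]
    have := SS_nonneg hJ
    linarith

theorem convexOn_SS : ConvexOn ℝ (Iio (Real.log 2)) SS := by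
  refine ⟨convex_Iio _, fun x hx y hy a b ha hb hab => ?_⟩
  simp only [smul_eq_mul, mem_Iio] at *
  have hz : a * x + b * y < Real.log 2 := by
    have := (convex_Iio (Real.log 2)) (x := x) hx (y := y) hy ha hb hab
    simpa only [smul_eq_mul, mem_Iio] using this
  have h1 := SS_support hz hx
  have h2 := SS_support hz hy
  set k := kappa (hinv (Real.log 2 - (a * x + b * y))) - 2
  have h3 := mul_le_mul_of_nonneg_left h1 ha
  have h4 := mul_le_mul_of_nonneg_left h2 hb
  have hb' : b = 1 - a := by linarith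
  subst hb'
  nlinarith

/-- superadditivity of `SS` on `I ≥ 0`. -/
theorem SS_superadd {x y : ℝ} (hx : 0 ≤ x) (hy : 0 ≤ y) (hxy : x + y < Real.log 2) :
    SS x + SS y ≤ SS (x + y) := by
  rcases eq_or_lt_of_le (add_nonneg hx hy) with h0 | h0
  · have hx0 : x = 0 := by linarith
    have hy0 : y = 0 := by linarith
    rw [hx0, hy0, add_zero, SS_zero]; norm_num
  · have key : ∀ u v : ℝ, 0 ≤ u → 0 ≤ v → u + v = x + y → SS u ≤ u / (x + y) * SS (x + y) := by
      intro u v hu hv huv
      have hm1 : x + y ∈ Iio (Real.log 2) := hxy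
      have hm2 : (0 : ℝ) ∈ Iio (Real.log 2) := by
        show (0 : ℝ) < Real.log 2
        linarith
      have hu' : 0 ≤ u / (x + y) := by positivity
      have hv' : 0 ≤ v / (x + y) := by positivity
      have huv' : u / (x + y) + v / (x + y) = 1 := by rw [← add_div, huv, div_self h0.ne']
      have hc := convexOn_SS.2 hm1 hm2 hu' hv' huv'
      simp only [smul_eq_mul, mul_zero, add_zero, SS_zero] at hc
      rwa [div_mul_cancel₀ _ h0.ne'] at hc
    have h1 := key x y hx hy rfl
    have h2 := key y x hy hx (add_comm y x)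
    have h3 : x / (x + y) * SS (x + y) + y / (x + y) * SS (x + y) = SS (x + y) := by
      rw [← add_mul, ← add_div, div_self h0.ne', one_mul]
    linarith

theorem continuousOn_SS : ContinuousOn SS (Iio (Real.log 2)) :=
  convexOn_SS.continuousOn isOpen_Iio

theorem continuousAt_SS {I : ℝ} (hI : I < Real.log 2) : ContinuousAt SS I :=
  continuousOn_SS.continuousAt (Iio_mem_nhds hI)

/-- `x ^ 2 / 2 ≤ psi x` on `(-1,1)`. -/
theorem Persp.sq_div_two_le_psi {x : ℝ} (hx : |x| < 1) : x ^ 2 / 2 ≤ psi x := by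
  have hd : ∀ y : ℝ, |y| < 1 → HasDerivAt (fun y : ℝ => psi y - y ^ 2 / 2)
      (Real.artanh y - y) y := by
    intro y hy
    refine ((hasDerivAt_psi hy).sub ((hasDerivAt_pow 2 y).div_const 2)).congr_deriv ?_
    push_cast
    ring
  have h1 : MonotoneOn (fun y : ℝ => psi y - y ^ 2 / 2) (Ico 0 1) := by
    refine monotoneOn_of_deriv_nonneg (convex_Ico 0 1) ?_ ?_ ?_
    · intro y hy
      exact (hd y (abs_lt_one_of_mem hy.1 hy.2)).continuousAt.continuousWithinAt
    · rw [interior_Ico]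
      intro y hy
      exact (hd y (abs_lt_one_of_mem hy.1.le hy.2)).differentiableAt.differentiableWithinAt
    · rw [interior_Ico]
      intro y hy
      rw [(hd y (abs_lt_one_of_mem hy.1.le hy.2)).deriv]
      linarith [le_artanh hy.1.le hy.2]
  have h2 := h1 (left_mem_Ico.mpr one_pos) ⟨abs_nonneg x, hx⟩ (abs_nonneg x)
  simp only [psi_zero, psi_abs, sq_abs] at h2
  norm_num at h2
  linarith

/-- abbreviation: the parameter `r` with `psi r = I`. -/
theorem Persp.hinv_mono {I J : ℝ} (hIJ : I ≤ J) (hJ : J < Real.log 2) :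
    hinv (Real.log 2 - I) ≤ hinv (Real.log 2 - J) := by
  have hmJ := hinv_mem (y := Real.log 2 - J) (by linarith)
  rcases lt_or_ge I 0 with h | h
  · rw [hinv_of_gt (by linarith)]
    exact hmJ.1
  · have hmI := hinv_mem (y := Real.log 2 - I) (by linarith)
    rw [← strictMonoOn_psi.le_iff_le ⟨hmI.1, hmI.2.le⟩ ⟨hmJ.1, hmJ.2.le⟩,
      psi_hinv h (by linarith), psi_hinv (h.trans hIJ) hJ]
    exact hIJ

/-- continuity of `I ↦ hinv (log 2 - I)` on `I < log 2`. -/
theorem Persp.continuousAt_hinv_sub {I : ℝ} (hI : I < Real.log 2) :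
    ContinuousAt (fun I => hinv (Real.log 2 - I)) I := by
  rcases lt_trichotomy I 0 with h | h | h
  · have hev : (fun I => hinv (Real.log 2 - I)) =ᶠ[nhds I] fun _ => (0 : ℝ) := by
      filter_upwards [Iio_mem_nhds h] with J hJ
      have hJ' : J < 0 := hJ
      exact hinv_of_gt (by linarith)
    exact continuousAt_const.congr hev.symm
  · subst h
    -- squeeze `0 ≤ hinv (log 2 - I) ≤ sqrt (2 * |I|)`
    have h0 : hinv (Real.log 2 - 0) = 0 := by
      rw [sub_zero, ← signEntropy_zero, hinv_signEntropy le_rfl one_pos]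
    have hup : ∀ J : ℝ, J < Real.log 2 → hinv (Real.log 2 - J) ≤ Real.sqrt (2 * |J|) := by
      intro J hJ
      rcases lt_or_ge J 0 with hJ0 | hJ0
      · rw [hinv_of_gt (by linarith)]
        exact Real.sqrt_nonneg _
      · have hm := hinv_mem (y := Real.log 2 - J) (by linarith)
        have h1 := sq_div_two_le_psi (abs_lt_one_of_mem hm.1 hm.2)
        rw [psi_hinv hJ0 hJ] at h1
        rw [abs_of_nonneg hJ0]
        exact Real.le_sqrt_of_sq_le (by linarith)
    have hlim : Filter.Tendsto (fun J : ℝ => Real.sqrt (2 * |J|)) (nhds 0) (nhds 0) := by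
      have hc : Continuous (fun J : ℝ => Real.sqrt (2 * |J|)) := by fun_prop
      have := hc.tendsto 0
      simpa using this
    show Filter.Tendsto _ _ (nhds (hinv (Real.log 2 - 0)))
    rw [h0]
    refine tendsto_of_tendsto_of_tendsto_of_le_of_le' tendsto_const_nhds hlim ?_ ?_
    · filter_upwards [Iio_mem_nhds hI] with J hJ
      have hJ' : J < Real.log 2 := hJ
      exact (hinv_mem (by linarith)).1
    · filter_upwards [Iio_mem_nhds hI] with J hJ
      exact hup J hJ
  · have hs : Ioo 0 (Real.log 2) ∈ nhds I := Ioo_mem_nhds h hI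
    have hm := hinv_mem (y := Real.log 2 - I) (by linarith)
    have hpos : 0 < hinv (Real.log 2 - I) := by
      rcases eq_or_lt_of_le hm.1 with h' | h'
      · have := psi_hinv h.le hI
        rw [← h', psi_zero] at this
        linarith
      · exact h'
    refine continuousAt_of_monotoneOn_of_image_mem_nhds (s := Ioo 0 (Real.log 2)) ?_ hs ?_
    · intro x hx y hy hxy
      exact hinv_mono hxy hy.2
    · refine Filter.mem_of_superset (Ioo_mem_nhds hpos hm.2) ?_
      intro r hr
      refine ⟨psi r, ⟨?_, psi_lt_log_two (abs_lt_one_of_mem hr.1.le hr.2)⟩, ?_⟩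
      · have := strictMonoOn_psi (left_mem_Icc.mpr zero_le_one) ⟨hr.1.le, hr.2.le⟩ hr.1
        rwa [psi_zero] at this
      · show hinv (Real.log 2 - psi r) = r
        unfold psi
        rw [sub_sub_cancel, hinv_signEntropy hr.1.le hr.2]

/-- slope of `SS` at `I`. -/
noncomputable def SSd (I : ℝ) : ℝ := kappa (hinv (Real.log 2 - I)) - 2

theorem SSd_psi {r : ℝ} (h0 : 0 ≤ r) (h1 : r < 1) : SSd (psi r) = kappa r - 2 := by
  unfold SSd psi
  rw [sub_sub_cancel, hinv_signEntropy h0 h1]

theorem SSd_nonneg {I : ℝ} (hI : I < Real.log 2) : 0 ≤ SSd I := by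
  have hm := hinv_mem (y := Real.log 2 - I) (by linarith)
  have := two_le_kappa hm.1 hm.2
  unfold SSd
  linarith

theorem SSd_of_nonpos {I : ℝ} (h : I ≤ 0) : SSd I = 0 := by
  unfold SSd
  rcases eq_or_lt_of_le h with h | h
  · rw [h, sub_zero, ← signEntropy_zero, hinv_signEntropy le_rfl one_pos, kappa_zero, sub_self]
  · rw [hinv_of_gt (by linarith), kappa_zero, sub_self]

theorem SSd_mono {I J : ℝ} (hIJ : I ≤ J) (hJ : J < Real.log 2) : SSd I ≤ SSd J := by
  have hmI := hinv_mem (y := Real.log 2 - I) (by linarith)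
  have hmJ := hinv_mem (y := Real.log 2 - J) (by linarith)
  have := strictMonoOn_kappa.monotoneOn hmI hmJ (hinv_mono hIJ hJ)
  unfold SSd
  linarith

theorem continuousAt_SSd {I : ℝ} (hI : I < Real.log 2) : ContinuousAt SSd I := by
  have hm := hinv_mem (y := Real.log 2 - I) (by linarith)
  have h1 : Filter.Tendsto (fun I => hinv (Real.log 2 - I)) (nhds I)
      (nhdsWithin (hinv (Real.log 2 - I)) (Ico 0 1)) := by
    refine tendsto_nhdsWithin_iff.mpr ⟨continuousAt_hinv_sub hI, ?_⟩
    filter_upwards [Iio_mem_nhds hI] with J hJ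
    have hJ' : J < Real.log 2 := hJ
    exact hinv_mem (by linarith)
  exact ((continuousOn_kappa _ hm).tendsto.comp h1).sub_const 2

/-- supporting line of `SS`, slope named. -/
theorem SS_support' {I J : ℝ} (hI : I < Real.log 2) (hJ : J < Real.log 2) :
    SS I + SSd I * (J - I) ≤ SS J := SS_support hI hJ

/-- `SS` is differentiable on `I < log 2`, with derivative `SSd`. -/
theorem hasDerivAt_SS' {I : ℝ} (hI : I < Real.log 2) : HasDerivAt SS (SSd I) I := by
  rw [hasDerivAt_iff_tendsto_slope]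
  have hc := (continuousAt_SSd hI).tendsto
  have hc' : Filter.Tendsto SSd (nhdsWithin I {I}ᶜ) (nhds (SSd I)) :=
    hc.mono_left nhdsWithin_le_nhds
  have hlo : Filter.Tendsto (fun J => min (SSd I) (SSd J)) (nhdsWithin I {I}ᶜ)
      (nhds (SSd I)) := by
    have := (tendsto_const_nhds (x := SSd I)).min hc'
    simpa using this
  have hhi : Filter.Tendsto (fun J => max (SSd I) (SSd J)) (nhdsWithin I {I}ᶜ)
      (nhds (SSd I)) := by
    have := (tendsto_const_nhds (x := SSd I)).max hc'
    simpa using this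
  have hkey : ∀ J, J < Real.log 2 → J ≠ I →
      min (SSd I) (SSd J) ≤ slope SS I J ∧ slope SS I J ≤ max (SSd I) (SSd J) := by
    intro J hJ hne
    have h1 := SS_support' hI hJ
    have h2 := SS_support' hJ hI
    rw [slope_def_field]
    rcases lt_or_gt_of_ne hne with h | h
    · have hneg : J - I < 0 := by linarith
      constructor
      · refine (min_le_right _ _).trans ?_
        rw [le_div_iff_of_neg hneg]
        linarith
      · refine le_trans ?_ (le_max_left _ _)
        rw [div_le_iff_of_neg hneg]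
        linarith
    · have hpos : 0 < J - I := by linarith
      constructor
      · refine (min_le_left _ _).trans ?_
        rw [le_div_iff₀ hpos]
        linarith
      · refine le_trans ?_ (le_max_right _ _)
        rw [div_le_iff₀ hpos]
        linarith
  refine tendsto_of_tendsto_of_tendsto_of_le_of_le' hlo hhi ?_ ?_
  · filter_upwards [nhdsWithin_le_nhds (Iio_mem_nhds hI), self_mem_nhdsWithin] with J hJ hne
    exact (hkey J hJ hne).1
  · filter_upwards [nhdsWithin_le_nhds (Iio_mem_nhds hI), self_mem_nhdsWithin] with J hJ hne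
    exact (hkey J hJ hne).2

/-- derivative of `SS` at `psi r`. -/
theorem hasDerivAt_SS {r : ℝ} (h0 : 0 ≤ r) (h1 : r < 1) :
    HasDerivAt SS (kappa r - 2) (psi r) := by
  have := hasDerivAt_SS' (psi_lt_log_two (abs_lt_one_of_mem h0 h1))
  rwa [SSd_psi h0 h1] at this

/-! ### `cc` and `PP` -/

theorem cc_eq (t : ℝ) : cc t = sF t + (kappa t - 2) * signEntropy t := by
  unfold cc CC sF psi
  ring

theorem cc_zero : cc 0 = 0 := by
  unfold cc; rw [CC_zero]; ring

theorem cc_nonneg {t : ℝ} (h0 : 0 ≤ t) (h1 : t < 1) : 0 ≤ cc t := by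
  rw [cc_eq]
  have h2 := sF_nonneg_of_mem h0 h1
  have h3 := two_le_kappa h0 h1
  have h4 := signEntropy_nonneg (abs_lt_one_of_mem h0 h1).le
  have := mul_nonneg (by linarith : 0 ≤ kappa t - 2) h4
  linarith

theorem monotoneOn_cc : MonotoneOn cc (Ico 0 1) := by
  intro s hs t ht hst
  -- `cc s = CC s - 2 log 2`; `CC s - kappa s * h t ≤ t artanh t = CC t - kappa t * h t`
  have h1 := CC_sub_le hs.1 hs.2 ht.1 ht.2
  have h2 := CC_sub_self t
  have h3 : kappa s ≤ kappa t := strictMonoOn_kappa.monotoneOn hs ht hst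
  have h4 := signEntropy_nonneg (abs_lt_one_of_mem ht.1 ht.2).le
  have h5 := mul_le_mul_of_nonneg_right h3 h4
  unfold cc
  linarith

theorem PP_eq {w A : ℝ} : PP w A = w * sF (hinv (A / w)) := by
  unfold PP SS
  rw [sub_sub_cancel]

/-- **tangent form of `PP`** -/
theorem PP_tangent {w A t : ℝ} (hw : 0 < w) (hA : 0 < A) (h0 : 0 ≤ t) (h1 : t < 1) :
    w * cc t - (kappa t - 2) * A ≤ PP w A := by
  have hI : Real.log 2 - A / w < Real.log 2 := by
    have := div_pos hA hw
    linarith
  have h := SS_tangent h0 h1 hI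
  have h2 := mul_le_mul_of_nonneg_left h hw.le
  rw [cc_eq]
  unfold PP
  have e : w * (sF t + (kappa t - 2) * (Real.log 2 - A / w - psi t))
      = w * (sF t + (kappa t - 2) * signEntropy t) - (kappa t - 2) * A := by
    unfold psi
    field_simp
    ring
  linarith

/-- `PP w A = 0` for `A ≥ w log 2`. -/
theorem PP_eq_zero {w A : ℝ} (hw : 0 < w) (hA : w * Real.log 2 ≤ A) : PP w A = 0 := by
  unfold PP
  rw [SS_of_nonpos, mul_zero]
  rw [sub_nonpos, le_div_iff₀ hw]
  linarith

/-- equality in the tangent form for `t = hinv (A / w)`. -/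
theorem PP_eq_tangent {w A : ℝ} (hw : 0 < w) (hA : 0 < A) :
    PP w A = w * cc (hinv (A / w)) - (kappa (hinv (A / w)) - 2) * A := by
  have hAw := div_pos hA hw
  rcases le_or_gt (A / w) (Real.log 2) with h | h
  · rw [PP_eq, cc_eq, signEntropy_hinv hAw h]
    field_simp
    ring
  · rw [hinv_of_gt h, cc_zero, kappa_zero, PP_eq_zero hw]
    · ring
    · rw [lt_div_iff₀ hw] at h
      linarith

theorem PP_nonneg {w A : ℝ} (hw : 0 < w) (hA : 0 < A) : 0 ≤ PP w A := by
  unfold PP
  have : 0 ≤ SS (Real.log 2 - A / w) := SS_nonneg (by linarith [div_pos hA hw])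
  positivity

theorem PP_mono {w w' A : ℝ} (hw : 0 < w) (hww : w ≤ w') (hA : 0 < A) : PP w A ≤ PP w' A := by
  rw [PP_eq_tangent hw hA]
  have hm := hinv_mem (div_pos hA hw)
  have h := PP_tangent (hw.trans_le hww) hA hm.1 hm.2
  have h2 := mul_le_mul_of_nonneg_right hww (cc_nonneg hm.1 hm.2)
  linarith

theorem PP_antitone {w A A' : ℝ} (hw : 0 < w) (hA : 0 < A) (hAA : A ≤ A') : PP w A' ≤ PP w A := by
  unfold PP
  refine mul_le_mul_of_nonneg_left (SS_mono ?_ ?_) hw.le
  · have := div_le_div_of_nonneg_right hAA hw.le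
    linarith
  · linarith [div_pos hA hw]

/-- `PP` is subadditive (it is a perspective of a convex function). -/
theorem PP_subadd {w w' A A' : ℝ} (hw : 0 < w) (hw' : 0 < w') (hA : 0 < A) (hA' : 0 < A') :
    PP (w + w') (A + A') ≤ PP w A + PP w' A' := by
  rw [PP_eq_tangent (add_pos hw hw') (add_pos hA hA')]
  have hm := hinv_mem (div_pos (add_pos hA hA') (add_pos hw hw'))
  have h1 := PP_tangent hw hA hm.1 hm.2
  have h2 := PP_tangent hw' hA' hm.1 hm.2
  linarith

end Crest.Agent.R307
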