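import Crest.Agent.R307.FFreal
import Crest.Agent.R307.Final72
import Crest.Agent.R307.Persp
import Crest.Agent.R307.FFa
import Crest.Agent.R307.FFa2
import Crest.Agent.R307.FFc

/-!
Row 307 (S0472), task T11 (helper437): the scalar inequality (FF), assembly.
-/

set_option autoImplicit false

open Crest.CubeNoise Set

namespace Crest.Agent.R307

namespace FFe

/-- chord bound for powers -/
theorem pow_chord {q0 q1 q s : ℝ} (h0 : 0 ≤ q0) (h1 : 0 ≤ q1) (hs0 : 0 ≤ s) (hs1 : s ≤ 1)
    (hq : q = (1 - s) * q0 + s * q1) (n : ℕ) : q ^ n ≤ (1 - s) * q0 ^ n + s * q1 ^ n := by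
  have h := (convexOn_pow n).2 (mem_Ici.mpr h0) (mem_Ici.mpr h1) (by linarith : 0 ≤ 1 - s) hs0
    (by ring)
  simp only [smul_eq_mul] at h
  rw [hq]
  exact h

/-- `(T - ι) * Q` lies below its chords -/
theorem NQ_chord {ι A B T : ℝ} (h0 : 0 ≤ ι) (hA : ι ≤ A) (hAT : A ≤ T) (hTB : T ≤ B) :
    (B - A) * ((T - ι) * rQ ι T) ≤
      (B - T) * ((A - ι) * rQ ι A) + (T - A) * ((B - ι) * rQ ι B) := by
  rcases eq_or_lt_of_le (hAT.trans hTB) with hAB | hAB
  · have h1 : T = A := by linarith
    have h2 : B = A := by linarith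
    subst h1; subst h2
    linarith
  have hpos : 0 < B - A := by linarith
  set s := (T - A) / (B - A) with hs
  have hs0 : 0 ≤ s := div_nonneg (by linarith) hpos.le
  have hs1 : s ≤ 1 := by rw [hs, div_le_one hpos]; linarith
  have hsm : s * (B - A) = T - A := by rw [hs]; field_simp
  have hq : T - ι = (1 - s) * (A - ι) + s * (B - ι) := by nlinarith
  have e : ∀ U : ℝ, (U - ι) * rQ ι U = (67 / 50 + 11 / 5 * ι + 29 / 2 * ι ^ 3) * (U - ι) +
      (11 / 5 + 29 * ι ^ 2) * (U - ι) ^ 2 + 29 * ι * (U - ι) ^ 3 + 29 / 2 * (U - ι) ^ 4 := by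
    intro U
    unfold rQ
    ring
  have c2 := pow_chord (by linarith : 0 ≤ A - ι) (by linarith : 0 ≤ B - ι) hs0 hs1 hq 2
  have c3 := pow_chord (by linarith : 0 ≤ A - ι) (by linarith : 0 ≤ B - ι) hs0 hs1 hq 3
  have c4 := pow_chord (by linarith : 0 ≤ A - ι) (by linarith : 0 ≤ B - ι) hs0 hs1 hq 4
  have d2 := mul_le_mul_of_nonneg_left c2 (by positivity : 0 ≤ 11 / 5 + 29 * ι ^ 2)
  have d3 := mul_le_mul_of_nonneg_left c3 (by positivity : 0 ≤ 29 * ι)
  have d4 := mul_le_mul_of_nonneg_left c4 (by norm_num : (0 : ℝ) ≤ 29 / 2)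
  have key : (T - ι) * rQ ι T ≤ (1 - s) * ((A - ι) * rQ ι A) + s * ((B - ι) * rQ ι B) := by
    rw [e T, e A, e B]
    have d1 : (67 / 50 + 11 / 5 * ι + 29 / 2 * ι ^ 3) * (T - ι) =
        (67 / 50 + 11 / 5 * ι + 29 / 2 * ι ^ 3) * ((1 - s) * (A - ι) + s * (B - ι)) := by rw [← hq]
    linarith
  have h1s : (1 - s) * (B - A) = B - T := by linarith
  calc (B - A) * ((T - ι) * rQ ι T)
      ≤ (B - A) * ((1 - s) * ((A - ι) * rQ ι A) + s * ((B - ι) * rQ ι B)) :=
        mul_le_mul_of_nonneg_left key hpos.le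
    _ = ((1 - s) * (B - A)) * ((A - ι) * rQ ι A) + (s * (B - A)) * ((B - ι) * rQ ι B) := by ring
    _ = _ := by rw [h1s, hsm]

/-- abbreviation of the (FF) functional divided by `z`: concave in `T` -/
theorem F_chord {m z L θ A B T : ℝ} (hι : 0 ≤ rio m z θ) (hD : 0 ≤ rDD m z L)
    (hu : rio m z θ = (1 - m * m) * (z * ruu m z θ))
    (hA : rio m z θ ≤ A) (hAT : A ≤ T) (hTB : T ≤ B)
    (h1 : 0 ≤ z * rF m z L θ A) (h2 : 0 ≤ z * rF m z L θ B) : 0 ≤ z * rF m z L θ T := by
  rcases eq_or_lt_of_le (hAT.trans hTB) with hAB | hAB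
  · have h1 : T = A := by linarith
    rw [h1]; assumption
  have hpos : 0 < B - A := by linarith
  have e : ∀ U : ℝ, z * rF m z L θ U = z * rkl m z * (U - rio m z θ) -
      rDD m z L * rio m z θ * ((U - rio m z θ) * rQ (rio m z θ) U) - z * (m * m) * rRp m z L := by
    intro U
    unfold rF rX
    rw [show rDD m z L * rio m z θ = rDD m z L * ((1 - m * m) * (z * ruu m z θ)) by rw [← hu]]
    ring
  have hN := NQ_chord hι hA hAT hTB
  have hN' := mul_le_mul_of_nonneg_left hN (mul_nonneg hD hι)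
  rw [e] at h1 h2 ⊢
  have h3 : 0 ≤ (B - T) * (z * rkl m z * (A - rio m z θ) -
      rDD m z L * rio m z θ * ((A - rio m z θ) * rQ (rio m z θ) A) - z * (m * m) * rRp m z L) :=
    mul_nonneg (by linarith) h1
  have h4 : 0 ≤ (T - A) * (z * rkl m z * (B - rio m z θ) -
      rDD m z L * rio m z θ * ((B - rio m z θ) * rQ (rio m z θ) B) - z * (m * m) * rRp m z L) :=
    mul_nonneg (by linarith) h2
  by_contra hneg
  rw [not_le] at hneg
  have h5 := mul_neg_of_pos_of_neg hpos hneg
  nlinarith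

/-- case `T ≤ 1/5` -/
theorem case_small {m z L θ ι q T w j : ℝ} (hdom : Dom m z L θ) (hz : 0 < z) (hw : w = 1 - m * m)
    (hw0 : 0 < w) (hι : ι = rio m z θ) (hι0 : 0 ≤ ι) (hq : T = ι + q) (hq0 : 0 ≤ q)
    (hT : T ≤ 1 / 5) (hα : rkp m z * w * q ≤ j * rden m z) :
    ι * q * rQ ι T ≤ rkk m z * j + m * m * z * rexq m z := by
  have hE := real_E hdom (by linarith)
  have hm0 := hdom.m0
  have ht0 : 0 ≤ rt m z := by unfold rt; exact mul_nonneg hz.le (mul_self_nonneg _)
  have hlam : 0 < rlam m z := by unfold rlam; positivity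
  have hkp : 0 < rkp m z := mul_pos hz hlam
  have hkk : 0 < rkk m z := by unfold rkk; positivity
  have hden : 0 < rden m z := by
    unfold rden
    rw [← hw]
    positivity
  have hul : 0 ≤ rul m z := by unfold rul; positivity
  have hgap : 0 ≤ rgap m z := by unfold rgap; positivity
  have hex : 0 ≤ rexq m z := by
    unfold rexq
    rw [← hw]
    exact mul_nonneg (by positivity) (mul_self_nonneg _)
  have hιu : ι ≤ w * (z * (rul m z + rgap m z)) := by
    rw [hι]
    unfold rio ruu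
    rw [← hw]
    have := mul_le_mul_of_nonneg_right hdom.h1 hgap
    gcongr
    linarith
  have hT0 : 0 ≤ T := by linarith
  have hQ : rQ ι T ≤ 237 / 125 := by
    unfold rQ
    have h1 : (T - ι) * (T - ι) + T * ι ≤ 1 / 25 := by nlinarith
    have h2 : T * (11 / 5 + 29 / 2 * ((T - ι) * (T - ι) + T * ι)) ≤ 1 / 5 * (11 / 5 + 29 / 2 * (1 / 25)) := by
      apply mul_le_mul hT (by linarith) (by nlinarith [mul_self_nonneg (T - ι), mul_nonneg hT0 hι0]) (by norm_num)
    linarith
  have hQ0 : 0 ≤ rQ ι T := by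
    unfold rQ
    have : 0 ≤ (T - ι) * (T - ι) + T * ι := add_nonneg (mul_self_nonneg _) (mul_nonneg hT0 hι0)
    positivity
  have h5q : 5 * q ≤ 1 := by linarith
  -- multiply by `den`
  have g1 : rden m z * (ι * q * rQ ι T) ≤
      rden m z * (w * (z * (rul m z + rgap m z)) * q * (237 / 125)) := by
    gcongr
  have g2 : rkk m z * (rkp m z * w * q) ≤ rkk m z * (j * rden m z) :=
    mul_le_mul_of_nonneg_left hα hkk.le
  have g3 : 5 * q * (m * m * z * rexq m z * rden m z) ≤ 1 * (m * m * z * rexq m z * rden m z) := by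
    gcongr
  have g4 : 0 ≤ w * z * q * rE1 m z := by positivity
  have e4 : w * z * q * rE1 m z = rkk m z * (rkp m z * w * q) -
      rden m z * (w * (z * (rul m z + rgap m z)) * q * (237 / 125)) +
      5 * q * (m * m * z * rexq m z * rden m z) := by
    unfold rE1 rkl rkp rexq
    rw [hw]
    ring
  have g5 : rden m z * (ι * q * rQ ι T) ≤
      rden m z * (rkk m z * j + m * m * z * rexq m z) := by
    rw [e4] at g4
    nlinarith
  exact le_of_mul_le_mul_left g5 hden

/-- case `1/5 ≤ T` -/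
theorem case_large {m z L θ ι q T j : ℝ} (hdom : Dom m z L θ) (hz : 0 < z)
    (hι : ι = rio m z θ) (hι0 : 0 ≤ ι) (hq : T = ι + q) (hq0 : 0 ≤ q)
    (hT : 1 / 5 ≤ T) (hTb : T ≤ rTb m L)
    (hα : rkp m z * (q - m * m * rbp m L) ≤ j * rDD m z L) :
    ι * q * rQ ι T ≤ rkk m z * j + m * m * z * rexq m z := by
  have hm0 := hdom.m0
  have ht0 : 0 ≤ rt m z := by unfold rt; exact mul_nonneg hz.le (mul_self_nonneg _)
  have hlam : 0 < rlam m z := by unfold rlam; positivity
  have hkp : 0 < rkp m z := mul_pos hz hlam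
  have hkk : 0 < rkk m z := by unfold rkk; positivity
  have hDD : 0 < rDD m z L := by
    unfold rDD
    have := hdom.L0
    positivity
  have hiT : rio m z θ ≤ rTb m L := by rw [← hι]; linarith
  -- value at `Tb`
  have fB : 0 ≤ z * rF m z L θ (rTb m L) := by
    rcases real_D hdom hiT (hT.trans hTb) with ⟨h1, h2⟩ | h
    · unfold rF
      have : 0 ≤ (rTb m L - rio m z θ) * rX m z L θ (rTb m L) :=
        mul_nonneg (by linarith) h2.le
      have h3 : 0 ≤ m * m * -rRp m z L := mul_nonneg (mul_self_nonneg _) (by linarith)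
      apply mul_nonneg hz.le
      linarith
    · exact mul_nonneg hz.le h.le
  have hrio : rio m z θ = (1 - m * m) * (z * ruu m z θ) := rfl
  have hι0' : 0 ≤ rio m z θ := by rw [← hι]; exact hι0
  have fT : 0 ≤ z * rF m z L θ T := by
    rcases le_total (rio m z θ) (1 / 5) with hc | hc
    · have fA : 0 ≤ z * rF m z L θ (1 / 5) := by
        rcases real_B hdom hc (hT.trans hTb) with h1 | h
        · have h2 := real_A hdom hc
          unfold rF
          have : 0 ≤ (1 / 5 - rio m z θ) * rX m z L θ (1 / 5) :=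
            mul_nonneg (by linarith) h2.le
          have h3 : 0 ≤ m * m * -rRp m z L := mul_nonneg (mul_self_nonneg _) (by linarith)
          apply mul_nonneg hz.le
          linarith
        · exact mul_nonneg hz.le h.le
      exact F_chord hι0' hDD.le hrio hc hT hTb fA fB
    · have hR := real_C hdom hc hiT
      have fA : 0 ≤ z * rF m z L θ (rio m z θ) := by
        unfold rF
        have h3 : 0 ≤ m * m * -rRp m z L := mul_nonneg (mul_self_nonneg _) (by linarith)
        apply mul_nonneg hz.le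
        rw [sub_self, zero_mul]
        linarith
      exact F_chord hι0' hDD.le hrio le_rfl (by rw [← hι]; linarith) hTb fA fB
  have g2 : rkk m z * (rkp m z * (q - m * m * rbp m L)) ≤ rkk m z * (j * rDD m z L) :=
    mul_le_mul_of_nonneg_left hα hkk.le
  have e : z * rF m z L θ T = rkk m z * (rkp m z * (q - m * m * rbp m L)) +
      rDD m z L * (m * m * z * rexq m z) - rDD m z L * (ι * q * rQ ι T) := by
    have hq' : q = T - ι := by linarith
    have e1 : rDD m z L * (ι * q * rQ ι T) = rDD m z L *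
        ((1 - m * m) * (z * ruu m z θ)) * (T - rio m z θ) * rQ (rio m z θ) T := by
      rw [hq', hι]
      unfold rio
      ring
    rw [e1, hq', hι]
    unfold rF rX rRp rkl
    rw [show rkp m z = z * rlam m z from rfl]
    ring
  have g5 : rDD m z L * (ι * q * rQ ι T) ≤
      rDD m z L * (rkk m z * j + m * m * z * rexq m z) := by
    rw [e] at fT
    nlinarith
  exact le_of_mul_le_mul_left g5 hDD

end FFe

open FFe in
/-- **(FF)** from the product bound on `SS`. -/
theorem ffStmt_of_add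
    (Hadd : ∀ x y : ℝ, 0 ≤ x → 0 ≤ y → x + y ≤ Real.log 2 - 7 / 20 →
      SS (x + y) - SS x - SS y ≤
        x * y * (67 / 50 + 11 / 5 * (x + y) + 29 / 2 * (x + y) * ((x + y) ^ 2 - x * y))) :
    FFStmt := by
  intro m δ w V y j ι hm0 hm1 hδ0 hδ1 hw hι hV0 hVw hy0 hyK hyL hkap _ hT
  set L := Real.log 2 with hL
  have hLlo : 0.6931471803 < L := Real.log_two_gt_d9
  have hLhi : L < 0.6931471808 := Real.log_two_lt_d9
  have h1m : 0 < 1 - m := by linarith
  have h1p : 0 < 1 + m := by linarith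
  have hw' : w = 1 - m * m := by rw [hw]; ring
  have hwf : w = (1 - m) * (1 + m) := by rw [hw]; ring
  have hw0 : 0 < w := by rw [hwf]; positivity
  set ε := δ / (1 + m) with hε
  set x0 := δ / (1 - m) with hx0
  have hε0 : 0 < ε := by positivity
  have hε1 : ε < 1 := by rw [hε, div_lt_one h1p]; linarith
  have hx00 : 0 < x0 := by positivity
  have hx01 : x0 < 1 := by rw [hx0, div_lt_one h1m]; linarith
  have hεx : ε ≤ x0 := by
    rw [hε, hx0]
    exact div_le_div_of_nonneg_left hδ0.le h1m (by linarith)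
  set z := (δ / w) ^ 2 with hz
  have hz0 : 0 < z := by positivity
  have hεz : ε ^ 2 = z * ((1 - m) * (1 - m)) := by
    rw [hε, hz, hwf]; field_simp
  have hxz : x0 ^ 2 = z * ((1 + m) * (1 + m)) := by
    rw [hx0, hz, hwf]; field_simp
  have hrt : rt m z = ε ^ 2 := by unfold rt; rw [hεz]
  have ht0 : 0 ≤ rt m z := by rw [hrt]; positivity
  have ht1 : rt m z < 1 := by rw [hrt]; exact pow_lt_one₀ hε0.le hε1 two_ne_zero
  have hlam : 0 < rlam m z := by unfold rlam; positivity
  have hkp : 0 < rkp m z := mul_pos hz0 hlam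
  have hkk : 0 < rkk m z := by unfold rkk; positivity
  -- kap
  have hkap1 : rkp m z ≤ -Real.log (1 - δ ^ 2 / (1 + m) ^ 2) / (1 - m) ^ 2 := by
    rw [le_div_iff₀ (by positivity)]
    have e1 : δ ^ 2 / (1 + m) ^ 2 = rt m z := by rw [hrt, hε, div_pow]
    rw [e1]
    have h := neg_log_ge4 ht0 ht1
    refine le_trans (le_of_eq ?_) h
    have e2 : rkp m z * (1 - m) ^ 2 = rt m z * rlam m z := by
      unfold rkp rt; ring
    rw [e2]
    unfold rlam
    ring
  have hkV : rkp m z * V ≤ 2 * j := (mul_le_mul_of_nonneg_right hkap1 hV0).trans hkap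
  have hj0 : 0 ≤ j := by
    have := mul_nonneg hkp.le hV0
    linarith
  -- kappa
  have hkappa : rkk m z ≤ kappa ε := by
    refine le_trans (le_of_eq ?_) (kappa_ge_poly hε0.le hε1)
    unfold rkk
    rw [hrt]; ring
  -- iota
  have ha : |m + δ| < 1 := by rw [abs_lt]; constructor <;> linarith
  have hb : |m - δ| < 1 := by rw [abs_lt]; constructor <;> linarith
  have hio := io_persp ha hb
  have e1 : (m + δ + (m - δ)) / 2 = m := by ring
  have e2 : (m + δ - (m - δ)) / 2 = δ := by ring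
  rw [e1, e2, ← hι, ← hε, ← hx0] at hio
  have hε4 : ε ^ 4 = (z * ((1 - m) * (1 - m))) ^ 2 := by rw [← hεz]; ring
  have hε6 : ε ^ 6 = (z * ((1 - m) * (1 - m))) ^ 3 := by rw [← hεz]; ring
  have hε8 : ε ^ 8 = (z * ((1 - m) * (1 - m))) ^ 4 := by rw [← hεz]; ring
  have hx4 : x0 ^ 4 = (z * ((1 + m) * (1 + m))) ^ 2 := by rw [← hxz]; ring
  have hx6 : x0 ^ 6 = (z * ((1 + m) * (1 + m))) ^ 3 := by rw [← hxz]; ring
  have hx8 : x0 ^ 8 = (z * ((1 + m) * (1 + m))) ^ 4 := by rw [← hxz]; ring
  have hιlo : w * (z * rul m z) ≤ ι := by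
    have p1 := mul_le_mul_of_nonneg_left (psi_ge3 hε0.le hε1) h1p.le
    have p2 := mul_le_mul_of_nonneg_left (psi_ge3 hx00.le hx01) h1m.le
    rw [hio]
    have : w * (z * rul m z) = ((1 + m) * (ε ^ 2 / 2 + ε ^ 4 / 12 + ε ^ 6 / 30) +
        (1 - m) * (x0 ^ 2 / 2 + x0 ^ 4 / 12 + x0 ^ 6 / 30)) / 2 := by
      rw [hε4, hε6, hx4, hx6, hεz, hxz, hw']
      unfold rul
      ring
    rw [this]
    linarith
  have hιhi : ι ≤ w * (z * (rul m z + rgap m z)) := by
    have p1 := mul_le_mul_of_nonneg_left (psi_le4 hε0.le hε1.le) h1p.le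
    have p2 := mul_le_mul_of_nonneg_left (psi_le4 hx00.le hx01.le) h1m.le
    rw [hio]
    have : w * (z * (rul m z + rgap m z)) =
        ((1 + m) * (ε ^ 2 / 2 + ε ^ 4 / 12 + ε ^ 6 / 30 + ε ^ 8 / 13) +
        (1 - m) * (x0 ^ 2 / 2 + x0 ^ 4 / 12 + x0 ^ 6 / 30 + x0 ^ 8 / 13)) / 2 := by
      rw [hε4, hε6, hε8, hx4, hx6, hx8, hεz, hxz, hw']
      unfold rul rgap
      ring
    rw [this]
    linarith
  have hgap : 0 < rgap m z := by unfold rgap; positivity
  set θ := (ι - w * (z * rul m z)) / (w * (z * rgap m z)) with hθ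
  have hgz : 0 < w * (z * rgap m z) := by positivity
  have hθ0 : 0 ≤ θ := div_nonneg (by linarith) hgz.le
  have hθ1 : θ ≤ 1 := by
    rw [hθ, div_le_one hgz]
    have : w * (z * (rul m z + rgap m z)) = w * (z * rul m z) + w * (z * rgap m z) := by ring
    linarith
  have hιθ : ι = rio m z θ := by
    have h1 : θ * (w * (z * rgap m z)) = ι - w * (z * rul m z) := by
      rw [hθ]; field_simp
    unfold rio ruu
    rw [← hw']
    linarith
  have hι0 : 0 ≤ ι := by
    have : 0 ≤ rul m z := by unfold rul; positivity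
    have : 0 ≤ w * (z * rul m z) := by positivity
    linarith
  have hdom : Dom m z L θ := by
    refine ⟨hm0, hm1.le, hz0.le, ?_, hLlo, hLhi, hθ0, hθ1⟩
    rw [← hxz]
    exact pow_le_one₀ hx00.le hx01.le
  -- b
  have hbp : signEntropy m - w * L ≤ m * m * rbp m L := by
    have h := psi_ge3 hm0 hm1
    have h' : psi m = L - signEntropy m := rfl
    have h6 : 0 ≤ m ^ 6 := by positivity
    have : m * m * rbp m L = m ^ 2 * L - m ^ 2 / 2 - m ^ 4 / 12 := by unfold rbp; ring
    rw [this, hw]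
    linarith
  -- q
  set q := y + j with hq
  have hq0 : 0 ≤ q := by linarith
  set T := ι + y + j with hTdef
  have hTq : T = ι + q := by rw [hTdef, hq]; ring
  have hTb : T ≤ rTb m L := by
    have : rTb m L = w * L + m * m * rbp m L - 7 / 20 * w := by
      unfold rTb rbp; rw [hw']; ring
    rw [this]
    linarith
  have hTL : T ≤ L - 7 / 20 := by
    refine hTb.trans ?_
    unfold rTb
    have : 0 ≤ m * m * (3 / 20 + 1 / 12 * (m * m)) := by positivity
    linarith
  -- LL
  have hLL := LL_ge_SS_add hm0 hδ0 hδ1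
  rw [← hι, ← hε, ← hx0] at hLL
  have hexr : m * m * z * rexq m z ≤ (1 - m ^ 2) / 6 * (psi x0 - psi ε) ^ 2 := by
    have h := psi_sub_psi_ge3 hε0.le hεx hx01
    have e : (x0 ^ 2 - ε ^ 2) / 2 + (x0 ^ 4 - ε ^ 4) / 12 + (x0 ^ 6 - ε ^ 6) / 30 =
        m * z * rbr m z := by
      rw [hε4, hε6, hx4, hx6, hεz, hxz]
      unfold rbr
      ring
    rw [e] at h
    have hbr : 0 ≤ m * z * rbr m z := by unfold rbr; positivity
    have h2 : (m * z * rbr m z) ^ 2 ≤ (psi x0 - psi ε) ^ 2 := by
      gcongr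
    have e3 : m * m * z * rexq m z = (1 - m ^ 2) / 6 * (m * z * rbr m z) ^ 2 := by
      unfold rexq; ring
    rw [e3]
    have : 0 ≤ (1 - m ^ 2) / 6 := by rw [← hw]; positivity
    exact mul_le_mul_of_nonneg_left h2 this
  -- the product bound
  have hadd := Hadd ι q hι0 hq0 (by rw [← hTq]; exact hTL)
  rw [← hTq] at hadd
  have eQ : ι * q * (67 / 50 + 11 / 5 * T + 29 / 2 * T * (T ^ 2 - ι * q)) = ι * q * rQ ι T := by
    have hq' : q = T - ι := by linarith
    unfold rQ
    rw [hq']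
    ring
  rw [eQ] at hadd
  have main : ι * q * rQ ι T ≤ rkk m z * j + m * m * z * rexq m z := by
    rcases le_total T (1 / 5) with hc | hc
    · refine case_small hdom hz0 hw' hw0 hιθ hι0 hTq hq0 hc ?_
      -- alpha1
      have hK : 4 * w * y ≤ (3 + m) * V := by
        have h1 := log_two_div_le hm0 hm1
        have h2 : Real.log (2 / (1 + m)) / (1 - m) ^ 2 ≤ (3 + m) / (4 * w) := by
          rw [div_le_iff₀ (by positivity)]
          refine h1.trans (le_of_eq ?_)
          rw [hwf]; field_simp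
        have h3 : y ≤ (3 + m) / (4 * w) * V := hyK.trans (mul_le_mul_of_nonneg_right h2 hV0)
        calc 4 * w * y ≤ 4 * w * ((3 + m) / (4 * w) * V) := by gcongr
          _ = (3 + m) * V := by field_simp
      have h4 := mul_le_mul_of_nonneg_left hK hkp.le
      have h5 := mul_le_mul_of_nonneg_left hkV (by linarith : 0 ≤ 3 + m)
      unfold rden
      rw [← hw', hq]
      linarith
    · refine case_large hdom hz0 hιθ hι0 hTq hq0 hc hTb ?_
      -- alpha2
      have h1 : q - m * m * rbp m L ≤ j + V * L := by linarith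
      have h2 := mul_le_mul_of_nonneg_left h1 hkp.le
      have h3 := mul_le_mul_of_nonneg_right hkV (by linarith : 0 ≤ L)
      unfold rDD
      linarith
  have hfin : rkk m z * j ≤ kappa ε * j := mul_le_mul_of_nonneg_right hkappa hj0
  linarith

end Crest.Agent.R307
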