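import Crest.Agent.R307.SubDefs

/-!
Row 307 (S0472), task T11b (helper852): bounds for `kappa'` and for `SS`.
-/

set_option autoImplicit false
set_option maxHeartbeats 1000000

open Set Crest.CubeNoise

namespace Crest.Agent.R307

namespace FFb

theorem nonneg_of_deriv {f f' : ℝ → ℝ}
    (hd : ∀ x : ℝ, 0 ≤ x → x < 1 → HasDerivAt f (f' x) x)
    (hf : ∀ x : ℝ, 0 ≤ x → x < 1 → 0 ≤ f' x) (h0 : f 0 = 0) {t : ℝ}
    (ht0 : 0 ≤ t) (ht1 : t < 1) : 0 ≤ f t := by
  have hmono : MonotoneOn f (Ico 0 1) := by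
    refine monotoneOn_of_deriv_nonneg (convex_Ico 0 1) ?_ ?_ ?_
    · intro x hx
      exact (hd x hx.1 hx.2).continuousAt.continuousWithinAt
    · rw [interior_Ico]
      intro x hx
      exact (hd x hx.1.le hx.2).differentiableAt.differentiableWithinAt
    · rw [interior_Ico]
      intro x hx
      rw [(hd x hx.1.le hx.2).deriv]
      exact hf x hx.1.le hx.2
  have := hmono (left_mem_Ico.mpr one_pos) ⟨ht0, ht1⟩ ht0
  rwa [h0] at this

theorem artanh_ge_rat {t : ℝ} (h0 : 0 ≤ t) (h1 : t < 1) : 3 * t / (3 - t ^ 2) ≤ Real.artanh t := by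
  have h := nonneg_of_deriv (f := fun x => Real.artanh x - 3 * x / (3 - x ^ 2))
    (f' := fun x => 4 * x ^ 4 / ((1 - x ^ 2) * (3 - x ^ 2) ^ 2)) ?_ ?_ ?_ h0 h1
  · simpa using h
  · intro x hx0 hx1
    have h3 := one_sub_sq_pos hx0 hx1
    have h4 : 0 < 3 - x ^ 2 := by linarith
    have e1 : HasDerivAt (fun x : ℝ => 3 - x ^ 2) (-(2 * x)) x := by
      have := (hasDerivAt_pow 2 x).const_sub 3
      simpa using this
    have e2 : HasDerivAt (fun x : ℝ => 3 * x) 3 x := by
      have := (hasDerivAt_id x).const_mul 3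
      simpa using this
    refine ((hasDerivAt_artanh (abs_lt_one_of_mem hx0 hx1)).sub (e2.div e1 h4.ne')).congr_deriv ?_
    field_simp
    ring
  · intro x hx0 hx1
    have h3 := one_sub_sq_pos hx0 hx1
    positivity
  · simp

theorem artanh_ge_poly {t : ℝ} (h0 : 0 ≤ t) (h1 : t < 1) :
    t + t ^ 3 / 3 + t ^ 5 / 5 + t ^ 7 / 7 + t ^ 9 / 9 + t ^ 11 / 11 ≤ Real.artanh t := by
  have h := nonneg_of_deriv
    (f := fun x => Real.artanh x - (x + x ^ 3 / 3 + x ^ 5 / 5 + x ^ 7 / 7 + x ^ 9 / 9 + x ^ 11 / 11))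
    (f' := fun x => x ^ 12 / (1 - x ^ 2)) ?_ ?_ ?_ h0 h1
  · simpa using h
  · intro x hx0 hx1
    have h3 := one_sub_sq_pos hx0 hx1
    refine ((hasDerivAt_artanh (abs_lt_one_of_mem hx0 hx1)).sub
      ((((((hasDerivAt_id x).add ((hasDerivAt_pow 3 x).div_const 3)).add
        ((hasDerivAt_pow 5 x).div_const 5)).add ((hasDerivAt_pow 7 x).div_const 7)).add
        ((hasDerivAt_pow 9 x).div_const 9)).add ((hasDerivAt_pow 11 x).div_const 11))).congr_deriv ?_
    push_cast
    field_simp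
    ring
  · intro x hx0 hx1
    have h3 := one_sub_sq_pos hx0 hx1
    positivity
  · simp

theorem artanh_le_poly {t : ℝ} (h0 : 0 ≤ t) (h1 : t < 1) :
    Real.artanh t ≤ t + t ^ 3 / 3 + t ^ 5 / 5 + t ^ 7 / 7 + t ^ 9 / (9 * (1 - t ^ 2)) := by
  have h := nonneg_of_deriv
    (f := fun x => (x + x ^ 3 / 3 + x ^ 5 / 5 + x ^ 7 / 7 + x ^ 9 / (9 * (1 - x ^ 2))) - Real.artanh x)
    (f' := fun x => 2 * x ^ 10 / (9 * (1 - x ^ 2) ^ 2)) ?_ ?_ ?_ h0 h1
  · simpa using h
  · intro x hx0 hx1
    have h3 := one_sub_sq_pos hx0 hx1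
    have e1 : HasDerivAt (fun x : ℝ => 9 * (1 - x ^ 2)) (9 * (-(2 * x))) x := by
      have := ((hasDerivAt_pow 2 x).const_sub 1).const_mul 9
      simpa using this
    refine ((((((hasDerivAt_id x).add ((hasDerivAt_pow 3 x).div_const 3)).add
        ((hasDerivAt_pow 5 x).div_const 5)).add ((hasDerivAt_pow 7 x).div_const 7)).add
        ((hasDerivAt_pow 9 x).div e1 (by positivity))).sub
        (hasDerivAt_artanh (abs_lt_one_of_mem hx0 hx1))).congr_deriv ?_
    push_cast
    field_simp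
    ring
  · intro x hx0 hx1
    have h3 := one_sub_sq_pos hx0 hx1
    positivity
  · simp

theorem psi_ge_poly {t : ℝ} (h0 : 0 ≤ t) (h1 : t < 1) :
    t ^ 2 / 2 + t ^ 4 / 12 + t ^ 6 / 30 + t ^ 8 / 56 ≤ psi t := by
  have h := nonneg_of_deriv
    (f := fun x => psi x - (x ^ 2 / 2 + x ^ 4 / 12 + x ^ 6 / 30 + x ^ 8 / 56))
    (f' := fun x => Real.artanh x - (x + x ^ 3 / 3 + x ^ 5 / 5 + x ^ 7 / 7)) ?_ ?_ ?_ h0 h1
  · simpa using h
  · intro x hx0 hx1
    refine ((hasDerivAt_psi (abs_lt_one_of_mem hx0 hx1)).sub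
      (((((hasDerivAt_pow 2 x).div_const 2)).add
        ((hasDerivAt_pow 4 x).div_const 12)).add ((hasDerivAt_pow 6 x).div_const 30) |>.add
        ((hasDerivAt_pow 8 x).div_const 56))).congr_deriv ?_
    push_cast
    ring
  · intro x hx0 hx1
    have := artanh_ge_poly hx0 hx1
    have h9 : 0 ≤ x ^ 9 := by positivity
    have h11 : 0 ≤ x ^ 11 := by positivity
    linarith
  · simp [psi_zero]

theorem poly_one {s : ℝ} (h0 : 0 ≤ s) (h1 : s ≤ 31 / 100) :
    0 ≤ (1337 / 1000 - 4 / 5 * s - 14 / 100 * s ^ 2) * (1 + s / 3 + s ^ 2 / 5 + s ^ 3 / 7 + 100 / 621 * s ^ 4) ^ 3 - ((4/3) * s ^ 0 + (8/15) * s ^ 1 + (12/35) * s ^ 2 + (1321/4347) * s ^ 3 + (100/621) * s ^ 4) := by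
  have key : ∀ x y : ℝ, 0 ≤ x → 0 ≤ y → 0 ≤ (110000000000000000000000000/2270831805662388960963) * (y ^ 14) +
      (524700000000000000000000000/756943935220796320321) * (x ^ 1 * y ^ 13) +
      (24155652400000000000000000000/5298607546545574242247) * (x ^ 2 * y ^ 12) +
      (20024970173492000000000000000000/1096811762134933868145129) * (x ^ 3 * y ^ 11) +
      (163677873669336688000000000000000/3290435286404801604435387) * (x ^ 4 * y ^ 10) +
      (45866636783524041280000000000000/470062183772114514919341) * (x ^ 5 * y ^ 9) +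
      (200552616547427461990880000000000/1410186551316343544758023) * (x ^ 6 * y ^ 8) +
      (10824552503994765497514104000000000/69099141014500833693143127) * (x ^ 7 * y ^ 7) +
      (625920223732852885436411497640000000/4767840730000557524826875763) * (x ^ 8 * y ^ 6) +
      (1194442967130510591556455587594000000/14303522190001672574480627289) * (x ^ 9 * y ^ 5) +
      (3987588480402398830519776843045200000/100124655330011708021364391023) * (x ^ 10 * y ^ 4) +
      (1388769288916921872820707795793660000/100124655330011708021364391023) * (x ^ 11 * y ^ 3) +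
      (208430085277150145588395039333031240000/62177410959937270681267286825283) * (x ^ 12 * y ^ 2) +
      (31462685960337828516034582420914320000/62177410959937270681267286825283) * (x ^ 13 * y ^ 1) +
      (2249011927854820164670035726740320000/62177410959937270681267286825283) * (x ^ 14) := by
    intro x y hx hy
    positivity
  have h := key (s - 0) (31/100 - s) (by linarith) (by linarith)
  refine le_of_le_of_eq h ?_
  ring

theorem poly_two {s : ℝ} (h0 : 31 / 100 ≤ s) (h1 : s ≤ 34 / 100) :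
    0 ≤ 27 * ((1337 / 1000 - 4 / 5 * s - 14 / 100 * s ^ 2) * s) - 4 * (1 + s) ^ 3 := by
  have key : ∀ x y : ℝ, 0 ≤ x → 0 ≤ y → 0 ≤ (497801/1350) * (y ^ 3) +
      (504907/225) * (x ^ 1 * y ^ 2) +
      (454648/225) * (x ^ 2 * y ^ 1) +
      (92872/675) * (x ^ 3) := by
    intro x y hx hy
    positivity
  have h := key (s - 31/100) (17/50 - s) (by linarith) (by linarith)
  refine le_of_le_of_eq h ?_
  ring

theorem poly_three {s : ℝ} (h0 : 34 / 100 ≤ s) (h1 : s ≤ 61 / 100) :
    0 ≤ (1337 / 1000 - 4 / 5 * s - 14 / 100 * s ^ 2) * s * (1 + s / 3 + s ^ 2 / 5 + s ^ 3 / 7 + s ^ 4 / 9 + s ^ 5 / 11) ^ 3 - (1 + s) * (1 + s / 3 + s ^ 2 / 5 + s ^ 3 / 7 + s ^ 4 / 9 + s ^ 5 / 11) + 1 := by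
  have key : ∀ x y : ℝ, 0 ≤ x → 0 ≤ y → 0 ≤ (7767047756067913467502938154923873090142208/483824066521481975974784511813803325) * (y ^ 18) +
      (1481603386046345549347471441611685831245824/4887111783045272484593782947614175) * (x ^ 1 * y ^ 17) +
      (146303539501042411105248921623651407398731776/53758229613497997330531612423755925) * (x ^ 2 * y ^ 16) +
      (2491532518108777503136818804326407766493528064/161274688840493991991594837271267775) * (x ^ 3 * y ^ 15) +
      (668721248817549086668257347530686869153726464/10751645922699599466106322484751185) * (x ^ 4 * y ^ 14) +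
      (1448931858452236500950591865581580567336230912/7679747087642571047218801774822275) * (x ^ 5 * y ^ 13) +
      (10295720494792496240133123128710436116119334912/23039241262927713141656405324466825) * (x ^ 6 * y ^ 12) +
      (4127931698974086050654054228391879995528579072/4887111783045272484593782947614175) * (x ^ 7 * y ^ 11) +
      (6306259388992037285850972360587450365875946496/4887111783045272484593782947614175) * (x ^ 8 * y ^ 10) +
      (14104082504994230946269719601064178353202912768/8796801209481490472268809305705515) * (x ^ 9 * y ^ 9) +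
      (7925948716838844272334770849633809950429403136/4887111783045272484593782947614175) * (x ^ 10 * y ^ 8) +
      (71517354490078575460028222579661756305938855552/53758229613497997330531612423755925) * (x ^ 11 * y ^ 7) +
      (166993915637044884140008847145328290412645312/190406952586179447451705829127825) * (x ^ 12 * y ^ 6) +
      (3514940565368639708089918974172968743040350432/7679747087642571047218801774822275) * (x ^ 13 * y ^ 5) +
      (1985270758871160452810606639800607871195469264/10751645922699599466106322484751185) * (x ^ 14 * y ^ 4) +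
      (8949633048657008482084756296062422700732641624/161274688840493991991594837271267775) * (x ^ 15 * y ^ 3) +
      (628110619961351715221272767932037520957647256/53758229613497997330531612423755925) * (x ^ 16 * y ^ 2) +
      (82572215844547814024386001308615590202872844/53758229613497997330531612423755925) * (x ^ 17 * y ^ 1) +
      (757803836630359341727284202679483565549631/7997092008619536792971644823368650) * (x ^ 18) := by
    intro x y hx hy
    positivity
  have h := key (s - 17/50) (61/100 - s) (by linarith) (by linarith)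
  refine le_of_le_of_eq h ?_
  ring

theorem poly_four {s : ℝ} (h0 : 0 ≤ s) (h1 : s ≤ 61 / 100) :
    0 ≤ (67 / 50 + 22 / 5 * (s / 2 + s ^ 2 / 12 + s ^ 3 / 30 + s ^ 4 / 56) + 58 * (s / 2 + s ^ 2 / 12 + s ^ 3 / 30 + s ^ 4 / 56) ^ 3) * (1 - s) ^ 2 - (1337 / 1000 - 4 / 5 * s - 14 / 100 * s ^ 2) := by
  have key : ∀ x y : ℝ, 0 ≤ x → 0 ≤ y → 0 ≤ (30000000000000000000000000/9876832533361318095112441) * (y ^ 14) +
      (2372000000000000000000000000/9876832533361318095112441) * (x ^ 1 * y ^ 13) +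
      (55815140000000000000000000000/29630497600083954285337323) * (x ^ 2 * y ^ 12) +
      (207847927900000000000000000000/29630497600083954285337323) * (x ^ 3 * y ^ 11) +
      (1173836732580500000000000000000/69137827733529226665787087) * (x ^ 4 * y ^ 10) +
      (6830893297663167500000000000000/207413483200587679997361261) * (x ^ 5 * y ^ 9) +
      (107106740094858945062500000000000/1866721348805289119976251349) * (x ^ 6 * y ^ 8) +
      (53608021762264799331500000000000/622240449601763039992083783) * (x ^ 7 * y ^ 7) +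
      (62694825403505799350988125000000/622240449601763039992083783) * (x ^ 8 * y ^ 6) +
      (124011990625262228031892573750000/1451894382404113759981528827) * (x ^ 9 * y ^ 5) +
      (217771336706697042557978788543750/4355683147212341279944586481) * (x ^ 10 * y ^ 4) +
      (27727364840926099310100445768625/1451894382404113759981528827) * (x ^ 11 * y ^ 3) +
      (6286071781608750469803014874719225/1463509537463346670061381057616) * (x ^ 12 * y ^ 2) +
      (431061527849258425551196430233145/975673024975564446707587371744) * (x ^ 13 * y ^ 1) +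
      (10692580295285042320541820923687/2601794733268171857886899657984) * (x ^ 14) := by
    intro x y hx hy
    positivity
  have h := key (s - 0) (61/100 - s) (by linarith) (by linarith)
  refine le_of_le_of_eq h ?_
  ring

theorem poly_five {s : ℝ} (h0 : 34 / 100 ≤ s) (h1 : s ≤ 61 / 100) :
    0 ≤ 3 * ((1337 / 1000 - 4 / 5 * s - 14 / 100 * s ^ 2) * s) * (1 + s / 3 + s ^ 2 / 5) ^ 2 - (1 + s) := by
  have key : ∀ x y : ℝ, 0 ≤ x → 0 ≤ y → 0 ≤ (7812147601262464/19613162255625) * (y ^ 7) +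
      (207857254391358592/19613162255625) * (x ^ 1 * y ^ 6) +
      (358530025300786768/6537720751875) * (x ^ 2 * y ^ 5) +
      (505336642186237672/3922632451125) * (x ^ 3 * y ^ 4) +
      (646532799694737088/3922632451125) * (x ^ 4 * y ^ 3) +
      (779931564284027452/6537720751875) * (x ^ 5 * y ^ 2) +
      (902824401660032083/19613162255625) * (x ^ 6 * y ^ 1) +
      (289110271923170177/39226324511250) * (x ^ 7) := by
    intro x y hx hy
    positivity
  have h := key (s - 17/50) (61/100 - s) (by linarith) (by linarith)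
  refine le_of_le_of_eq h ?_
  ring

theorem poly_six {s : ℝ} (h0 : 0 ≤ s) (h1 : s ≤ 31 / 100) :
    0 ≤ (1 + s) - 3 * ((1337 / 1000 - 4 / 5 * s - 14 / 100 * s ^ 2) * s) * (1 + s / 3 + s ^ 2 / 5 + s ^ 3 / 7 + 100 / 621 * s ^ 4) ^ 2 := by
  have key : ∀ x y : ℝ, 0 ≤ x → 0 ≤ y → 0 ≤ (10000000000000000000000/25408476896404831) * (y ^ 11) +
      (100665900000000000000000/25408476896404831) * (x ^ 1 * y ^ 10) +
      (456395686000000000000000/25408476896404831) * (x ^ 2 * y ^ 9) +
      (3682760150518000000000000/76225430689214493) * (x ^ 3 * y ^ 8) +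
      (6511022871406960000000000/76225430689214493) * (x ^ 4 * y ^ 7) +
      (3821505194210931522440000000/36816883022890600119) * (x ^ 5 * y ^ 6) +
      (9709850104976127181316000000/110450649068671800357) * (x ^ 6 * y ^ 5) +
      (5673860385827034032958260000/110450649068671800357) * (x ^ 7 * y ^ 4) +
      (15410187293176925981914816000/773154543480702602499) * (x ^ 8 * y ^ 3) +
      (753921682223319631897540455400/160042990500505438717293) * (x ^ 9 * y ^ 2) +
      (88370347802100714440631786400/160042990500505438717293) * (x ^ 10 * y ^ 1) +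
      (2306571108882224776514909600/160042990500505438717293) * (x ^ 11) := by
    intro x y hx hy
    positivity
  have h := key (s - 0) (31/100 - s) (by linarith) (by linarith)
  refine le_of_le_of_eq h ?_
  ring

/-- the core inequality, `a = artanh t / t`, `s = t ^ 2`. -/
theorem core {s a : ℝ} (h0 : 0 < s) (h1 : s ≤ 61 / 100)
    (hl : 1 + s / 3 + s ^ 2 / 5 + s ^ 3 / 7 + s ^ 4 / 9 + s ^ 5 / 11 ≤ a)
    (hu : a ≤ 1 + s / 3 + s ^ 2 / 5 + s ^ 3 / 7 + s ^ 4 / (9 * (1 - s))) :
    (1 + s) * a - 1 ≤ (1337 / 1000 - 4 / 5 * s - 14 / 100 * s ^ 2) * s * a ^ 3 := by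
  set q : ℝ := 1337 / 1000 - 4 / 5 * s - 14 / 100 * s ^ 2 with hq
  have hqpos : 0 < q := by rw [hq]; nlinarith
  have hqs : 0 < q * s := mul_pos hqpos h0
  have ha1 : 1 ≤ a := by
    have : 0 ≤ s / 3 + s ^ 2 / 5 + s ^ 3 / 7 + s ^ 4 / 9 + s ^ 5 / 11 := by positivity
    linarith
  rcases le_total s (31 / 100) with hs | hs
  · -- decreasing region
    set b : ℝ := 1 + s / 3 + s ^ 2 / 5 + s ^ 3 / 7 + 100 / 621 * s ^ 4 with hb
    have hab : a ≤ b := by
      refine hu.trans ?_
      have : s ^ 4 / (9 * (1 - s)) ≤ 100 / 621 * s ^ 4 := by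
        rw [div_le_iff₀ (by linarith)]
        nlinarith [pow_pos h0 4]
      rw [hb]; linarith
    have p1 := poly_one h0.le hs
    have p6 := poly_six h0.le hs
    rw [← hq, ← hb] at p6
    rw [← hq, ← hb] at p1
    have hb0 : 0 < b := lt_of_lt_of_le (by linarith) hab
    have k1 : 0 ≤ q * s * b ^ 3 - (1 + s) * b + 1 := by
      have := mul_nonneg h0.le p1
      refine this.trans (le_of_eq ?_)
      rw [hb]; ring
    clear_value q b
    have k2 : q * s * (a ^ 2 + a * b + b ^ 2) ≤ 1 + s := by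
      have e1 : a ^ 2 + a * b + b ^ 2 ≤ 3 * b ^ 2 := by
        have e2 : a ^ 2 ≤ b ^ 2 := pow_le_pow_left₀ (by linarith) hab 2
        have e3 : a * b ≤ b * b := mul_le_mul_of_nonneg_right hab hb0.le
        linarith [sq b, e2, e3]
      have e4 := mul_le_mul_of_nonneg_left e1 hqs.le
      have e5 : q * s * (3 * b ^ 2) = 3 * (q * s) * b ^ 2 := by ring
      linarith
    have k3 := mul_nonneg (sub_nonneg.mpr hab) (sub_nonneg.mpr k2)
    have k4 : (b - a) * (1 + s - q * s * (a ^ 2 + a * b + b ^ 2)) =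
      (1 + s) * b - (1 + s) * a - q * s * b ^ 3 + q * s * a ^ 3 := by ring
    linarith
  rcases le_total s (34 / 100) with hs' | hs'
  · have p2 := poly_two hs hs'
    rw [← hq] at p2
    have k1 : 4 * ((1 + s) * a) ^ 3 ≤ 27 * (q * s * a ^ 3) := by
      have := mul_nonneg p2 (by positivity : 0 ≤ a ^ 3)
      have e : (27 * (q * s) - 4 * (1 + s) ^ 3) * a ^ 3 =
        27 * (q * s * a ^ 3) - 4 * ((1 + s) * a) ^ 3 := by ring
      linarith
    have k2 : 0 ≤ ((1 + s) * a - 3 / 2) ^ 2 * ((1 + s) * a + 3) := by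
      have : 0 ≤ (1 + s) * a := by positivity
      positivity
    have k3 : ((1 + s) * a - 3 / 2) ^ 2 * ((1 + s) * a + 3) =
      ((1 + s) * a) ^ 3 - 27 / 4 * ((1 + s) * a) + 27 / 4 := by ring
    linarith
  · set b : ℝ := 1 + s / 3 + s ^ 2 / 5 + s ^ 3 / 7 + s ^ 4 / 9 + s ^ 5 / 11 with hb
    have p3 := poly_three hs' h1
    have p5 := poly_five hs' h1
    rw [← hq, ← hb] at p3
    rw [← hq] at p5
    have hb1 : 1 + s / 3 + s ^ 2 / 5 ≤ b := by
      have : 0 ≤ s ^ 3 / 7 + s ^ 4 / 9 + s ^ 5 / 11 := by positivity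
      rw [hb]; linarith
    have hb0 : 0 < 1 + s / 3 + s ^ 2 / 5 := by positivity
    clear_value q b
    have k2 : 1 + s ≤ q * s * (a ^ 2 + a * b + b ^ 2) := by
      have e1 : 3 * (1 + s / 3 + s ^ 2 / 5) ^ 2 ≤ a ^ 2 + a * b + b ^ 2 := by
        have e2 : (1 + s / 3 + s ^ 2 / 5) ^ 2 ≤ b ^ 2 := pow_le_pow_left₀ hb0.le hb1 2
        have e3 : b ^ 2 ≤ a ^ 2 := pow_le_pow_left₀ (hb0.le.trans hb1) hl 2
        have e4 : b * b ≤ a * b := mul_le_mul_of_nonneg_right hl (hb0.le.trans hb1)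
        linarith [sq b]
      have e5 := mul_le_mul_of_nonneg_left e1 hqs.le
      have e6 : q * s * (3 * (1 + s / 3 + s ^ 2 / 5) ^ 2) =
        3 * (q * s) * (1 + s / 3 + s ^ 2 / 5) ^ 2 := by ring
      linarith
    have k3 := mul_nonneg (sub_nonneg.mpr hl) (sub_nonneg.mpr k2)
    have k4 : (a - b) * (q * s * (a ^ 2 + a * b + b ^ 2) - (1 + s)) =
      q * s * a ^ 3 - q * s * b ^ 3 - (1 + s) * a + (1 + s) * b := by ring
    linarith

end FFb

open FFb in
theorem kappa'_ge {t : ℝ} (h0 : 0 < t) (h1 : t < 1) : 4 / 3 * Real.artanh t ≤ kappa' t := by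
  have h2 := artanh_pos' h0 h1
  have h3 := one_sub_sq_pos h0.le h1
  have hl := artanh_ge_rat h0.le h1
  have hu := artanh_le h0.le h1
  have h4 : 0 < 3 - t ^ 2 := by linarith
  set A := Real.artanh t with hA
  set l := 3 * t / (3 - t ^ 2) with hl'
  set u := t / (1 - t ^ 2) with hu'
  have el : l * (3 - t ^ 2) = 3 * t := by rw [hl']; field_simp
  have eu : u * (1 - t ^ 2) = t := by rw [hu']; field_simp
  have hl0 : 0 < l := by rw [hl']; positivity
  have hu0 : 0 < u := by rw [hu']; positivity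
  clear_value l u
  unfold kappa'
  rw [← hA, le_div_iff₀ (by positivity)]
  -- value at the lower end
  have kl : 4 / 3 * l * ((1 - t ^ 2) ^ 2 * l ^ 2) ≤ (1 + t ^ 2) * l - t := by
    have e1 : 3 * ((1 + t ^ 2) * l - t) = l * (4 * t ^ 2) := by linear_combination el
    have e2 : (l * (1 - t ^ 2)) ^ 2 ≤ t ^ 2 := by
      have h6 : l * (1 - t ^ 2) ≤ t := by
        have : 0 ≤ l * (1 - t ^ 2) := by positivity
        nlinarith
      exact pow_le_pow_left₀ (by positivity) h6 2
    nlinarith [mul_le_mul_of_nonneg_left e2 hl0.le]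
  have ku : 4 / 3 * u * ((1 - t ^ 2) ^ 2 * u ^ 2) ≤ (1 + t ^ 2) * u - t := by
    have e1 : (1 - t ^ 2) ^ 2 * u ^ 2 = t ^ 2 := by
      calc (1 - t ^ 2) ^ 2 * u ^ 2 = (u * (1 - t ^ 2)) ^ 2 := by ring
        _ = t ^ 2 := by rw [eu]
    have e3 : (1 + t ^ 2) * u - t = 2 * t ^ 2 * u := by linear_combination eu
    rw [e1, e3]
    nlinarith [mul_pos hu0 (pow_pos h0 2)]
  -- concavity in `A`
  rcases eq_or_lt_of_le hl with hlA | hlA
  · rw [← hlA]; exact kl
  have hlu : 0 < u - l := by linarith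
  have c1 : 0 ≤ 4 / 3 * (1 - t ^ 2) ^ 2 * ((A - l) * (u - A) * (A + l + u)) := by
    have : 0 ≤ u - A := by linarith
    have : 0 ≤ A - l := by linarith
    positivity
  have c2 := mul_le_mul_of_nonneg_left kl (by linarith : 0 ≤ u - A)
  have c3 := mul_le_mul_of_nonneg_left ku (by linarith : 0 ≤ A - l)
  have c4 : 0 ≤ (u - l) * (((1 + t ^ 2) * A - t) - 4 / 3 * A * ((1 - t ^ 2) ^ 2 * A ^ 2)) := by
    nlinarith [mul_nonneg hlu.le c1]
  have := nonneg_of_mul_nonneg_right c4 hlu
  linarith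

theorem sq_lt_of_psi {t : ℝ} (h0 : 0 < t) (h1 : t < 1) (h2 : psi t ≤ Real.log 2 - 7 / 20) :
    t ^ 2 ≤ 61 / 100 := by
  by_contra hcon
  push Not at hcon
  have h := FFb.psi_ge_poly h0.le h1
  have hlog := Real.log_two_lt_d9
  set s := t ^ 2 with hs
  have e4 : t ^ 4 = s ^ 2 := by rw [hs]; ring
  have e6 : t ^ 6 = s ^ 3 := by rw [hs]; ring
  have e8 : t ^ 8 = s ^ 4 := by rw [hs]; ring
  rw [e4, e6, e8] at h
  have i2 : (61 / 100 : ℝ) ^ 2 ≤ s ^ 2 := pow_le_pow_left₀ (by norm_num) hcon.le 2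
  have i3 : (61 / 100 : ℝ) ^ 3 ≤ s ^ 3 := pow_le_pow_left₀ (by norm_num) hcon.le 3
  have i4 : (61 / 100 : ℝ) ^ 4 ≤ s ^ 4 := pow_le_pow_left₀ (by norm_num) hcon.le 4
  norm_num at i2 i3 i4
  linarith

open FFb in
theorem kappa'_le_poly {t : ℝ} (h0 : 0 < t) (h1 : t < 1) (h2 : psi t ≤ Real.log 2 - 7 / 20) :
    kappa' t ≤ (67 / 50 + 22 / 5 * psi t + 58 * (psi t) ^ 3) * Real.artanh t := by
  have hs := sq_lt_of_psi h0 h1 h2
  have hA0 := artanh_pos' h0 h1
  have h3 := one_sub_sq_pos h0.le h1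
  have hl := artanh_ge_poly h0.le h1
  have hu := artanh_le_poly h0.le h1
  have hp := psi_ge_poly h0.le h1
  obtain ⟨a, ha⟩ : ∃ a, a = Real.artanh t / t := ⟨_, rfl⟩
  have haA : Real.artanh t = a * t := by rw [ha]; field_simp
  have hs0 : 0 < t ^ 2 := by positivity
  have ha0 : 0 < a := by rw [ha]; positivity
  have hl' : 1 + (t ^ 2) / 3 + (t ^ 2) ^ 2 / 5 + (t ^ 2) ^ 3 / 7 + (t ^ 2) ^ 4 / 9 + (t ^ 2) ^ 5 / 11 ≤ a := by
    rw [ha, le_div_iff₀ h0]
    refine le_trans (le_of_eq ?_) hl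
    ring
  have hu' : a ≤ 1 + (t ^ 2) / 3 + (t ^ 2) ^ 2 / 5 + (t ^ 2) ^ 3 / 7 + (t ^ 2) ^ 4 / (9 * (1 - t ^ 2)) := by
    rw [ha, div_le_iff₀ h0]
    refine hu.trans (le_of_eq ?_)
    field_simp
  have hc := core hs0 hs hl' hu'
  have p4 := poly_four hs0.le hs
  have hp' : t ^ 2 / 2 + (t ^ 2) ^ 2 / 12 + (t ^ 2) ^ 3 / 30 + (t ^ 2) ^ 4 / 56 ≤ psi t := by
    refine le_trans (le_of_eq ?_) hp
    ring
  set s := t ^ 2 with hsdef
  set pl := s / 2 + s ^ 2 / 12 + s ^ 3 / 30 + s ^ 4 / 56 with hpl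
  set q := 1337 / 1000 - 4 / 5 * s - 14 / 100 * s ^ 2 with hq
  have hpl0 : 0 ≤ pl := by rw [hpl]; positivity
  have hcube : pl ^ 3 ≤ psi t ^ 3 := pow_le_pow_left₀ hpl0 hp' 3
  have hB : q ≤ (67 / 50 + 22 / 5 * psi t + 58 * psi t ^ 3) * (1 - s) ^ 2 := by
    have : (67 / 50 + 22 / 5 * pl + 58 * pl ^ 3) * (1 - s) ^ 2 ≤
        (67 / 50 + 22 / 5 * psi t + 58 * psi t ^ 3) * (1 - s) ^ 2 := by
      apply mul_le_mul_of_nonneg_right _ (by positivity)
      linarith
    linarith
  unfold kappa'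
  rw [haA, ← hsdef, div_le_iff₀ (by positivity)]
  have k1 : (1 + s) * a - 1 ≤ (67 / 50 + 22 / 5 * psi t + 58 * psi t ^ 3) * (1 - s) ^ 2 * s * a ^ 3 := by
    refine hc.trans ?_
    have := mul_le_mul_of_nonneg_right hB (by positivity : 0 ≤ s * a ^ 3)
    linarith
  have k2 := mul_le_mul_of_nonneg_right k1 h0.le
  calc (1 + s) * (a * t) - t = ((1 + s) * a - 1) * t := by ring
    _ ≤ _ := k2
    _ = _ := by rw [hsdef]; ring

/-- tangent lines of `p ∘ psi - sF`, `p x = 67/100 x^2 + 11/15 x^3 + 29/10 x^5` -/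
theorem Np_tangent {b t r : ℝ} (hb1 : b < 1) (hb : psi b ≤ Real.log 2 - 7 / 20)
    (ht0 : 0 ≤ t) (htb : t ≤ b) (hr0 : 0 ≤ r) (hrb : r ≤ b) :
    (67 / 100 * psi t ^ 2 + 11 / 15 * psi t ^ 3 + 29 / 10 * psi t ^ 5 - sF t) +
      ((67 / 50 * psi t + 11 / 5 * psi t ^ 2 + 29 / 2 * psi t ^ 4) - (kappa t - 2)) * (psi r - psi t)
      ≤ 67 / 100 * psi r ^ 2 + 11 / 15 * psi r ^ 3 + 29 / 10 * psi r ^ 5 - sF r := by
  set M : ℝ → ℝ := fun x => (67 / 50 * psi x + 11 / 5 * psi x ^ 2 + 29 / 2 * psi x ^ 4) - (kappa x - 2)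
    with hM
  set E : ℝ → ℝ := fun x => 67 / 100 * psi x ^ 2 + 11 / 15 * psi x ^ 3 + 29 / 10 * psi x ^ 5 - sF x
    with hE
  have hpsi_le : ∀ x, 0 ≤ x → x ≤ b → psi x ≤ Real.log 2 - 7 / 20 := by
    intro x hx0 hxb
    refine le_trans ?_ hb
    exact strictMonoOn_psi.monotoneOn ⟨hx0, by linarith⟩ ⟨hx0.trans hxb, hb1.le⟩ hxb
  have hMd : ∀ x, 0 < x → x < 1 → HasDerivAt M
      ((67 / 50 + 22 / 5 * psi x + 58 * (psi x) ^ 3) * Real.artanh x - kappa' x) x := by
    intro x hx0 hx1
    have hp := hasDerivAt_psi (abs_lt_one_of_mem hx0.le hx1)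
    refine ((((hp.const_mul (67 / 50)).add ((hp.pow 2).const_mul (11 / 5))).add
      ((hp.pow 4).const_mul (29 / 2))).sub ((hasDerivAt_kappa hx0 hx1).sub_const 2)).congr_deriv ?_
    push_cast
    ring
  have hMmono : MonotoneOn M (Icc 0 b) := by
    refine monotoneOn_of_deriv_nonneg (convex_Icc 0 b) ?_ ?_ ?_
    · have c1 : ContinuousOn kappa (Icc 0 b) :=
        continuousOn_kappa.mono fun x hx => ⟨hx.1, lt_of_le_of_lt hx.2 hb1⟩
      have c2 : ContinuousOn psi (Icc 0 b) := continuous_psi.continuousOn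
      exact (((c2.const_smul (67 / 50 : ℝ)).add ((c2.pow 2).const_smul (11 / 5 : ℝ))).add
        ((c2.pow 4).const_smul (29 / 2 : ℝ))).sub (c1.sub continuousOn_const)
    · rw [interior_Icc]
      intro x hx
      exact (hMd x hx.1 (hx.2.trans hb1)).differentiableAt.differentiableWithinAt
    · rw [interior_Icc]
      intro x hx
      rw [(hMd x hx.1 (hx.2.trans hb1)).deriv]
      have := kappa'_le_poly hx.1 (hx.2.trans hb1) (hpsi_le x hx.1.le hx.2.le)
      linarith
  have hEd : ∀ x, 0 ≤ x → x < 1 → HasDerivAt E (M x * Real.artanh x) x := by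
    intro x hx0 hx1
    have hx := abs_lt_one_of_mem hx0 hx1
    have hp := hasDerivAt_psi hx
    have hsF : HasDerivAt sF ((kappa x - 2) * Real.artanh x) x := by
      refine (((hasDerivAt_id x).mul (hasDerivAt_artanh hx)).sub (hp.const_mul 2)).congr_deriv ?_
      simp only [id]
      rw [sub_mul, kappa_mul_artanh hx0 hx1]
      ring
    refine ((((((hp.pow 2).const_mul (67 / 100)).add ((hp.pow 3).const_mul (11 / 15))).add
      ((hp.pow 5).const_mul (29 / 10)))).sub hsF).congr_deriv ?_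
    simp only [hM]
    push_cast
    ring
  set f : ℝ → ℝ := fun x => E x - M t * psi x with hf
  have hd : ∀ x, 0 ≤ x → x < 1 → HasDerivAt f ((M x - M t) * Real.artanh x) x := by
    intro x hx0 hx1
    refine ((hEd x hx0 hx1).sub
      ((hasDerivAt_psi (abs_lt_one_of_mem hx0 hx1)).const_mul (M t))).congr_deriv ?_
    ring
  have hmain : f t ≤ f r := by
    rcases le_total t r with htt | htt
    · have hmono : MonotoneOn f (Icc t b) := by
        refine monotoneOn_of_deriv_nonneg (convex_Icc t b) ?_ ?_ ?_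
        · intro x hx
          exact (hd x (ht0.trans hx.1) (lt_of_le_of_lt hx.2 hb1)).continuousAt.continuousWithinAt
        · rw [interior_Icc]
          intro x hx
          exact (hd x (ht0.trans hx.1.le) (hx.2.trans hb1)).differentiableAt.differentiableWithinAt
        · rw [interior_Icc]
          intro x hx
          have hx0 : 0 ≤ x := ht0.trans hx.1.le
          rw [(hd x hx0 (hx.2.trans hb1)).deriv]
          have hk : M t ≤ M x := hMmono ⟨ht0, htb⟩ ⟨hx0, hx.2.le⟩ hx.1.le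
          exact mul_nonneg (by linarith) (Real.artanh_nonneg hx0)
      exact hmono ⟨le_rfl, htb⟩ ⟨htt, hrb⟩ htt
    · have hanti : AntitoneOn f (Icc 0 t) := by
        refine antitoneOn_of_deriv_nonpos (convex_Icc 0 t) ?_ ?_ ?_
        · intro x hx
          exact (hd x hx.1 (lt_of_le_of_lt (hx.2.trans htb) hb1)).continuousAt.continuousWithinAt
        · rw [interior_Icc]
          intro x hx
          exact (hd x hx.1.le (lt_of_le_of_lt (hx.2.le.trans htb) hb1)).differentiableAt.differentiableWithinAt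
        · rw [interior_Icc]
          intro x hx
          rw [(hd x hx.1.le (lt_of_le_of_lt (hx.2.le.trans htb) hb1)).deriv]
          have hk : M x ≤ M t := hMmono ⟨hx.1.le, hx.2.le.trans htb⟩ ⟨ht0, htb⟩ hx.2.le
          exact mul_nonpos_of_nonpos_of_nonneg (by linarith) (Real.artanh_nonneg hx.1.le)
      exact hanti ⟨hr0, htt⟩ ⟨ht0, le_rfl⟩ htt
  simp only [hf, hE, hM] at hmain
  linarith

theorem SS_add_le {x y : ℝ} (hx : 0 ≤ x) (hy : 0 ≤ y) (h : x + y ≤ Real.log 2 - 7 / 20) :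
    SS (x + y) - SS x - SS y ≤
      x * y * (67 / 50 + 11 / 5 * (x + y) + 29 / 2 * (x + y) * ((x + y) ^ 2 - x * y)) := by
  rcases eq_or_lt_of_le hx with hx0 | hx0
  · rw [← hx0, SS_zero]; simp
  rcases eq_or_lt_of_le hy with hy0 | hy0
  · rw [← hy0, SS_zero]; simp
  obtain ⟨b, hb0, hb1, hb⟩ := exists_psi_eq (y := x + y) (by linarith) (by linarith)
  obtain ⟨t, ht0, ht1, ht⟩ := exists_psi_eq (y := x) (by linarith) (by linarith)
  obtain ⟨r, hr0, hr1, hr⟩ := exists_psi_eq (y := y) (by linarith) (by linarith)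
  have htb : t ≤ b := by
    by_contra hc
    push Not at hc
    have := strictMonoOn_psi ⟨hb0, hb1.le⟩ ⟨ht0, ht1.le⟩ hc
    linarith
  have hrb : r ≤ b := by
    by_contra hc
    push Not at hc
    have := strictMonoOn_psi ⟨hb0, hb1.le⟩ ⟨hr0, hr1.le⟩ hc
    linarith
  have hbb : psi b ≤ Real.log 2 - 7 / 20 := by rw [hb]; exact h
  have a1 := Np_tangent hb1 hbb ht0 htb hb0 le_rfl
  have a2 := Np_tangent hb1 hbb ht0 htb le_rfl hb0
  have a3 := Np_tangent hb1 hbb hr0 hrb hb0 le_rfl
  have a4 := Np_tangent hb1 hbb hr0 hrb le_rfl hb0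
  rw [sF_zero, psi_zero] at a2 a4
  rw [ht, hb] at a1
  rw [ht] at a2
  rw [hr, hb] at a3
  rw [hr] at a4
  rw [← hb, SS_psi hb0 hb1, hb]
  have e1 : SS x = sF t := by rw [← ht, SS_psi ht0 ht1]
  have e2 : SS y = sF r := by rw [← hr, SS_psi hr0 hr1]
  rw [e1, e2]
  set Mt := (67 / 50 * x + 11 / 5 * x ^ 2 + 29 / 2 * x ^ 4) - (kappa t - 2) with hMt
  set Mr := (67 / 50 * y + 11 / 5 * y ^ 2 + 29 / 2 * y ^ 4) - (kappa r - 2) with hMr
  have b1 := mul_le_mul_of_nonneg_left a1 hx0.le
  have b2 := mul_le_mul_of_nonneg_left a2 hy0.le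
  have b3 := mul_le_mul_of_nonneg_left a3 hy0.le
  have b4 := mul_le_mul_of_nonneg_left a4 hx0.le
  have hxy : 0 < x + y := by linarith
  have key : (x + y) * ((67 / 100 * x ^ 2 + 11 / 15 * x ^ 3 + 29 / 10 * x ^ 5 - sF t) +
      (67 / 100 * y ^ 2 + 11 / 15 * y ^ 3 + 29 / 10 * y ^ 5 - sF r)) ≤
      (x + y) * (67 / 100 * (x + y) ^ 2 + 11 / 15 * (x + y) ^ 3 + 29 / 10 * (x + y) ^ 5 - sF b) := by
    linarith
  have key2 := le_of_mul_le_mul_left key hxy
  linarith

end Crest.Agent.R307
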