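import Crest.Agent.R307.IntervalChk

/-!
Row 307 (S0472), task T11 (helper437): the polynomial inequalities in two variables behind the scalar
inequality (FF), certified by interval arithmetic (`IntervalChk.lean`).

Variables: `x = m`, `y = z = (δ / (1 - m²))²`, `p = log 2`, `r = θ ∈ [0,1]` (position of `ι` between its
polynomial lower and upper bounds).
-/

set_option autoImplicit false

namespace Crest.Agent.R307.FFe

open Crest.Agent.R307.IChk

/-- constant `n / d` -/
abbrev k (n : ℤ) (d : ℕ) : Ex := Ex.c n d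

abbrev m : Ex := Ex.x
abbrev z : Ex := Ex.y
abbrev L : Ex := Ex.p
abbrev th : Ex := Ex.r

def mu : Ex := m * m
def w : Ex := k 1 1 - mu
def om : Ex := k 1 1 - m
def t : Ex := z * (om * om)
def lam : Ex := k 1 1 + t * (k 1 2 + t * (k 1 3 + k 1 4 * t))
def kp : Ex := z * lam
def kk : Ex := k 2 1 + t * (k 2 3 + k 26 45 * t)
def c2 : Ex := k 1 1 + k 3 1 * mu
def c3 : Ex := k 1 1 + mu * (k 10 1 + k 5 1 * mu)
def c4 : Ex := k 1 1 + mu * (k 21 1 + mu * (k 35 1 + k 7 1 * mu))
def ul : Ex := k 1 2 + z * (k 1 12 * c2 + z * (k 1 30 * c3))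
def gap : Ex := (z * z) * (z * (k 1 13 * c4))
def uu : Ex := ul + th * gap
def io : Ex := w * (z * uu)
def Tb : Ex := (L - k 7 20) - mu * (k 3 20 + k 1 12 * mu)
def DD : Ex := k 2 1 * L + kp
def br : Ex := k 2 1 + z * (k 2 3 * (k 1 1 + mu) + z * (k 2 5 + mu * (k 4 3 + k 2 5 * mu)))
def exq : Ex := k 1 6 * (w * z) * (br * br)
def bp : Ex := (L - k 1 2) - k 1 12 * mu
def kl : Ex := kk * lam
def Q (T : Ex) : Ex := k 67 50 + T * (k 11 5 + k 29 2 * ((T - io) * (T - io) + T * io))
def X (T : Ex) : Ex := kl - DD * (w * uu * Q T)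
def Rp : Ex := kl * bp - DD * exq
def F (T : Ex) : Ex := (T - io) * X T - mu * Rp
def den : Ex := k 1 2 * (k 3 1 + m) + w * kp
def E1 : Ex := kl - den * (k 237 125 * (ul + gap) - k 5 6 * ((mu * z) * (br * br)))
def dom : Ex := z * ((k 1 1 + m) * (k 1 1 + m)) - k 1 1

def T0 : Ex := k 1 5

def clsA : List (List Ex) := [[dom], [io - T0], [X T0]]
def clsB : List (List Ex) := [[dom], [io - T0], [T0 - Tb], [k 0 1 - Rp], [F T0]]
def clsC : List (List Ex) := [[dom], [T0 - io], [io - Tb], [k 0 1 - Rp]]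
def clsD : List (List Ex) := [[dom], [io - Tb], [T0 - Tb], [k 0 1 - Rp, X Tb], [F Tb]]
def clsE : List (List Ex) := [[dom], [io - T0], [E1]]

def I01 : Iv := ⟨0, 1073741824⟩
def IL : Iv := ⟨744261117, 744261119⟩

set_option maxRecDepth 100000 in
theorem chkA : chk IL I01 clsA 20 true I01 I01 = true := by decide +kernel

set_option maxRecDepth 100000 in
theorem chkB : chk IL I01 clsB 20 true I01 I01 = true := by decide +kernel

set_option maxRecDepth 100000 in
theorem chkC : chk IL I01 clsC 20 true I01 I01 = true := by decide +kernel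

set_option maxRecDepth 100000 in
theorem chkD : chk IL I01 clsD 22 true I01 I01 = true := by decide +kernel

set_option maxRecDepth 100000 in
theorem chkE : chk IL I01 clsE 20 true I01 I01 = true := by decide +kernel

end Crest.Agent.R307.FFe
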