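import Crest.Agent.R307.FF
import Crest.Agent.R307.FFb

/-!
Row 307 (S0472), task T11: the scalar inequality (FF).
-/

set_option autoImplicit false

namespace Crest.Agent.R307

/-- **(FF)** -/
theorem ffStmt : FFStmt := ffStmt_of_add fun _ _ hx hy h => SS_add_le hx hy h

end Crest.Agent.R307
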