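import Crest.Agent.R307.FFexpr

/-!
Row 307 (S0472), task T11 (helper437): the certified polynomial inequalities in real form.
-/

set_option autoImplicit false

namespace Crest.Agent.R307.FFe

open Crest.Agent.R307.IChk

/-! real counterparts of the expressions -/

noncomputable def rt (m z : ℝ) : ℝ := z * ((1 - m) * (1 - m))
noncomputable def rlam (m z : ℝ) : ℝ := 1 + rt m z * (1 / 2 + rt m z * (1 / 3 + 1 / 4 * rt m z))
noncomputable def rkp (m z : ℝ) : ℝ := z * rlam m z
noncomputable def rkk (m z : ℝ) : ℝ := 2 + rt m z * (2 / 3 + 26 / 45 * rt m z)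
noncomputable def rul (m z : ℝ) : ℝ :=
  1 / 2 + z * (1 / 12 * (1 + 3 * (m * m)) + z * (1 / 30 * (1 + m * m * (10 + 5 * (m * m)))))
noncomputable def rgap (m z : ℝ) : ℝ :=
  z * z * (z * (1 / 13 * (1 + m * m * (21 + m * m * (35 + 7 * (m * m))))))
noncomputable def ruu (m z θ : ℝ) : ℝ := rul m z + θ * rgap m z
noncomputable def rio (m z θ : ℝ) : ℝ := (1 - m * m) * (z * ruu m z θ)
noncomputable def rTb (m L : ℝ) : ℝ := L - 7 / 20 - m * m * (3 / 20 + 1 / 12 * (m * m))
noncomputable def rDD (m z L : ℝ) : ℝ := 2 * L + rkp m z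
noncomputable def rbr (m z : ℝ) : ℝ :=
  2 + z * (2 / 3 * (1 + m * m) + z * (2 / 5 + m * m * (4 / 3 + 2 / 5 * (m * m))))
noncomputable def rexq (m z : ℝ) : ℝ := 1 / 6 * ((1 - m * m) * z) * (rbr m z * rbr m z)
noncomputable def rbp (m L : ℝ) : ℝ := L - 1 / 2 - 1 / 12 * (m * m)
noncomputable def rkl (m z : ℝ) : ℝ := rkk m z * rlam m z
/-- `Q T`, with `ι` given -/
noncomputable def rQ (ι T : ℝ) : ℝ := 67 / 50 + T * (11 / 5 + 29 / 2 * ((T - ι) * (T - ι) + T * ι))
noncomputable def rX (m z L θ T : ℝ) : ℝ :=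
  rkl m z - rDD m z L * ((1 - m * m) * ruu m z θ * rQ (rio m z θ) T)
noncomputable def rRp (m z L : ℝ) : ℝ := rkl m z * rbp m L - rDD m z L * rexq m z
noncomputable def rF (m z L θ T : ℝ) : ℝ :=
  (T - rio m z θ) * rX m z L θ T - m * m * rRp m z L
noncomputable def rden (m z : ℝ) : ℝ := 1 / 2 * (3 + m) + (1 - m * m) * rkp m z
noncomputable def rE1 (m z : ℝ) : ℝ :=
  rkl m z - rden m z * (237 / 125 * (rul m z + rgap m z) - 5 / 6 * (m * m * z * (rbr m z * rbr m z)))

section vals

variable (a b : Ex) (x y p r : ℝ)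

theorem val_add : (a + b).val x y p r = a.val x y p r + b.val x y p r := rfl
theorem val_sub : (a - b).val x y p r = a.val x y p r - b.val x y p r := rfl
theorem val_mul : (a * b).val x y p r = a.val x y p r * b.val x y p r := rfl
theorem val_k (n : ℤ) (d : ℕ) : (k n d).val x y p r = (n : ℝ) / (d : ℝ) := rfl
theorem val_m : m.val x y p r = x := rfl
theorem val_z : z.val x y p r = y := rfl
theorem val_L : L.val x y p r = p := rfl
theorem val_th : th.val x y p r = r := rfl

theorem val_mu : mu.val x y p r = x * x := rfl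
theorem val_w : w.val x y p r = 1 - x * x := by
  simp [w, val_sub, val_k, val_mu]
theorem val_t : t.val x y p r = rt x y := by
  simp [t, om, rt, val_sub, val_mul, val_k, val_z, val_m]
theorem val_lam : lam.val x y p r = rlam x y := by
  simp [lam, rlam, val_add, val_mul, val_k, val_t]
theorem val_kp : kp.val x y p r = rkp x y := by
  simp [kp, rkp, val_mul, val_z, val_lam]
theorem val_kk : kk.val x y p r = rkk x y := by
  simp [kk, rkk, val_add, val_mul, val_k, val_t]
theorem val_ul : ul.val x y p r = rul x y := by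
  simp [ul, c2, c3, rul, val_add, val_mul, val_k, val_z, val_mu]
theorem val_gap : gap.val x y p r = rgap x y := by
  simp [gap, c4, rgap, val_add, val_mul, val_k, val_z, val_mu]
theorem val_uu : uu.val x y p r = ruu x y r := by
  simp [uu, ruu, val_add, val_mul, val_th, val_ul, val_gap]
theorem val_io : io.val x y p r = rio x y r := by
  simp [io, rio, val_mul, val_w, val_z, val_uu]
theorem val_Tb : Tb.val x y p r = rTb x p := by
  simp [Tb, rTb, val_add, val_sub, val_mul, val_k, val_L, val_mu]
theorem val_DD : DD.val x y p r = rDD x y p := by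
  simp [DD, rDD, val_add, val_mul, val_k, val_L, val_kp]
theorem val_br : br.val x y p r = rbr x y := by
  simp [br, rbr, val_add, val_mul, val_k, val_z, val_mu]
theorem val_exq : exq.val x y p r = rexq x y := by
  simp [exq, rexq, val_mul, val_k, val_z, val_w, val_br]
theorem val_bp : bp.val x y p r = rbp x p := by
  simp [bp, rbp, val_sub, val_mul, val_k, val_L, val_mu]
theorem val_kl : kl.val x y p r = rkl x y := by
  simp [kl, rkl, val_mul, val_kk, val_lam]
theorem val_Q (T : Ex) : (Q T).val x y p r = rQ (rio x y r) (T.val x y p r) := by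
  simp [Q, rQ, val_add, val_sub, val_mul, val_k, val_io]
theorem val_X (T : Ex) : (X T).val x y p r = rX x y p r (T.val x y p r) := by
  simp [X, rX, val_sub, val_mul, val_kl, val_DD, val_w, val_uu, val_Q]
theorem val_Rp : Rp.val x y p r = rRp x y p := by
  simp [Rp, rRp, val_sub, val_mul, val_kl, val_bp, val_DD, val_exq]
theorem val_F (T : Ex) : (F T).val x y p r = rF x y p r (T.val x y p r) := by
  simp [F, rF, val_sub, val_mul, val_io, val_X, val_mu, val_Rp]
theorem val_den : den.val x y p r = rden x y := by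
  simp [den, rden, val_add, val_mul, val_k, val_m, val_w, val_kp]
theorem val_E1 : E1.val x y p r = rE1 x y := by
  simp [E1, rE1, val_add, val_sub, val_mul, val_k, val_kl, val_den, val_ul, val_gap, val_mu, val_z,
    val_br]
theorem val_dom : dom.val x y p r = y * ((1 + x) * (1 + x)) - 1 := by
  simp [dom, val_add, val_sub, val_mul, val_k, val_z, val_m]
theorem val_T0 : T0.val x y p r = 1 / 5 := by
  simp [T0, val_k]

end vals

/-- the domain of the certified inequalities -/
structure Dom (m z L θ : ℝ) : Prop where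
  m0 : 0 ≤ m
  m1 : m ≤ 1
  z0 : 0 ≤ z
  zm : z * ((1 + m) * (1 + m)) ≤ 1
  L0 : 0.6931471803 < L
  L1 : L < 0.6931471808
  h0 : 0 ≤ θ
  h1 : θ ≤ 1

theorem Dom.z1 {m z L θ : ℝ} (h : Dom m z L θ) : z ≤ 1 := by
  nlinarith [h.m0, h.z0, h.zm, mul_nonneg h.z0 h.m0, mul_nonneg h.z0 (mul_nonneg h.m0 h.m0)]

theorem mem01 {v : ℝ} (h0 : 0 ≤ v) (h1 : v ≤ 1) : I01.mem v := by
  constructor <;> simp only [I01] <;> push_cast <;> nlinarith

theorem memL {v : ℝ} (h0 : 0.6931471803 < v) (h1 : v < 0.6931471808) : IL.mem v := by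
  constructor <;> simp only [IL] <;> push_cast <;> nlinarith

theorem run {m z L θ : ℝ} (h : Dom m z L θ) {cls : List (List Ex)} {n : ℕ}
    (hc : chk IL I01 cls n true I01 I01 = true)
    (hok : ∀ cl ∈ cls, ∀ e ∈ cl, e.ok = true) :
    ∃ cl ∈ cls, ∀ e ∈ cl, 0 < e.val m z L θ :=
  chk_sound (memL h.L0 h.L1) (mem01 h.h0 h.h1) cls hok n true I01 I01 hc
    (mem01 h.m0 h.m1) (mem01 h.z0 h.z1)

theorem not_dom {m z L θ : ℝ} (h : Dom m z L θ) : ¬ 0 < dom.val m z L θ := by
  rw [val_dom]; linarith [h.zm]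

theorem real_A {m z L θ : ℝ} (h : Dom m z L θ) (hi : rio m z θ ≤ 1 / 5) :
    0 < rX m z L θ (1 / 5) := by
  obtain ⟨cl, hcl, hpos⟩ := run h chkA (by decide)
  simp only [clsA, List.mem_cons, List.not_mem_nil, or_false] at hcl
  rcases hcl with rfl | rfl | rfl
  · exact absurd (hpos dom (by simp)) (not_dom h)
  · have := hpos (io - T0) (by simp)
    rw [val_sub, val_io, val_T0] at this
    linarith
  · have := hpos (X T0) (by simp)
    rwa [val_X, val_T0] at this

theorem real_B {m z L θ : ℝ} (h : Dom m z L θ) (hi : rio m z θ ≤ 1 / 5) (hT : 1 / 5 ≤ rTb m L) :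
    rRp m z L < 0 ∨ 0 < rF m z L θ (1 / 5) := by
  obtain ⟨cl, hcl, hpos⟩ := run h chkB (by decide)
  simp only [clsB, List.mem_cons, List.not_mem_nil, or_false] at hcl
  rcases hcl with rfl | rfl | rfl | rfl | rfl
  · exact absurd (hpos dom (by simp)) (not_dom h)
  · have := hpos (io - T0) (by simp)
    rw [val_sub, val_io, val_T0] at this
    linarith
  · have := hpos (T0 - Tb) (by simp)
    rw [val_sub, val_Tb, val_T0] at this
    linarith
  · have := hpos (k 0 1 - Rp) (by simp)
    rw [val_sub, val_k, val_Rp] at this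
    left
    norm_num at this
    exact this
  · have := hpos (F T0) (by simp)
    rw [val_F, val_T0] at this
    exact Or.inr this

theorem real_C {m z L θ : ℝ} (h : Dom m z L θ) (hi : 1 / 5 ≤ rio m z θ) (hT : rio m z θ ≤ rTb m L) :
    rRp m z L < 0 := by
  obtain ⟨cl, hcl, hpos⟩ := run h chkC (by decide)
  simp only [clsC, List.mem_cons, List.not_mem_nil, or_false] at hcl
  rcases hcl with rfl | rfl | rfl | rfl
  · exact absurd (hpos dom (by simp)) (not_dom h)
  · have := hpos (T0 - io) (by simp)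
    rw [val_sub, val_io, val_T0] at this
    linarith
  · have := hpos (io - Tb) (by simp)
    rw [val_sub, val_Tb, val_io] at this
    linarith
  · have := hpos (k 0 1 - Rp) (by simp)
    rw [val_sub, val_k, val_Rp] at this
    norm_num at this
    exact this

theorem real_D {m z L θ : ℝ} (h : Dom m z L θ) (hi : rio m z θ ≤ rTb m L) (hT : 1 / 5 ≤ rTb m L) :
    (rRp m z L < 0 ∧ 0 < rX m z L θ (rTb m L)) ∨ 0 < rF m z L θ (rTb m L) := by
  obtain ⟨cl, hcl, hpos⟩ := run h chkD (by decide)
  simp only [clsD, List.mem_cons, List.not_mem_nil, or_false] at hcl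
  rcases hcl with rfl | rfl | rfl | rfl | rfl
  · exact absurd (hpos dom (by simp)) (not_dom h)
  · have := hpos (io - Tb) (by simp)
    rw [val_sub, val_io, val_Tb] at this
    linarith
  · have := hpos (T0 - Tb) (by simp)
    rw [val_sub, val_Tb, val_T0] at this
    linarith
  · have h1 := hpos (k 0 1 - Rp) (by simp)
    have h2 := hpos (X Tb) (by simp)
    rw [val_sub, val_k, val_Rp] at h1
    rw [val_X, val_Tb] at h2
    left
    norm_num at h1
    exact ⟨h1, h2⟩
  · have := hpos (F Tb) (by simp)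
    rw [val_F, val_Tb] at this
    exact Or.inr this

theorem real_E {m z L θ : ℝ} (h : Dom m z L θ) (hi : rio m z θ ≤ 1 / 5) : 0 < rE1 m z := by
  obtain ⟨cl, hcl, hpos⟩ := run h chkE (by decide)
  simp only [clsE, List.mem_cons, List.not_mem_nil, or_false] at hcl
  rcases hcl with rfl | rfl | rfl
  · exact absurd (hpos dom (by simp)) (not_dom h)
  · have := hpos (io - T0) (by simp)
    rw [val_sub, val_io, val_T0] at this
    linarith
  · have := hpos E1 (by simp)
    rwa [val_E1] at this

end Crest.Agent.R307.FFe
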