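import Crest.Agent.R307.FlowB
import Crest.Agent.R307.BB

/-!
Row 307 (S0471), flow route for large `c = √(1 - ρ²)` (helper14): assembly with the scalar
inequality `BB.bb_ineq` (helper437).
-/

set_option autoImplicit false

namespace Crest.Agent.R307.FlowB

open Crest.Agent.R307.Flow

/-- the scalar condition from inequality (b) -/
lemma SC_of_b {ρ s t : ℝ} (h0 : 0 < ρ) (h1 : ρ < 1)
    (hg : |(1 + ρ) / 2 * s + (1 - ρ) / 2 * t| < 1)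
    (hb : ((1 + ρ) / 2 * √(ph s ^ 3) + (1 - ρ) / 2 * √(ph t ^ 3)) ^ 2 *
      (ph ρ * ph ((1 + ρ) / 2 * s + (1 - ρ) / 2 * t) ^ 3 + (1 - ph ρ ^ 4) * ((s - t) ^ 2 / 4)) ≤
      ph ((1 + ρ) / 2 * s + (1 - ρ) / 2 * t) ^ 3 *
        (ph ρ * ph ((1 + ρ) / 2 * s + (1 - ρ) / 2 * t) ^ 3 - ph ρ ^ 4 * ((s - t) ^ 2 / 4))) :
    SC ρ s t := by
  have hρ : |ρ| < 1 := by rw [abs_of_pos h0]; exact h1
  have hc : 0 < ph ρ := ph_pos hρ
  have hcρ : ph ρ ^ 2 = 1 - ρ ^ 2 := ph_sq hρ.le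
  have hH : 0 < ph ((1 + ρ) / 2 * s + (1 - ρ) / 2 * t) ^ 3 := pow_pos (ph_pos hg) 3
  unfold SC
  obtain ⟨S, hS⟩ : ∃ S, S = (1 + ρ) / 2 * √(ph s ^ 3) + (1 - ρ) / 2 * √(ph t ^ 3) := ⟨_, rfl⟩
  obtain ⟨H, hHd⟩ : ∃ H, H = ph ((1 + ρ) / 2 * s + (1 - ρ) / 2 * t) ^ 3 := ⟨_, rfl⟩
  obtain ⟨q, hq⟩ : ∃ q, q = (s - t) ^ 2 / 4 := ⟨_, rfl⟩
  obtain ⟨c, hcd⟩ : ∃ c, c = ph ρ := ⟨_, rfl⟩
  rw [← hS, ← hHd, ← hq, ← hcd] at hb ⊢
  rw [← hHd] at hH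
  rw [← hcd] at hc hcρ
  have hq0 : 0 ≤ q := by rw [hq]; positivity
  have hρ2 : 0 < ρ ^ 2 := by positivity
  have hc1 : c ^ 2 ≤ 1 := by rw [hcρ]; linarith
  have hc4 : 0 ≤ 1 - c ^ 4 := by nlinarith [sq_nonneg (c ^ 2)]
  have hX : 0 < c * H + (1 - c ^ 4) * q := by
    have := mul_nonneg hc4 hq0
    have h2 := mul_pos hc hH
    linarith
  have hSH : S ^ 2 ≤ H := by
    have h3 : S ^ 2 * (c * H + (1 - c ^ 4) * q) ≤ H * (c * H + (1 - c ^ 4) * q) := by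
      refine hb.trans (mul_le_mul_of_nonneg_left ?_ hH.le)
      have : 0 ≤ (1 - c ^ 4) * q := mul_nonneg hc4 hq0
      have h4 : 0 ≤ c ^ 4 * q := by positivity
      linarith
    exact le_of_mul_le_mul_right h3 hX
  have hden : 0 < c ^ 2 * H + ρ ^ 2 * S ^ 2 := by positivity
  refine ⟨S ^ 2 / (c ^ 2 * H + ρ ^ 2 * S ^ 2), by positivity, ?_, ?_⟩
  · intro m hm hm1 _
    rw [div_mul_eq_mul_div, le_div_iff₀ hden]
    have key : (1 + c * m) * (c ^ 2 * H + ρ ^ 2 * S ^ 2) ≤ H + c * (S ^ 2 * m) := by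
      have e : H + c * (S ^ 2 * m) - (1 + c * m) * (c ^ 2 * H + ρ ^ 2 * S ^ 2) =
          (H - S ^ 2) * (ρ ^ 2 - c ^ 3 * m) + (1 - c ^ 2 - ρ ^ 2) * (H + c * m * S ^ 2) := by ring
      have h5 : 0 ≤ (H - S ^ 2) * (ρ ^ 2 - c ^ 3 * m) :=
        mul_nonneg (by linarith) (by linarith)
      have h6 : (1 - c ^ 2 - ρ ^ 2) * (H + c * m * S ^ 2) = 0 := by
        rw [hcρ]; ring
      linarith
    have := mul_le_mul_of_nonneg_left key (sq_nonneg S)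
    linarith
  · have hd2 : 0 < H + c * (ρ ^ 2 * q) := by positivity
    rw [div_add_div _ _ hden.ne' hd2.ne', div_le_one (by positivity)]
    have hr : ρ ^ 2 = 1 - c ^ 2 := by rw [hcρ]; ring
    rw [hr]
    have hb2 := mul_le_mul_of_nonneg_left hb hc.le
    have e5 : (c ^ 2 * H + (1 - c ^ 2) * S ^ 2) * (H + c * ((1 - c ^ 2) * q)) -
        (S ^ 2 * (H + c * ((1 - c ^ 2) * q)) + (c ^ 2 * H + (1 - c ^ 2) * S ^ 2) * (c * q)) =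
        c * (H * (c * H - c ^ 4 * q)) - c * (S ^ 2 * (c * H + (1 - c ^ 4) * q)) := by
      ring
    linarith

lemma sqrt_cube {x : ℝ} (hx : 0 ≤ x) : √(x ^ 3) = x * √x := by
  rw [show x ^ 3 = x ^ 2 * x by ring, Real.sqrt_mul (sq_nonneg x), Real.sqrt_sq hx]

theorem flowHyp_B {ρ : ℝ} (h0 : 0 < ρ) (h1 : ρ < 1) (hρc : 3 * ρ ^ 2 ≤ ph ρ ^ 2)
    (H : ∀ s t : ℝ, |s| ≤ 1 → |t| ≤ 1 → |(1 + ρ) / 2 * s + (1 - ρ) / 2 * t| < 1 → SC ρ s t) :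
    FlowHyp ρ := by
  have hρ : |ρ| < 1 := by rw [abs_of_pos h0]; exact h1
  have hc : 0 < ph ρ := ph_pos hρ
  refine ⟨WB (ph ρ), fun g => if |g| < 1 then ρ ^ 2 / ph ρ else 0, 0, 0, 0, le_rfl, le_rfl,
    by simp, pairOK_WB h0 h1, ?_, ?_⟩
  · intro g hg
    simp only [if_pos hg]
    linarith
  · refine fun n f _ x => PW_of_stepR h0.le h1.le ?_ ?_ (stepR_WB h0 h1 hρc H) n f x
    · simp
    · simp

/-- `c ≥ .898` -/
theorem flowHyp_44 {ρ : ℝ} (h0 : 0 < ρ) (h1 : ρ ≤ 0.44) : FlowHyp ρ := by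
  have hlt : ρ < 1 := by norm_num at h1; linarith
  have hρ : |ρ| < 1 := by rw [abs_of_pos h0]; exact hlt
  refine flowHyp_B h0 hlt ?_ ?_
  · rw [ph_sq hρ.le]
    norm_num at h1
    nlinarith
  · intro s t hs ht hg
    refine SC_of_b h0 hlt hg ?_
    have h := BB.bb_ineq ρ s t h0.le h1 hs ht
    rw [sqrt_cube (ph_nonneg s), sqrt_cube (ph_nonneg t)]
    have e : ((s - t) / 2) ^ 2 = (s - t) ^ 2 / 4 := by ring
    rw [e] at h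
    refine h.trans (le_of_eq ?_)
    ring

end Crest.Agent.R307.FlowB
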