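import Crest.Agent.R307.GenInd

/-!
Row 307, S0471 (task 1108, G3): the final reduction.

`u` is a functional on `[0,1]`, `u q + u (1-q) ≤ W (φ)`, `φ = √(1-(2q-1)²) = ph (2q-1)`, `c = ph ρ`;
`(T)`: `W x ≤ W c + D (x - c)` on `[0,1]`, `D > 0`.  A lower bound
`E u(P) + E u(1-P) ≥ W c - D (1 - ph m)` gives S0471 for `f`, `ρ`.

* `FA_add_FA`: the identity `F(q) + F(1-q) = W(φ)` for the family `GenInd.FA`.
* `tangent_WA`: `(T)` for `D = W'(c)` from one inequality without division.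
* `MSHyp`, `MSHyp.of_one`: hypothesis for one `ρ`; one-function version.
* `s0471_of_flow_ms`, `s0471_of_flow_msc`: S0471 from the flow hypothesis for `0 < ρ ≤ ρ₀` and
  `MSHyp` for `ρ₀ ≤ ρ < 1`.
-/

set_option autoImplicit false

open Crest.CubeNoise Set

namespace Crest.Agent.R307.GenFin

open Crest.Agent.R307 Crest.Agent.R307.Ode Crest.Agent.R307.TwoSet Crest.Agent.R307.Flow
  Crest.Agent.R307.GenInd

/-- `W(φ)` for the family `FA`. -/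
noncomputable def WA (A0 A1 A2 x : ℝ) : ℝ :=
  2 * (Real.sqrt (1 + x) - 1) + (2 * A0 + A1) / 4 * x ^ 2 + A2 * (x ^ 2 / 4) * (1 - x ^ 2 / 2)

/-- the derivative of `W`. -/
noncomputable def WA' (A0 A1 A2 x : ℝ) : ℝ :=
  1 / Real.sqrt (1 + x) + (2 * A0 + A1) / 2 * x + A2 / 2 * x - A2 / 2 * x ^ 3

lemma FA_add_FA (A0 A1 A2 : ℝ) {q : ℝ} (h0 : 0 ≤ q) (h1 : q ≤ 1) :
    FA A0 A1 A2 q + FA A0 A1 A2 (1 - q) = WA A0 A1 A2 (ph (2 * q - 1)) := by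
  have hph : ph (2 * q - 1) = 2 * Real.sqrt (q * (1 - q)) := by
    unfold ph; exact sqrt_one_sub_sq q
  have hpos : 0 ≤ Real.sqrt q + Real.sqrt (1 - q) := by positivity
  have e : Real.sqrt (1 + ph (2 * q - 1)) = Real.sqrt q + Real.sqrt (1 - q) := by
    rw [hph, ← sqrt_add_sqrt_sq h0 h1, Real.sqrt_sq hpos]
  have e2 : (ph (2 * q - 1)) ^ 2 = 4 * (q * (1 - q)) := by
    rw [hph, mul_pow, Real.sq_sqrt (mul_nonneg h0 (by linarith))]; ring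
  unfold WA FA
  rw [e, e2]
  ring

/-- `(T)` for `W = WA` and `D = W'(c)`. -/
lemma tangent_WA {A0 A1 A2 c x : ℝ} (hc : 0 ≤ c) (hx : 0 ≤ x)
    (h : (Real.sqrt (1 + x) + Real.sqrt (1 + c)) ^ 2 * Real.sqrt (1 + c) *
      ((2 * A0 + A1 + A2) / 4 - A2 / 8 * (x ^ 2 + 2 * c * x + 3 * c ^ 2)) ≤ 1) :
    WA A0 A1 A2 x ≤ WA A0 A1 A2 c + WA' A0 A1 A2 c * (x - c) := by
  set s := Real.sqrt (1 + x) with hs
  set r := Real.sqrt (1 + c) with hr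
  have hr0 : 0 < r := Real.sqrt_pos.mpr (by linarith)
  have hs0 : 0 < s := Real.sqrt_pos.mpr (by linarith)
  have hs2 : s ^ 2 = 1 + x := Real.sq_sqrt (by linarith)
  have hr2 : r ^ 2 = 1 + c := Real.sq_sqrt (by linarith)
  set K := (2 * A0 + A1 + A2) / 4 - A2 / 8 * (x ^ 2 + 2 * c * x + 3 * c ^ 2) with hK
  have key : 0 ≤ (s - r) ^ 2 * (1 - (s + r) ^ 2 * r * K) / r :=
    div_nonneg (mul_nonneg (sq_nonneg _) (by linarith)) hr0.le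
  have e : (s - r) ^ 2 * (1 - (s + r) ^ 2 * r * K) / r =
      (s - r) ^ 2 / r - (x - c) ^ 2 * K := by
    have : (x - c) = (s - r) * (s + r) := by
      have : x - c = s ^ 2 - r ^ 2 := by rw [hs2, hr2]; ring
      rw [this]; ring
    rw [this]
    field_simp
  have e1 : (s - r) ^ 2 / r = 2 * (r - 1) - 2 * (s - 1) + 1 / r * (x - c) := by
    have : x - c = s ^ 2 - r ^ 2 := by rw [hs2, hr2]; ring
    rw [this]
    field_simp
    ring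
  rw [e, e1] at key
  unfold WA WA'
  rw [← hs, ← hr]
  rw [hK] at key
  nlinarith [key]

/-- The reduction for one function, for a general functional. -/
theorem bound_of_functional {n : ℕ} {ρ D : ℝ} (hρ : |ρ| ≤ 1) (f : (Fin n → Bool) → Bool)
    {u W : ℝ → ℝ} (hW : ∀ q, 0 ≤ q → q ≤ 1 → u q + u (1 - q) ≤ W (ph (2 * q - 1)))
    (hD : 0 < D) (T : ∀ x, 0 ≤ x → x ≤ 1 → W x ≤ W (ph ρ) + D * (x - ph ρ))
    (H : W (ph ρ) - D * (1 - ph (cubeAverage (sf f))) ≤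
      cubeAverage (fun x => u (TT ρ f x)) + cubeAverage (fun x => u (1 - TT ρ f x))) :
    ph (cubeAverage (sf f)) - 1 + ph ρ ≤ Z (sf f) ρ := by
  have e : ∀ x, noise ρ (sf f) x = 2 * TT ρ f x - 1 := fun x => noise_spin ρ f x
  have h := cubeAverage_mono (n := n) (g := fun x => u (TT ρ f x) + u (1 - TT ρ f x))
    (h := fun x => D * ph (noise ρ (sf f) x) + (W (ph ρ) - D * ph ρ)) (fun x => by
      have a := hW (TT ρ f x) (TT_nonneg hρ f x) (TT_le_one hρ f x)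
      have b := T (ph (2 * TT ρ f x - 1)) (ph_nonneg _) (ph_le_one _)
      show u (TT ρ f x) + u (1 - TT ρ f x) ≤ D * ph (noise ρ (sf f) x) + (W (ph ρ) - D * ph ρ)
      rw [e x]
      linarith)
  rw [cubeAverage_add, cubeAverage_add, cubeAverage_const_mul, cubeAverage_const] at h
  have hZ : Z (sf f) ρ = cubeAverage (fun x => ph (noise ρ (sf f) x)) := rfl
  rw [← hZ] at h
  have : D * (ph (cubeAverage (sf f)) - 1 + ph ρ) ≤ D * Z (sf f) ρ := by linarith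
  exact le_of_mul_le_mul_left this hD

/-- Hypothesis for one value of `ρ` (regimes M and S). -/
def MSHyp (ρ : ℝ) : Prop :=
  ∃ A0 A1 A2 D : ℝ, 0 < D ∧
    (∀ x, 0 ≤ x → x ≤ 1 → WA A0 A1 A2 x ≤ WA A0 A1 A2 (ph ρ) + D * (x - ph ρ)) ∧
    ∀ (n : ℕ) (f : (Fin n → Bool) → Bool),
      WA A0 A1 A2 (ph ρ) - D * (1 - ph (2 * cubeAverage (TT ρ f) - 1)) ≤
        cubeAverage (fun x => FA A0 A1 A2 (TT ρ f x)) +
          cubeAverage (fun x => FA A0 A1 A2 (1 - TT ρ f x))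

lemma avg_sf_eq {n : ℕ} (ρ : ℝ) (f : (Fin n → Bool) → Bool) :
    cubeAverage (sf f) = 2 * cubeAverage (TT ρ f) - 1 := cubeAverage_spin ρ f

/-- the bound from `MSHyp` -/
theorem bound_of_ms {n : ℕ} {ρ : ℝ} (hρ : |ρ| ≤ 1) (h : MSHyp ρ) (f : (Fin n → Bool) → Bool) :
    ph (cubeAverage (sf f)) - 1 + ph ρ ≤ Z (sf f) ρ := by
  obtain ⟨A0, A1, A2, D, hD, T, H⟩ := h
  refine bound_of_functional hρ f (u := FA A0 A1 A2) (W := WA A0 A1 A2)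
    (fun q h0 h1 => (FA_add_FA A0 A1 A2 h0 h1).le) hD T ?_
  rw [avg_sf_eq ρ f]
  exact H n f

/-- `MSHyp` from two one-function lower bounds (regime with `b`). -/
theorem MSHyp.of_one {ρ : ℝ} (A0 A1 A2 D : ℝ) (hD : 0 < D)
    (T : ∀ x, 0 ≤ x → x ≤ 1 → WA A0 A1 A2 x ≤ WA A0 A1 A2 (ph ρ) + D * (x - ph ρ))
    (hρ : |ρ| ≤ 1) (b : ℝ → ℝ)
    (hb : ∀ (n : ℕ) (f : (Fin n → Bool) → Bool),
      b (cubeAverage (TT ρ f)) ≤ cubeAverage (fun x => FA A0 A1 A2 (TT ρ f x)))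
    (hfin : ∀ ν, 0 ≤ ν → ν ≤ 1 →
      WA A0 A1 A2 (ph ρ) - D * (1 - ph (2 * ν - 1)) ≤ b ν + b (1 - ν)) :
    MSHyp ρ := by
  refine ⟨A0, A1, A2, D, hD, T, fun n f => ?_⟩
  have a := hb n f
  have c := hb n (fun y => !f y)
  have e : ∀ x, TT ρ (fun y => !f y) x = 1 - TT ρ f x := TT_not ρ f
  have e' : cubeAverage (TT ρ fun y => !f y) = 1 - cubeAverage (TT ρ f) := by
    rw [← cubeAverage_one_sub]
    congr 1
    funext x
    exact e x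
  rw [e'] at c
  simp only [e] at c
  have d := hfin (cubeAverage (TT ρ f)) (mem_unit_TT hρ f).1 (mem_unit_TT hρ f).2
  linarith

/-- `MSHyp` from `CertG` data: the one-function induction `GenInd.one_functionG`. -/
theorem MSHyp.of_cert {ρ : ℝ} (h0 : 0 ≤ ρ) (h1 : ρ ≤ 1) (A0 A1 A2 D : ℝ) (hD : 0 < D)
    (hconc : ConcaveOn ℝ (Icc 0 1) (FA A0 A1 A2))
    (T : ∀ x, 0 ≤ x → x ≤ 1 → WA A0 A1 A2 x ≤ WA A0 A1 A2 (ph ρ) + D * (x - ph ρ))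
    (b : ℝ → ℝ) (hb0 : b 0 ≤ 0) (hb1 : b 1 ≤ 0)
    (hI : ∀ ν0 ν1 : ℝ, 0 ≤ ν1 → ν1 ≤ ν0 → ν0 ≤ 1 → ∃ p1 q1 p2 q2 l1 m1 k : ℝ,
      0 ≤ p1 ∧ 0 ≤ q1 ∧ CertG ρ (FA A0 A1 A2) p1 q1 p2 q2 l1 m1 k ∧
      2 * b ((ν0 + ν1) / 2) ≤ p1 * b ν0 + q1 * b ν1 + p2 * ν0 + q2 * ν1 +
        (1 - ρ ^ 2) * (l1 * (ν0 * (1 - ν0)) + m1 * (ν1 * (1 - ν1))) - k)
    (hfin : ∀ ν, 0 ≤ ν → ν ≤ 1 →
      WA A0 A1 A2 (ph ρ) - D * (1 - ph (2 * ν - 1)) ≤ b ν + b (1 - ν)) :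
    MSHyp ρ := by
  have habs : |ρ| ≤ 1 := by rw [abs_of_nonneg h0]; exact h1
  refine MSHyp.of_one A0 A1 A2 D hD T habs b (fun n f => ?_) hfin
  exact one_functionG h0 h1 hconc b (by rw [FA_zero]; exact hb0) (by rw [FA_one]; exact hb1) hI n f

/-- `MSHyp` from a region induction for the pair `(E F(P), E F(1-P))`. -/
theorem MSHyp.of_region {ρ : ℝ} (h0 : 0 ≤ ρ) (h1 : ρ ≤ 1) (A0 A1 A2 D : ℝ) (hD : 0 < D)
    (hconc : ConcaveOn ℝ (Icc 0 1) (FA A0 A1 A2))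
    (T : ∀ x, 0 ≤ x → x ≤ 1 → WA A0 A1 A2 x ≤ WA A0 A1 A2 (ph ρ) + D * (x - ph ρ))
    (R : ℝ → ℝ → ℝ → Prop)
    (hup : ∀ μ s t s' t', R μ s t → s ≤ s' → t ≤ t' → R μ s' t')
    (hR0 : R 0 0 0) (hR1 : R 1 0 0)
    (hstep : ∀ μ0 α0 β0 μ1 α1 β1 α β : ℝ, 0 ≤ μ1 → μ1 ≤ μ0 → μ0 ≤ 1 →
      R μ0 α0 β0 → R μ1 α1 β1 →
      (∀ p1 q1 p2 q2 l1 m1 k : ℝ, CertG ρ (FA A0 A1 A2) p1 q1 p2 q2 l1 m1 k →
        p1 * α0 + q1 * α1 + p2 * μ0 + q2 * μ1 +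
          (1 - ρ ^ 2) * (l1 * (μ0 * (1 - μ0)) + m1 * (μ1 * (1 - μ1))) - k ≤ 2 * α) →
      (∀ p1 q1 p2 q2 l1 m1 k : ℝ, CertG ρ (FA A0 A1 A2) p1 q1 p2 q2 l1 m1 k →
        p1 * β1 + q1 * β0 + p2 * (1 - μ1) + q2 * (1 - μ0) +
          (1 - ρ ^ 2) * (l1 * (μ1 * (1 - μ1)) + m1 * (μ0 * (1 - μ0))) - k ≤ 2 * β) →
      R ((μ0 + μ1) / 2) α β)
    (hfin : ∀ μ α β : ℝ, 0 ≤ μ → μ ≤ 1 → R μ α β →
      WA A0 A1 A2 (ph ρ) - D * (1 - ph (2 * μ - 1)) ≤ α + β) :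
    MSHyp ρ := by
  have habs : |ρ| ≤ 1 := by rw [abs_of_nonneg h0]; exact h1
  refine ⟨A0, A1, A2, D, hD, T, fun n f => ?_⟩
  have h := region_inductionG h0 h1 hconc R hup (by rw [FA_zero, FA_one]; exact hR0)
    (by rw [FA_zero, FA_one]; exact hR1) hstep n f
  exact hfin _ _ _ (mem_unit_TT habs f).1 (mem_unit_TT habs f).2 h

/-- the statement of S0471 from the bound for `0 ≤ ρ < 1`. -/
theorem s0471_of_bound
    (H : ∀ ρ : ℝ, 0 ≤ ρ → ρ < 1 → ∀ (n : ℕ) (f : (Fin n → Bool) → Bool),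
      ph (cubeAverage (sf f)) - 1 + ph ρ ≤ Z (sf f) ρ)
    (n : ℕ) (f : (Fin n → Bool) → Bool) (ρ : ℝ) (hρ : |ρ| ≤ 1) :
    Real.sqrt (1 - (cubeAverage (fun x => spin (f x))) ^ 2)
        - cubeAverage (fun x => Real.sqrt (1 - (noise ρ (fun y => spin (f y)) x) ^ 2))
      ≤ 1 - Real.sqrt (1 - ρ ^ 2) := by
  have key : ∀ ρ : ℝ, 0 ≤ ρ → ρ ≤ 1 → Real.sqrt (1 - (cubeAverage (fun x => spin (f x))) ^ 2)
        - cubeAverage (fun x => Real.sqrt (1 - (noise ρ (fun y => spin (f y)) x) ^ 2))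
      ≤ 1 - Real.sqrt (1 - ρ ^ 2) := by
    intro ρ h0 h1
    rcases eq_or_lt_of_le h1 with h2 | h2
    · subst h2
      have a1 : Real.sqrt (1 - (cubeAverage (fun x => spin (f x))) ^ 2) ≤ 1 := by
        rw [Real.sqrt_le_one]
        linarith [sq_nonneg (cubeAverage (fun x => spin (f x)))]
      have a2 : 0 ≤ cubeAverage
          (fun x => Real.sqrt (1 - (noise 1 (fun y => spin (f y)) x) ^ 2)) :=
        cubeAverage_nonneg fun x => Real.sqrt_nonneg _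
      have a3 : Real.sqrt (1 - (1 : ℝ) ^ 2) = 0 := by norm_num
      rw [a3]; linarith
    · have h := H ρ h0 h2 n f
      have e1 : ph (cubeAverage (sf f)) =
          Real.sqrt (1 - (cubeAverage (fun x => spin (f x))) ^ 2) := rfl
      have e2 : ph ρ = Real.sqrt (1 - ρ ^ 2) := rfl
      have e3 : Z (sf f) ρ =
          cubeAverage (fun x => Real.sqrt (1 - (noise ρ (fun y => spin (f y)) x) ^ 2)) := rfl
      rw [e1, e2, e3] at h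
      linarith
  rcases le_total 0 ρ with h | h
  · exact key ρ h (le_of_abs_le hρ)
  · have k := key (-ρ) (by linarith) (by rw [abs_of_nonpos h] at hρ; exact hρ)
    have e : (fun x => Real.sqrt (1 - (noise (-ρ) (fun y => spin (f y)) x) ^ 2)) =
        fun x => Real.sqrt (1 - (noise ρ (fun y => spin (f y)) (fun i => !x i)) ^ 2) := by
      funext x; rw [noise_neg]
    rw [e, cubeAverage_comp_not
      (fun x => Real.sqrt (1 - (noise ρ (fun y => spin (f y)) x) ^ 2)), neg_sq] at k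
    exact k

/-- **Top theorem.** S0471 from the flow hypothesis for `0 < ρ ≤ ρ₀` and `MSHyp` for
`ρ₀ ≤ ρ < 1`. -/
theorem s0471_of_flow_ms {ρ₀ : ℝ} (hρ₀ : ρ₀ < 1)
    (L : ∀ ρ, 0 < ρ → ρ ≤ ρ₀ → FlowHyp ρ)
    (MS : ∀ ρ, 0 ≤ ρ → ρ₀ ≤ ρ → ρ < 1 → MSHyp ρ)
    (n : ℕ) (f : (Fin n → Bool) → Bool) (ρ : ℝ) (hρ : |ρ| ≤ 1) :
    Real.sqrt (1 - (cubeAverage (fun x => spin (f x))) ^ 2)
        - cubeAverage (fun x => Real.sqrt (1 - (noise ρ (fun y => spin (f y)) x) ^ 2))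
      ≤ 1 - Real.sqrt (1 - ρ ^ 2) := by
  refine s0471_of_bound (fun ρ hρ0 hρ1 n f => ?_) n f ρ hρ
  rcases le_total ρ ρ₀ with h | h
  · exact flow_reduction hρ₀ L f hρ0 h
  · exact bound_of_ms (by rw [abs_of_nonneg hρ0]; exact hρ1.le) (MS ρ hρ0 h hρ1) f

/-- The same with the parameter `c = √(1-ρ²)`: flow hypothesis for `c₀ ≤ c < 1`, `MSHyp` for
`0 < c ≤ c₀`. -/
theorem s0471_of_flow_msc {c₀ : ℝ} (h0 : 0 < c₀) (h1 : c₀ < 1)
    (L : ∀ c, c₀ ≤ c → c < 1 → FlowHyp (Real.sqrt (1 - c ^ 2)))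
    (MS : ∀ c, 0 < c → c ≤ c₀ → MSHyp (Real.sqrt (1 - c ^ 2)))
    (n : ℕ) (f : (Fin n → Bool) → Bool) (ρ : ℝ) (hρ : |ρ| ≤ 1) :
    Real.sqrt (1 - (cubeAverage (fun x => spin (f x))) ^ 2)
        - cubeAverage (fun x => Real.sqrt (1 - (noise ρ (fun y => spin (f y)) x) ^ 2))
      ≤ 1 - Real.sqrt (1 - ρ ^ 2) := by
  have hc2 : c₀ ^ 2 < 1 := by nlinarith
  have hc2' : 0 < c₀ ^ 2 := by positivity
  have hsq : Real.sqrt (1 - c₀ ^ 2) ^ 2 = 1 - c₀ ^ 2 := Real.sq_sqrt (by linarith)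
  have hlt : Real.sqrt (1 - c₀ ^ 2) < 1 := by
    rw [Real.sqrt_lt' one_pos]; linarith
  have back : ∀ r : ℝ, 0 ≤ r → r ≤ 1 → Real.sqrt (1 - (ph r) ^ 2) = r := by
    intro r hr0 hr1
    rw [ph_sq (by rw [abs_of_nonneg hr0]; exact hr1), sub_sub_cancel, Real.sqrt_sq hr0]
  refine s0471_of_flow_ms hlt (fun r hr0 hr1 => ?_) (fun r hr hr0 hr1 => ?_) n f ρ hρ
  · have h := L (ph r) ?_ ?_
    · rwa [back r hr0.le (by linarith)] at h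
    · refine Real.le_sqrt_of_sq_le ?_
      have : r ^ 2 ≤ Real.sqrt (1 - c₀ ^ 2) ^ 2 := pow_le_pow_left₀ hr0.le hr1 2
      linarith
    · unfold ph
      rw [Real.sqrt_lt' one_pos]
      have : 0 < r ^ 2 := by positivity
      linarith
  · have h := MS (ph r) ?_ ?_
    · rwa [back r hr hr1.le] at h
    · exact ph_pos (by rw [abs_of_nonneg hr]; exact hr1)
    · unfold ph
      rw [Real.sqrt_le_left h0.le]
      have : Real.sqrt (1 - c₀ ^ 2) ^ 2 ≤ r ^ 2 := pow_le_pow_left₀ (Real.sqrt_nonneg _) hr0 2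
      linarith

end Crest.Agent.R307.GenFin
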