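import Crest.Agent.R307.GenInt
import Crest.Agent.R307.GenFin

/-!
Row 307, S0471, task G7: from an interval theorem to `MSHyp (√(1-c²))` for all `c ∈ [ca, cb]`.
-/

set_option autoImplicit false

open Crest.CubeNoise Set

namespace Crest.Agent.R307.GenInt

open Crest.Agent.R307 Crest.Agent.R307.Ode Crest.Agent.R307.TwoSet Crest.Agent.R307.Flow
open Crest.Agent.R307.GenInd Crest.Agent.R307.GenPI Crest.Agent.R307.Conic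
open Crest.Agent.R307.GenFin

lemma WA_eq_Wf (A0 A1 A2 c : ℝ) : WA A0 A1 A2 c = Wf A0 A1 A2 c := rfl

lemma ph_sqrt {c : ℝ} (hc : 0 ≤ c) (hc1 : c ≤ 1) : ph (Real.sqrt (1 - c ^ 2)) = c := by
  unfold ph
  rw [Real.sq_sqrt (by nlinarith), sub_sub_cancel, Real.sqrt_sq hc]

/-- **General final step on an interval**: `S` is any lower bound of the normalised sum
(`B μ + B (1-μ)` one-sided, `B μ + B (1-μ) + 2 Q μ` two-sided). -/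
theorem mshyp_of_lower {A0 A1 A2 ca cb r : ℝ} (hca : 0 < ca) (hcb : cb ≤ 1)
    (hW : ∀ c, ca ≤ c → c ≤ cb → 0 ≤ Wf A0 A1 A2 c)
    (hT : ∀ c, ca ≤ c → c ≤ cb → TanAt A0 A1 A2 c) (hWd : 0 < Wd A0 A1 A2 cb) (hr0 : 0 ≤ r)
    (hr : r * Wf A0 A1 A2 cb ≤ Wd A0 A1 A2 cb) (S : ℝ → ℝ)
    (hfin : ∀ μ : ℝ, 0 ≤ μ → μ ≤ 1 → 1 - r * (1 - ph (2 * μ - 1)) ≤ S μ)
    (hlow : ∀ c, ca ≤ c → c ≤ cb → ∀ (n : ℕ) (f : (Fin n → Bool) → Bool),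
      Wf A0 A1 A2 c * S (cubeAverage (TT (Real.sqrt (1 - c ^ 2)) f)) ≤
        cubeAverage (fun x => FA A0 A1 A2 (TT (Real.sqrt (1 - c ^ 2)) f x)) +
        cubeAverage (fun x => FA A0 A1 A2 (1 - TT (Real.sqrt (1 - c ^ 2)) f x))) :
    ∀ c, ca ≤ c → c ≤ cb → MSHyp (Real.sqrt (1 - c ^ 2)) := by
  intro c h1 h2
  have hc0 : 0 ≤ c := by linarith
  have hc1 : c ≤ 1 := by linarith
  have hc2 : c ^ 2 ≤ 1 := by nlinarith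
  have hph := ph_sqrt hc0 hc1
  have hWdc : 0 < Wd A0 A1 A2 c := by
    rcases h2.eq_or_lt with h | h
    · rw [h]; exact hWd
    · have a := hT c h1 h2 cb (by linarith) hcb
      have b := hT cb (by linarith) le_rfl c hc0 hc1
      have : 0 ≤ (Wd A0 A1 A2 c - Wd A0 A1 A2 cb) * (cb - c) := by linarith
      have := nonneg_of_mul_nonneg_left this (by linarith)
      linarith
  refine ⟨A0, A1, A2, Wd A0 A1 A2 c, hWdc, ?_, ?_⟩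
  · rw [hph]; exact hT c h1 h2
  · intro n f
    rw [hph]
    have hm := mem_unit_TT (abs_sqrt_le (sq_nonneg c) hc2).1 f
    exact (fin_interval hcb hca.le hT hWd.le hr0 hr hW (hfin _ hm.1 hm.2) h1 h2).trans
      (hlow c h1 h2 n f)

/-- **One-sided interval theorem**: `MSHyp` for all `c ∈ [ca, cb]`. -/
theorem mshyp_one_sided {A0 A1 A2 ca cb r : ℝ} (hu : ConcaveOn ℝ (Icc 0 1) (FA A0 A1 A2))
    (hca : 0 < ca) (hcb : cb ≤ 1)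
    (hW : ∀ c, ca ≤ c → c ≤ cb → 0 ≤ Wf A0 A1 A2 c)
    (hT : ∀ c, ca ≤ c → c ≤ cb → TanAt A0 A1 A2 c) (hWd : 0 < Wd A0 A1 A2 cb) (hr0 : 0 ≤ r)
    (hr : r * Wf A0 A1 A2 cb ≤ Wd A0 A1 A2 cb) (d : ℝ → ℝ)
    (hd : ∀ c, ca ≤ c → c ≤ cb → ∀ (n : ℕ) (f : (Fin n → Bool) → Bool),
      c ^ 2 * d (cubeAverage (TT (Real.sqrt (1 - c ^ 2)) f)) ≤
      cubeAverage (fun x => TT (Real.sqrt (1 - c ^ 2)) f x *
        (1 - TT (Real.sqrt (1 - c ^ 2)) f x)))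
    (B : ℝ → ℝ) (hB0 : B 0 ≤ 0) (hB1 : B 1 ≤ 0)
    (hI : ∀ n0 n1 : ℝ, 0 ≤ n1 → n1 ≤ n0 → n0 ≤ 1 → ∃ p1 q1 bt l m : ℝ,
      0 ≤ p1 ∧ 0 ≤ q1 ∧ CertI A0 A1 A2 ca cb p1 q1 bt l m ∧
      2 * B ((n0 + n1) / 2) ≤ p1 * B n0 + q1 * B n1 + bt * (n0 - n1) + l * d n0 + m * d n1)
    (hfin : ∀ μ : ℝ, 0 ≤ μ → μ ≤ 1 → 1 - r * (1 - ph (2 * μ - 1)) ≤ B μ + B (1 - μ)) :
    ∀ c, ca ≤ c → c ≤ cb → MSHyp (Real.sqrt (1 - c ^ 2)) :=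
  mshyp_of_lower hca hcb hW hT hWd hr0 hr (fun μ => B μ + B (1 - μ)) hfin
    (fun _ h1 h2 n f => one_sided' hu hca hcb hW d hd B hB0 hB1 hI h1 h2 n f)

end Crest.Agent.R307.GenInt
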