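import Crest.Agent.R307.GenProd
import Crest.Agent.R307.GenIntFin
import Crest.Agent.R307.FlowBfinal

/-!
Row 307, S0471: final assembly.  `BoundOn a b` collects the intervals of `c = √(1-ρ²)` on which the
bound is known; `s0471_of_regimes` needs `Bound` on `(0, cs]` (regime S) and on `[cs, 898/1000]`
(regime M).  Regime L (`898/1000 ≤ c < 1`) is `flowHyp_44`.
-/

set_option autoImplicit false

open Crest.CubeNoise Set

namespace Crest.Agent.R307.Final71

open Crest.Agent.R307 Crest.Agent.R307.Ode Crest.Agent.R307.TwoSet Crest.Agent.R307.Flow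
open Crest.Agent.R307.GenInd Crest.Agent.R307.GenFin Crest.Agent.R307.GenProd
open Crest.Agent.R307.FlowB

/-- The bound of S0471 for all `c = √(1-ρ²)` in `[a,b]`. -/
def BoundOn (a b : ℝ) : Prop := ∀ c, a ≤ c → c ≤ b → Bound (Real.sqrt (1 - c ^ 2))

lemma BoundOn.append {a b d : ℝ} (h1 : BoundOn a b) (h2 : BoundOn b d) : BoundOn a d := by
  intro c ha hd
  rcases le_total c b with h | h
  · exact h1 c ha h
  · exact h2 c h hd

lemma BoundOn.mono {a b a' b' : ℝ} (h : BoundOn a b) (ha : a ≤ a') (hb : b' ≤ b) :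
    BoundOn a' b' := fun c h1 h2 => h c (ha.trans h1) (h2.trans hb)

/-- `MSHyp` on an interval (tangent form of the last step) gives `BoundOn`. -/
lemma BoundOn.of_msHyp {a b : ℝ} (ha : 0 ≤ a) (hb : b ≤ 1)
    (h : ∀ c, a ≤ c → c ≤ b → MSHyp (Real.sqrt (1 - c ^ 2))) : BoundOn a b := by
  intro c h1 h2
  have hc0 : 0 ≤ c := ha.trans h1
  have hc1 : c ≤ 1 := h2.trans hb
  refine bound_of_msHyp ?_ (h c h1 h2)
  rw [abs_of_nonneg (Real.sqrt_nonneg _)]
  exact Real.sqrt_le_one.mpr (by nlinarith [sq_nonneg c])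

/-- Regime L. -/
theorem flow_L (c : ℝ) (h : (898 / 1000 : ℝ) ≤ c) (h1 : c < 1) :
    FlowHyp (Real.sqrt (1 - c ^ 2)) := by
  have hc : 0 < c := by linarith
  refine flowHyp_44 (Real.sqrt_pos.mpr (by nlinarith)) ?_
  rw [Real.sqrt_le_left (by norm_num)]
  nlinarith

/-- **Assembly**: S0471 from regimes S and M. -/
theorem s0471_of_regimes {cs : ℝ}
    (S : ∀ c, 0 < c → c ≤ cs → Bound (Real.sqrt (1 - c ^ 2)))
    (M : BoundOn cs (898 / 1000))
    (n : ℕ) (f : (Fin n → Bool) → Bool) (ρ : ℝ) (hρ : |ρ| ≤ 1) :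
    Real.sqrt (1 - (cubeAverage (fun x => spin (f x))) ^ 2)
        - cubeAverage (fun x => Real.sqrt (1 - (noise ρ (fun y => spin (f y)) x) ^ 2))
      ≤ 1 - Real.sqrt (1 - ρ ^ 2) :=
  s0471_of_flow_boundc (c₀ := 898 / 1000) (by norm_num) (by norm_num)
    (fun c h h1 => flow_L c h h1)
    (fun c h h1 => (le_total c cs).elim (fun h2 => S c h h2) (fun h2 => M c h2 h1)) n f ρ hρ

/-- **Assembly with the frozen splitting** (regime S on `(0,2/5]`; regime M in five intervals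
`[.4,.5]`, `[.5,.66]`, `[.66,.78]`, `[.78,.9]`; every interval may be refined by
`BoundOn.append`). -/
theorem s0471_of_intervals
    (S : ∀ c, 0 < c → c ≤ 2 / 5 → Bound (Real.sqrt (1 - c ^ 2)))
    (M1 : BoundOn (2 / 5) (1 / 2)) (M2 : BoundOn (1 / 2) (66 / 100))
    (M3 : BoundOn (66 / 100) (78 / 100)) (M4 : BoundOn (78 / 100) (898 / 1000))
    (n : ℕ) (f : (Fin n → Bool) → Bool) (ρ : ℝ) (hρ : |ρ| ≤ 1) :
    Real.sqrt (1 - (cubeAverage (fun x => spin (f x))) ^ 2)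
        - cubeAverage (fun x => Real.sqrt (1 - (noise ρ (fun y => spin (f y)) x) ^ 2))
      ≤ 1 - Real.sqrt (1 - ρ ^ 2) :=
  s0471_of_regimes S (((M1.append M2).append M3).append M4) n f ρ hρ

/-- `FlowHyp` on an interval of `c`. -/
def FlowOn (a b : ℝ) : Prop := ∀ c, a ≤ c → c ≤ b → FlowHyp (Real.sqrt (1 - c ^ 2))

lemma FlowOn.append {a b d : ℝ} (h1 : FlowOn a b) (h2 : FlowOn b d) : FlowOn a d := by
  intro c ha hd
  rcases le_total c b with h | h
  · exact h1 c ha h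
  · exact h2 c h hd

/-- **Assembly, general form**: flow regime on `[c₀, 898/1000]` (the part `≥ 898/1000` is landed),
regime M on `[cs, c₀]`, regime S on `(0, cs]`. -/
theorem s0471_of_LMS {c₀ cs : ℝ} (h0 : 0 < c₀) (h1 : c₀ < 1)
    (L : FlowOn c₀ (898 / 1000)) (M : BoundOn cs c₀)
    (S : ∀ c, 0 < c → c ≤ cs → Bound (Real.sqrt (1 - c ^ 2)))
    (n : ℕ) (f : (Fin n → Bool) → Bool) (ρ : ℝ) (hρ : |ρ| ≤ 1) :
    Real.sqrt (1 - (cubeAverage (fun x => spin (f x))) ^ 2)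
        - cubeAverage (fun x => Real.sqrt (1 - (noise ρ (fun y => spin (f y)) x) ^ 2))
      ≤ 1 - Real.sqrt (1 - ρ ^ 2) :=
  s0471_of_flow_boundc (c₀ := c₀) h0 h1
    (fun c h h1 => (le_total c (898 / 1000)).elim (fun h2 => L c h h2) (fun h2 => flow_L c h2 h1))
    (fun c h h1 => (le_total c cs).elim (fun h2 => S c h h2) (fun h2 => M c h2 h1)) n f ρ hρ

/-- v6 splitting: L on `[3/4, 898/1000]`, M on `[2/5, 3/4]`, S on `(0, 2/5]`. -/
theorem s0471_v6 (L : FlowOn (3 / 4) (898 / 1000)) (M : BoundOn (2 / 5) (3 / 4))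
    (S : ∀ c, 0 < c → c ≤ 2 / 5 → Bound (Real.sqrt (1 - c ^ 2)))
    (n : ℕ) (f : (Fin n → Bool) → Bool) (ρ : ℝ) (hρ : |ρ| ≤ 1) :
    Real.sqrt (1 - (cubeAverage (fun x => spin (f x))) ^ 2)
        - cubeAverage (fun x => Real.sqrt (1 - (noise ρ (fun y => spin (f y)) x) ^ 2))
      ≤ 1 - Real.sqrt (1 - ρ ^ 2) :=
  s0471_of_LMS (by norm_num) (by norm_num) L M S n f ρ hρ

end Crest.Agent.R307.Final71
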