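import Crest.Agent.Tools.KB

/-!
Row 307 (S0471), flow route for large `c = √(1 - ρ²)` (helper14): the polynomial inequalities behind the
scalar two-point inequality, certified by the tool KB (helper437).
Variables: `x_0 = p`, `x_1 = q` (half-angle parameters of `s`, `t`), `x_2 = r` (half-angle parameter of `ρ`).
-/

set_option autoImplicit false

namespace Crest.Agent.R307.FlowB

open Crest.Agent.KB

def ec : Ex := ((Ex.W 2 2) - (Ex.X 2 2))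
def eL : Ex := (((Ex.W 2 1) + (Ex.X 2 1)) * ((Ex.W 2 1) + (Ex.X 2 1)))
def eW2 : Ex := ((Ex.W 1 2) + (Ex.X 1 2))
def eN : Ex := (((Ex.W 2 1) - (Ex.X 2 1)) * ((Ex.W 2 1) - (Ex.X 2 1)))
def eW1 : Ex := ((Ex.W 0 2) + (Ex.X 0 2))
def eP1 : Ex := (((eL * ((Ex.X 0 2) * (Ex.W 0 2))) * (eW2 * eW2)) + ((eN * ((Ex.X 1 2) * (Ex.W 1 2))) * (eW1 * eW1)))
def eR : Ex := ((Ex.W 2 2) + (Ex.X 2 2))
def eWW1 : Ex := (eW1 * eW2)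
def eC1 : Ex := ((((Ex.X 0 1) * (Ex.W 1 1)) + ((Ex.X 1 1) * (Ex.W 0 1))) * (((Ex.X 0 1) * (Ex.W 1 1)) + ((Ex.X 1 1) * (Ex.W 0 1))))
def eG1 : Ex := ((((eL * (Ex.X 0 2)) * eW2) + ((eN * (Ex.X 1 2)) * eW1)) * (((eL * (Ex.W 0 2)) * eW2) + ((eN * (Ex.W 1 2)) * eW1)))
def eU1 : Ex := ((((((Ex.c 4) * (eP1 * eP1)) * (eR * eR)) * eWW1) + (eC1 * (eG1 * eG1))) + ((Ex.c 2) * (((eC1 * eG1) * eP1) * eR)))
def eA1 : Ex := ((((Ex.X 0 2) * (Ex.W 1 2)) - ((Ex.X 1 2) * (Ex.W 0 2))) * (((Ex.X 0 2) * (Ex.W 1 2)) - ((Ex.X 1 2) * (Ex.W 0 2))))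
def eR21 : Ex := (eR * eR)
def eM1 : Ex := (((eL * ((Ex.X 0 1) * (Ex.W 0 1))) * eW2) + ((eN * ((Ex.X 1 1) * (Ex.W 1 1))) * eW1))
def fa1 : Ex := ((ec * (eU1 - (((eC1 * eA1) * (eR21 * eR21)) * (eWW1 * eWW1)))) - ((((Ex.c 4) * ((eC1 * eM1) * eP1)) * (eR21 * eR)) * eWW1))
def ec31 : Ex := ((ec * ec) * ec)
def fb1 : Ex := (((ec31 * eU1) - ((((ec31 * ec31) * ec) * (eC1 * eA1)) * (eWW1 * eWW1))) - ((((Ex.c 4) * ((eC1 * eM1) * eP1)) * ((eR21 * eR21) * eR)) * eWW1))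
def eWW2 : Ex := (eW1 * eW2)
def eC2 : Ex := ((((Ex.W 0 1) * (Ex.W 1 1)) + ((Ex.X 0 1) * (Ex.X 1 1))) * (((Ex.W 0 1) * (Ex.W 1 1)) + ((Ex.X 0 1) * (Ex.X 1 1))))
def eG2 : Ex := ((((eL * (Ex.X 0 2)) * eW2) + ((eN * (Ex.W 1 2)) * eW1)) * (((eL * (Ex.W 0 2)) * eW2) + ((eN * (Ex.X 1 2)) * eW1)))
def eU2 : Ex := ((((((Ex.c 4) * (eP1 * eP1)) * (eR * eR)) * eWW2) + (eC2 * (eG2 * eG2))) + ((Ex.c 2) * (((eC2 * eG2) * eP1) * eR)))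
def eA2 : Ex := ((((Ex.W 0 2) * (Ex.W 1 2)) - ((Ex.X 0 2) * (Ex.X 1 2))) * (((Ex.W 0 2) * (Ex.W 1 2)) - ((Ex.X 0 2) * (Ex.X 1 2))))
def eR22 : Ex := (eR * eR)
def fa2 : Ex := ((ec * (eU2 - (((eC2 * eA2) * (eR22 * eR22)) * (eWW2 * eWW2)))) - ((((Ex.c 4) * ((eC2 * eM1) * eP1)) * (eR22 * eR)) * eWW2))
def ec32 : Ex := ((ec * ec) * ec)
def fb2 : Ex := (((ec32 * eU2) - ((((ec32 * ec32) * ec) * (eC2 * eA2)) * (eWW2 * eWW2))) - ((((Ex.c 4) * ((eC2 * eM1) * eP1)) * ((eR22 * eR22) * eR)) * eWW2))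

set_option maxRecDepth 100000 in
theorem run1 : run 3 392 10 [11, 11, 15] [2048, 2048, 1024] [[fa1], [fb1]]
    (.node 0 (.leaf 0) (.leaf 0))
    [(0, 1024), (0, 1024), (0, 245)] = true := by decide +kernel

set_option maxRecDepth 100000 in
theorem run2 : run 3 392 10 [11, 11, 15] [2048, 2048, 1024] [[fa2], [fb2]]
    (.node 0 (.node 1 (.leaf 1) (.node 0 (.node 1 (.leaf 1) (.node 2 (.leaf 0) (.node 0 (.leaf 1) (.node 1 (.leaf 1) (.leaf 0))))) (.leaf 0))) (.leaf 0))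
    [(0, 1024), (0, 1024), (0, 245)] = true := by decide +kernel

end Crest.Agent.R307.FlowB
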