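import Crest.Agent.R307.FlowR
import Crest.Agent.R307.FlowBpoly

/-!
Row 307 (S0471), flow route for large `c = √(1 - ρ²)` (helper14): one explicit weight
`W g g' = Z / (φ(g)³ + c Z)`, `Z = (g - g')² / 4`, which does not need the crossing argument.
-/

set_option autoImplicit false

namespace Crest.Agent.R307.FlowB

open Crest.Agent.R307.Flow Crest.Agent.KB

/-- the weight -/
noncomputable def WB (c g g' : ℝ) : ℝ := ((g - g') ^ 2 / 4) / (ph g ^ 3 + c * ((g - g') ^ 2 / 4))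

/-! ### the pair condition -/

set_option maxHeartbeats 1000000 in
lemma pair_core {C SM D Sd c ρ : ℝ} (hC : 0 < C) (hD : 0 < D) (h1 : C ^ 2 + SM ^ 2 = 1)
    (h2 : D ^ 2 + Sd ^ 2 = 1) (hxy : 0 < D ^ 2 - SM ^ 2) (hρ0 : 0 < ρ) (hc : 0 < c)
    (hcρ : c ^ 2 = 1 - ρ ^ 2) (hf1 : |ρ * (SM * D) + C * Sd| ≤ ρ)
    (hf2 : |ρ * (SM * D) - C * Sd| ≤ ρ) :
    c * C * (SM ^ 2 + D ^ 2 - 2 * SM ^ 2 * D ^ 2) ≤ D * (D ^ 2 - SM ^ 2) := by
  set E := |SM| with hE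
  have hE0 : 0 ≤ E := abs_nonneg _
  have hE2 : SM ^ 2 = E ^ 2 := by rw [hE, sq_abs]
  rw [hE2] at h1 hxy ⊢
  set S := |Sd| with hS
  have hS0 : 0 ≤ S := abs_nonneg _
  have hS2 : Sd ^ 2 = S ^ 2 := by rw [hS, sq_abs]
  rw [hS2] at h2
  have hD1 : D ≤ 1 := by nlinarith [sq_nonneg S]
  have hC1 : C ≤ 1 := by nlinarith [sq_nonneg E]
  have hE1 : E < 1 := by nlinarith [sq_nonneg C]
  have hDE : E < D := by nlinarith
  -- C S + ρ E D ≤ ρ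
  have hsum : C * S + ρ * (E * D) ≤ ρ := by
    have e1 := abs_le.1 hf1
    have e2 := abs_le.1 hf2
    rcases abs_cases SM with ⟨a1, _⟩ | ⟨a1, _⟩ <;> rcases abs_cases Sd with ⟨b1, _⟩ | ⟨b1, _⟩ <;>
      rw [hE, hS, a1, b1] <;> linarith [e1.1, e1.2, e2.1, e2.2]
  have hED : 0 < 1 - E * D := by nlinarith
  have h3 : C * S ≤ ρ * (1 - E * D) := by linarith
  have h4 : (C * S) ^ 2 ≤ (ρ * (1 - E * D)) ^ 2 := by
    have := mul_nonneg hC.le hS0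
    exact pow_le_pow_left₀ this h3 2
  have h5 : (c * (1 - E * D)) ^ 2 ≤ (D - E) ^ 2 := by
    have e1 : (D - E) ^ 2 = (1 - E * D) ^ 2 - (C * S) ^ 2 := by
      have : (C * S) ^ 2 = (1 - E ^ 2) * (1 - D ^ 2) := by
        rw [mul_pow]
        have a : C ^ 2 = 1 - E ^ 2 := by linarith
        have b : S ^ 2 = 1 - D ^ 2 := by linarith
        rw [a, b]
      rw [this]; ring
    rw [e1, mul_pow, hcρ]
    rw [mul_pow ρ] at h4
    nlinarith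
  have h6 : c * (1 - E * D) ≤ D - E := by
    have := abs_le_of_sq_le_sq h5 (by linarith)
    exact (le_abs_self _).trans this
  set K := E ^ 2 + D ^ 2 - 2 * E ^ 2 * D ^ 2 with hK
  have b0 : 0 ≤ 1 - D ^ 2 := by
    have : 1 - D ^ 2 = S ^ 2 := by linarith
    rw [this]; positivity
  have d0 : 0 ≤ 1 - E ^ 2 := by
    have : 1 - E ^ 2 = C ^ 2 := by linarith
    rw [this]; positivity
  have hK0 : 0 ≤ K := by
    have a : K = E ^ 2 * (1 - D ^ 2) + D ^ 2 * (1 - E ^ 2) := by rw [hK]; ring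
    rw [a]
    exact add_nonneg (mul_nonneg (sq_nonneg _) b0) (mul_nonneg (sq_nonneg _) d0)
  have h7 : (D - E) * K ≤ D * (D ^ 2 - E ^ 2) * (1 - E * D) := by
    have e1 : D * (D ^ 2 - E ^ 2) * (1 - E * D) - (D - E) * K =
        (D - E) * (E * ((1 - D ^ 2) * (D - E))) := by rw [hK]; ring
    have : 0 ≤ (D - E) * (E * ((1 - D ^ 2) * (D - E))) :=
      mul_nonneg (by linarith) (mul_nonneg hE0 (mul_nonneg b0 (by linarith)))
    linarith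
  have h8 : c * C * K * (1 - E * D) ≤ D * (D ^ 2 - E ^ 2) * (1 - E * D) := by
    refine le_trans ?_ h7
    have e1 : c * C * K * (1 - E * D) = (c * (1 - E * D)) * (C * K) := by ring
    rw [e1]
    have e2 : C * K ≤ K := by
      have := mul_le_mul_of_nonneg_right hC1 hK0
      linarith
    have e3 : 0 ≤ c * (1 - E * D) := by positivity
    calc (c * (1 - E * D)) * (C * K) ≤ (c * (1 - E * D)) * K := mul_le_mul_of_nonneg_left e2 e3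
      _ ≤ (D - E) * K := mul_le_mul_of_nonneg_right h6 hK0
  exact le_of_mul_le_mul_right h8 hED

lemma pair_fin {x y C Z Sd c : ℝ} (hx : 0 < x) (hy : 0 < y) (hC : 0 < C) (hc : 0 < c)
    (hZ : C ^ 2 * Sd ^ 2 = Z) (hxy : C ^ 2 - x * y = Sd ^ 2)
    (key2 : c * C ^ 2 * (x ^ 2 + y ^ 2) ≤ (x + y) * (x * y)) :
    Z * (x + y) / (x * y * C ^ 2) ≤ Z / (x ^ 3 + c * Z) + Z / (y ^ 3 + c * Z) := by
  have hZ0 : 0 ≤ Z := by rw [← hZ]; positivity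
  obtain ⟨a, ha⟩ : ∃ a, a = x ^ 3 + c * Z := ⟨_, rfl⟩
  obtain ⟨b, hb⟩ : ∃ b, b = y ^ 3 + c * Z := ⟨_, rfl⟩
  rw [← ha, ← hb]
  have ha0 : 0 < a := by rw [ha]; positivity
  have hb0 : 0 < b := by rw [hb]; positivity
  have hq : 0 < a * y ^ 2 + b * x ^ 2 := by positivity
  have k1 : a * y ^ 2 + b * x ^ 2 ≤ (x + y) * (x * y) * C ^ 2 := by
    have e1 : a * y ^ 2 + b * x ^ 2 = (x * y) ^ 2 * (x + y) + c * Z * (x ^ 2 + y ^ 2) := by
      rw [ha, hb]; ring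
    have e3 : (x + y) * (x * y) * C ^ 2 = (x * y) ^ 2 * (x + y) + (x + y) * (x * y) * Sd ^ 2 := by
      rw [← hxy]; ring
    rw [e1, e3, ← hZ]
    have := mul_le_mul_of_nonneg_right key2 (sq_nonneg Sd)
    linarith
  have k2 : (x + y) ^ 2 / (a * y ^ 2 + b * x ^ 2) ≤ 1 / a + 1 / b := by
    rw [div_add_div _ _ ha0.ne' hb0.ne', div_le_div_iff₀ hq (by positivity)]
    nlinarith [sq_nonneg (a * y - b * x)]
  have k3 : (x + y) / (x * y * C ^ 2) ≤ (x + y) ^ 2 / (a * y ^ 2 + b * x ^ 2) := by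
    rw [div_le_div_iff₀ (by positivity) hq]
    have := mul_le_mul_of_nonneg_left k1 (add_pos hx hy).le
    have e : (x + y) ^ 2 * (x * y * C ^ 2) = (x + y) * ((x + y) * (x * y) * C ^ 2) := by ring
    rw [e]
    exact this
  have k4 : Z * (x + y) / (x * y * C ^ 2) = Z * ((x + y) / (x * y * C ^ 2)) := by ring
  have k5 : Z / a + Z / b = Z * (1 / a + 1 / b) := by ring
  rw [k4, k5]
  exact mul_le_mul_of_nonneg_left (k3.trans k2) hZ0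

set_option maxHeartbeats 1000000 in
theorem pairOK_WB {ρ : ℝ} (h0 : 0 < ρ) (h1 : ρ < 1) : PairOK ρ 0 (WB (ph ρ)) := by
  intro g g' hg hg' hF
  have hρ : |ρ| < 1 := by rw [abs_of_pos h0]; exact h1
  have hc : 0 < ph ρ := ph_pos hρ
  have hcρ : ph ρ ^ 2 = 1 - ρ ^ 2 := ph_sq hρ.le
  set c := ph ρ with hcdef
  have hx : 0 < ph g := ph_pos hg
  have hy : 0 < ph g' := ph_pos hg'
  have hg1 := abs_lt.1 hg
  have hg1' := abs_lt.1 hg'
  -- angles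
  set θ := Real.arcsin g with hθ
  set θ' := Real.arcsin g' with hθ'
  have eg : g = Real.sin θ := (Real.sin_arcsin hg1.1.le hg1.2.le).symm
  have eg' : g' = Real.sin θ' := (Real.sin_arcsin hg1'.1.le hg1'.2.le).symm
  have ex : ph g = Real.cos θ := by rw [hθ, Real.cos_arcsin]; rfl
  have ey : ph g' = Real.cos θ' := by rw [hθ', Real.cos_arcsin]; rfl
  have b1 : -(Real.pi / 2) < θ := Real.neg_pi_div_two_lt_arcsin.2 hg1.1
  have b2 : θ < Real.pi / 2 := Real.arcsin_lt_pi_div_two.2 hg1.2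
  have b3 : -(Real.pi / 2) < θ' := Real.neg_pi_div_two_lt_arcsin.2 hg1'.1
  have b4 : θ' < Real.pi / 2 := Real.arcsin_lt_pi_div_two.2 hg1'.2
  set M := (θ + θ') / 2 with hM
  set δ := (θ - θ') / 2 with hδ
  have t1 : θ = M + δ := by rw [hM, hδ]; ring
  have t2 : θ' = M - δ := by rw [hM, hδ]; ring
  have hC : 0 < Real.cos M := Real.cos_pos_of_mem_Ioo ⟨by rw [hM]; linarith, by rw [hM]; linarith⟩
  have hD : 0 < Real.cos δ := Real.cos_pos_of_mem_Ioo ⟨by rw [hδ]; linarith, by rw [hδ]; linarith⟩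
  have s1 := Real.sin_sq_add_cos_sq M
  have s2 := Real.sin_sq_add_cos_sq δ
  rw [t1, Real.sin_add] at eg
  rw [t2, Real.sin_sub] at eg'
  rw [t1, Real.cos_add] at ex
  rw [t2, Real.cos_sub] at ey
  set C := Real.cos M
  set SM := Real.sin M
  set D := Real.cos δ
  set Sd := Real.sin δ
  set x := ph g with hxd
  set y := ph g' with hyd
  have hCS : C ^ 2 + SM ^ 2 = 1 := by linarith
  have hDS : D ^ 2 + Sd ^ 2 = 1 := by linarith
  have exy : x * y = D ^ 2 - SM ^ 2 := by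
    rw [ex, ey]
    have : (C * D - SM * Sd) * (C * D + SM * Sd) = C ^ 2 * D ^ 2 - SM ^ 2 * Sd ^ 2 := by ring
    rw [this]
    have a : C ^ 2 = 1 - SM ^ 2 := by linarith
    have b : Sd ^ 2 = 1 - D ^ 2 := by linarith
    rw [a, b]; ring
  have hxy : 0 < D ^ 2 - SM ^ 2 := by rw [← exy]; positivity
  obtain ⟨hF1, hF2⟩ := hF
  have hf1 : |ρ * (SM * D) + C * Sd| ≤ ρ := by
    have e : (1 + ρ) * g - (1 - ρ) * g' = 2 * (ρ * (SM * D) + C * Sd) := by rw [eg, eg']; ring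
    rw [e, abs_mul, abs_of_pos (by norm_num : (0 : ℝ) < 2)] at hF1
    linarith
  have hf2 : |ρ * (SM * D) - C * Sd| ≤ ρ := by
    have e : (1 + ρ) * g' - (1 - ρ) * g = 2 * (ρ * (SM * D) - C * Sd) := by rw [eg, eg']; ring
    rw [e, abs_mul, abs_of_pos (by norm_num : (0 : ℝ) < 2)] at hF2
    linarith
  have key := pair_core hC hD hCS hDS hxy h0 hc hcρ hf1 hf2
  -- second form
  have exs : x + y = 2 * (C * D) := by rw [ex, ey]; ring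
  have exq : x ^ 2 + y ^ 2 = 2 * (SM ^ 2 + D ^ 2 - 2 * SM ^ 2 * D ^ 2) := by
    have : x ^ 2 + y ^ 2 = (x + y) ^ 2 - 2 * (x * y) := by ring
    rw [this, exs, exy]
    have a : C ^ 2 = 1 - SM ^ 2 := by linarith
    have : (2 * (C * D)) ^ 2 = 4 * C ^ 2 * D ^ 2 := by ring
    rw [this, a]; ring
  have key2 : c * C ^ 2 * (x ^ 2 + y ^ 2) ≤ (x + y) * (x * y) := by
    rw [exq, exs, exy]
    have := mul_le_mul_of_nonneg_left key (mul_nonneg (by norm_num : (0:ℝ) ≤ 2) hC.le)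
    nlinarith
  have eZ : (g - g') ^ 2 / 4 = C ^ 2 * Sd ^ 2 := by rw [eg, eg']; ring
  have eZ' : (g' - g) ^ 2 / 4 = C ^ 2 * Sd ^ 2 := by rw [eg, eg']; ring
  unfold WB
  rw [eZ, eZ', ← hxd, ← hyd]
  -- the left side
  have eL : (g / x - g' / y) * (g - g') / 2 + 0 * (g - g') ^ 2 / 2 =
      (C ^ 2 * Sd ^ 2) * (x + y) / (x * y * C ^ 2) := by
    have h3 : g * y - g' * x = 2 * Sd * D := by
      rw [eg, eg', ex, ey]
      have : (SM * D + C * Sd) * (C * D + SM * Sd) - (SM * D - C * Sd) * (C * D - SM * Sd) =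
        2 * Sd * D * (C ^ 2 + SM ^ 2) := by ring
      rw [this, hCS, mul_one]
    have h4 : g - g' = 2 * (C * Sd) := by rw [eg, eg']; ring
    have h5 : g / x - g' / y = (2 * Sd * D) / (x * y) := by
      rw [← h3]; field_simp
    rw [h5, h4, exs]
    field_simp
    ring
  rw [eL]
  exact pair_fin hx hy hC hc rfl (by rw [exy]; linarith) key2

/-! ### the feasible range -/

lemma range_aux {ρ s e : ℝ} (h0 : 0 < ρ) (h1 : ρ < 1) (hs1 : -1 ≤ s) (hs2 : s ≤ 1) (he : 0 ≤ e)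
    (hA : (1 - ρ) * e ≤ ρ * (1 - s)) (hB : (1 + ρ) * e ≤ ρ * (1 + s)) :
    (1 - ρ) ^ 3 * (1 + ρ) ^ 3 * e ^ 4 ≤ ρ ^ 4 * ((1 - s) ^ 3 * (1 + s) ^ 3) := by
  have h1' : 0 ≤ 1 - ρ := by linarith
  have h2' : 0 ≤ 1 + ρ := by linarith
  have h3' : 0 ≤ 1 - s := by linarith
  have h4' : 0 ≤ 1 + s := by linarith
  have hA0 : 0 ≤ (1 - ρ) * e := mul_nonneg h1' he
  have hB0 : 0 ≤ (1 + ρ) * e := mul_nonneg h2' he
  rcases le_total ρ s with h | h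
  · have a : ((1 - ρ) * e) ^ 3 ≤ (ρ * (1 - s)) ^ 3 := pow_le_pow_left₀ hA0 hA 3
    have b : (1 + ρ) ^ 2 * ((1 + ρ) * e) ≤ (1 + s) ^ 2 * (ρ * (1 + s)) :=
      mul_le_mul (pow_le_pow_left₀ h2' (by linarith) 2) hB hB0 (by positivity)
    calc (1 - ρ) ^ 3 * (1 + ρ) ^ 3 * e ^ 4
        = ((1 - ρ) * e) ^ 3 * ((1 + ρ) ^ 2 * ((1 + ρ) * e)) := by ring
      _ ≤ (ρ * (1 - s)) ^ 3 * ((1 + s) ^ 2 * (ρ * (1 + s))) :=
          mul_le_mul a b (by positivity) (by positivity)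
      _ = _ := by ring
  · have a : ((1 + ρ) * e) ^ 3 ≤ (ρ * (1 + s)) ^ 3 := pow_le_pow_left₀ hB0 hB 3
    have b : (1 - ρ) ^ 2 * ((1 - ρ) * e) ≤ (1 - s) ^ 2 * (ρ * (1 - s)) :=
      mul_le_mul (pow_le_pow_left₀ h1' (by linarith) 2) hA hA0 (by positivity)
    calc (1 - ρ) ^ 3 * (1 + ρ) ^ 3 * e ^ 4
        = ((1 + ρ) * e) ^ 3 * ((1 - ρ) ^ 2 * ((1 - ρ) * e)) := by ring
      _ ≤ (ρ * (1 + s)) ^ 3 * ((1 - s) ^ 2 * (ρ * (1 - s))) :=
          mul_le_mul a b (by positivity) (by positivity)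
      _ = _ := by ring

lemma feas_range {ρ s σ : ℝ} (h0 : 0 < ρ) (h1 : ρ < 1) (hs : |s| ≤ 1) (hF : Feas ρ s σ) :
    ph ρ ^ 3 * ((s - σ) / 2) ^ 2 ≤ ρ ^ 2 * ph s ^ 3 := by
  have hρ : |ρ| ≤ 1 := by rw [abs_of_pos h0]; exact h1.le
  have e1 := abs_le.1 hF.1
  have e2 := abs_le.1 hF.2
  have hs' := abs_le.1 hs
  obtain ⟨e, he⟩ : ∃ e, e = (s - σ) / 2 := ⟨_, rfl⟩
  have hσ : σ = s - 2 * e := by rw [he]; ring
  rw [← he]
  have key : (1 - ρ) ^ 3 * (1 + ρ) ^ 3 * e ^ 4 ≤ ρ ^ 4 * ((1 - s) ^ 3 * (1 + s) ^ 3) := by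
    rcases le_total 0 e with h | h
    · refine range_aux h0 h1 hs'.1 hs'.2 h ?_ ?_ <;> rw [hσ] at e1 e2 <;>
        nlinarith [e1.1, e1.2, e2.1, e2.2]
    · have := range_aux (s := -s) (e := -e) h0 h1 (by linarith) (by linarith) (by linarith) ?_ ?_
      · calc (1 - ρ) ^ 3 * (1 + ρ) ^ 3 * e ^ 4 = (1 - ρ) ^ 3 * (1 + ρ) ^ 3 * (-e) ^ 4 := by ring
          _ ≤ _ := this
          _ = _ := by ring
      · rw [hσ] at e1 e2
        nlinarith [e1.1, e1.2, e2.1, e2.2]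
      · rw [hσ] at e1 e2
        nlinarith [e1.1, e1.2, e2.1, e2.2]
  have k1 : (ph ρ ^ 3 * e ^ 2) ^ 2 ≤ (ρ ^ 2 * ph s ^ 3) ^ 2 := by
    have a : (ph ρ ^ 3 * e ^ 2) ^ 2 = (1 - ρ) ^ 3 * (1 + ρ) ^ 3 * e ^ 4 := by
      have : (ph ρ ^ 3 * e ^ 2) ^ 2 = (ph ρ ^ 2) ^ 3 * e ^ 4 := by ring
      rw [this, ph_sq hρ]; ring
    have b : (ρ ^ 2 * ph s ^ 3) ^ 2 = ρ ^ 4 * ((1 - s) ^ 3 * (1 + s) ^ 3) := by
      have : (ρ ^ 2 * ph s ^ 3) ^ 2 = ρ ^ 4 * (ph s ^ 2) ^ 3 := by ring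
      rw [this, ph_sq hs]; ring
    rw [a, b]; exact key
  have k2 : 0 ≤ ρ ^ 2 * ph s ^ 3 := mul_nonneg (sq_nonneg _) (pow_nonneg (ph_nonneg _) _)
  exact (le_abs_self _).trans (abs_le_of_sq_le_sq k1 k2)

/-! ### the one-edge inequality -/

lemma jensen {c u v w : ℝ} (hc : 0 < c) (hw0 : 0 ≤ w) (hw1 : w ≤ 1) (hu : 3 * (c * u ^ 2) ≤ 1)
    (hv : 3 * (c * v ^ 2) ≤ 1) :
    (w * u + (1 - w) * v) ^ 2 / (1 + c * (w * u + (1 - w) * v) ^ 2) ≤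
      w * (u ^ 2 / (1 + c * u ^ 2)) + (1 - w) * (v ^ 2 / (1 + c * v ^ 2)) := by
  obtain ⟨m, hm⟩ : ∃ m, m = w * u + (1 - w) * v := ⟨_, rfl⟩
  have d1 : 0 < 1 + c * u ^ 2 := by positivity
  have d2 : 0 < 1 + c * v ^ 2 := by positivity
  have d3 : 0 < 1 + c * m ^ 2 := by positivity
  rw [← hm]
  have e : w * (u ^ 2 / (1 + c * u ^ 2)) + (1 - w) * (v ^ 2 / (1 + c * v ^ 2)) -
      m ^ 2 / (1 + c * m ^ 2) = w * (1 - w) * (u - v) ^ 2 * (1 - c * (u * v + m * (u + v))) /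
        ((1 + c * m ^ 2) * (1 + c * u ^ 2) * (1 + c * v ^ 2)) := by
    rw [hm] at d3 ⊢
    field_simp
    ring
  have k : c * (u * v + m * (u + v)) ≤ 1 := by
    have e2 : u * v + m * (u + v) = 2 * (u * v) + w * u ^ 2 + (1 - w) * v ^ 2 := by rw [hm]; ring
    rw [e2]
    have a1 : 2 * (u * v) ≤ u ^ 2 + v ^ 2 := by nlinarith [sq_nonneg (u - v)]
    have a2 : c * (2 * (u * v)) ≤ c * u ^ 2 + c * v ^ 2 := by
      have := mul_le_mul_of_nonneg_left a1 hc.le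
      linarith
    have a3 : w * (c * u ^ 2) ≤ w * (1 / 3) := mul_le_mul_of_nonneg_left (by linarith) hw0
    have a4 : (1 - w) * (c * v ^ 2) ≤ (1 - w) * (1 / 3) :=
      mul_le_mul_of_nonneg_left (by linarith) (by linarith)
    nlinarith
  have h : 0 ≤ w * (1 - w) * (u - v) ^ 2 * (1 - c * (u * v + m * (u + v))) /
        ((1 + c * m ^ 2) * (1 + c * u ^ 2) * (1 + c * v ^ 2)) := by
    apply div_nonneg
    · exact mul_nonneg (mul_nonneg (mul_nonneg hw0 (by linarith)) (sq_nonneg _)) (by linarith)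
    · positivity
  linarith

/-- the scalar condition -/
def SC (ρ s t : ℝ) : Prop :=
  ∃ F : ℝ, 0 ≤ F ∧
    (∀ m : ℝ, 0 ≤ m → ph ρ ^ 3 * m ≤ ρ ^ 2 →
      ((1 + ρ) / 2 * √(ph s ^ 3) + (1 - ρ) / 2 * √(ph t ^ 3)) ^ 2 * m ≤ ρ ^ 2 * ((s - t) ^ 2 / 4) →
      ((1 + ρ) / 2 * √(ph s ^ 3) + (1 - ρ) / 2 * √(ph t ^ 3)) ^ 2 * (1 + ph ρ * m) ≤
        F * (ph ((1 + ρ) / 2 * s + (1 - ρ) / 2 * t) ^ 3 + ph ρ *
          (((1 + ρ) / 2 * √(ph s ^ 3) + (1 - ρ) / 2 * √(ph t ^ 3)) ^ 2 * m))) ∧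
    F + ph ρ * ((s - t) ^ 2 / 4) / (ph ((1 + ρ) / 2 * s + (1 - ρ) / 2 * t) ^ 3 +
      ph ρ * (ρ ^ 2 * ((s - t) ^ 2 / 4))) ≤ 1

lemma WB_eq {c s σ v : ℝ} (hs : |s| ≤ 1) (h : (s - σ) / 2 = √(ph s ^ 3) * v)
    (hv : √(ph s ^ 3) = 0 → v = 0) : WB c s σ = v ^ 2 / (1 + c * v ^ 2) := by
  have e : (s - σ) ^ 2 / 4 = ph s ^ 3 * v ^ 2 := by
    have : (s - σ) ^ 2 / 4 = ((s - σ) / 2) ^ 2 := by ring
    rw [this, h, mul_pow, Real.sq_sqrt (pow_nonneg (ph_nonneg _) _)]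
  unfold WB
  rw [e]
  rcases (pow_nonneg (ph_nonneg s) 3).eq_or_lt with h0 | h0
  · rw [← h0]
    have : v = 0 := hv (by rw [← h0]; exact Real.sqrt_zero)
    rw [this]; simp
  · rw [show ph s ^ 3 + c * (ph s ^ 3 * v ^ 2) = ph s ^ 3 * (1 + c * v ^ 2) by ring,
      mul_div_mul_left _ _ h0.ne']

lemma exists_v {ρ s σ : ℝ} (h0 : 0 < ρ) (h1 : ρ < 1) (hs : |s| ≤ 1) (hF : Feas ρ s σ) :
    ∃ v : ℝ, (s - σ) / 2 = √(ph s ^ 3) * v ∧ (√(ph s ^ 3) = 0 → v = 0) ∧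
      ph ρ ^ 3 * v ^ 2 ≤ ρ ^ 2 := by
  have hρ : |ρ| < 1 := by rw [abs_of_pos h0]; exact h1
  have hc : 0 < ph ρ := ph_pos hρ
  have hr := feas_range h0 h1 hs hF
  rcases (pow_nonneg (ph_nonneg s) 3).eq_or_lt with hz | hz
  · rw [← hz] at hr
    have : ((s - σ) / 2) ^ 2 ≤ 0 := by
      have h3 : 0 < ph ρ ^ 3 := by positivity
      nlinarith
    have h2 : (s - σ) / 2 = 0 := by
      have := le_antisymm this (sq_nonneg _)
      exact pow_eq_zero_iff (two_ne_zero) |>.1 this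
    refine ⟨0, by rw [h2, mul_zero], fun _ => rfl, ?_⟩
    simp only [ne_eq, OfNat.ofNat_ne_zero, not_false_eq_true, zero_pow, mul_zero]
    positivity
  · have hs0 : 0 < √(ph s ^ 3) := Real.sqrt_pos.2 hz
    refine ⟨(s - σ) / 2 / √(ph s ^ 3), by field_simp, fun h => absurd h hs0.ne', ?_⟩
    rw [div_pow, Real.sq_sqrt hz.le, ← mul_div_assoc, div_le_iff₀ hz]
    exact hr

lemma zero_of {a b x y : ℝ} (ha : 0 < a) (hb : 0 ≤ b) (hx : 0 ≤ x) (hy : 0 ≤ y)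
    (h : a * x + b * y = 0) : x = 0 := by
  have h1 : 0 ≤ b * y := mul_nonneg hb hy
  have h2 : a * x ≤ 0 := by linarith
  have h3 : 0 ≤ a * x := mul_nonneg ha.le hx
  have h4 : a * x = 0 := le_antisymm h2 h3
  rcases mul_eq_zero.1 h4 with h5 | h5
  · exact absurd h5 ha.ne'
  · exact h5

set_option maxHeartbeats 2000000 in
theorem stepR_WB {ρ : ℝ} (h0 : 0 < ρ) (h1 : ρ < 1) (hρc : 3 * ρ ^ 2 ≤ ph ρ ^ 2)
    (H : ∀ s t : ℝ, |s| ≤ 1 → |t| ≤ 1 → |(1 + ρ) / 2 * s + (1 - ρ) / 2 * t| < 1 → SC ρ s t) :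
    StepR ρ (WB (ph ρ)) (fun g => if |g| < 1 then ρ ^ 2 / ph ρ else 0) := by
  have hρ : |ρ| < 1 := by rw [abs_of_pos h0]; exact h1
  have hc : 0 < ph ρ := ph_pos hρ
  intro s t hs ht
  by_cases hg : |(1 + ρ) / 2 * s + (1 - ρ) / 2 * t| < 1
  swap
  · -- s = t = ±1
    have hs' := abs_le.1 hs
    have ht' := abs_le.1 ht
    have hst : (s = 1 ∧ t = 1) ∨ (s = -1 ∧ t = -1) := by
      rw [not_lt, le_abs] at hg
      rcases hg with h | h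
      · left; constructor <;> nlinarith
      · right; constructor <;> nlinarith
    refine ⟨0, 0, le_rfl, le_rfl, ?_, ?_⟩
    · intro σ τ hσ hτ hF1 hF2 _
      have a1 := abs_le.1 hF1.1
      have a2 := abs_le.1 hF2.1
      have hσ' := abs_le.1 hσ
      have hτ' := abs_le.1 hτ
      have : σ = s ∧ τ = t := by
        rcases hst with ⟨rfl, rfl⟩ | ⟨rfl, rfl⟩ <;> constructor <;> nlinarith [a1.1, a1.2, a2.1, a2.2]
      rw [this.1, this.2]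
      unfold WB
      simp
    · beta_reduce
      rw [if_neg hg]
      rcases hst with ⟨rfl, rfl⟩ | ⟨rfl, rfl⟩ <;> unfold WB <;> simp
  obtain ⟨F, hF0, hF1, hF2⟩ := H s t hs ht hg
  obtain ⟨hS, hhS⟩ : ∃ a, a = √(ph s ^ 3) := ⟨_, rfl⟩
  obtain ⟨hT, hhT⟩ : ∃ a, a = √(ph t ^ 3) := ⟨_, rfl⟩
  obtain ⟨g, hgd⟩ : ∃ g, g = (1 + ρ) / 2 * s + (1 - ρ) / 2 * t := ⟨_, rfl⟩
  obtain ⟨c, hcd⟩ : ∃ c, c = ph ρ := ⟨_, rfl⟩
  have hS0 : 0 ≤ hS := by rw [hhS]; exact Real.sqrt_nonneg _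
  have hT0 : 0 ≤ hT := by rw [hhT]; exact Real.sqrt_nonneg _
  rw [← hhS, ← hhT, ← hgd, ← hcd] at hF1
  rw [← hgd, ← hcd] at hF2
  rw [← hgd] at hg ⊢
  rw [← hcd] at hc hρc ⊢
  have hH : 0 < ph g ^ 3 := pow_pos (ph_pos hg) 3
  have l1 : 0 < (1 + ρ) / 2 := by linarith
  have l2 : 0 < (1 - ρ) / 2 := by linarith
  obtain ⟨S, hSd⟩ : ∃ S, S = (1 + ρ) / 2 * hS + (1 - ρ) / 2 * hT := ⟨_, rfl⟩
  rw [← hSd] at hF1
  have hS1 : 0 ≤ S := by rw [hSd]; positivity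
  obtain ⟨w, hw⟩ : ∃ w, w = (1 + ρ) / 2 * hS / S := ⟨_, rfl⟩
  have hw0 : 0 ≤ w := by rw [hw]; positivity
  have hw1 : w ≤ 1 := by
    rw [hw]
    refine div_le_one_of_le₀ ?_ hS1
    rw [hSd]
    have := mul_nonneg l2.le hT0
    linarith
  refine ⟨F * w, F * (1 - w), mul_nonneg hF0 hw0, mul_nonneg hF0 (by linarith), ?_, ?_⟩
  · intro σ τ hσ hτ hFs hFt hr
    obtain ⟨u, hu1, hu2, hu3⟩ := exists_v h0 h1 hs hFs
    obtain ⟨v, hv1, hv2, hv3⟩ := exists_v h0 h1 ht hFt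
    rw [← hcd] at hu3 hv3
    rw [WB_eq hs hu1 hu2, WB_eq ht hv1 hv2]
    rw [← hhS] at hu1 hu2
    rw [← hhT] at hv1 hv2
    have hcu : ∀ z : ℝ, c ^ 3 * z ^ 2 ≤ ρ ^ 2 → 3 * (c * z ^ 2) ≤ 1 := by
      intro z hz
      have hc2 : 0 < c ^ 2 := by positivity
      have : 3 * (c * z ^ 2) * c ^ 2 ≤ 1 * c ^ 2 := by nlinarith
      exact le_of_mul_le_mul_right this hc2
    have hJ := jensen hc hw0 hw1 (hcu u hu3) (hcu v hv3)
    -- the argument of the left side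
    have hSm : (1 + ρ) / 2 * ((s - σ) / 2) + (1 - ρ) / 2 * ((t - τ) / 2) =
        S * (w * u + (1 - w) * v) := by
      rw [hu1, hv1]
      rcases hS1.eq_or_lt with hz | hz
      · have z1 : hS = 0 := zero_of l1 l2.le hS0 hT0 (by rw [← hSd, ← hz])
        have z2 : hT = 0 := zero_of l2 l1.le hT0 hS0 (by rw [add_comm, ← hSd, ← hz])
        rw [← hz, z1, z2]; ring
      · have e1 : S * w = (1 + ρ) / 2 * hS := by rw [hw]; field_simp
        have e2 : S * (1 - w) = (1 - ρ) / 2 * hT := by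
          rw [mul_sub, e1, hSd]; ring
        calc _ = ((1 + ρ) / 2 * hS) * u + ((1 - ρ) / 2 * hT) * v := by ring
          _ = S * w * u + S * (1 - w) * v := by rw [e1, e2]
          _ = _ := by ring
    obtain ⟨m, hm⟩ : ∃ m, m = w * u + (1 - w) * v := ⟨_, rfl⟩
    rw [← hm] at hSm hJ
    have hgg : (g - ((1 + ρ) / 2 * σ + (1 - ρ) / 2 * τ)) ^ 2 / 4 = S ^ 2 * m ^ 2 := by
      have : (g - ((1 + ρ) / 2 * σ + (1 - ρ) / 2 * τ)) ^ 2 / 4 =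
          ((1 + ρ) / 2 * ((s - σ) / 2) + (1 - ρ) / 2 * ((t - τ) / 2)) ^ 2 := by
        rw [hgd]; ring
      rw [this, hSm]; ring
    have hm1 : c ^ 3 * m ^ 2 ≤ ρ ^ 2 := by
      have a : m ^ 2 ≤ w * u ^ 2 + (1 - w) * v ^ 2 := by
        rw [hm]
        nlinarith [mul_nonneg (mul_nonneg hw0 (sub_nonneg.2 hw1)) (sq_nonneg (u - v))]
      have b : c ^ 3 * m ^ 2 ≤ w * (c ^ 3 * u ^ 2) + (1 - w) * (c ^ 3 * v ^ 2) := by
        have := mul_le_mul_of_nonneg_left a (pow_pos hc 3).le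
        linarith
      have d1 := mul_le_mul_of_nonneg_left hu3 hw0
      have d2 := mul_le_mul_of_nonneg_left hv3 (sub_nonneg.2 hw1)
      linarith
    have hm2 : S ^ 2 * m ^ 2 ≤ ρ ^ 2 * ((s - t) ^ 2 / 4) := by
      have e1 : (1 + ρ) / 2 * (s - σ) + (1 - ρ) / 2 * (t - τ) = 2 * (S * m) := by
        rw [← hSm]; ring
      rw [e1] at hr
      have h2 : |2 * (S * m)| ≤ |ρ * (s - t)| := by
        rw [abs_mul ρ, abs_of_pos h0]; exact hr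
      have h3 := sq_le_sq.2 h2
      have e2 : (2 * (S * m)) ^ 2 = 4 * (S ^ 2 * m ^ 2) := by ring
      have e3 : (ρ * (s - t)) ^ 2 = 4 * (ρ ^ 2 * ((s - t) ^ 2 / 4)) := by ring
      rw [e2, e3] at h3
      linarith
    have hfin := hF1 (m ^ 2) (sq_nonneg _) hm1 hm2
    have e3 : WB c g ((1 + ρ) / 2 * σ + (1 - ρ) / 2 * τ) =
        S ^ 2 * m ^ 2 / (ph g ^ 3 + c * (S ^ 2 * m ^ 2)) := by
      unfold WB; rw [hgg]
    rw [e3]
    have e4 : S ^ 2 * m ^ 2 / (ph g ^ 3 + c * (S ^ 2 * m ^ 2)) ≤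
        F * (m ^ 2 / (1 + c * m ^ 2)) := by
      rw [← mul_div_assoc, div_le_div_iff₀ (by positivity) (by positivity)]
      have := mul_le_mul_of_nonneg_right hfin (sq_nonneg m)
      calc S ^ 2 * m ^ 2 * (1 + c * m ^ 2) = S ^ 2 * (1 + c * m ^ 2) * m ^ 2 := by ring
        _ ≤ F * (ph g ^ 3 + c * (S ^ 2 * m ^ 2)) * m ^ 2 := this
        _ = _ := by ring
    refine e4.trans ?_
    have := mul_le_mul_of_nonneg_left hJ hF0
    refine this.trans (le_of_eq ?_)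
    ring
  · -- the scalar part
    have e1 : F * w * (if |s| < 1 then ρ ^ 2 / c else 0) ≤ F * w * (ρ ^ 2 / c) := by
      refine mul_le_mul_of_nonneg_left ?_ (mul_nonneg hF0 hw0)
      split_ifs
      · exact le_rfl
      · positivity
    have e2 : F * (1 - w) * (if |t| < 1 then ρ ^ 2 / c else 0) ≤ F * (1 - w) * (ρ ^ 2 / c) := by
      refine mul_le_mul_of_nonneg_left ?_ (mul_nonneg hF0 (by linarith))
      split_ifs
      · exact le_rfl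
      · positivity
    simp only [if_pos hg]
    have e3 : WB c g ((1 + ρ) / 2 * t + (1 - ρ) / 2 * s) =
        (ρ ^ 2 * ((s - t) ^ 2 / 4)) / (ph g ^ 3 + c * (ρ ^ 2 * ((s - t) ^ 2 / 4))) := by
      unfold WB
      have : (g - ((1 + ρ) / 2 * t + (1 - ρ) / 2 * s)) ^ 2 / 4 = ρ ^ 2 * ((s - t) ^ 2 / 4) := by
        rw [hgd]; ring
      rw [this]
    rw [e3]
    have e4 : F * (ρ ^ 2 / c) + (ρ ^ 2 * ((s - t) ^ 2 / 4)) /
        (ph g ^ 3 + c * (ρ ^ 2 * ((s - t) ^ 2 / 4))) ≤ ρ ^ 2 / c := by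
      have h5 := mul_le_mul_of_nonneg_left hF2 (show (0 : ℝ) ≤ ρ ^ 2 / c by positivity)
      have e5 : ρ ^ 2 / c * (F + c * ((s - t) ^ 2 / 4) / (ph g ^ 3 + c * (ρ ^ 2 * ((s - t) ^ 2 / 4)))) =
          F * (ρ ^ 2 / c) + (ρ ^ 2 * ((s - t) ^ 2 / 4)) /
        (ph g ^ 3 + c * (ρ ^ 2 * ((s - t) ^ 2 / 4))) := by
        have hd : 0 < ph g ^ 3 + c * (ρ ^ 2 * ((s - t) ^ 2 / 4)) := by positivity
        field_simp
      rw [e5] at h5
      linarith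
    have e6 : F * w * (ρ ^ 2 / c) + F * (1 - w) * (ρ ^ 2 / c) = F * (ρ ^ 2 / c) := by ring
    linarith

end Crest.Agent.R307.FlowB
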