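import Crest.Agent.R307.FlowR

/-!
Row 307 (S0471), regime L of the flow route (blueprint: helper14, note 5887):
the convex weight `ω(g,g') = Z/(φ(g)³ + c Z)`, `Z = (g-g')²/4`, `c = φ(ρ)`, satisfies the pair
condition `PairOK ρ 0` for every `0 ≤ ρ < 1`.
-/

set_option autoImplicit false

open Crest.CubeNoise Set Filter Topology

namespace Crest.Agent.R307.FlowLPair

open Crest.Agent.R307.Flow

/-- the weight -/
noncomputable def WL (c g g' : ℝ) : ℝ :=
  ((g - g') ^ 2 / 4) / (ph g ^ 3 + c * ((g - g') ^ 2 / 4))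

/-! ### the pair condition -/

/-- scalar core of the pair condition: `c C (E²+D²-2E²D²) ≤ D (D²-E²)` -/
lemma scal_key {c C D E : ℝ} (hc0 : 0 ≤ c) (hC1 : C ≤ 1) (hE0 : 0 ≤ E) (hDE : E < D) (hD1 : D ≤ 1)
    (hcD : c * (1 - E * D) ≤ D - E) (hK : 0 ≤ E ^ 2 + D ^ 2 - 2 * E ^ 2 * D ^ 2) :
    c * C * (E ^ 2 + D ^ 2 - 2 * E ^ 2 * D ^ 2) ≤ D * (D ^ 2 - E ^ 2) := by
  have hD0 : 0 < D := lt_of_le_of_lt hE0 hDE
  have hED1 : 0 < 1 - E * D := by nlinarith
  have k1 : c * C * (E ^ 2 + D ^ 2 - 2 * E ^ 2 * D ^ 2) ≤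
      c * (E ^ 2 + D ^ 2 - 2 * E ^ 2 * D ^ 2) := by
    have h := mul_nonneg hc0 hK
    have h2 := mul_le_mul_of_nonneg_right hC1 h
    calc c * C * (E ^ 2 + D ^ 2 - 2 * E ^ 2 * D ^ 2)
        = C * (c * (E ^ 2 + D ^ 2 - 2 * E ^ 2 * D ^ 2)) := by ring
      _ ≤ 1 * (c * (E ^ 2 + D ^ 2 - 2 * E ^ 2 * D ^ 2)) := h2
      _ = _ := by ring
  have k2 : c * (E ^ 2 + D ^ 2 - 2 * E ^ 2 * D ^ 2) * (1 - E * D) ≤
      D * (D ^ 2 - E ^ 2) * (1 - E * D) := by
    have k3 : c * (1 - E * D) * (E ^ 2 + D ^ 2 - 2 * E ^ 2 * D ^ 2) ≤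
        (D - E) * (E ^ 2 + D ^ 2 - 2 * E ^ 2 * D ^ 2) :=
      mul_le_mul_of_nonneg_right hcD hK
    have k4 : 0 ≤ (D - E) * (E * (D - E) * (1 - D ^ 2)) := by
      have : 0 ≤ 1 - D ^ 2 := by nlinarith
      have h9 : 0 ≤ D - E := by linarith
      positivity
    have k5 : D * (D ^ 2 - E ^ 2) * (1 - E * D) - (D - E) * (E ^ 2 + D ^ 2 - 2 * E ^ 2 * D ^ 2) =
        (D - E) * (E * (D - E) * (1 - D ^ 2)) := by ring
    have k6 : c * (E ^ 2 + D ^ 2 - 2 * E ^ 2 * D ^ 2) * (1 - E * D) =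
        c * (1 - E * D) * (E ^ 2 + D ^ 2 - 2 * E ^ 2 * D ^ 2) := by ring
    linarith
  exact k1.trans (le_of_mul_le_mul_right k2 hED1)

/-- feasibility in the angles -/
lemma feas_angles {ρ g g' C D e f : ℝ} (h0 : 0 ≤ ρ) (hC : 0 < C) (hD : 0 < D)
    (sg : g = e * D + C * f) (sg' : g' = e * D - C * f) (hF : Feas ρ g g') :
    C * |f| ≤ ρ * (1 - |e| * D) := by
  obtain ⟨f1, f2⟩ := hF
  have e1 : (1 + ρ) * g - (1 - ρ) * g' = 2 * (C * f + ρ * (e * D)) := by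
    rw [sg, sg']; ring
  have e2 : (1 + ρ) * g' - (1 - ρ) * g = 2 * (-(C * f) + ρ * (e * D)) := by
    rw [sg, sg']; ring
  rw [e1, abs_le] at f1
  rw [e2, abs_le] at f2
  have x1 : |C * f| = C * |f| := by rw [abs_mul, abs_of_pos hC]
  have x2 : |ρ * (e * D)| = ρ * (|e| * D) := by
    rw [abs_mul, abs_mul, abs_of_nonneg h0, abs_of_pos hD]
  have x3 : C * |f| + ρ * (|e| * D) ≤ ρ := by
    rw [← x1, ← x2]
    rcases abs_cases (C * f) with ⟨h5, -⟩ | ⟨h5, -⟩ <;>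
      rcases abs_cases (ρ * (e * D)) with ⟨h6, -⟩ | ⟨h6, -⟩ <;>
      rw [h5, h6] <;> linarith [f1.1, f1.2, f2.1, f2.2]
  linarith

/-- harmonic–arithmetic inequality used for the pair condition -/
lemma harm {x y N1 N2 : ℝ} (hx : 0 < x) (hy : 0 < y) (h1 : 0 < N1) (h2 : 0 < N2) :
    (x + y) ^ 2 / (y * N1 + x * N2) ≤ y / N1 + x / N2 := by
  rw [div_add_div _ _ h1.ne' h2.ne', div_le_div_iff₀ (by positivity) (by positivity)]
  have : (y * N2 + N1 * x) * (y * N1 + x * N2) - (x + y) ^ 2 * (N1 * N2) =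
      x * y * (N1 - N2) ^ 2 := by ring
  have h3 : 0 ≤ x * y * (N1 - N2) ^ 2 := by positivity
  linarith

/-- scalar form of the pair condition -/
lemma pair_scal {x y c z N : ℝ} (hx : 0 < x) (hy : 0 < y) (hc : 0 ≤ c) (hz : 0 ≤ z) (hN : 0 < N)
    (hcond : 2 * (x * y) * (x + y) * (x * y) + 2 * c * z * (x ^ 2 + y ^ 2) ≤
      (x + y) * N * (x * y)) :
    2 * (x + y) / ((x * y) * N) ≤ 1 / (x ^ 3 + c * z) + 1 / (y ^ 3 + c * z) := by
  have hP : 0 < x ^ 3 + c * z := by positivity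
  have hQ : 0 < y ^ 3 + c * z := by positivity
  have hxy : 0 < x * y := mul_pos hx hy
  set N1 := 2 * (x ^ 3 + c * z) / x with hN1
  set N2 := 2 * (y ^ 3 + c * z) / y with hN2
  have n2 : 0 < N1 := by rw [hN1]; positivity
  have n3 : 0 < N2 := by rw [hN2]; positivity
  have h := harm hx hy n2 n3
  have n4 : y / N1 = (x * y) / 2 * (1 / (x ^ 3 + c * z)) := by
    rw [hN1]; field_simp
  have n5 : x / N2 = (x * y) / 2 * (1 / (y ^ 3 + c * z)) := by
    rw [hN2]; field_simp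
  have hden : 0 < y * N1 + x * N2 := by positivity
  have hden2 : y * N1 + x * N2 ≤ (x + y) * N := by
    have n1 : (y * N1 + x * N2) * (x * y) =
        2 * (x * y) * (x + y) * (x * y) + 2 * c * z * (x ^ 2 + y ^ 2) := by
      rw [hN1, hN2]
      field_simp
      ring
    have : (y * N1 + x * N2) * (x * y) ≤ (x + y) * N * (x * y) := by rw [n1]; exact hcond
    exact le_of_mul_le_mul_right this hxy
  have h2 : (x + y) / N ≤ (x + y) ^ 2 / (y * N1 + x * N2) := by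
    rw [div_le_div_iff₀ hN hden]
    have := mul_le_mul_of_nonneg_left hden2 (show 0 ≤ x + y by positivity)
    calc (x + y) * (y * N1 + x * N2) ≤ (x + y) * ((x + y) * N) := this
      _ = (x + y) ^ 2 * N := by ring
  have h3 : (x + y) / N ≤ (x * y) / 2 * (1 / (x ^ 3 + c * z) + 1 / (y ^ 3 + c * z)) := by
    rw [mul_add, ← n4, ← n5]
    exact h2.trans h
  have h4 : 2 * (x + y) / ((x * y) * N) = (2 / (x * y)) * ((x + y) / N) := by
    field_simp
  rw [h4]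
  have h5 := mul_le_mul_of_nonneg_left h3 (show 0 ≤ 2 / (x * y) by positivity)
  refine h5.trans (le_of_eq ?_)
  field_simp

/-- the key inequality for the pair condition -/
lemma pair_key {ρ g g' : ℝ} (h0 : 0 ≤ ρ) (h1 : ρ < 1) (hg : |g| < 1) (hg' : |g'| < 1)
    (hF : Feas ρ g g') :
    ph ρ * (ph g + ph g') * (ph g ^ 2 + ph g' ^ 2) ≤
      ph g * ph g' * ((g + g') ^ 2 + (ph g + ph g') ^ 2) := by
  obtain ⟨a1, a2⟩ := abs_lt.1 hg
  obtain ⟨b1, b2⟩ := abs_lt.1 hg'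
  -- angles
  set A := Real.arcsin g with hA
  set B := Real.arcsin g' with hB
  have eA : Real.sin A = g := Real.sin_arcsin a1.le a2.le
  have eB : Real.sin B = g' := Real.sin_arcsin b1.le b2.le
  have cA : Real.cos A = ph g := Real.cos_arcsin g
  have cB : Real.cos B = ph g' := Real.cos_arcsin g'
  set M := (A + B) / 2 with hM
  set d := (A - B) / 2 with hd
  have hAMd : A = M + d := by rw [hM, hd]; ring
  have hBMd : B = M - d := by rw [hM, hd]; ring
  have A1 : -(Real.pi / 2) < A := Real.neg_pi_div_two_lt_arcsin.2 a1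
  have A2 : A < Real.pi / 2 := Real.arcsin_lt_pi_div_two.2 a2
  have B1 : -(Real.pi / 2) < B := Real.neg_pi_div_two_lt_arcsin.2 b1
  have B2 : B < Real.pi / 2 := Real.arcsin_lt_pi_div_two.2 b2
  have hC : 0 < Real.cos M := Real.cos_pos_of_mem_Ioo ⟨by rw [hM]; linarith, by rw [hM]; linarith⟩
  have hD : 0 < Real.cos d := Real.cos_pos_of_mem_Ioo ⟨by rw [hd]; linarith, by rw [hd]; linarith⟩
  have sg : g = Real.sin M * Real.cos d + Real.cos M * Real.sin d := by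
    rw [← eA, hAMd, Real.sin_add]
  have sg' : g' = Real.sin M * Real.cos d - Real.cos M * Real.sin d := by
    rw [← eB, hBMd, Real.sin_sub]
  have sx : ph g = Real.cos M * Real.cos d - Real.sin M * Real.sin d := by
    rw [← cA, hAMd, Real.cos_add]
  have sy : ph g' = Real.cos M * Real.cos d + Real.sin M * Real.sin d := by
    rw [← cB, hBMd, Real.cos_sub]
  set C := Real.cos M
  set D := Real.cos d
  set e := Real.sin M
  set f := Real.sin d
  have hCe : C ^ 2 + e ^ 2 = 1 := Real.cos_sq_add_sin_sq M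
  have hDf : D ^ 2 + f ^ 2 = 1 := Real.cos_sq_add_sin_sq d
  have hC1 : C ≤ 1 := Real.cos_le_one M
  have hD1 : D ≤ 1 := Real.cos_le_one d
  have hx := ph_pos hg
  have hy := ph_pos hg'
  -- `E = |sin M|`, `F = |sin d|`
  set E := |e| with hE
  set F := |f| with hFf
  have hE0 : 0 ≤ E := abs_nonneg _
  have hF0 : 0 ≤ F := abs_nonneg _
  have hE2 : E ^ 2 = e ^ 2 := sq_abs e
  have hF2 : F ^ 2 = f ^ 2 := sq_abs f
  have hxy : ph g * ph g' = D ^ 2 - E ^ 2 := by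
    rw [sx, sy, hE2]
    have : (C * D - e * f) * (C * D + e * f) = C ^ 2 * D ^ 2 - e ^ 2 * f ^ 2 := by ring
    rw [this]
    have h3 : C ^ 2 = 1 - e ^ 2 := by linarith
    have h4 : f ^ 2 = 1 - D ^ 2 := by linarith
    rw [h3, h4]
    ring
  have hDE : E < D := by
    have : 0 < D ^ 2 - E ^ 2 := by rw [← hxy]; exact mul_pos hx hy
    nlinarith
  have hED1 : 0 < 1 - E * D := by nlinarith
  have hsum : ph g + ph g' = 2 * (C * D) := by rw [sx, sy]; ring
  have hsq : ph g ^ 2 + ph g' ^ 2 = 2 * (E ^ 2 + D ^ 2 - 2 * E ^ 2 * D ^ 2) := by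
    rw [sx, sy, hE2]
    have : (C * D - e * f) ^ 2 + (C * D + e * f) ^ 2 = 2 * (C ^ 2 * D ^ 2 + e ^ 2 * f ^ 2) := by
      ring
    rw [this]
    have h3 : C ^ 2 = 1 - e ^ 2 := by linarith
    have h4 : f ^ 2 = 1 - D ^ 2 := by linarith
    rw [h3, h4]
    ring
  have hlast : (g + g') ^ 2 + (ph g + ph g') ^ 2 = 4 * D ^ 2 := by
    rw [hsum, sg, sg']
    have : (e * D + C * f + (e * D - C * f)) ^ 2 + (2 * (C * D)) ^ 2 =
        4 * D ^ 2 * (C ^ 2 + e ^ 2) := by ring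
    rw [this, hCe]
    ring
  -- feasibility
  have hfe : C * F ≤ ρ * (1 - E * D) := feas_angles h0 hC hD sg sg' hF
  set c := ph ρ with hc
  have hc0 : 0 ≤ c := ph_nonneg ρ
  have hc2 : c ^ 2 = 1 - ρ ^ 2 := ph_sq (by rw [abs_of_nonneg h0]; exact h1.le)
  have hcD : c * (1 - E * D) ≤ D - E := by
    have h5 : (C * F) ^ 2 ≤ (ρ * (1 - E * D)) ^ 2 :=
      pow_le_pow_left₀ (mul_nonneg hC.le hF0) hfe 2
    have h6 : (c * (1 - E * D)) ^ 2 ≤ (D - E) ^ 2 := by
      have h7 : (C * F) ^ 2 = (1 - E ^ 2) * (1 - D ^ 2) := by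
        rw [mul_pow, hF2, hE2]
        have h3 : C ^ 2 = 1 - e ^ 2 := by linarith
        have h4 : f ^ 2 = 1 - D ^ 2 := by linarith
        rw [h3, h4]
      have h8 : (c * (1 - E * D)) ^ 2 = (1 - ρ ^ 2) * (1 - E * D) ^ 2 := by
        rw [mul_pow, hc2]
      rw [h8]
      rw [h7] at h5
      have r1 : (1 - E * D) ^ 2 - (1 - E ^ 2) * (1 - D ^ 2) = (D - E) ^ 2 := by ring
      have r2 : (ρ * (1 - E * D)) ^ 2 = ρ ^ 2 * (1 - E * D) ^ 2 := by ring
      rw [r2] at h5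
      linarith
    exact abs_le_of_sq_le_sq' h6 (by linarith) |>.2
  rw [hlast, hsum, hsq, hxy]
  have hK : 0 ≤ E ^ 2 + D ^ 2 - 2 * E ^ 2 * D ^ 2 := by
    have : 0 ≤ ph g ^ 2 + ph g' ^ 2 := by positivity
    rw [hsq] at this
    linarith
  have key := scal_key hc0 hC1 hE0 hDE hD1 hcD hK
  have k5 := mul_le_mul_of_nonneg_left key (show 0 ≤ 4 * D by linarith)
  have k6 : c * (2 * (C * D)) * (2 * (E ^ 2 + D ^ 2 - 2 * E ^ 2 * D ^ 2)) =
      4 * D * (c * C * (E ^ 2 + D ^ 2 - 2 * E ^ 2 * D ^ 2)) := by ring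
  have k7 : (D ^ 2 - E ^ 2) * (4 * D ^ 2) = 4 * D * (D * (D ^ 2 - E ^ 2)) := by ring
  rw [k6, k7]
  exact k5

/-- the pair condition for the weight -/
theorem pairOK_WL {ρ : ℝ} (h0 : 0 ≤ ρ) (h1 : ρ < 1) : PairOK ρ 0 (WL (ph ρ)) := by
  intro g g' hg hg' hF
  have key := pair_key h0 h1 hg hg' hF
  have hx := ph_pos hg
  have hy := ph_pos hg'
  have hx2 := ph_sq hg.le
  have hy2 := ph_sq hg'.le
  have hc0 : 0 < ph ρ := ph_pos (by rw [abs_of_nonneg h0]; exact h1)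
  unfold WL
  set x := ph g
  set y := ph g'
  set c := ph ρ
  have h1 := abs_lt.1 hg
  have h2 := abs_lt.1 hg'
  set q := 1 - g * g' with hqdef
  have e3 : (g' - g) ^ 2 = (g - g') ^ 2 := by ring
  have e4 : (g - g') ^ 2 = (q - x * y) * (q + x * y) := by
    have : (q - x * y) * (q + x * y) = q ^ 2 - x ^ 2 * y ^ 2 := by ring
    rw [this, hx2, hy2, hqdef]; ring
  have hq : 0 < q := by nlinarith [h1.1, h1.2, h2.1, h2.2]
  have hxy : 0 < x * y := mul_pos hx hy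
  have e5 : (g / x - g' / y) * (g - g') / 2 + 0 * (g - g') ^ 2 / 2 =
      (q - x * y) * (x + y) / (2 * (x * y)) := by
    have : (g / x - g' / y) * (g - g') = ((1 - x ^ 2) * y + (1 - y ^ 2) * x - (1 - q) * (x + y)) /
        (x * y) := by
      have a1 : g ^ 2 = 1 - x ^ 2 := by rw [hx2]; ring
      have a2 : g' ^ 2 = 1 - y ^ 2 := by rw [hy2]; ring
      have a3 : g * g' = 1 - q := by rw [hqdef]; ring
      field_simp
      have : (g * y - x * g') * (g - g') = g ^ 2 * y + g' ^ 2 * x - (g * g') * (x + y) := by ring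
      rw [this, a1, a2, a3]
      ring
    rw [this]
    field_simp
    ring
  rw [e3, e5]
  set Zz := (g - g') ^ 2 / 4 with hZ
  have hZ0 : 0 ≤ Zz := by rw [hZ]; positivity
  have hZq : 4 * Zz = (q - x * y) * (q + x * y) := by rw [hZ, ← e4]; ring
  have hN : 0 < q + x * y := by positivity
  -- rewrite the left side as `2 Z (x+y) / (x y (q+xy))`
  have e6 : (q - x * y) * (x + y) / (2 * (x * y)) =
      Zz * (2 * (x + y) / ((x * y) * (q + x * y))) := by
    have : Zz = (q - x * y) * (q + x * y) / 4 := by rw [← hZq]; ring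
    rw [this]
    field_simp
    ring
  rw [e6]
  have e7 : Zz / (x ^ 3 + c * Zz) + Zz / (y ^ 3 + c * Zz) =
      Zz * (1 / (x ^ 3 + c * Zz) + 1 / (y ^ 3 + c * Zz)) := by ring
  rw [e7]
  refine mul_le_mul_of_nonneg_left ?_ hZ0
  -- the identity `(x+y)²(x-y)² = 4 Z (g+g')²`
  have e8 : (x + y) ^ 2 * (x - y) ^ 2 = 4 * Zz * (g + g') ^ 2 := by
    have : (x + y) ^ 2 * (x - y) ^ 2 = (x ^ 2 - y ^ 2) ^ 2 := by ring
    rw [this, hx2, hy2, hZ]; ring
  have e9 : 2 * (q + x * y) = (x + y) ^ 2 + 4 * Zz := by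
    have : (x + y) ^ 2 = x ^ 2 + y ^ 2 + 2 * (x * y) := by ring
    rw [this, hx2, hy2, hZ, hqdef]; ring
  have hs : 0 < x + y := by positivity
  -- condition `y N₁ + x N₂ ≤ (x+y) N`
  have hcond : 2 * (x * y) * (x + y) * (x * y) + 2 * c * Zz * (x ^ 2 + y ^ 2) ≤
      (x + y) * (q + x * y) * (x * y) := by
    have m1 : (x + y) * (2 * (x + y) * (q + x * y) - 4 * (x * y) * (x + y)) =
        4 * Zz * ((g + g') ^ 2 + (x + y) ^ 2) := by
      have : 2 * (x + y) * (q + x * y) = (x + y) * ((x + y) ^ 2 + 4 * Zz) := by rw [← e9]; ring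
      rw [this]
      have m2 : (x + y) * ((x + y) * ((x + y) ^ 2 + 4 * Zz) - 4 * (x * y) * (x + y)) =
          (x + y) ^ 2 * (x - y) ^ 2 + 4 * Zz * (x + y) ^ 2 := by ring
      rw [m2, e8]; ring
    have m3 : 4 * Zz * (c * (x + y) * (x ^ 2 + y ^ 2)) ≤
        4 * Zz * (x * y * ((g + g') ^ 2 + (x + y) ^ 2)) :=
      mul_le_mul_of_nonneg_left key (by positivity)
    have m4 : (x + y) * (2 * (2 * (x * y) * (x + y) * (x * y) + 2 * c * Zz * (x ^ 2 + y ^ 2))) ≤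
        (x + y) * (2 * ((x + y) * (q + x * y) * (x * y))) := by
      have m5 : (x * y) * ((x + y) * (2 * (x + y) * (q + x * y) - 4 * (x * y) * (x + y))) =
          (x * y) * (4 * Zz * ((g + g') ^ 2 + (x + y) ^ 2)) := by rw [m1]
      nlinarith
    have m6 := le_of_mul_le_mul_left m4 hs
    linarith
  exact pair_scal hx hy hc0.le hZ0 hN hcond

end Crest.Agent.R307.FlowLPair
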