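import Crest.Agent.R307.Flow

/-!
Row 307 (S0471), the flow route: induction for the pointwise bound where the coordinate of largest
influence is split off ("restricted step").
-/

set_option autoImplicit false

open Crest.CubeNoise Set Filter Topology

namespace Crest.Agent.R307.Flow

lemma sum_split_at {n : ℕ} (i : Fin (n + 1)) (g : (Fin (n + 1) → Bool) → ℝ) :
    ∑ x, g x = ∑ y : Fin n → Bool, g (i.insertNth false y) +
      ∑ y : Fin n → Bool, g (i.insertNth true y) := by
  rw [← (Fin.insertNthEquiv (fun _ => Bool) i).sum_comp, Fintype.sum_prod_type, Fintype.sum_bool,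
    add_comm]
  rfl

lemma noise_insertNth {n : ℕ} (ρ : ℝ) (u : (Fin (n + 1) → Bool) → ℝ) (i : Fin (n + 1)) (b : Bool)
    (x : Fin n → Bool) :
    noise ρ u (i.insertNth b x : Fin (n + 1) → Bool) =
      (1 + ρ) / 2 * noise ρ (fun y => u (i.insertNth b y : Fin (n + 1) → Bool)) x +
      (1 - ρ) / 2 * noise ρ (fun y => u (i.insertNth (!b) y : Fin (n + 1) → Bool)) x := by
  unfold noise
  rw [sum_split_at i]
  simp_rw [Fin.prod_univ_succAbove _ i, Fin.insertNth_apply_same, Fin.insertNth_apply_succAbove]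
  cases b
  · simp only [spin, Bool.not_false]
    rw [Finset.mul_sum, Finset.mul_sum]
    congr 1
    · refine Finset.sum_congr rfl fun y _ => ?_
      norm_num
      ring
    · refine Finset.sum_congr rfl fun y _ => ?_
      norm_num
      ring
  · simp only [spin, Bool.not_true]
    rw [Finset.mul_sum, Finset.mul_sum, add_comm]
    congr 1
    · refine Finset.sum_congr rfl fun y _ => ?_
      norm_num
      ring
    · refine Finset.sum_congr rfl fun y _ => ?_
      norm_num
      ring

lemma flipBit_insertNth_same {n : ℕ} (i : Fin (n + 1)) (b : Bool) (x : Fin n → Bool) :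
    flipBit i (i.insertNth b x : Fin (n + 1) → Bool) = i.insertNth (!b) x := by
  unfold flipBit
  rw [Fin.insertNth_apply_same]
  funext j
  refine Fin.succAboveCases i ?_ (fun k => ?_) j
  · simp
  · simp

lemma flipBit_insertNth_succAbove {n : ℕ} (i : Fin (n + 1)) (b : Bool) (x : Fin n → Bool)
    (k : Fin n) :
    flipBit (i.succAbove k) (i.insertNth b x : Fin (n + 1) → Bool) =
      i.insertNth b (flipBit k x) := by
  unfold flipBit
  rw [Fin.insertNth_apply_succAbove]
  funext j
  refine Fin.succAboveCases i ?_ (fun l => ?_) j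
  · rw [Function.update_of_ne (Fin.succAbove_ne i k).symm, Fin.insertNth_apply_same,
      Fin.insertNth_apply_same]
  · rw [Fin.insertNth_apply_succAbove]
    by_cases h : l = k
    · subst h
      simp
    · rw [Function.update_of_ne (fun h2 => h (Fin.succAbove_right_injective h2)),
        Fin.insertNth_apply_succAbove, Function.update_of_ne h]

/-- the two-point step, restricted to coordinates whose influence does not exceed that of the
coordinate that is split off -/
def StepR (ρ : ℝ) (W : ℝ → ℝ → ℝ) (Ψ : ℝ → ℝ) : Prop :=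
  ∀ s t : ℝ, |s| ≤ 1 → |t| ≤ 1 → ∃ A B : ℝ, 0 ≤ A ∧ 0 ≤ B ∧
    (∀ σ τ, |σ| ≤ 1 → |τ| ≤ 1 → Feas ρ s σ → Feas ρ t τ →
      |(1 + ρ) / 2 * (s - σ) + (1 - ρ) / 2 * (t - τ)| ≤ ρ * |s - t| →
      W ((1 + ρ) / 2 * s + (1 - ρ) / 2 * t) ((1 + ρ) / 2 * σ + (1 - ρ) / 2 * τ) ≤
        A * W s σ + B * W t τ) ∧
    A * Ψ s + B * Ψ t +
      W ((1 + ρ) / 2 * s + (1 - ρ) / 2 * t) ((1 + ρ) / 2 * t + (1 - ρ) / 2 * s) ≤
      Ψ ((1 + ρ) / 2 * s + (1 - ρ) / 2 * t)

/-- the induction with the restricted step -/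
theorem PW_of_stepR {ρ : ℝ} (h0 : 0 ≤ ρ) (h1 : ρ ≤ 1) {W : ℝ → ℝ → ℝ} {Ψ : ℝ → ℝ}
    (hΨ1 : 0 ≤ Ψ 1) (hΨ2 : 0 ≤ Ψ (-1)) (H : StepR ρ W Ψ) :
    ∀ (n : ℕ) (f : (Fin n → Bool) → Bool) (x : Fin n → Bool),
      ∑ i, W (noise ρ (sf f) x) (noise ρ (sf f) (flipBit i x)) ≤ Ψ (noise ρ (sf f) x) := by
  have habs : |ρ| ≤ 1 := by rw [abs_of_nonneg h0]; exact h1
  intro n
  induction n with
  | zero =>
    intro f x
    have h : noise ρ (sf f) x = sf f x := by
      unfold noise
      rw [Fintype.sum_unique]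
      simp
      congr 1
      exact Subsingleton.elim _ _
    rw [h]
    simp only [Finset.univ_eq_empty, Finset.sum_empty]
    unfold sf spin
    split_ifs
    · exact hΨ1
    · exact hΨ2
  | succ n ih =>
    intro f x
    obtain ⟨i, hi⟩ := Finite.exists_max
      (fun i : Fin (n + 1) => |noise ρ (sf f) x - noise ρ (sf f) (flipBit i x)|)
    have hx : x = i.insertNth (x i) (i.removeNth x) := (Fin.insertNth_self_removeNth i x).symm
    set b := x i with hb
    set y := i.removeNth x with hy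
    rw [hx] at hi ⊢
    set fb : (Fin n → Bool) → Bool := fun z => f (i.insertNth b z : Fin (n + 1) → Bool) with hfb
    set fc : (Fin n → Bool) → Bool := fun z => f (i.insertNth (!b) z : Fin (n + 1) → Bool) with hfc
    have eb : (fun z => sf f (i.insertNth b z : Fin (n + 1) → Bool)) = sf fb := rfl
    have ec : (fun z => sf f (i.insertNth (!b) z : Fin (n + 1) → Bool)) = sf fc := rfl
    have eN : ∀ z, noise ρ (sf f) (i.insertNth b z : Fin (n + 1) → Bool) =
        (1 + ρ) / 2 * noise ρ (sf fb) z + (1 - ρ) / 2 * noise ρ (sf fc) z := by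
      intro z
      rw [noise_insertNth, eb, ec]
    have e0 : noise ρ (sf f) (i.insertNth (!b) y : Fin (n + 1) → Bool) =
        (1 + ρ) / 2 * noise ρ (sf fc) y + (1 - ρ) / 2 * noise ρ (sf fb) y := by
      rw [noise_insertNth, Bool.not_not, eb, ec]
    rw [Fin.sum_univ_succAbove _ i, flipBit_insertNth_same]
    simp only [flipBit_insertNth_succAbove]
    rw [e0]
    simp only [eN]
    have hs : |noise ρ (sf fb) y| ≤ 1 := Ode.abs_noise_le habs (fun y => (abs_spin _).le) y
    have ht : |noise ρ (sf fc) y| ≤ 1 := Ode.abs_noise_le habs (fun y => (abs_spin _).le) y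
    obtain ⟨A, B, hA, hB, hAB1, hAB2⟩ := H _ _ hs ht
    have i1 := ih fb y
    have i2 := ih fc y
    have k : ∑ j, W ((1 + ρ) / 2 * noise ρ (sf fb) y + (1 - ρ) / 2 * noise ρ (sf fc) y)
          ((1 + ρ) / 2 * noise ρ (sf fb) (flipBit j y) +
            (1 - ρ) / 2 * noise ρ (sf fc) (flipBit j y)) ≤
        A * ∑ j, W (noise ρ (sf fb) y) (noise ρ (sf fb) (flipBit j y)) +
          B * ∑ j, W (noise ρ (sf fc) y) (noise ρ (sf fc) (flipBit j y)) := by
      rw [Finset.mul_sum, Finset.mul_sum, ← Finset.sum_add_distrib]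
      refine Finset.sum_le_sum fun j _ => ?_
      refine hAB1 _ _ ?_ ?_ ?_ ?_ ?_
      · exact Ode.abs_noise_le habs (fun y => (abs_spin _).le) _
      · exact Ode.abs_noise_le habs (fun y => (abs_spin _).le) _
      · exact feas_noise h0 h1 (fun y => (abs_spin _).le) y j
      · exact feas_noise h0 h1 (fun y => (abs_spin _).le) y j
      · have hj := hi (i.succAbove j)
        rw [flipBit_insertNth_succAbove, flipBit_insertNth_same, eN, eN, e0] at hj
        have e1 : (1 + ρ) / 2 * noise ρ (sf fb) y + (1 - ρ) / 2 * noise ρ (sf fc) y -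
            ((1 + ρ) / 2 * noise ρ (sf fb) (flipBit j y) +
              (1 - ρ) / 2 * noise ρ (sf fc) (flipBit j y)) =
            (1 + ρ) / 2 * (noise ρ (sf fb) y - noise ρ (sf fb) (flipBit j y)) +
            (1 - ρ) / 2 * (noise ρ (sf fc) y - noise ρ (sf fc) (flipBit j y)) := by ring
        have e2 : (1 + ρ) / 2 * noise ρ (sf fb) y + (1 - ρ) / 2 * noise ρ (sf fc) y -
            ((1 + ρ) / 2 * noise ρ (sf fc) y + (1 - ρ) / 2 * noise ρ (sf fb) y) =
            ρ * (noise ρ (sf fb) y - noise ρ (sf fc) y) := by ring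
        rw [e1, e2, abs_mul, abs_of_nonneg h0] at hj
        exact hj
    have j1 := mul_le_mul_of_nonneg_left i1 hA
    have j2 := mul_le_mul_of_nonneg_left i2 hB
    linarith

/-! ### helper587's rational edge weight -/

/-- `ω(g,g') = (g - g')² / (2 φ(g) (2 - g² - g g'))` -/
noncomputable def om (g g' : ℝ) : ℝ := (g - g') ^ 2 / (2 * ph g * (2 - g ^ 2 - g * g'))

/-- the rational weight satisfies the pair condition (with `γ = 0`) -/
theorem pairOK_om (ρ : ℝ) : PairOK ρ 0 om := by
  intro g g' hg hg' _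
  have hx := ph_pos hg
  have hy := ph_pos hg'
  have hx2 := ph_sq hg.le
  have hy2 := ph_sq hg'.le
  unfold om
  set x := ph g
  set y := ph g'
  have h1 := abs_lt.1 hg
  have h2 := abs_lt.1 hg'
  have hq : 0 < 1 - g * g' := by nlinarith [h1.1, h1.2, h2.1, h2.2]
  set q := 1 - g * g' with hqdef
  have e1 : 2 - g ^ 2 - g * g' = x ^ 2 + q := by rw [hx2, hqdef]; ring
  have e2 : 2 - g' ^ 2 - g' * g = y ^ 2 + q := by rw [hy2, hqdef]; ring
  have e3 : (g' - g) ^ 2 = (g - g') ^ 2 := by ring
  -- `(g-g')² = q² - x² y²`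
  have e4 : (g - g') ^ 2 = (q - x * y) * (q + x * y) := by
    have : (q - x * y) * (q + x * y) = q ^ 2 - x ^ 2 * y ^ 2 := by ring
    rw [this, hx2, hy2, hqdef]; ring
  have hxy : 0 < x * y := mul_pos hx hy
  have e5 : (g / x - g' / y) * (g - g') / 2 + 0 * (g - g') ^ 2 / 2 =
      (q - x * y) * (x + y) / (2 * (x * y)) := by
    have : (g / x - g' / y) * (g - g') = ((1 - x ^ 2) * y + (1 - y ^ 2) * x - (1 - q) * (x + y)) /
        (x * y) := by
      have a1 : g ^ 2 = 1 - x ^ 2 := by rw [hx2]; ring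
      have a2 : g' ^ 2 = 1 - y ^ 2 := by rw [hy2]; ring
      have a3 : g * g' = 1 - q := by rw [hqdef]; ring
      field_simp
      have : (g * y - x * g') * (g - g') = g ^ 2 * y + g' ^ 2 * x - (g * g') * (x + y) := by ring
      rw [this, a1, a2, a3]
      ring
    rw [this]
    field_simp
    ring
  rw [e1, e2, e3, e5, e4]
  have hqx : 0 < x ^ 2 + q := by positivity
  have hqy : 0 < y ^ 2 + q := by positivity
  have key : (q - x * y) * (q + x * y) / (2 * x * (x ^ 2 + q)) +
      (q - x * y) * (q + x * y) / (2 * y * (y ^ 2 + q)) -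
      (q - x * y) * (x + y) / (2 * (x * y)) =
      (q - x * y) * (x + y) * (x * y) * (x - y) ^ 2 /
        (2 * (x * y) * (x ^ 2 + q) * (y ^ 2 + q)) := by
    field_simp
    ring
  have hqxy : 0 ≤ q - x * y := by
    have : 0 ≤ (q - x * y) * (q + x * y) := by rw [← e4]; positivity
    exact nonneg_of_mul_nonneg_left this (by positivity)
  have : 0 ≤ (q - x * y) * (x + y) * (x * y) * (x - y) ^ 2 /
        (2 * (x * y) * (x ^ 2 + q) * (y ^ 2 + q)) := by positivity
  linarith

end Crest.Agent.R307.Flow
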