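import Crest.Agent.R307.SubDefs

/-!
Row 307 (S0472), task T3: the local bound, cube version (helper145).
-/

set_option autoImplicit false

open Crest.CubeNoise Set

namespace Crest.Agent.R307

namespace Local

/-- `chi x = psi x - x^2/2`. -/
noncomputable def chi (x : ℝ) : ℝ := psi x - x ^ 2 / 2

theorem hasDerivAt_chi {x : ℝ} (hx : |x| < 1) : HasDerivAt chi (Real.artanh x - x) x := by
  have h1 := hasDerivAt_psi hx
  have h2 : HasDerivAt (fun y : ℝ => y ^ 2 / 2) x x := by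
    have h3 := (hasDerivAt_pow 2 x).div_const 2
    have e : ((2 : ℕ) : ℝ) * x ^ (2 - 1) / 2 = x := by norm_num
    rw [e] at h3
    exact h3
  exact h1.sub h2

theorem convexOn_chi : ConvexOn ℝ (Ioo (-1) 1) chi := by
  have hopen : IsOpen (Ioo (-1 : ℝ) 1) := isOpen_Ioo
  apply MonotoneOn.convexOn_of_deriv (convex_Ioo _ _)
  · intro x hx
    exact (hasDerivAt_chi (abs_lt.2 ⟨hx.1, hx.2⟩)).continuousAt.continuousWithinAt
  · rw [hopen.interior_eq]
    intro x hx
    exact (hasDerivAt_chi (abs_lt.2 ⟨hx.1, hx.2⟩)).differentiableAt.differentiableWithinAt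
  · rw [hopen.interior_eq]
    have hmono : MonotoneOn (fun x : ℝ => Real.artanh x - x) (Ioo (-1) 1) := by
      apply monotoneOn_of_deriv_nonneg (convex_Ioo _ _)
      · intro x hx
        exact ((hasDerivAt_artanh (abs_lt.2 ⟨hx.1, hx.2⟩)).sub
          (hasDerivAt_id x)).continuousAt.continuousWithinAt
      · rw [hopen.interior_eq]
        intro x hx
        exact ((hasDerivAt_artanh (abs_lt.2 ⟨hx.1, hx.2⟩)).sub
          (hasDerivAt_id x)).differentiableAt.differentiableWithinAt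
      · rw [hopen.interior_eq]
        intro x hx
        have hd := ((hasDerivAt_artanh (abs_lt.2 ⟨hx.1, hx.2⟩)).sub (hasDerivAt_id x)).deriv
        have e : deriv (fun x : ℝ => Real.artanh x - x) x = 1 / (1 - x ^ 2) - 1 := by
          rw [← hd]; rfl
        rw [e]
        have h0 : 0 < 1 - x ^ 2 := by nlinarith [hx.1, hx.2]
        rw [sub_nonneg, le_div_iff₀ h0]
        nlinarith [sq_nonneg x]
    intro x hx y hy hxy
    rw [(hasDerivAt_chi (abs_lt.2 ⟨hx.1, hx.2⟩)).deriv, (hasDerivAt_chi (abs_lt.2 ⟨hy.1, hy.2⟩)).deriv]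
    exact hmono hx hy hxy

theorem chi_tangent {x y : ℝ} (hx : |x| < 1) (hy : |y| < 1) :
    chi y + (Real.artanh y - y) * (x - y) ≤ chi x := by
  obtain ⟨hy1, hy2⟩ := abs_lt.mp hy
  obtain ⟨hx1, hx2⟩ := abs_lt.mp hx
  rcases lt_trichotomy x y with h | h | h
  · have := convexOn_chi.slope_le_of_hasDerivAt (x := x) (y := y) ⟨hx1, hx2⟩
      ⟨hy1, hy2⟩ h (hasDerivAt_chi hy)
    rw [slope_def_field, div_le_iff₀ (by linarith)] at this
    linarith
  · rw [h]; simp
  · have := convexOn_chi.le_slope_of_hasDerivAt (x := y) (y := x) ⟨hy1, hy2⟩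
      ⟨hx1, hx2⟩ h (hasDerivAt_chi hy)
    rw [slope_def_field, le_div_iff₀ (by linarith)] at this
    linarith

theorem psi_eq_logs {x : ℝ} (hx : |x| ≤ 1) :
    psi x = ((1 + x) * Real.log (1 + x) + (1 - x) * Real.log (1 - x)) / 2 := by
  unfold psi
  rw [signEntropy_eq_logs hx]
  ring

/-- `p psi(d/p)` for `p > 0`, `|d| < p`. -/
theorem mul_psi_div {p d : ℝ} (h1 : 0 < p + d) (h2 : 0 < p - d) :
    p * psi (d / p) = ((p + d) * (Real.log (p + d) - Real.log p)
      + (p - d) * (Real.log (p - d) - Real.log p)) / 2 := by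
  have hp : 0 < p := by linarith
  have hx : |d / p| ≤ 1 := by
    rw [abs_div, abs_of_pos hp, div_le_one hp, abs_le]
    constructor <;> linarith
  rw [psi_eq_logs hx]
  have e1 : 1 + d / p = (p + d) / p := by field_simp
  have e2 : 1 - d / p = (p - d) / p := by field_simp
  rw [e1, e2, Real.log_div h1.ne' hp.ne', Real.log_div h2.ne' hp.ne']
  field_simp

theorem io_persp' {a b : ℝ} (ha : |a| < 1) (hb : |b| < 1) :
    io a b = ((1 + (a + b) / 2) * psi ((a - b) / 2 / (1 + (a + b) / 2)) +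
      (1 - (a + b) / 2) * psi ((a - b) / 2 / (1 - (a + b) / 2))) / 2 := by
  obtain ⟨ha1, ha2⟩ := abs_lt.mp ha
  obtain ⟨hb1, hb2⟩ := abs_lt.mp hb
  rw [mul_psi_div (by linarith) (by linarith), mul_psi_div (by linarith) (by linarith)]
  unfold io
  rw [signEntropy_eq_logs ha.le, signEntropy_eq_logs hb.le,
    signEntropy_eq_logs (x := (a + b) / 2) (abs_le.2 ⟨by linarith, by linarith⟩)]
  have e1 : 1 + (a + b) / 2 + (a - b) / 2 = 1 + a := by ring
  have e2 : 1 + (a + b) / 2 - (a - b) / 2 = 1 + b := by ring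
  have e3 : 1 - (a + b) / 2 + (a - b) / 2 = 1 - b := by ring
  have e4 : 1 - (a + b) / 2 - (a - b) / 2 = 1 - a := by ring
  rw [e1, e2, e3, e4]
  ring

/-- `2 io - d^2/(1-M^2)`. -/
noncomputable def KK (a b : ℝ) : ℝ := 2 * io a b - ((a - b) / 2) ^ 2 / (1 - ((a + b) / 2) ^ 2)

theorem KK_eq {a b : ℝ} (ha : |a| < 1) (hb : |b| < 1) :
    KK a b = (1 + (a + b) / 2) * chi ((a - b) / 2 / (1 + (a + b) / 2)) +
      (1 - (a + b) / 2) * chi ((a - b) / 2 / (1 - (a + b) / 2)) := by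
  obtain ⟨ha1, ha2⟩ := abs_lt.mp ha
  obtain ⟨hb1, hb2⟩ := abs_lt.mp hb
  unfold KK chi
  rw [io_persp' ha hb]
  have h1 : 0 < 1 + (a + b) / 2 := by linarith
  have h2 : 0 < 1 - (a + b) / 2 := by linarith
  have h3 : 1 - ((a + b) / 2) ^ 2 = (1 + (a + b) / 2) * (1 - (a + b) / 2) := by ring
  rw [h3]
  have key : ∀ p q d : ℝ, 0 < p → 0 < q → p + q = 2 →
      d ^ 2 / (p * q) = p * ((d / p) ^ 2 / 2) + q * ((d / q) ^ 2 / 2) := by
    intro p q d hp hq hpq
    have hq' : q = 2 - p := by linarith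
    subst hq'
    field_simp
    ring
  rw [key _ _ _ h1 h2 (by ring)]
  ring

theorem term_support {p0 d0 : ℝ} (h01 : 0 < p0 + d0) (h02 : 0 < p0 - d0) {p d : ℝ}
    (h1 : 0 < p + d) (h2 : 0 < p - d) :
    p * chi (d0 / p0) + (Real.artanh (d0 / p0) - d0 / p0) * (d - p * (d0 / p0)) ≤
      p * chi (d / p) := by
  have hp : 0 < p := by linarith
  have hp0 : 0 < p0 := by linarith
  have hx : |d / p| < 1 := by
    rw [abs_div, abs_of_pos hp, div_lt_one hp, abs_lt]
    constructor <;> linarith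
  have hx0 : |d0 / p0| < 1 := by
    rw [abs_div, abs_of_pos hp0, div_lt_one hp0, abs_lt]
    constructor <;> linarith
  have h := mul_le_mul_of_nonneg_left (chi_tangent hx hx0) hp.le
  calc _ = p * (chi (d0 / p0) + (Real.artanh (d0 / p0) - d0 / p0) * (d / p - d0 / p0)) := by
        field_simp
    _ ≤ _ := h

theorem KK_support {A B : ℝ} (hA : |A| < 1) (hB : |B| < 1) : ∃ P Q : ℝ, ∀ a b : ℝ, |a| < 1 →
    |b| < 1 → KK A B + P * (a - A) + Q * (b - B) ≤ KK a b := by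
  obtain ⟨hA1, hA2⟩ := abs_lt.mp hA
  obtain ⟨hB1, hB2⟩ := abs_lt.mp hB
  set M0 := (A + B) / 2 with hM0
  set d0 := (A - B) / 2 with hd0
  set x := d0 / (1 + M0) with hx
  set y := d0 / (1 - M0) with hy
  set cx := Real.artanh x - x with hcx
  set cy := Real.artanh y - y with hcy
  have hKAB : KK A B = (1 + M0) * chi x + (1 - M0) * chi y := KK_eq hA hB
  have hx' : (1 + M0) * x = d0 := by
    rw [hx]; field_simp [show (1 + M0) ≠ 0 by rw [hM0]; linarith]
  have hy' : (1 - M0) * y = d0 := by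
    rw [hy]; field_simp [show (1 - M0) ≠ 0 by rw [hM0]; linarith]
  refine ⟨(chi x - chi y) / 2 + cx * (1 - x) / 2 + cy * (1 + y) / 2,
    (chi x - chi y) / 2 + cx * (-1 - x) / 2 + cy * (-1 + y) / 2, ?_⟩
  intro a b ha hb
  obtain ⟨ha1, ha2⟩ := abs_lt.mp ha
  obtain ⟨hb1, hb2⟩ := abs_lt.mp hb
  have t1 := term_support (p0 := 1 + M0) (d0 := d0) (p := 1 + (a + b) / 2) (d := (a - b) / 2)
    (by rw [hM0, hd0]; linarith) (by rw [hM0, hd0]; linarith) (by linarith) (by linarith)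
  have t2 := term_support (p0 := 1 - M0) (d0 := d0) (p := 1 - (a + b) / 2) (d := (a - b) / 2)
    (by rw [hM0, hd0]; linarith) (by rw [hM0, hd0]; linarith) (by linarith) (by linarith)
  rw [← hx, ← hcx] at t1
  rw [← hy, ← hcy] at t2
  rw [KK_eq ha hb, hKAB]
  refine le_trans (le_of_eq ?_) (add_le_add t1 t2)
  have e1 : A = M0 + d0 := by rw [hM0, hd0]; ring
  have e2 : B = M0 - d0 := by rw [hM0, hd0]; ring
  rw [e1, e2]
  have e3 : d0 = (1 + M0) * x := hx'.symm
  have e4 : cy * d0 = cy * ((1 - M0) * y) := by rw [hy']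
  have e5 : cx * d0 = cx * ((1 + M0) * x) := by rw [hx']
  linear_combination (-1) * e4 - e5

end Local

open Local

/-- The variance of the midpoint function. -/
noncomputable def VV {n : ℕ} (g0 g1 : (Fin n → Bool) → ℝ) : ℝ :=
  cubeAverage (fun x => ((g0 x + g1 x) / 2) ^ 2) - ((cubeAverage g0 + cubeAverage g1) / 2) ^ 2

theorem cubeAverage_mid {n : ℕ} (g0 g1 : (Fin n → Bool) → ℝ) :
    cubeAverage (fun x => (g0 x + g1 x) / 2) = (cubeAverage g0 + cubeAverage g1) / 2 := by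
  unfold cubeAverage
  rw [← Finset.sum_div, Finset.sum_add_distrib]
  ring

theorem cubeAverage_half_sub {n : ℕ} (g0 g1 : (Fin n → Bool) → ℝ) :
    cubeAverage (fun x => (g0 x - g1 x) / 2) = (cubeAverage g0 - cubeAverage g1) / 2 := by
  unfold cubeAverage
  rw [← Finset.sum_div, Finset.sum_sub_distrib]
  ring

theorem VV_nonneg {n : ℕ} (g0 g1 : (Fin n → Bool) → ℝ) : 0 ≤ VV g0 g1 := by
  unfold VV
  set m := (cubeAverage g0 + cubeAverage g1) / 2 with hm
  have h : cubeAverage (fun x => 2 * m * ((g0 x + g1 x) / 2) + -m ^ 2) ≤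
      cubeAverage (fun x => ((g0 x + g1 x) / 2) ^ 2) := by
    apply cubeAverage_mono
    intro x
    nlinarith [sq_nonneg ((g0 x + g1 x) / 2 - m)]
  rw [cubeAverage_add (fun x => 2 * m * ((g0 x + g1 x) / 2)) (fun _ => -m ^ 2),
    cubeAverage_const_mul, cubeAverage_const, cubeAverage_mid, ← hm] at h
  nlinarith

theorem cubeAverage_one_sub_sq {n : ℕ} (g0 g1 : (Fin n → Bool) → ℝ) :
    cubeAverage (fun x => 1 - ((g0 x + g1 x) / 2) ^ 2) =
      1 - ((cubeAverage g0 + cubeAverage g1) / 2) ^ 2 - VV g0 g1 := by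
  have e : (fun x => 1 - ((g0 x + g1 x) / 2) ^ 2) =
      fun x => (1 : ℝ) + (-1) * ((g0 x + g1 x) / 2) ^ 2 := by
    funext x; ring
  rw [e, cubeAverage_add (fun _ => (1 : ℝ)) (fun x => (-1) * ((g0 x + g1 x) / 2) ^ 2),
    cubeAverage_const_mul, cubeAverage_const]
  unfold VV
  ring

theorem abs_delta_lt {n : ℕ} {g0 g1 : (Fin n → Bool) → ℝ} (h0 : ∀ x, |g0 x| < 1)
    (h1 : ∀ x, |g1 x| < 1) :
    |(cubeAverage g0 - cubeAverage g1) / 2| <
      1 - ((cubeAverage g0 + cubeAverage g1) / 2) ^ 2 - VV g0 g1 := by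
  rw [← cubeAverage_one_sub_sq, ← cubeAverage_half_sub, abs_lt]
  have key : ∀ x, |(g0 x - g1 x) / 2| < 1 - ((g0 x + g1 x) / 2) ^ 2 := by
    intro x
    obtain ⟨ha1, ha2⟩ := abs_lt.mp (h0 x)
    obtain ⟨hb1, hb2⟩ := abs_lt.mp (h1 x)
    rw [abs_lt]
    constructor
    · by_cases hs : 0 ≤ g0 x + g1 x
      · nlinarith
      · push Not at hs; nlinarith
    · by_cases hs : 0 ≤ g0 x + g1 x
      · nlinarith
      · push Not at hs; nlinarith
  constructor
  · have : -cubeAverage (fun x => 1 - ((g0 x + g1 x) / 2) ^ 2) =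
        cubeAverage (fun x => (-1) * (1 - ((g0 x + g1 x) / 2) ^ 2)) := by
      rw [cubeAverage_const_mul]; ring
    rw [this]
    apply cubeAverage_lt
    intro x
    have := (abs_lt.mp (key x)).1
    linarith
  · apply cubeAverage_lt
    intro x
    exact (abs_lt.mp (key x)).2

/-- Cauchy--Schwarz type lower bound. -/
theorem sq_div_le {n : ℕ} {g0 g1 : (Fin n → Bool) → ℝ} (h0 : ∀ x, |g0 x| < 1)
    (h1 : ∀ x, |g1 x| < 1) :
    ((cubeAverage g0 - cubeAverage g1) / 2) ^ 2 /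
      (1 - ((cubeAverage g0 + cubeAverage g1) / 2) ^ 2 - VV g0 g1) ≤
    cubeAverage (fun x => ((g0 x - g1 x) / 2) ^ 2 / (1 - ((g0 x + g1 x) / 2) ^ 2)) := by
  have hpos : 0 < 1 - ((cubeAverage g0 + cubeAverage g1) / 2) ^ 2 - VV g0 g1 :=
    lt_of_le_of_lt (abs_nonneg _) (abs_delta_lt h0 h1)
  set δ := (cubeAverage g0 - cubeAverage g1) / 2 with hδ
  set W := 1 - ((cubeAverage g0 + cubeAverage g1) / 2) ^ 2 - VV g0 g1 with hW
  set c := δ / W with hc
  have h : cubeAverage (fun x => 2 * c * ((g0 x - g1 x) / 2) +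
      (-c ^ 2) * (1 - ((g0 x + g1 x) / 2) ^ 2)) ≤
      cubeAverage (fun x => ((g0 x - g1 x) / 2) ^ 2 / (1 - ((g0 x + g1 x) / 2) ^ 2)) := by
    apply cubeAverage_mono
    intro x
    obtain ⟨ha1, ha2⟩ := abs_lt.mp (h0 x)
    obtain ⟨hb1, hb2⟩ := abs_lt.mp (h1 x)
    have hv : 0 < 1 - ((g0 x + g1 x) / 2) ^ 2 := by nlinarith
    rw [le_div_iff₀ hv]
    nlinarith [sq_nonneg ((g0 x - g1 x) / 2 - c * (1 - ((g0 x + g1 x) / 2) ^ 2))]
  rw [cubeAverage_add (fun x => 2 * c * ((g0 x - g1 x) / 2))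
      (fun x => (-c ^ 2) * (1 - ((g0 x + g1 x) / 2) ^ 2)),
    cubeAverage_const_mul, cubeAverage_const_mul, cubeAverage_half_sub,
    cubeAverage_one_sub_sq, ← hδ, ← hW] at h
  refine le_trans (le_of_eq ?_) h
  rw [hc]
  field_simp
  ring

/-- **Local bound** (step (3) of the blueprint), cube version. -/
theorem local_bound {n : ℕ} {g0 g1 : (Fin n → Bool) → ℝ} (h0 : ∀ x, |g0 x| < 1)
    (h1 : ∀ x, |g1 x| < 1) :
    ((cubeAverage g0 - cubeAverage g1) / 2) ^ 2 * VV g0 g1 /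
      ((1 - ((cubeAverage g0 + cubeAverage g1) / 2) ^ 2) *
        (1 - ((cubeAverage g0 + cubeAverage g1) / 2) ^ 2 - VV g0 g1)) ≤
    2 * (cubeAverage (fun x => io (g0 x) (g1 x)) - io (cubeAverage g0) (cubeAverage g1)) := by
  have hpos : 0 < 1 - ((cubeAverage g0 + cubeAverage g1) / 2) ^ 2 - VV g0 g1 :=
    lt_of_le_of_lt (abs_nonneg _) (abs_delta_lt h0 h1)
  have hV := VV_nonneg g0 g1
  have hw : 0 < 1 - ((cubeAverage g0 + cubeAverage g1) / 2) ^ 2 := by linarith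
  have hJ := cube_jensen_of_support KK (fun A B hA hB => KK_support hA hB) h0 h1
  have hS := sq_div_le h0 h1
  have e : cubeAverage (fun x => KK (g0 x) (g1 x)) =
      2 * cubeAverage (fun x => io (g0 x) (g1 x)) +
      (-1) * cubeAverage (fun x => ((g0 x - g1 x) / 2) ^ 2 / (1 - ((g0 x + g1 x) / 2) ^ 2)) := by
    rw [← cubeAverage_const_mul, ← cubeAverage_const_mul, ← cubeAverage_add]
    congr 1
    funext x
    unfold KK
    ring
  rw [e] at hJ
  have e2 : KK (cubeAverage g0) (cubeAverage g1) = 2 * io (cubeAverage g0) (cubeAverage g1) -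
    ((cubeAverage g0 - cubeAverage g1) / 2) ^ 2 /
      (1 - ((cubeAverage g0 + cubeAverage g1) / 2) ^ 2) := rfl
  rw [e2] at hJ
  have e3 : ((cubeAverage g0 - cubeAverage g1) / 2) ^ 2 * VV g0 g1 /
      ((1 - ((cubeAverage g0 + cubeAverage g1) / 2) ^ 2) *
        (1 - ((cubeAverage g0 + cubeAverage g1) / 2) ^ 2 - VV g0 g1)) =
      ((cubeAverage g0 - cubeAverage g1) / 2) ^ 2 /
      (1 - ((cubeAverage g0 + cubeAverage g1) / 2) ^ 2 - VV g0 g1) -
      ((cubeAverage g0 - cubeAverage g1) / 2) ^ 2 /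
      (1 - ((cubeAverage g0 + cubeAverage g1) / 2) ^ 2) := by
    rw [div_sub_div _ _ hpos.ne' hw.ne']
    rw [div_eq_div_iff (by positivity) (by positivity)]
    ring
  rw [e3]
  linarith

end Crest.Agent.R307
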