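import Crest.Agent.R307.SubDefs

/-!
Row 307, task T5 part (i) (helper868): `h(r)^2 kappa'(r) / artanh r ≤ (4/3) (log 2)^2`.
-/

set_option autoImplicit false

open Set Crest.CubeNoise

namespace Crest.Agent.R307.T5

/-- truncated series of `artanh` -/
noncomputable def a5 (r : ℝ) : ℝ := r + r ^ 3 / 3 + r ^ 5 / 5 + r ^ 7 / 7 + r ^ 9 / 9 + r ^ 11 / 11

theorem a5_le_artanh {r : ℝ} (h0 : 0 ≤ r) (h1 : r < 1) : a5 r ≤ Real.artanh r := by
  have hd : ∀ x : ℝ, 0 ≤ x → x < 1 → HasDerivAt (fun x => Real.artanh x - a5 x)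
      (x ^ 12 / (1 - x ^ 2)) x := by
    intro x hx0 hx1
    have h3 := one_sub_sq_pos hx0 hx1
    have e1 : HasDerivAt a5 (1 + x ^ 2 + x ^ 4 + x ^ 6 + x ^ 8 + x ^ 10) x := by
      unfold a5
      refine ((((((hasDerivAt_id x).add ((hasDerivAt_pow 3 x).div_const 3)).add
        ((hasDerivAt_pow 5 x).div_const 5)).add ((hasDerivAt_pow 7 x).div_const 7)).add
        ((hasDerivAt_pow 9 x).div_const 9)).add ((hasDerivAt_pow 11 x).div_const 11)).congr_deriv ?_
      norm_num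
    refine ((hasDerivAt_artanh (abs_lt_one_of_mem hx0 hx1)).sub e1).congr_deriv ?_
    field_simp
    ring
  have hmono : MonotoneOn (fun x => Real.artanh x - a5 x) (Ico 0 1) := by
    refine monotoneOn_of_deriv_nonneg (convex_Ico 0 1) ?_ ?_ ?_
    · intro x hx
      exact (hd x hx.1 hx.2).continuousAt.continuousWithinAt
    · rw [interior_Ico]
      intro x hx
      exact (hd x hx.1.le hx.2).differentiableAt.differentiableWithinAt
    · rw [interior_Ico]
      intro x hx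
      rw [(hd x hx.1.le hx.2).deriv]
      have h3 := one_sub_sq_pos hx.1.le hx.2
      positivity
  have := hmono (left_mem_Ico.mpr one_pos) ⟨h0, h1⟩ h0
  simp [a5] at this
  unfold a5
  linarith

/-- the polynomial inequality at the truncated series, as a Bernstein expansion -/
theorem poly_pos {s : ℝ} (h0 : 0 ≤ s) (h1 : s ≤ 1) :
    0 ≤ 2752/4725 + 3712/4725*s + 102464/121275*s^2 + (-1351288/606375)*s^3
      + (-51728/218295)*s^4 + 2402648/27286875*s^5 + 175435168/2101089375*s^6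
      + 72521576/2101089375*s^7 + 1707809/420217875*s^8 + 11619456104/26473726125*s^9
      + 7322987132/26473726125*s^10 + 35271728/196101675*s^11 + 20864996/169802325*s^12
      + 2174579432/24960941775*s^13 + 45346156/713169765*s^14 + 3401660/142633953*s^15
      + 125648/11320155*s^16 + 4892/922383*s^17 + 104/43923*s^18 + 12/14641*s^19 := by
  have ht : 0 ≤ 1 - s := by linarith
  have key : 0 ≤ 58/100 + 78/100*s + 84/100*s^2 - 2229/1000*s^3 - 237/1000*s^4 + 88/1000*s^5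
      + 83/1000*s^6 + 43/100*s^9 + 27/100*s^10 := by
    have e : 58/100 + 78/100*s + 84/100*s^2 - 2229/1000*s^3 - 237/1000*s^4 + 88/1000*s^5
      + 83/1000*s^6 + 43/100*s^9 + 27/100*s^10 = 29/50*(s^0*(1-s)^10) + 329/50*(s^1*(1-s)^9) + 849/25*(s^2*(1-s)^8) + 102171/1000*(s^3*(1-s)^7) + 195/1*(s^4*(1-s)^6) + 243337/1000*(s^5*(1-s)^5) + 197833/1000*(s^6*(1-s)^4) + 100617/1000*(s^7*(1-s)^3) + 14357/500*(s^8*(1-s)^2) + 3717/1000*(s^9*(1-s)^1) + 121/200*(s^10*(1-s)^0) := by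
      ring
    rw [e]
    positivity
  have h2 : 0 ≤ s ^ 7 := by positivity
  have h3 : 0 ≤ s ^ 8 := by positivity
  have h4 : 0 ≤ s ^ 9 := by positivity
  have h5 : 0 ≤ s ^ 10 := by positivity
  have h6 : 0 ≤ s ^ 11 := by positivity
  have h7 : 0 ≤ s ^ 12 := by positivity
  have h8 : 0 ≤ s ^ 13 := by positivity
  have h9 : 0 ≤ s ^ 14 := by positivity
  have h10 : 0 ≤ s ^ 15 := by positivity
  have h11 : 0 ≤ s ^ 16 := by positivity
  have h12 : 0 ≤ s ^ 17 := by positivity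
  have h13 : 0 ≤ s ^ 18 := by positivity
  have h14 : 0 ≤ s ^ 19 := by positivity
  have h15 : 0 ≤ s ^ 2 := by positivity
  have h16 : 0 ≤ s ^ 3 := by positivity
  have h17 : 0 ≤ s ^ 4 := by positivity
  have h18 : 0 ≤ s ^ 5 := by positivity
  have h19 : 0 ≤ s ^ 6 := by positivity
  linarith

/-- the quartic in `a` -/
noncomputable def dl (r a : ℝ) : ℝ :=
  12*(1-r^2)^2*a^4 + 4*r*(1-r^4)*a^3 + (3-6*r^2+11*r^4)*a^2 - (6*r+10*r^3)*a + 3*r^2

theorem dl_a5 {r : ℝ} (h0 : 0 < r) (h1 : r < 1) : 0 ≤ dl r (a5 r) := by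
  have h := poly_pos (s := r ^ 2) (by positivity) (by nlinarith)
  have e : dl r (a5 r) = r ^ 10 * (2752/4725 + 3712/4725*(r^2) + 102464/121275*(r^2)^2
      + (-1351288/606375)*(r^2)^3
      + (-51728/218295)*(r^2)^4 + 2402648/27286875*(r^2)^5 + 175435168/2101089375*(r^2)^6
      + 72521576/2101089375*(r^2)^7 + 1707809/420217875*(r^2)^8 + 11619456104/26473726125*(r^2)^9
      + 7322987132/26473726125*(r^2)^10 + 35271728/196101675*(r^2)^11 + 20864996/169802325*(r^2)^12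
      + 2174579432/24960941775*(r^2)^13 + 45346156/713169765*(r^2)^14 + 3401660/142633953*(r^2)^15
      + 125648/11320155*(r^2)^16 + 4892/922383*(r^2)^17 + 104/43923*(r^2)^18
      + 12/14641*(r^2)^19) := by
    unfold dl a5
    ring
  rw [e]
  exact mul_nonneg (by positivity) h

theorem dl_nonneg {r a : ℝ} (h0 : 0 < r) (h1 : r < 1) (ha : a5 r ≤ a) : 0 ≤ dl r a := by
  have hb := dl_a5 h0 h1
  set b := a5 r with hbdef
  have hr2 : r ^ 2 < 1 := by nlinarith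
  have hr4 : r ^ 4 < 1 := by nlinarith [sq_nonneg r]
  have hbr : r + r ^ 3 / 3 ≤ b := by
    rw [hbdef]; unfold a5
    have : 0 ≤ r ^ 5 / 5 + r ^ 7 / 7 + r ^ 9 / 9 + r ^ 11 / 11 := by positivity
    linarith
  have hbr' : r ≤ b := by
    have : 0 ≤ r ^ 3 / 3 := by positivity
    linarith
  have har : r ≤ a := hbr'.trans ha
  have hb0 : 0 ≤ b := h0.le.trans hbr'
  have ha0 : 0 ≤ a := h0.le.trans har
  have hq : 0 < 3 - 6 * r ^ 2 + 11 * r ^ 4 := by nlinarith [sq_nonneg (r ^ 2 - 3 / 11)]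
  -- difference factorisation
  have e : dl r a - dl r b = (a - b) * (12*(1-r^2)^2*(a^3+a^2*b+a*b^2+b^3)
      + 4*r*(1-r^4)*(a^2+a*b+b^2) + (3-6*r^2+11*r^4)*(a+b) - (6*r+10*r^3)) := by
    unfold dl; ring
  have c1 : 4 * r ^ 3 ≤ a^3+a^2*b+a*b^2+b^3 := by
    have p1 : r ^ 3 ≤ a ^ 3 := pow_le_pow_left₀ h0.le har 3
    have p2 : r ^ 3 ≤ b ^ 3 := pow_le_pow_left₀ h0.le hbr' 3
    have p3 : r ^ 2 ≤ a ^ 2 := pow_le_pow_left₀ h0.le har 2
    have p4 : r ^ 2 ≤ b ^ 2 := pow_le_pow_left₀ h0.le hbr' 2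
    have p5 : r ^ 2 * r ≤ a ^ 2 * b := mul_le_mul p3 hbr' h0.le (by positivity)
    have p6 : r * r ^ 2 ≤ a * b ^ 2 := mul_le_mul har p4 (by positivity) ha0
    nlinarith
  have c2 : 3 * r ^ 2 ≤ a^2+a*b+b^2 := by
    have p3 : r ^ 2 ≤ a ^ 2 := pow_le_pow_left₀ h0.le har 2
    have p4 : r ^ 2 ≤ b ^ 2 := pow_le_pow_left₀ h0.le hbr' 2
    have p5 : r * r ≤ a * b := mul_le_mul har hbr' h0.le ha0
    nlinarith
  have c3 : 2 * (r + r ^ 3 / 3) ≤ a + b := by linarith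
  have d1 : 12*(1-r^2)^2*(4 * r ^ 3) ≤ 12*(1-r^2)^2*(a^3+a^2*b+a*b^2+b^3) :=
    mul_le_mul_of_nonneg_left c1 (by positivity)
  have d2 : 4*r*(1-r^4)*(3 * r ^ 2) ≤ 4*r*(1-r^4)*(a^2+a*b+b^2) :=
    mul_le_mul_of_nonneg_left c2 (mul_nonneg (by positivity) (by linarith))
  have d3 : (3-6*r^2+11*r^4)*(2 * (r + r ^ 3 / 3)) ≤ (3-6*r^2+11*r^4)*(a+b) :=
    mul_le_mul_of_nonneg_left c3 hq.le
  have d4 : 12*(1-r^2)^2*(4 * r ^ 3) + 4*r*(1-r^4)*(3 * r ^ 2)
      + (3-6*r^2+11*r^4)*(2 * (r + r ^ 3 / 3)) - (6*r+10*r^3)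
      = r ^ 3 * (40 - 78 * r ^ 2 + 130 / 3 * (r ^ 2) ^ 2) := by ring
  have d5 : 0 ≤ r ^ 3 * (40 - 78 * r ^ 2 + 130 / 3 * (r ^ 2) ^ 2) := by
    apply mul_nonneg (by positivity)
    nlinarith [sq_nonneg (r ^ 2 - 9 / 10)]
  have d6 : 0 ≤ (a - b) * (12*(1-r^2)^2*(a^3+a^2*b+a*b^2+b^3)
      + 4*r*(1-r^4)*(a^2+a*b+b^2) + (3-6*r^2+11*r^4)*(a+b) - (6*r+10*r^3)) :=
    mul_nonneg (by linarith) (by linarith)
  linarith

/-! ### the sign of `K` -/

/-- `P(r) = (1+r^2) a - r` -/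
noncomputable def Pf (r : ℝ) : ℝ := (1 + r ^ 2) * Real.artanh r - r

/-- `K(r) = (6r+2r^3) a^2 - (3+5r^2) a + 3r` -/
noncomputable def Kf (r : ℝ) : ℝ :=
  (6*r+2*r^3) * Real.artanh r ^ 2 - (3+5*r^2) * Real.artanh r + 3*r

theorem hasDerivAt_Pf {x : ℝ} (h0 : 0 ≤ x) (h1 : x < 1) :
    HasDerivAt Pf (2 * x * Real.artanh x + 2 * x ^ 2 / (1 - x ^ 2)) x := by
  have h3 := one_sub_sq_pos h0 h1
  have e1 : HasDerivAt (fun x : ℝ => 1 + x ^ 2) (2 * x) x := by
    have := (hasDerivAt_pow 2 x).const_add 1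
    simpa using this
  have := (e1.mul (hasDerivAt_artanh (abs_lt_one_of_mem h0 h1))).sub (hasDerivAt_id x)
  refine this.congr_deriv ?_
  field_simp
  ring

theorem hasDerivAt_Kf {x : ℝ} (h0 : 0 ≤ x) (h1 : x < 1) :
    HasDerivAt Kf ((6+6*x^2) * Real.artanh x ^ 2
      + ((2*x+14*x^3) * Real.artanh x - 8*x^2) / (1 - x ^ 2)) x := by
  have h3 := one_sub_sq_pos h0 h1
  have ha := hasDerivAt_artanh (abs_lt_one_of_mem h0 h1)
  have e1 : HasDerivAt (fun x : ℝ => 6*x+2*x^3) (6 + 6 * x ^ 2) x := by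
    refine (((hasDerivAt_id x).const_mul 6).add ((hasDerivAt_pow 3 x).const_mul 2)).congr_deriv ?_
    norm_num
    ring
  have e2 : HasDerivAt (fun x : ℝ => 3+5*x^2) (10 * x) x := by
    refine (((hasDerivAt_pow 2 x).const_mul 5).const_add 3).congr_deriv ?_
    norm_num
    ring
  have := ((e1.mul (ha.pow 2)).sub (e2.mul ha)).add ((hasDerivAt_id x).const_mul 3)
  refine this.congr_deriv ?_
  simp only [Pi.pow_apply]
  field_simp
  ring

theorem Kf_pos {r : ℝ} (h0 : 0 < r) (h1 : r < 1) : 0 < Kf r := by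
  have hmono : StrictMonoOn Kf (Ico 0 1) := by
    refine strictMonoOn_of_deriv_pos (convex_Ico 0 1) ?_ ?_
    · intro x hx
      exact (hasDerivAt_Kf hx.1 hx.2).continuousAt.continuousWithinAt
    · rw [interior_Ico]
      intro x hx
      rw [(hasDerivAt_Kf hx.1.le hx.2).deriv]
      have h3 := one_sub_sq_pos hx.1.le hx.2
      have ha := le_artanh hx.1.le hx.2
      have hx0 := hx.1
      have ha0 : 0 < Real.artanh x := artanh_pos' hx.1 hx.2
      have q1 : x ^ 2 ≤ Real.artanh x ^ 2 := pow_le_pow_left₀ hx0.le ha 2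
      have q2 : (6+6*x^2) * x ^ 2 + ((2*x+14*x^3) * x - 8*x^2) / (1 - x ^ 2)
          ≤ (6+6*x^2) * Real.artanh x ^ 2
          + ((2*x+14*x^3) * Real.artanh x - 8*x^2) / (1 - x ^ 2) := by
        apply add_le_add
        · exact mul_le_mul_of_nonneg_left q1 (by positivity)
        · apply div_le_div_of_nonneg_right _ h3.le
          have : (2*x+14*x^3) * x ≤ (2*x+14*x^3) * Real.artanh x :=
            mul_le_mul_of_nonneg_left ha (by positivity)
          linarith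
      refine lt_of_lt_of_le ?_ q2
      have e : (6+6*x^2) * x ^ 2 + ((2*x+14*x^3) * x - 8*x^2) / (1 - x ^ 2)
          = x ^ 4 * (14 - 6 * x ^ 2) / (1 - x ^ 2) := by
        field_simp
        ring
      rw [e]
      apply div_pos _ h3
      apply mul_pos (by positivity)
      nlinarith
  have := hmono (left_mem_Ico.mpr one_pos) ⟨h0.le, h1⟩ h0
  simpa [Kf] using this

theorem Pf_pos {r : ℝ} (h0 : 0 < r) (h1 : r < 1) : 0 < Pf r := by
  have h4 := lt_artanh h0 h1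
  have h2 := artanh_pos' h0 h1
  unfold Pf
  nlinarith [mul_pos (pow_pos h0 2) h2]

/-- `W = 2 a^2 (1-r^2) P / K` -/
noncomputable def Wf (r : ℝ) : ℝ := 2 * Real.artanh r ^ 2 * (1 - r ^ 2) * Pf r / Kf r

theorem hasDerivAt_Wf {x : ℝ} (h0 : 0 < x) (h1 : x < 1) :
    HasDerivAt (fun x => Wf x - signEntropy x) (-(Real.artanh x * dl x (Real.artanh x) / Kf x ^ 2)) x := by
  have h3 := one_sub_sq_pos h0.le h1
  have hab := abs_lt_one_of_mem h0.le h1
  have ha := hasDerivAt_artanh hab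
  have hK := Kf_pos h0 h1
  have e1 : HasDerivAt (fun x : ℝ => 1 - x ^ 2) (-(2 * x)) x := by
    have := (hasDerivAt_pow 2 x).const_sub 1
    simpa using this
  have hnum := (((ha.pow 2).const_mul 2).mul e1).mul (hasDerivAt_Pf h0.le h1)
  have hW := (hnum.div (hasDerivAt_Kf h0.le h1) hK.ne').sub (hasDerivAt_signEntropy hab)
  refine hW.congr_deriv ?_
  simp only [Pi.pow_apply, Pi.mul_apply]
  field_simp
  unfold dl Kf Pf
  ring

theorem Wf_ge {r : ℝ} (h0 : 0 < r) (h1 : r < 1) : signEntropy r ≤ Wf r := by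
  have hanti : AntitoneOn (fun x => Wf x - signEntropy x) (Ioo 0 1) := by
    refine antitoneOn_of_deriv_nonpos (convex_Ioo 0 1) ?_ ?_ ?_
    · intro x hx
      exact (hasDerivAt_Wf hx.1 hx.2).continuousAt.continuousWithinAt
    · rw [interior_Ioo]
      intro x hx
      exact (hasDerivAt_Wf hx.1 hx.2).differentiableAt.differentiableWithinAt
    · rw [interior_Ioo]
      intro x hx
      rw [(hasDerivAt_Wf hx.1 hx.2).deriv]
      have hd := dl_nonneg hx.1 hx.2 (a5_le_artanh hx.1.le hx.2)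
      have ha := artanh_pos' hx.1 hx.2
      have hK := Kf_pos hx.1 hx.2
      have : 0 ≤ Real.artanh x * dl x (Real.artanh x) / Kf x ^ 2 := by positivity
      linarith
  have hlim : Filter.Tendsto (fun s : ℝ => Wf r - signEntropy r + signEntropy s)
      (nhdsWithin 1 (Iio 1)) (nhds (Wf r - signEntropy r + signEntropy 1)) :=
    ((continuous_const.add continuous_signEntropy).tendsto 1).mono_left nhdsWithin_le_nhds
  rw [signEntropy_one, add_zero] at hlim
  have : 0 ≤ Wf r - signEntropy r := by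
    refine ge_of_tendsto hlim ?_
    have hIoo : Ioo r 1 ∈ nhdsWithin (1:ℝ) (Iio 1) := Ioo_mem_nhdsLT h1
    filter_upwards [hIoo] with s hs
    have hs0 : 0 < s := h0.trans hs.1
    have hh := hanti ⟨h0, h1⟩ ⟨hs0, hs.2⟩ hs.1.le
    simp only at hh
    have hW : 0 ≤ Wf s := by
      unfold Wf
      have ha := artanh_pos' hs0 hs.2
      have hK := Kf_pos hs0 hs.2
      have hP := Pf_pos hs0 hs.2
      have h3 := one_sub_sq_pos hs0.le hs.2
      positivity
    linarith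
  linarith

/-- `B = h^2 P / ((1-r^2)^2 a^3)` -/
noncomputable def Bf (r : ℝ) : ℝ :=
  signEntropy r ^ 2 * Pf r / ((1 - r ^ 2) ^ 2 * Real.artanh r ^ 3)

theorem hasDerivAt_Bf {x : ℝ} (h0 : 0 < x) (h1 : x < 1) :
    HasDerivAt Bf (signEntropy x * (1 - x ^ 2) * Real.artanh x ^ 2 *
      (signEntropy x * Kf x - 2 * Real.artanh x ^ 2 * (1 - x ^ 2) * Pf x)
      / ((1 - x ^ 2) ^ 2 * Real.artanh x ^ 3) ^ 2) x := by
  have h3 := one_sub_sq_pos h0.le h1
  have hab := abs_lt_one_of_mem h0.le h1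
  have ha := hasDerivAt_artanh hab
  have hapos := artanh_pos' h0 h1
  have e1 : HasDerivAt (fun x : ℝ => 1 - x ^ 2) (-(2 * x)) x := by
    have := (hasDerivAt_pow 2 x).const_sub 1
    simpa using this
  have hnum := ((hasDerivAt_signEntropy hab).pow 2).mul (hasDerivAt_Pf h0.le h1)
  have hden := (e1.pow 2).mul (ha.pow 3)
  have hne : ((fun x : ℝ => 1 - x ^ 2) ^ 2 * Real.artanh ^ 3 : ℝ → ℝ) x ≠ 0 := by
    simp only [Pi.mul_apply, Pi.pow_apply]
    positivity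
  have hB := hnum.div hden hne
  refine hB.congr_deriv ?_
  simp only [Pi.pow_apply, Pi.mul_apply]
  norm_num
  field_simp
  unfold Kf Pf
  ring

theorem Bf_anti : AntitoneOn Bf (Ioo 0 1) := by
  refine antitoneOn_of_deriv_nonpos (convex_Ioo 0 1) ?_ ?_ ?_
  · intro x hx
    exact (hasDerivAt_Bf hx.1 hx.2).continuousAt.continuousWithinAt
  · rw [interior_Ioo]
    intro x hx
    exact (hasDerivAt_Bf hx.1 hx.2).differentiableAt.differentiableWithinAt
  · rw [interior_Ioo]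
    intro x hx
    rw [(hasDerivAt_Bf hx.1 hx.2).deriv]
    have ha := artanh_pos' hx.1 hx.2
    have hK := Kf_pos hx.1 hx.2
    have hP := Pf_pos hx.1 hx.2
    have h3 := one_sub_sq_pos hx.1.le hx.2
    have hs := signEntropy_pos (abs_lt_one_of_mem hx.1.le hx.2)
    have hW := Wf_ge hx.1 hx.2
    unfold Wf at hW
    rw [le_div_iff₀ hK] at hW
    apply div_nonpos_of_nonpos_of_nonneg
    · apply mul_nonpos_of_nonneg_of_nonpos
      · positivity
      · linarith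
    · positivity

theorem artanh_le_small {r : ℝ} (h0 : 0 ≤ r) (h1 : r ≤ 1 / 2) :
    Real.artanh r ≤ r + r ^ 3 / 3 + r ^ 5 := by
  have hd : ∀ x : ℝ, 0 ≤ x → x ≤ 1 / 2 → HasDerivAt (fun x => (x + x ^ 3 / 3 + x ^ 5) - Real.artanh x)
      (1 + x ^ 2 + 5 * x ^ 4 - 1 / (1 - x ^ 2)) x := by
    intro x hx0 hx1
    refine ((((hasDerivAt_id x).add ((hasDerivAt_pow 3 x).div_const 3)).add
        (hasDerivAt_pow 5 x)).sub
        (hasDerivAt_artanh (abs_lt_one_of_mem hx0 (by linarith)))).congr_deriv ?_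
    norm_num
  have hmono : MonotoneOn (fun x => (x + x ^ 3 / 3 + x ^ 5) - Real.artanh x) (Icc 0 (1/2)) := by
    refine monotoneOn_of_deriv_nonneg (convex_Icc 0 (1/2)) ?_ ?_ ?_
    · intro x hx
      exact (hd x hx.1 hx.2).continuousAt.continuousWithinAt
    · rw [interior_Icc]
      intro x hx
      exact (hd x hx.1.le hx.2.le).differentiableAt.differentiableWithinAt
    · rw [interior_Icc]
      intro x hx
      rw [(hd x hx.1.le hx.2.le).deriv]
      have hx0 := hx.1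
      have hx1 := hx.2
      have hx2 : x ^ 2 ≤ 1 / 4 := by nlinarith
      have h3 : 0 < 1 - x ^ 2 := by linarith
      rw [sub_nonneg, div_le_iff₀ h3]
      nlinarith [pow_pos hx0 4, mul_pos (pow_pos hx0 4) h3, mul_nonneg (pow_pos hx0 4).le (sub_nonneg.mpr hx2)]
  have := hmono (left_mem_Icc.mpr (by norm_num)) ⟨h0, h1⟩ h0
  simp at this
  linarith

theorem Bf_le_small {s : ℝ} (h0 : 0 < s) (h1 : s ≤ 1 / 2) :
    Bf s ≤ (Real.log 2) ^ 2 * (4 / 3 + 4 / 3 * s ^ 2 + s ^ 4) / (1 - s ^ 2) ^ 2 := by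
  have hs1 : s < 1 := by linarith
  have h3 := one_sub_sq_pos h0.le hs1
  have hab := abs_lt_one_of_mem h0.le hs1
  have ha := artanh_pos' h0 hs1
  have hle := artanh_le_small h0.le h1
  have hge := le_artanh h0.le hs1
  have hP : Pf s ≤ s ^ 3 * (4 / 3 + 4 / 3 * s ^ 2 + s ^ 4) := by
    unfold Pf
    have : (1 + s ^ 2) * Real.artanh s ≤ (1 + s ^ 2) * (s + s ^ 3 / 3 + s ^ 5) :=
      mul_le_mul_of_nonneg_left hle (by positivity)
    nlinarith
  have hP0 := Pf_pos h0 hs1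
  have hh := signEntropy_le s
  have hh0 := signEntropy_pos hab
  have hnum : signEntropy s ^ 2 * Pf s
      ≤ (Real.log 2) ^ 2 * (s ^ 3 * (4 / 3 + 4 / 3 * s ^ 2 + s ^ 4)) :=
    mul_le_mul (pow_le_pow_left₀ hh0.le hh 2) hP hP0.le (by positivity)
  have hden : (1 - s ^ 2) ^ 2 * s ^ 3 ≤ (1 - s ^ 2) ^ 2 * Real.artanh s ^ 3 :=
    mul_le_mul_of_nonneg_left (pow_le_pow_left₀ h0.le hge 3) (by positivity)
  unfold Bf
  calc signEntropy s ^ 2 * Pf s / ((1 - s ^ 2) ^ 2 * Real.artanh s ^ 3)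
      ≤ (Real.log 2) ^ 2 * (s ^ 3 * (4 / 3 + 4 / 3 * s ^ 2 + s ^ 4))
        / ((1 - s ^ 2) ^ 2 * s ^ 3) := by
        apply div_le_div₀ (by positivity) hnum (by positivity) hden
    _ = _ := by
        field_simp

/-- **T5 (i)** -/
theorem kappa'_bound {r : ℝ} (h0 : 0 < r) (h1 : r < 1) :
    signEntropy r ^ 2 * kappa' r / Real.artanh r ≤ (4 / 3) * (Real.log 2) ^ 2 := by
  have h3 := one_sub_sq_pos h0.le h1
  have ha := artanh_pos' h0 h1
  have e : signEntropy r ^ 2 * kappa' r / Real.artanh r = Bf r := by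
    unfold kappa' Bf Pf
    field_simp
  rw [e]
  have hlim : Filter.Tendsto
      (fun s : ℝ => (Real.log 2) ^ 2 * (4 / 3 + 4 / 3 * s ^ 2 + s ^ 4) / (1 - s ^ 2) ^ 2)
      (nhdsWithin 0 (Ioi 0)) (nhds ((4 / 3) * (Real.log 2) ^ 2)) := by
    have hc : ContinuousAt
        (fun s : ℝ => (Real.log 2) ^ 2 * (4 / 3 + 4 / 3 * s ^ 2 + s ^ 4) / (1 - s ^ 2) ^ 2) 0 := by
      refine ContinuousAt.div ?_ ?_ (by norm_num)
      · fun_prop
      · fun_prop
    have h5 := hc.tendsto.mono_left (nhdsWithin_le_nhds (s := Ioi (0:ℝ)))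
    have e5 : (Real.log 2) ^ 2 * (4 / 3 + 4 / 3 * (0:ℝ) ^ 2 + 0 ^ 4) / (1 - 0 ^ 2) ^ 2
        = (4 / 3) * (Real.log 2) ^ 2 := by norm_num; ring
    rw [e5] at h5
    exact h5
  refine ge_of_tendsto hlim ?_
  have hm : Ioo (0:ℝ) (min r (1/2)) ∈ nhdsWithin (0:ℝ) (Ioi 0) :=
    Ioo_mem_nhdsGT (lt_min h0 (by norm_num))
  filter_upwards [hm] with s hs
  have hs1 : s < r := lt_of_lt_of_le hs.2 (min_le_left _ _)
  have hs2 : s < 1 / 2 := lt_of_lt_of_le hs.2 (min_le_right _ _)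
  exact (Bf_anti ⟨hs.1, hs1.trans h1⟩ ⟨h0, h1⟩ hs1.le).trans (Bf_le_small hs.1 hs2.le)

end Crest.Agent.R307.T5
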