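import Crest.Agent.R307.Persp
import Crest.Agent.R307.PPconcA

/-!
Row 307, task T5 (helper868): the perspective `PP w A` minus `(4/3) (log 2)^2 w log w` is concave
in `w`, and the resulting bound for second differences.
-/

set_option autoImplicit false

open Set Crest.CubeNoise

namespace Crest.Agent.R307

/-- **T5 (i)** -/
theorem sq_mul_kappa'_div_le {r : ℝ} (h0 : 0 < r) (h1 : r < 1) :
    signEntropy r ^ 2 * kappa' r / Real.artanh r ≤ (4 / 3) * (Real.log 2) ^ 2 :=
  T5.kappa'_bound h0 h1

namespace T5

theorem continuousOn_cc : ContinuousOn cc (Ico 0 1) := by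
  have h1 : ContinuousOn (fun t => t * Real.artanh t + kappa t * signEntropy t) (Ico 0 1) := by
    refine (continuousOn_id.mul (continuousOn_artanh.mono ?_)).add
      (continuousOn_kappa.mul continuous_signEntropy.continuousOn)
    intro x hx
    exact ⟨by linarith [hx.1], hx.2⟩
  unfold cc CC
  exact h1.sub continuousOn_const

theorem antitone_cc_add : AntitoneOn
    (fun s => cc s + (4 / 3) * (Real.log 2) ^ 2 * Real.log (signEntropy s)) (Ico 0 1) := by
  have hpos : ∀ x ∈ Ico (0:ℝ) 1, 0 < signEntropy x := fun x hx =>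
    signEntropy_pos (abs_lt_one_of_mem hx.1 hx.2)
  have hd : ∀ x : ℝ, 0 < x → x < 1 → HasDerivAt
      (fun s => cc s + (4 / 3) * (Real.log 2) ^ 2 * Real.log (signEntropy s))
      (kappa' x * signEntropy x + (4 / 3) * (Real.log 2) ^ 2 *
        (-(Real.artanh x) / signEntropy x)) x := by
    intro x hx0 hx1
    have hab := abs_lt_one_of_mem hx0.le hx1
    have e1 : HasDerivAt cc (kappa' x * signEntropy x) x := by
      unfold cc
      exact (hasDerivAt_CC hx0 hx1).sub_const _
    exact e1.add (((hasDerivAt_signEntropy hab).log (hpos x ⟨hx0.le, hx1⟩).ne').const_mul _)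
  refine antitoneOn_of_deriv_nonpos (convex_Ico 0 1) ?_ ?_ ?_
  · refine continuousOn_cc.add (continuousOn_const.mul ?_)
    exact ContinuousOn.log continuous_signEntropy.continuousOn (fun x hx => (hpos x hx).ne')
  · rw [interior_Ico]
    intro x hx
    exact (hd x hx.1 hx.2).differentiableAt.differentiableWithinAt
  · rw [interior_Ico]
    intro x hx
    rw [(hd x hx.1 hx.2).deriv]
    have hs := hpos x ⟨hx.1.le, hx.2⟩
    have ha := artanh_pos' hx.1 hx.2
    have hb := kappa'_bound hx.1 hx.2
    rw [div_le_iff₀ ha] at hb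
    have e : kappa' x * signEntropy x + (4 / 3) * (Real.log 2) ^ 2 *
        (-(Real.artanh x) / signEntropy x)
        = (signEntropy x ^ 2 * kappa' x - 4 / 3 * Real.log 2 ^ 2 * Real.artanh x)
          / signEntropy x := by
      field_simp
      ring
    rw [e]
    exact div_nonpos_of_nonpos_of_nonneg (by linarith) hs.le

theorem signEntropy_hinv_eq_min {y : ℝ} (hy : 0 < y) :
    signEntropy (hinv y) = min y (Real.log 2) := by
  rcases le_or_gt y (Real.log 2) with h | h
  · rw [signEntropy_hinv hy h, min_eq_left h]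
  · rw [hinv_of_gt h, signEntropy_zero, min_eq_right h.le]

theorem hinv_antitone {x y : ℝ} (hx : 0 < x) (hxy : x ≤ y) : hinv y ≤ hinv x := by
  have hm1 := hinv_mem hx
  have hm2 := hinv_mem (hx.trans_le hxy)
  by_contra hcon
  push Not at hcon
  have h := strictAntiOn_signEntropy ⟨hm1.1, hm1.2.le⟩ ⟨hm2.1, hm2.2.le⟩ hcon
  rw [signEntropy_hinv_eq_min hx, signEntropy_hinv_eq_min (hx.trans_le hxy)] at h
  have : min x (Real.log 2) ≤ min y (Real.log 2) := min_le_min_right _ hxy
  linarith

/-- log-Lipschitz bound for `w ↦ cc (hinv (A/w))`. -/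
theorem cc_hinv_le {A w w' : ℝ} (hA : 0 < A) (hw : 0 < w) (hww : w ≤ w') :
    cc (hinv (A / w')) - cc (hinv (A / w))
      ≤ (4 / 3) * (Real.log 2) ^ 2 * (Real.log w' - Real.log w) := by
  have hw' : 0 < w' := hw.trans_le hww
  have hy := div_pos hA hw
  have hy' := div_pos hA hw'
  have hle : A / w' ≤ A / w := div_le_div_of_nonneg_left hA.le hw hww
  have hm := hinv_mem hy
  have hm' := hinv_mem hy'
  have h := antitone_cc_add hm hm' (hinv_antitone hy' hle)
  simp only at h
  rw [signEntropy_hinv_eq_min hy, signEntropy_hinv_eq_min hy'] at h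
  have hL : 0 < Real.log 2 := Real.log_pos one_lt_two
  have key : Real.log (min (A / w) (Real.log 2)) - Real.log (min (A / w') (Real.log 2))
      ≤ Real.log w' - Real.log w := by
    have e : Real.log w' - Real.log w = Real.log (A / w) - Real.log (A / w') := by
      rw [Real.log_div hA.ne' hw.ne', Real.log_div hA.ne' hw'.ne']
      ring
    rw [e]
    rcases le_total (A / w) (Real.log 2) with h1 | h1
    · rw [min_eq_left h1, min_eq_left (hle.trans h1)]
    · rw [min_eq_right h1]
      rcases le_total (A / w') (Real.log 2) with h2 | h2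
      · rw [min_eq_left h2]
        have := Real.log_le_log hL h1
        linarith
      · rw [min_eq_right h2]
        have := Real.log_le_log hy' hle
        linarith
  have h2 : (4 / 3) * (Real.log 2) ^ 2 *
      (Real.log (min (A / w) (Real.log 2)) - Real.log (min (A / w') (Real.log 2)))
      ≤ (4 / 3) * (Real.log 2) ^ 2 * (Real.log w' - Real.log w) :=
    mul_le_mul_of_nonneg_left key (by positivity)
  linarith

theorem hasDerivAt_PP {A w : ℝ} (hA : 0 < A) (hw : 0 < w) :
    HasDerivAt (fun w => PP w A) (cc (hinv (A / w))) w := by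
  have hy := div_pos hA hw
  have hI : Real.log 2 - A / w < Real.log 2 := by linarith
  have e1 : HasDerivAt (fun w : ℝ => Real.log 2 - A / w) (A / w ^ 2) w := by
    have := ((hasDerivAt_inv hw.ne').const_mul A).const_sub (Real.log 2)
    refine (this.congr_of_eventuallyEq ?_).congr_deriv ?_
    · filter_upwards with x
      rw [div_eq_mul_inv]
    · field_simp
  have e2 := (hasDerivAt_id w).mul ((hasDerivAt_SS' hI).comp w e1)
  refine e2.congr_deriv ?_
  simp only [id, Function.comp]
  unfold SSd
  rw [sub_sub_cancel]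
  have e3 : SS (Real.log 2 - A / w) = sF (hinv (A / w)) := by
    unfold SS
    rw [sub_sub_cancel]
  rw [e3, cc_eq]
  rcases le_or_gt (A / w) (Real.log 2) with h | h
  · rw [signEntropy_hinv hy h]
    field_simp
  · rw [hinv_of_gt h, kappa_zero]
    ring

theorem hasDerivAt_sub {A w : ℝ} (hA : 0 < A) (hw : 0 < w) :
    HasDerivAt (fun w => PP w A - (4 / 3) * (Real.log 2) ^ 2 * (w * Real.log w))
      (cc (hinv (A / w)) - (4 / 3) * (Real.log 2) ^ 2 * (Real.log w + 1)) w :=
  (hasDerivAt_PP hA hw).sub ((Real.hasDerivAt_mul_log hw.ne').const_mul _)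

end T5

/-- **T5 (ii)** -/
theorem concaveOn_PP_sub {A : ℝ} (hA : 0 < A) : ConcaveOn ℝ (Ioi 0)
    (fun w => PP w A - (4 / 3) * (Real.log 2) ^ 2 * (w * Real.log w)) := by
  refine AntitoneOn.concaveOn_of_deriv (convex_Ioi 0) ?_ ?_ ?_
  · intro x hx
    exact (T5.hasDerivAt_sub hA hx).continuousAt.continuousWithinAt
  · rw [interior_Ioi]
    intro x hx
    exact (T5.hasDerivAt_sub hA hx).differentiableAt.differentiableWithinAt
  · rw [interior_Ioi]
    intro x hx y hy hxy
    rw [(T5.hasDerivAt_sub hA hx).deriv, (T5.hasDerivAt_sub hA hy).deriv]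
    have := T5.cc_hinv_le hA hx hxy
    linarith

/-- **T5 (iii)** -/
theorem PP_second_diff {A w V e : ℝ} (hA : 0 < A) (hV : 0 ≤ V) (he : 0 ≤ e) (hw : V + e < w) :
    PP w A - PP (w - V) A - PP (w - e) A
      ≤ (4 / 3) * (Real.log 2) ^ 2 * (w * Real.log w - (w - V) * Real.log (w - V)
        - (w - e) * Real.log (w - e) + (w - V - e) * Real.log (w - V - e)) := by
  have hp := PP_nonneg (w := w - V - e) (by linarith) hA
  have hc := concaveOn_PP_sub hA
  rcases eq_or_lt_of_le (add_nonneg hV he) with h | h
  · have hV0 : V = 0 := by linarith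
    have he0 : e = 0 := by linarith
    subst hV0
    subst he0
    simp only [sub_zero] at hp ⊢
    linarith
  · have hne : V + e ≠ 0 := h.ne'
    have m1 : (w - V - e) ∈ Ioi (0:ℝ) := by simp only [mem_Ioi]; linarith
    have m2 : w ∈ Ioi (0:ℝ) := by simp only [mem_Ioi]; linarith
    have a1 : 0 ≤ V / (V + e) := by positivity
    have a2 : 0 ≤ e / (V + e) := by positivity
    have a3 : V / (V + e) + e / (V + e) = 1 := by field_simp
    have a3' : e / (V + e) + V / (V + e) = 1 := by rw [add_comm, a3]
    have h1 := hc.2 m1 m2 a1 a2 a3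
    have h2 := hc.2 m1 m2 a2 a1 a3'
    simp only [smul_eq_mul] at h1 h2
    have e1 : V / (V + e) * (w - V - e) + e / (V + e) * w = w - V := by
      field_simp
      ring
    have e2 : e / (V + e) * (w - V - e) + V / (V + e) * w = w - e := by
      field_simp
      ring
    rw [e1] at h1
    rw [e2] at h2
    have key : ∀ X Y : ℝ, (V / (V + e) * X + e / (V + e) * Y) + (e / (V + e) * X + V / (V + e) * Y)
        = X + Y := by
      intro X Y
      have : (V / (V + e) * X + e / (V + e) * Y) + (e / (V + e) * X + V / (V + e) * Y)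
        = (V / (V + e) + e / (V + e)) * (X + Y) := by ring
      rw [this, a3, one_mul]
    have h3 := add_le_add h1 h2
    rw [key] at h3
    linarith

end Crest.Agent.R307
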