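import Crest.Agent.R307.NOne
import Crest.Agent.R307.Local
import Crest.Agent.R307.Corner
import Crest.Agent.R307.PPconc
import Crest.Agent.R307.Split

/-!
Row 307, task T7 (helper868): the mean-profile bound `GG t m A ≤ production`, by induction on the
dimension (parts 2 and 3 of S0472), from T1-T5 and the explicit inequality T6.
-/

set_option autoImplicit false

open Set Crest.CubeNoise

namespace Crest.Agent.R307

/-- T6, in the form used here -/
def ExplicitStmt : Prop :=
  ∀ m δ V : ℝ, 0 ≤ m → 0 < δ → δ < 1 - m → 0 ≤ V → δ < 1 - m ^ 2 - V →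
    (4 / 3) * (Real.log 2) ^ 2 *
      ((1 - m ^ 2) * Real.log (1 - m ^ 2) - (1 - m ^ 2 - V) * Real.log (1 - m ^ 2 - V)
        - (1 - m ^ 2 - δ ^ 2) * Real.log (1 - m ^ 2 - δ ^ 2)
        + (1 - m ^ 2 - V - δ ^ 2) * Real.log (1 - m ^ 2 - V - δ ^ 2))
      ≤ max (-Real.log (1 - δ ^ 2 / (1 + m) ^ 2) / (1 - m) ^ 2 * V)
          (δ ^ 2 * V / ((1 - m ^ 2) * (1 - m ^ 2 - V)))

namespace GGF

variable {n : ℕ}

theorem cubeAverage_neg (g : (Fin n → Bool) → ℝ) :
    cubeAverage (fun x => -g x) = -cubeAverage g := by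
  have := cubeAverage_const_mul (-1) g
  simpa using this

/-- subadditivity defect of `PP` in the first variable, `m ≥ 0`, `δ > 0` -/
theorem PP_step_pos (H6 : ExplicitStmt) {g0 g1 : (Fin n → Bool) → ℝ} (h0 : ∀ x, |g0 x| < 1)
    (h1 : ∀ x, |g1 x| < 1) {A : ℝ} (hA : 0 < A)
    (hm : 0 ≤ (cubeAverage g0 + cubeAverage g1) / 2)
    (hδ : 0 < (cubeAverage g0 - cubeAverage g1) / 2) :
    PP (1 - ((cubeAverage g0 + cubeAverage g1) / 2) ^ 2) A ≤
      PP (1 - ((cubeAverage g0 + cubeAverage g1) / 2) ^ 2 - VV g0 g1) A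
      + PP (1 - ((cubeAverage g0 + cubeAverage g1) / 2) ^ 2
          - ((cubeAverage g0 - cubeAverage g1) / 2) ^ 2) A
      + 2 * (cubeAverage (fun x => io (g0 x) (g1 x)) - io (cubeAverage g0) (cubeAverage g1)) := by
  have hloc := local_bound h0 h1
  have hcor := Corner.corner_cube h0 h1 hm hδ
  have hV := VV_nonneg g0 g1
  have hd := abs_delta_lt h0 h1
  have ha0 := abs_lt.mp (abs_cubeAverage_lt_one h0)
  have ha1 := abs_lt.mp (abs_cubeAverage_lt_one h1)
  change (-Real.log (1 - ((cubeAverage g0 - cubeAverage g1) / 2) ^ 2 /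
        (1 + (cubeAverage g0 + cubeAverage g1) / 2) ^ 2) /
        (1 - (cubeAverage g0 + cubeAverage g1) / 2) ^ 2) * VV g0 g1 ≤ _ at hcor
  have hδ1 : (cubeAverage g0 - cubeAverage g1) / 2 < 1 - (cubeAverage g0 + cubeAverage g1) / 2 := by
    linarith [ha0.2]
  rw [abs_of_pos hδ] at hd
  have h6 := H6 ((cubeAverage g0 + cubeAverage g1) / 2) ((cubeAverage g0 - cubeAverage g1) / 2)
    (VV g0 g1) hm hδ hδ1 hV hd
  have hδ2 : (cubeAverage g0 - cubeAverage g1) / 2 < 1 := by linarith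
  have hsq : ((cubeAverage g0 - cubeAverage g1) / 2) ^ 2 ≤ (cubeAverage g0 - cubeAverage g1) / 2 := by
    nlinarith
  have h5 := PP_second_diff (w := 1 - ((cubeAverage g0 + cubeAverage g1) / 2) ^ 2)
    (V := VV g0 g1) (e := ((cubeAverage g0 - cubeAverage g1) / 2) ^ 2) hA hV (sq_nonneg _)
    (by linarith)
  have hmax := max_le hcor hloc
  linarith

theorem PP_step_nonneg (H6 : ExplicitStmt) {g0 g1 : (Fin n → Bool) → ℝ} (h0 : ∀ x, |g0 x| < 1)
    (h1 : ∀ x, |g1 x| < 1) {A : ℝ} (hA : 0 < A)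
    (hm : 0 ≤ (cubeAverage g0 + cubeAverage g1) / 2)
    (hδ : 0 ≤ (cubeAverage g0 - cubeAverage g1) / 2) :
    PP (1 - ((cubeAverage g0 + cubeAverage g1) / 2) ^ 2) A ≤
      PP (1 - ((cubeAverage g0 + cubeAverage g1) / 2) ^ 2 - VV g0 g1) A
      + PP (1 - ((cubeAverage g0 + cubeAverage g1) / 2) ^ 2
          - ((cubeAverage g0 - cubeAverage g1) / 2) ^ 2) A
      + 2 * (cubeAverage (fun x => io (g0 x) (g1 x)) - io (cubeAverage g0) (cubeAverage g1)) := by
  rcases eq_or_lt_of_le hδ with h | h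
  · have hloc := local_bound h0 h1
    have hd := abs_delta_lt h0 h1
    rw [← h] at hloc hd ⊢
    simp only [abs_zero, ne_eq, OfNat.ofNat_ne_zero, not_false_eq_true, zero_pow, zero_mul,
      zero_div, sub_zero] at hloc hd ⊢
    have := PP_nonneg hd hA
    linarith
  · exact PP_step_pos H6 h0 h1 hA hm h

theorem VV_comm (g0 g1 : (Fin n → Bool) → ℝ) : VV g1 g0 = VV g0 g1 := by
  unfold VV
  have e : (fun x => ((g1 x + g0 x) / 2) ^ 2) = fun x => ((g0 x + g1 x) / 2) ^ 2 := by
    funext x; ring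
  rw [e, add_comm (cubeAverage g1)]

theorem PP_step_mean (H6 : ExplicitStmt) {g0 g1 : (Fin n → Bool) → ℝ} (h0 : ∀ x, |g0 x| < 1)
    (h1 : ∀ x, |g1 x| < 1) {A : ℝ} (hA : 0 < A)
    (hm : 0 ≤ (cubeAverage g0 + cubeAverage g1) / 2) :
    PP (1 - ((cubeAverage g0 + cubeAverage g1) / 2) ^ 2) A ≤
      PP (1 - ((cubeAverage g0 + cubeAverage g1) / 2) ^ 2 - VV g0 g1) A
      + PP (1 - ((cubeAverage g0 + cubeAverage g1) / 2) ^ 2
          - ((cubeAverage g0 - cubeAverage g1) / 2) ^ 2) A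
      + 2 * (cubeAverage (fun x => io (g0 x) (g1 x)) - io (cubeAverage g0) (cubeAverage g1)) := by
  rcases le_total 0 ((cubeAverage g0 - cubeAverage g1) / 2) with h | h
  · exact PP_step_nonneg H6 h0 h1 hA hm h
  · have := PP_step_nonneg H6 h1 h0 hA (by linarith) (by linarith)
    rw [VV_comm g0 g1, add_comm (cubeAverage g1), io_comm (cubeAverage g1)] at this
    have e1 : ((cubeAverage g1 - cubeAverage g0) / 2) ^ 2
      = ((cubeAverage g0 - cubeAverage g1) / 2) ^ 2 := by ring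
    have e2 : (fun x => io (g1 x) (g0 x)) = fun x => io (g0 x) (g1 x) := by
      funext x; exact io_comm _ _
    rw [e1, e2] at this
    exact this

theorem PP_step (H6 : ExplicitStmt) {g0 g1 : (Fin n → Bool) → ℝ} (h0 : ∀ x, |g0 x| < 1)
    (h1 : ∀ x, |g1 x| < 1) {A : ℝ} (hA : 0 < A) :
    PP (1 - ((cubeAverage g0 + cubeAverage g1) / 2) ^ 2) A ≤
      PP (1 - ((cubeAverage g0 + cubeAverage g1) / 2) ^ 2 - VV g0 g1) A
      + PP (1 - ((cubeAverage g0 + cubeAverage g1) / 2) ^ 2
          - ((cubeAverage g0 - cubeAverage g1) / 2) ^ 2) A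
      + 2 * (cubeAverage (fun x => io (g0 x) (g1 x)) - io (cubeAverage g0) (cubeAverage g1)) := by
  rcases le_total 0 ((cubeAverage g0 + cubeAverage g1) / 2) with h | h
  · exact PP_step_mean H6 h0 h1 hA h
  · have h0' : ∀ x, |(fun x => -g0 x) x| < 1 := fun x => by simpa using h0 x
    have h1' : ∀ x, |(fun x => -g1 x) x| < 1 := fun x => by simpa using h1 x
    have := PP_step_mean H6 h0' h1' hA (by rw [cubeAverage_neg, cubeAverage_neg]; linarith)
    have e1 : VV (fun x => -g0 x) (fun x => -g1 x) = VV g0 g1 := by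
      unfold VV
      rw [cubeAverage_neg, cubeAverage_neg]
      have e : (fun x => ((-g0 x + -g1 x) / 2) ^ 2) = fun x => ((g0 x + g1 x) / 2) ^ 2 := by
        funext x; ring
      rw [e]
      ring
    have e2 : (fun x => io (-g0 x) (-g1 x)) = fun x => io (g0 x) (g1 x) := by
      funext x; exact Persp.io_neg _ _
    rw [e1, cubeAverage_neg, cubeAverage_neg, Persp.io_neg, e2] at this
    have e3 : ((-cubeAverage g0 + -cubeAverage g1) / 2) ^ 2
      = ((cubeAverage g0 + cubeAverage g1) / 2) ^ 2 := by ring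
    have e4 : ((-cubeAverage g0 - -cubeAverage g1) / 2) ^ 2
      = ((cubeAverage g0 - cubeAverage g1) / 2) ^ 2 := by ring
    rw [e3, e4] at this
    exact this

theorem kk_average {g0 g1 : (Fin n → Bool) → ℝ} (h0 : ∀ x, |g0 x| < 1)
    (h1 : ∀ x, |g1 x| < 1) {t : ℝ} (ht0 : 0 ≤ t) (ht1 : t < 1) :
    2 * cubeAverage (fun x => io (g0 x) (g1 x))
      + (1 - ((cubeAverage g0 + cubeAverage g1) / 2) ^ 2 - VV g0 g1) * cc t
      - (kappa t - 2) * ((cubeAverage (fun x => signEntropy (g0 x))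
          + cubeAverage (fun x => signEntropy (g1 x))) / 2)
      ≤ cubeAverage (fun x => kk (g0 x) (g1 x)) := by
  have hle : cubeAverage (fun x => (2 * io (g0 x) (g1 x) + cc t * (1 - ((g0 x + g1 x) / 2) ^ 2))
        + (-(kappa t - 2) / 2) * (signEntropy (g0 x) + signEntropy (g1 x)))
      ≤ cubeAverage (fun x => kk (g0 x) (g1 x)) := by
    apply cubeAverage_mono
    intro x
    have := GG_le_kk (h0 x) (h1 x) ht0 ht1
    unfold GG at this
    unfold io cc
    linarith
  rw [cubeAverage_add, cubeAverage_add, cubeAverage_const_mul, cubeAverage_const_mul,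
    cubeAverage_const_mul, cubeAverage_add, cubeAverage_one_sub_sq] at hle
  linarith

theorem step (H6 : ExplicitStmt) {g0 g1 : (Fin n → Bool) → ℝ} (h0 : ∀ x, |g0 x| < 1)
    (h1 : ∀ x, |g1 x| < 1) {D0 D1 : ℝ}
    (hD0 : ∀ t, 0 ≤ t → t < 1 →
      GG t (cubeAverage g0) (cubeAverage fun x => signEntropy (g0 x)) ≤ D0)
    (hD1 : ∀ t, 0 ≤ t → t < 1 →
      GG t (cubeAverage g1) (cubeAverage fun x => signEntropy (g1 x)) ≤ D1)
    {t : ℝ} (ht0 : 0 ≤ t) (ht1 : t < 1) :
    GG t ((cubeAverage g0 + cubeAverage g1) / 2)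
        ((cubeAverage (fun x => signEntropy (g0 x))
          + cubeAverage (fun x => signEntropy (g1 x))) / 2)
      ≤ (D0 + D1) / 2 + cubeAverage (fun x => kk (g0 x) (g1 x)) := by
  have hA0 : 0 < cubeAverage (fun x => signEntropy (g0 x)) := by
    rw [← cubeAverage_const (n := n) 0]
    exact cubeAverage_lt fun x => signEntropy_pos (h0 x)
  have hA1 : 0 < cubeAverage (fun x => signEntropy (g1 x)) := by
    rw [← cubeAverage_const (n := n) 0]
    exact cubeAverage_lt fun x => signEntropy_pos (h1 x)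
  set A0 := cubeAverage (fun x => signEntropy (g0 x)) with hA0d
  set A1 := cubeAverage (fun x => signEntropy (g1 x)) with hA1d
  have hA : 0 < (A0 + A1) / 2 := by linarith
  have hmain := PP_step H6 h0 h1 hA
  have hd := abs_delta_lt h0 h1
  have hV := VV_nonneg g0 g1
  have ha0 := abs_lt.mp (abs_cubeAverage_lt_one h0)
  have ha1 := abs_lt.mp (abs_cubeAverage_lt_one h1)
  have hw1 : 0 < 1 - ((cubeAverage g0 + cubeAverage g1) / 2) ^ 2 - VV g0 g1 :=
    lt_of_le_of_lt (abs_nonneg _) hd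
  have hw : 0 < 1 - ((cubeAverage g0 + cubeAverage g1) / 2) ^ 2 := by linarith
  have hw2 : 0 < 1 - ((cubeAverage g0 + cubeAverage g1) / 2) ^ 2
      - ((cubeAverage g0 - cubeAverage g1) / 2) ^ 2 := by
    nlinarith [mul_pos (sub_pos.mpr ha0.2) (sub_pos.mpr ha0.1),
      mul_pos (sub_pos.mpr ha1.2) (sub_pos.mpr ha1.1)]
  have m1 := hinv_mem (div_pos hA hw1)
  have m2 := hinv_mem (div_pos hA hw2)
  have p1 := PP_eq_tangent hw1 hA
  have p2 := PP_eq_tangent hw2 hA
  have q1 := kk_average h0 h1 m1.1 m1.2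
  have q2 := hD0 _ m2.1 m2.2
  have q3 := hD1 _ m2.1 m2.2
  have p := PP_tangent hw hA ht0 ht1
  rw [← hA0d, ← hA1d] at q1
  unfold GG at q2 q3 ⊢
  unfold cc at p p1 p2 q1
  have hio : io (cubeAverage g0) (cubeAverage g1)
    = signEntropy ((cubeAverage g0 + cubeAverage g1) / 2)
      - (signEntropy (cubeAverage g0) + signEntropy (cubeAverage g1)) / 2 := rfl
  rw [hio] at hmain
  nlinarith [hmain, p, p1, p2, q1, q2, q3]

end GGF

/-- **T7**, from the explicit inequality T6 -/
theorem GG_le_production_of (H6 : ExplicitStmt) : ∀ (n : ℕ) (g : (Fin n → Bool) → ℝ),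
    (∀ x, |g x| < 1) → ∀ t, 0 ≤ t → t < 1 →
      GG t (cubeAverage g) (cubeAverage fun x => signEntropy (g x)) ≤ production g := by
  intro n
  induction n with
  | zero =>
    intro g hg t ht0 ht1
    rw [production_zero, cubeAverage_zero, cubeAverage_zero]
    have h := GG_le_kk (hg default) (hg default) ht0 ht1
    have e1 : (g default + g default) / 2 = g default := by ring
    have e2 : (signEntropy (g default) + signEntropy (g default)) / 2
        = signEntropy (g default) := by ring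
    rw [e1, e2, Persp.kk_self] at h
    exact h
  | succ n ih =>
    intro g hg t ht0 ht1
    have hg0 : ∀ x, |sl0 g x| < 1 := fun x => hg _
    have hg1 : ∀ x, |sl1 g x| < 1 := fun x => hg _
    rw [production_split, cubeAverage_split, cubeAverage_split]
    exact GGF.step H6 hg0 hg1 (ih (sl0 g) hg0) (ih (sl1 g) hg1) ht0 ht1

end Crest.Agent.R307
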