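import Crest.Agent.R307.GGfinal
import Crest.Agent.R307.Explicit

/-!
Row 307, task T7 (helper868): the mean-profile bound, unconditionally.
-/

set_option autoImplicit false

open Set Crest.CubeNoise

namespace Crest.Agent.R307

theorem explicitStmt : ExplicitStmt := fun _ _ _ hm hδ hδm hV hVw =>
  explicit_ineq hm hδ hδm hV (by linarith)

/-- **T7** -/
theorem GG_le_production (n : ℕ) (g : (Fin n → Bool) → ℝ) (hg : ∀ x, |g x| < 1) (t : ℝ)
    (ht0 : 0 ≤ t) (ht1 : t < 1) :
    GG t (cubeAverage g) (cubeAverage fun x => signEntropy (g x)) ≤ production g :=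
  GG_le_production_of explicitStmt n g hg t ht0 ht1

end Crest.Agent.R307
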