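import Crest.Agent.R307.Conic

/-!
Row 307, S0471, task G7 (1161): certificates and one-sided / final inequality on a whole
interval `c ∈ [ca, cb]` from data at the two end points.

* `Wf`, `Wd`: `W(c) = 2(√(1+c)-1) + ((2A0+A1)/4)c² + A2(c²/4)(1-c²/2)` and its derivative.
* `certG_interp`: for `A2 ≥ 0` a certificate at `x = ca²` and one at `x = cb²` (`ρ = √(1-x)`) give
  the affinely interpolated certificate in between.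
* `Wf_le_tan`: affine (in `c²`) upper bound of `W`: tangent line at `z0 = √(1+c0)`.
* `Wf_div_sq_convex`: `W(c)/c²` is convex in `c²`.
* `CertI`: certificates normalised by `W(c)` valid for all `c ∈ [ca,cb]`.
* `one_sided`, `fin_interval`.
-/

set_option autoImplicit false

open Crest.CubeNoise Set

namespace Crest.Agent.R307.GenInt

open Crest.Agent.R307 Crest.Agent.R307.Ode Crest.Agent.R307.TwoSet
open Crest.Agent.R307.GenInd Crest.Agent.R307.GenPI Crest.Agent.R307.Conic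

/-! ### Concavity in `x = c²` -/

lemma sqrt_concave {s t X Y : ℝ} (hs : 0 ≤ s) (ht : 0 ≤ t) (hst : s + t = 1)
    (hX : 0 ≤ X) (hY : 0 ≤ Y) :
    s * Real.sqrt X + t * Real.sqrt Y ≤ Real.sqrt (s * X + t * Y) := by
  have h := Real.strictConcaveOn_sqrt.concaveOn.2 (mem_Ici.2 hX) (mem_Ici.2 hY) hs ht hst
  simpa [smul_eq_mul] using h

/-- `√G + √G' = √(σ + 2√(PQ + x(P-Q)²/4))`. -/
lemma sqrt_add_sqrt {ρ P Q : ℝ} (hρ : |ρ| ≤ 1) (hP : 0 ≤ P) (hQ : 0 ≤ Q) :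
    Real.sqrt ((1 + ρ) / 2 * P + (1 - ρ) / 2 * Q) + Real.sqrt ((1 - ρ) / 2 * P + (1 + ρ) / 2 * Q)
      = Real.sqrt (P + Q + 2 * Real.sqrt (P * Q + (1 - ρ ^ 2) * ((P - Q) ^ 2 / 4))) := by
  have hρ1 : -1 ≤ ρ ∧ ρ ≤ 1 := abs_le.mp hρ
  set G : ℝ := (1 + ρ) / 2 * P + (1 - ρ) / 2 * Q with hG
  set G' : ℝ := (1 - ρ) / 2 * P + (1 + ρ) / 2 * Q with hG'
  have hGn : 0 ≤ G := add_nonneg (mul_nonneg (by linarith [hρ1.1]) hP)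
    (mul_nonneg (by linarith [hρ1.2]) hQ)
  have hGn' : 0 ≤ G' := add_nonneg (mul_nonneg (by linarith [hρ1.2]) hP)
    (mul_nonneg (by linarith [hρ1.1]) hQ)
  have e3 : P * Q + (1 - ρ ^ 2) * ((P - Q) ^ 2 / 4) = G * G' := by rw [hG, hG']; ring
  have e2 : P + Q = G + G' := by rw [hG, hG']; ring
  rw [e3, e2, Real.sqrt_mul hGn]
  symm
  rw [Real.sqrt_eq_iff_mul_self_eq (by positivity) (by positivity)]
  have := Real.mul_self_sqrt hGn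
  have := Real.mul_self_sqrt hGn'
  nlinarith

/-- The left side of a pointwise certificate as a function of `x = c²`. -/
noncomputable def LHS (A0 A1 A2 P Q x : ℝ) : ℝ :=
  FA A0 A1 A2 P + FA A0 A1 A2 Q
    + 2 * (Real.sqrt (P + Q + 2 * Real.sqrt (P * Q + x * ((P - Q) ^ 2 / 4)))
        - Real.sqrt P - Real.sqrt Q)
    + x * (P - Q) ^ 2 * ((A0 - A1) / 2 + 3 * (P + Q) * (A1 - A2) / 4
      + A2 * (P ^ 2 + Q ^ 2 + P * Q) - A2 * x * (P - Q) ^ 2 / 8)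

lemma lhs_eq {A0 A1 A2 ρ P Q : ℝ} (hρ : |ρ| ≤ 1) (hP : 0 ≤ P) (hQ : 0 ≤ Q) :
    FA A0 A1 A2 ((1 + ρ) / 2 * P + (1 - ρ) / 2 * Q) +
      FA A0 A1 A2 ((1 - ρ) / 2 * P + (1 + ρ) / 2 * Q) = LHS A0 A1 A2 P Q (1 - ρ ^ 2) := by
  have h := sqrt_add_sqrt hρ hP hQ
  unfold LHS
  rw [← h]
  unfold FA
  ring

lemma lhs_concave {A0 A1 A2 P Q xa xb s t : ℝ} (hA2 : 0 ≤ A2) (hP : 0 ≤ P) (hQ : 0 ≤ Q)
    (hxa : 0 ≤ xa) (hxb : 0 ≤ xb) (hs : 0 ≤ s) (ht : 0 ≤ t) (hst : s + t = 1) :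
    s * LHS A0 A1 A2 P Q xa + t * LHS A0 A1 A2 P Q xb ≤ LHS A0 A1 A2 P Q (s * xa + t * xb) := by
  have hPQ : 0 ≤ P * Q := mul_nonneg hP hQ
  have he : 0 ≤ (P - Q) ^ 2 / 4 := by positivity
  have hX : 0 ≤ P * Q + xa * ((P - Q) ^ 2 / 4) := add_nonneg hPQ (mul_nonneg hxa he)
  have hY : 0 ≤ P * Q + xb * ((P - Q) ^ 2 / 4) := add_nonneg hPQ (mul_nonneg hxb he)
  set X := P * Q + xa * ((P - Q) ^ 2 / 4) with hXdef
  set Y := P * Q + xb * ((P - Q) ^ 2 / 4) with hYdef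
  have h1 := sqrt_concave hs ht hst hX hY
  have h2 := sqrt_concave hs ht hst (X := P + Q + 2 * Real.sqrt X) (Y := P + Q + 2 * Real.sqrt Y)
    (by positivity) (by positivity)
  have h3 : Real.sqrt (s * (P + Q + 2 * Real.sqrt X) + t * (P + Q + 2 * Real.sqrt Y)) ≤
      Real.sqrt (P + Q + 2 * Real.sqrt (P * Q + (s * xa + t * xb) * ((P - Q) ^ 2 / 4))) := by
    apply Real.sqrt_le_sqrt
    have e : P * Q + (s * xa + t * xb) * ((P - Q) ^ 2 / 4) = s * X + t * Y := by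
      rw [hXdef, hYdef]
      linear_combination (-(P * Q)) * hst
    rw [e]
    have e2 : s * (P + Q + 2 * Real.sqrt X) + t * (P + Q + 2 * Real.sqrt Y) =
        P + Q + 2 * (s * Real.sqrt X + t * Real.sqrt Y) := by
      linear_combination (P + Q) * hst
    rw [e2]
    linarith
  have h4 : 0 ≤ A2 * (s * t) * (xa - xb) ^ 2 * (P - Q) ^ 4 := by positivity
  unfold LHS
  rw [← hXdef, ← hYdef]
  have hs' : s = 1 - t := by linarith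
  subst hs'
  nlinarith

lemma abs_sqrt_le {x : ℝ} (hx : 0 ≤ x) (hx1 : x ≤ 1) :
    |Real.sqrt (1 - x)| ≤ 1 ∧ 1 - (Real.sqrt (1 - x)) ^ 2 = x := by
  constructor
  · rw [abs_of_nonneg (Real.sqrt_nonneg _)]
    exact Real.sqrt_le_iff.mpr ⟨by norm_num, by linarith⟩
  · rw [Real.sq_sqrt (by linarith)]; ring

/-- **(a)+(b)**: interpolation of certificates. -/
theorem certG_interp {A0 A1 A2 : ℝ} (hA2 : 0 ≤ A2) {xa xb s t : ℝ} (hxa : 0 ≤ xa) (hxa1 : xa ≤ 1)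
    (hxb : 0 ≤ xb) (hxb1 : xb ≤ 1) (hs : 0 ≤ s) (ht : 0 ≤ t) (hst : s + t = 1)
    {p1 q1 p2 q2 l1 m1 k p1' q1' p2' q2' l1' m1' k' : ℝ}
    (ha : CertG (Real.sqrt (1 - xa)) (FA A0 A1 A2) p1 q1 p2 q2 l1 m1 k)
    (hb : CertG (Real.sqrt (1 - xb)) (FA A0 A1 A2) p1' q1' p2' q2' l1' m1' k') :
    CertG (Real.sqrt (1 - (s * xa + t * xb))) (FA A0 A1 A2) (s * p1 + t * p1') (s * q1 + t * q1')
      (s * p2 + t * p2') (s * q2 + t * q2') (s * l1 + t * l1') (s * m1 + t * m1')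
      (s * k + t * k') := by
  have hx : 0 ≤ s * xa + t * xb := add_nonneg (mul_nonneg hs hxa) (mul_nonneg ht hxb)
  have hx1 : s * xa + t * xb ≤ 1 := by
    have := mul_le_mul_of_nonneg_left hxa1 hs
    have := mul_le_mul_of_nonneg_left hxb1 ht
    linarith
  refine ⟨add_nonneg (mul_nonneg hs ha.1) (mul_nonneg ht hb.1),
    add_nonneg (mul_nonneg hs ha.2.1) (mul_nonneg ht hb.2.1), ?_⟩
  intro P Q hQ hQP hP
  have hP0 : 0 ≤ P := hQ.trans hQP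
  have h1 := ha.2.2 P Q hQ hQP hP
  have h2 := hb.2.2 P Q hQ hQP hP
  rw [lhs_eq (abs_sqrt_le hxa hxa1).1 hP0 hQ, (abs_sqrt_le hxa hxa1).2] at h1
  rw [lhs_eq (abs_sqrt_le hxb hxb1).1 hP0 hQ, (abs_sqrt_le hxb hxb1).2] at h2
  rw [lhs_eq (abs_sqrt_le hx hx1).1 hP0 hQ, (abs_sqrt_le hx hx1).2]
  have h3 := lhs_concave (A0 := A0) (A1 := A1) hA2 hP0 hQ hxa hxb hs ht hst
  have h4 := mul_le_mul_of_nonneg_left h1 hs
  have h5 := mul_le_mul_of_nonneg_left h2 ht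
  linarith

/-- Weakening a certificate: smaller flux, smaller Parseval rows, larger constant. -/
theorem certG_weaken {ρ : ℝ} {u : ℝ → ℝ} {p1 q1 β l1 m1 k β' l1' m1' k' : ℝ}
    (h : CertG ρ u p1 q1 β (-β) l1 m1 k) (hβ : β' ≤ β) (hl : 0 ≤ l1') (hl' : l1' ≤ l1)
    (hm : 0 ≤ m1') (hm' : m1' ≤ m1) (hk : k ≤ k') : CertG ρ u p1 q1 β' (-β') l1' m1' k' := by
  refine ⟨hl, hm, ?_⟩
  intro P Q hQ hQP hP
  have h1 := h.2.2 P Q hQ hQP hP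
  have a1 : β' * (P - Q) ≤ β * (P - Q) := mul_le_mul_of_nonneg_right hβ (by linarith)
  have a2 : l1' * (P * (1 - P)) ≤ l1 * (P * (1 - P)) :=
    mul_le_mul_of_nonneg_right hl' (mul_nonneg (hQ.trans hQP) (by linarith))
  have a3 : m1' * (Q * (1 - Q)) ≤ m1 * (Q * (1 - Q)) :=
    mul_le_mul_of_nonneg_right hm' (mul_nonneg hQ (by linarith))
  linarith

/-! ### The function `W` -/

/-- `W(c) = F(q) + F(1-q)` at `c = 2√(q(1-q))`. -/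
noncomputable def Wf (A0 A1 A2 c : ℝ) : ℝ :=
  2 * (Real.sqrt (1 + c) - 1) + (2 * A0 + A1) / 4 * c ^ 2 + A2 * (c ^ 2 / 4) * (1 - c ^ 2 / 2)

/-- `W'(c)`. -/
noncomputable def Wd (A0 A1 A2 c : ℝ) : ℝ :=
  1 / Real.sqrt (1 + c) + (2 * A0 + A1) / 2 * c + A2 * (c / 2) * (1 - c ^ 2)

/-- `W` in the variable `z = √(1+c)`: a polynomial. -/
noncomputable def Wz (A0 A1 A2 z : ℝ) : ℝ :=
  2 * (z - 1) + (2 * A0 + A1) / 4 * (z ^ 2 - 1) ^ 2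
    + A2 * ((z ^ 2 - 1) ^ 2 / 4) * (1 - (z ^ 2 - 1) ^ 2 / 2)

/-- `W'` in the variable `z = √(1+c)`. -/
noncomputable def Wdz (A0 A1 A2 z : ℝ) : ℝ :=
  1 / z + (2 * A0 + A1) / 2 * (z ^ 2 - 1) + A2 * ((z ^ 2 - 1) / 2) * (1 - (z ^ 2 - 1) ^ 2)

lemma sqrt_one_add {z c : ℝ} (hz : 0 ≤ z) (hc : c = z ^ 2 - 1) : Real.sqrt (1 + c) = z := by
  rw [hc]
  have : (1 : ℝ) + (z ^ 2 - 1) = z ^ 2 := by ring
  rw [this, Real.sqrt_sq hz]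

lemma Wf_eq_Wz {A0 A1 A2 z c : ℝ} (hz : 0 ≤ z) (hc : c = z ^ 2 - 1) :
    Wf A0 A1 A2 c = Wz A0 A1 A2 z := by
  unfold Wf Wz
  rw [sqrt_one_add hz hc, hc]

lemma Wd_eq_Wdz {A0 A1 A2 z c : ℝ} (hz : 0 ≤ z) (hc : c = z ^ 2 - 1) :
    Wd A0 A1 A2 c = Wdz A0 A1 A2 z := by
  unfold Wd Wdz
  rw [sqrt_one_add hz hc, hc]

/-- `F(q) + F(1-q) = W(2√(q(1-q)))`. -/
lemma FA_add_FA {A0 A1 A2 q : ℝ} (h0 : 0 ≤ q) (h1 : q ≤ 1) :
    FA A0 A1 A2 q + FA A0 A1 A2 (1 - q) = Wf A0 A1 A2 (2 * Real.sqrt (q * (1 - q))) := by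
  have hq : 0 ≤ 1 - q := by linarith
  have e1 : Real.sqrt (1 + 2 * Real.sqrt (q * (1 - q))) = Real.sqrt q + Real.sqrt (1 - q) := by
    rw [Real.sqrt_eq_iff_mul_self_eq (by positivity) (by positivity), Real.sqrt_mul h0]
    have := Real.mul_self_sqrt h0
    have := Real.mul_self_sqrt hq
    nlinarith
  have e2 : (2 * Real.sqrt (q * (1 - q))) ^ 2 = 4 * (q * (1 - q)) := by
    rw [mul_pow, Real.sq_sqrt (mul_nonneg h0 hq)]; norm_num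
  unfold Wf FA
  rw [e1, e2]
  ring

lemma Wf_pos {A0 A1 A2 c : ℝ} (hA : 0 ≤ 2 * A0 + A1) (hA2 : 0 ≤ A2) (hc : 0 < c) (hc1 : c ≤ 1) :
    0 < Wf A0 A1 A2 c := by
  unfold Wf
  have h1 : 1 < Real.sqrt (1 + c) := by
    rw [Real.lt_sqrt (by norm_num)]; linarith
  have h2 : 0 ≤ (2 * A0 + A1) / 4 * c ^ 2 := by positivity
  have h3 : 0 ≤ A2 * (c ^ 2 / 4) * (1 - c ^ 2 / 2) := by
    apply mul_nonneg (by positivity)
    nlinarith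
  linarith

/-- Affine function of `x = c²`: the tangent line of `W` at `c0 = z0² - 1`. -/
noncomputable def Wtan (A0 A1 A2 z0 x : ℝ) : ℝ :=
  Wz A0 A1 A2 z0 + (1 / (2 * (z0 ^ 2 - 1) * z0) + (2 * A0 + A1) / 4
    + A2 * (1 / 4 - (z0 ^ 2 - 1) ^ 2 / 4)) * (x - (z0 ^ 2 - 1) ^ 2)

/-- **(c)** upper bound of `W` by an affine function of `c²`. -/
theorem Wf_le_Wtan {A0 A1 A2 z0 c : ℝ} (hA2 : 0 ≤ A2) (hz0 : 1 < z0) (hc : 0 ≤ c) :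
    Wf A0 A1 A2 c ≤ Wtan A0 A1 A2 z0 (c ^ 2) := by
  set z := Real.sqrt (1 + c) with hz
  have hz1 : 1 ≤ z := by
    rw [hz]; exact Real.le_sqrt_of_sq_le (by linarith)
  have hcz : c = z ^ 2 - 1 := by
    rw [hz, Real.sq_sqrt (by linarith)]; ring
  rw [Wf_eq_Wz (by linarith) hcz]
  unfold Wtan Wz
  rw [hcz]
  have hD : 0 < 2 * (z0 ^ 2 - 1) * z0 := by
    have : 0 < z0 ^ 2 - 1 := by nlinarith
    positivity
  have key : 2 * (z - z0) ≤ 1 / (2 * (z0 ^ 2 - 1) * z0) * ((z ^ 2 - 1) ^ 2 - (z0 ^ 2 - 1) ^ 2) := by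
    rw [one_div, inv_mul_eq_div, le_div_iff₀ hD]
    have e : ((z ^ 2 - 1) ^ 2 - (z0 ^ 2 - 1) ^ 2) - 2 * (z - z0) * (2 * (z0 ^ 2 - 1) * z0) =
        (z - z0) ^ 2 * (z ^ 2 + 2 * z0 * z + 3 * z0 ^ 2 - 2) := by ring
    have h1 : 0 ≤ (z - z0) ^ 2 * (z ^ 2 + 2 * z0 * z + 3 * z0 ^ 2 - 2) := by
      apply mul_nonneg (sq_nonneg _)
      nlinarith
    linarith
  have h2 : 0 ≤ A2 * ((z ^ 2 - 1) ^ 2 - (z0 ^ 2 - 1) ^ 2) ^ 2 := by positivity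
  nlinarith

/-- concavity of `x ↦ √x (1 + √(1+√x))` -/
lemma g_concave {s t ca cb c : ℝ} (hs : 0 ≤ s) (ht : 0 ≤ t) (hst : s + t = 1) (ha : 0 ≤ ca)
    (hb : 0 ≤ cb) (hc : 0 ≤ c) (hx : c ^ 2 = s * ca ^ 2 + t * cb ^ 2) :
    s * (ca * (1 + Real.sqrt (1 + ca))) + t * (cb * (1 + Real.sqrt (1 + cb))) ≤
      c * (1 + Real.sqrt (1 + c)) := by
  -- `s ca + t cb ≤ c`
  have h1 : s * ca + t * cb ≤ c := by
    have := sqrt_concave hs ht hst (sq_nonneg ca) (sq_nonneg cb)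
    rw [← hx, Real.sqrt_sq ha, Real.sqrt_sq hb, Real.sqrt_sq hc] at this
    exact this
  -- `s √(ca²(1+ca)) + t √(cb²(1+cb)) ≤ √(c²(1+c))` by Cauchy-Schwarz
  have h2 : s * (ca * Real.sqrt (1 + ca)) + t * (cb * Real.sqrt (1 + cb)) ≤
      c * Real.sqrt (1 + c) := by
    have hu := Real.sq_sqrt (show (0:ℝ) ≤ 1 + ca by linarith)
    have hv := Real.sq_sqrt (show (0:ℝ) ≤ 1 + cb by linarith)
    have hw := Real.sq_sqrt (show (0:ℝ) ≤ 1 + c by linarith)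
    set u := Real.sqrt (1 + ca)
    set v := Real.sqrt (1 + cb)
    set w := Real.sqrt (1 + c) with hwdef
    have hu0 : 0 ≤ u := Real.sqrt_nonneg _
    have hv0 : 0 ≤ v := Real.sqrt_nonneg _
    have hw0 : 0 ≤ w := Real.sqrt_nonneg _
    have hcs : (s * (ca * u) + t * (cb * v)) ^ 2 ≤ (s * ca ^ 2 + t * cb ^ 2) * (s * u ^ 2 + t * v ^ 2) := by
      have : (s * ca ^ 2 + t * cb ^ 2) * (s * u ^ 2 + t * v ^ 2) - (s * (ca * u) + t * (cb * v)) ^ 2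
          = s * t * (ca * v - cb * u) ^ 2 := by ring
      have h0 : 0 ≤ s * t * (ca * v - cb * u) ^ 2 := by positivity
      linarith
    have h3 : s * u ^ 2 + t * v ^ 2 ≤ w ^ 2 := by
      rw [hu, hv, hw]
      nlinarith
    have h4 : (s * (ca * u) + t * (cb * v)) ^ 2 ≤ (c * w) ^ 2 := by
      rw [← hx] at hcs
      calc _ ≤ c ^ 2 * (s * u ^ 2 + t * v ^ 2) := hcs
        _ ≤ c ^ 2 * w ^ 2 := mul_le_mul_of_nonneg_left h3 (sq_nonneg _)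
        _ = (c * w) ^ 2 := by ring
    exact (abs_le_of_sq_le_sq' h4 (by positivity)).2
  linarith

/-- **(c')** `W(c)/c²` is convex in `x = c²`. -/
theorem Wf_div_sq_convex {A0 A1 A2 s t ca cb c : ℝ} (hs : 0 ≤ s) (ht : 0 ≤ t) (hst : s + t = 1)
    (ha : 0 < ca) (hb : 0 < cb) (hc : 0 < c) (hx : c ^ 2 = s * ca ^ 2 + t * cb ^ 2) :
    Wf A0 A1 A2 c / c ^ 2 ≤ s * (Wf A0 A1 A2 ca / ca ^ 2) + t * (Wf A0 A1 A2 cb / cb ^ 2) := by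
  have hform : ∀ {y : ℝ}, 0 < y → Wf A0 A1 A2 y / y ^ 2 =
      2 / (y * (1 + Real.sqrt (1 + y))) + ((2 * A0 + A1) / 4 + A2 / 4 * (1 - y ^ 2 / 2)) := by
    intro y hy
    have hw := Real.sq_sqrt (show (0:ℝ) ≤ 1 + y by linarith)
    have hw0 : 0 ≤ Real.sqrt (1 + y) := Real.sqrt_nonneg _
    unfold Wf
    set w := Real.sqrt (1 + y)
    have e : 2 * (w - 1) / y ^ 2 = 2 / (y * (1 + w)) := by
      rw [div_eq_div_iff (by positivity) (by positivity)]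
      have : y = w ^ 2 - 1 := by linarith
      rw [this]; ring
    rw [← e]
    field_simp
    ring
  rw [hform hc, hform ha, hform hb]
  have hg := g_concave hs ht hst ha.le hb.le hc.le hx
  set ga := ca * (1 + Real.sqrt (1 + ca)) with hga
  set gb := cb * (1 + Real.sqrt (1 + cb)) with hgb
  set g := c * (1 + Real.sqrt (1 + c)) with hgd
  have pa : 0 < ga := by rw [hga]; positivity
  have pb : 0 < gb := by rw [hgb]; positivity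
  have pg : 0 < g := by rw [hgd]; positivity
  have pm : 0 < s * ga + t * gb := by
    rcases hs.eq_or_lt with h | h
    · have : t = 1 := by linarith
      rw [← h, this]; linarith
    · have := mul_pos h pa
      have := mul_nonneg ht pb.le
      linarith
  have key : 2 / g ≤ s * (2 / ga) + t * (2 / gb) := by
    calc 2 / g ≤ 2 / (s * ga + t * gb) := by
          apply div_le_div_of_nonneg_left (by norm_num) pm hg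
      _ ≤ s * (2 / ga) + t * (2 / gb) := by
          rw [div_le_iff₀ pm]
          have e : (s * (2 / ga) + t * (2 / gb)) * (s * ga + t * gb) =
              2 * (s ^ 2 + t ^ 2 + s * t * (gb / ga + ga / gb)) := by
            field_simp
            ring
          rw [e]
          have h2 : 2 ≤ gb / ga + ga / gb := by
            rw [div_add_div _ _ pa.ne' pb.ne', le_div_iff₀ (by positivity)]
            nlinarith [sq_nonneg (ga - gb)]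
          have h3 : 1 = s ^ 2 + t ^ 2 + s * t * 2 := by
            have : (s + t) ^ 2 = 1 := by rw [hst]; norm_num
            linarith
          have h4 : s * t * 2 ≤ s * t * (gb / ga + ga / gb) :=
            mul_le_mul_of_nonneg_left h2 (mul_nonneg hs ht)
          linarith
  have e : (2 * A0 + A1) / 4 + A2 / 4 * (1 - c ^ 2 / 2) =
      s * ((2 * A0 + A1) / 4 + A2 / 4 * (1 - ca ^ 2 / 2)) +
      t * ((2 * A0 + A1) / 4 + A2 / 4 * (1 - cb ^ 2 / 2)) := by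
    rw [hx]
    linear_combination (-((2 * A0 + A1) / 4 + A2 / 4)) * hst
  rw [e]
  linarith

/-! ### Certificates valid on an interval -/

/-- A certificate normalised by `W(c)`, valid for all `c ∈ [ca, cb]`. -/
def CertI (A0 A1 A2 ca cb p1 q1 bt l m : ℝ) : Prop :=
  ∀ c, ca ≤ c → c ≤ cb → CertG (Real.sqrt (1 - c ^ 2)) (FA A0 A1 A2) p1 q1
    (Wf A0 A1 A2 c * bt) (-(Wf A0 A1 A2 c * bt)) (Wf A0 A1 A2 c / c ^ 2 * l)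
    (Wf A0 A1 A2 c / c ^ 2 * m) 0

lemma Wtan_affine (A0 A1 A2 z0 ca cb c : ℝ) :
    (cb ^ 2 - ca ^ 2) * Wtan A0 A1 A2 z0 (c ^ 2) =
      (cb ^ 2 - c ^ 2) * Wtan A0 A1 A2 z0 (ca ^ 2) + (c ^ 2 - ca ^ 2) * Wtan A0 A1 A2 z0 (cb ^ 2) := by
  unfold Wtan; ring

/-- The tangent values are admissible end point values for the flux. -/
lemma flux_ok {A0 A1 A2 z0 ca cb Ua Ub : ℝ} (hA2 : 0 ≤ A2) (hz0 : 1 < z0) (hca : 0 < ca)
    (hab : ca < cb) (hUa : Wtan A0 A1 A2 z0 (ca ^ 2) ≤ Ua) (hUb : Wtan A0 A1 A2 z0 (cb ^ 2) ≤ Ub) :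
    ∀ c, ca ≤ c → c ≤ cb →
      (cb ^ 2 - ca ^ 2) * Wf A0 A1 A2 c ≤ (cb ^ 2 - c ^ 2) * Ua + (c ^ 2 - ca ^ 2) * Ub := by
  intro c h1 h2
  have e := Wtan_affine A0 A1 A2 z0 ca cb c
  have h := Wf_le_Wtan (A0 := A0) (A1 := A1) (z0 := z0) (c := c) hA2 hz0 (by linarith)
  have d1 : 0 ≤ cb ^ 2 - ca ^ 2 := by nlinarith
  have d2 : 0 ≤ cb ^ 2 - c ^ 2 := by nlinarith
  have d3 : 0 ≤ c ^ 2 - ca ^ 2 := by nlinarith
  have a1 := mul_le_mul_of_nonneg_left h d1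
  have a2 := mul_le_mul_of_nonneg_left hUa d2
  have a3 := mul_le_mul_of_nonneg_left hUb d3
  linarith

/-- The exact values `W(c)/c²` are admissible end point values for the Parseval rows. -/
lemma pars_ok {A0 A1 A2 ca cb Va Vb : ℝ} (hca : 0 < ca) (hab : ca < cb)
    (hVa : Wf A0 A1 A2 ca / ca ^ 2 ≤ Va) (hVb : Wf A0 A1 A2 cb / cb ^ 2 ≤ Vb) :
    ∀ c, ca ≤ c → c ≤ cb →
      (cb ^ 2 - ca ^ 2) * (Wf A0 A1 A2 c / c ^ 2) ≤ (cb ^ 2 - c ^ 2) * Va + (c ^ 2 - ca ^ 2) * Vb := by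
  intro c h1 h2
  have d1 : 0 < cb ^ 2 - ca ^ 2 := by nlinarith
  have d2 : 0 ≤ cb ^ 2 - c ^ 2 := by nlinarith
  have d3 : 0 ≤ c ^ 2 - ca ^ 2 := by nlinarith
  have h := Wf_div_sq_convex (A0 := A0) (A1 := A1) (A2 := A2)
    (s := (cb ^ 2 - c ^ 2) / (cb ^ 2 - ca ^ 2)) (t := (c ^ 2 - ca ^ 2) / (cb ^ 2 - ca ^ 2))
    (ca := ca) (cb := cb) (c := c) (div_nonneg d2 d1.le) (div_nonneg d3 d1.le)
    (by rw [← add_div, div_eq_one_iff_eq d1.ne']; ring) hca (by linarith) (by linarith)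
    (by field_simp; ring)
  have a1 := mul_le_mul_of_nonneg_left h d1.le
  have a2 := mul_le_mul_of_nonneg_left hVa d2
  have a3 := mul_le_mul_of_nonneg_left hVb d3
  have e : (cb ^ 2 - ca ^ 2) * ((cb ^ 2 - c ^ 2) / (cb ^ 2 - ca ^ 2) * (Wf A0 A1 A2 ca / ca ^ 2) +
      (c ^ 2 - ca ^ 2) / (cb ^ 2 - ca ^ 2) * (Wf A0 A1 A2 cb / cb ^ 2)) =
      (cb ^ 2 - c ^ 2) * (Wf A0 A1 A2 ca / ca ^ 2) +
      (c ^ 2 - ca ^ 2) * (Wf A0 A1 A2 cb / cb ^ 2) := by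
    rw [mul_add, ← mul_assoc, ← mul_assoc, mul_div_cancel₀ _ d1.ne', mul_div_cancel₀ _ d1.ne']
  rw [e] at a1
  linarith

/-- **(b)**: a certificate at the two end points is a certificate on the interval. -/
theorem certI_of_endpoints {A0 A1 A2 ca cb p1 q1 bt l m Ua Ub Va Vb : ℝ} (hA2 : 0 ≤ A2)
    (hca : 0 < ca) (hab : ca < cb) (hcb : cb ≤ 1) (hbt : 0 ≤ bt) (hl : 0 ≤ l) (hm : 0 ≤ m)
    (hW : ∀ c, ca ≤ c → c ≤ cb → 0 ≤ Wf A0 A1 A2 c)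
    (hU : ∀ c, ca ≤ c → c ≤ cb →
      (cb ^ 2 - ca ^ 2) * Wf A0 A1 A2 c ≤ (cb ^ 2 - c ^ 2) * Ua + (c ^ 2 - ca ^ 2) * Ub)
    (hV : ∀ c, ca ≤ c → c ≤ cb →
      (cb ^ 2 - ca ^ 2) * (Wf A0 A1 A2 c / c ^ 2) ≤ (cb ^ 2 - c ^ 2) * Va + (c ^ 2 - ca ^ 2) * Vb)
    (ha : CertG (Real.sqrt (1 - ca ^ 2)) (FA A0 A1 A2) p1 q1 (Ua * bt) (-(Ua * bt)) (Va * l)
      (Va * m) 0)
    (hb : CertG (Real.sqrt (1 - cb ^ 2)) (FA A0 A1 A2) p1 q1 (Ub * bt) (-(Ub * bt)) (Vb * l)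
      (Vb * m) 0) :
    CertI A0 A1 A2 ca cb p1 q1 bt l m := by
  intro c h1 h2
  have hc0 : 0 < c := by linarith
  have d1 : 0 < cb ^ 2 - ca ^ 2 := by nlinarith
  have d2 : 0 ≤ cb ^ 2 - c ^ 2 := by nlinarith
  have d3 : 0 ≤ c ^ 2 - ca ^ 2 := by nlinarith
  set s := (cb ^ 2 - c ^ 2) / (cb ^ 2 - ca ^ 2) with hs
  set t := (c ^ 2 - ca ^ 2) / (cb ^ 2 - ca ^ 2) with ht
  have hs0 : 0 ≤ s := div_nonneg d2 d1.le
  have ht0 : 0 ≤ t := div_nonneg d3 d1.le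
  have hst : s + t = 1 := by
    rw [hs, ht, ← add_div, div_eq_one_iff_eq d1.ne']; ring
  have hx : s * ca ^ 2 + t * cb ^ 2 = c ^ 2 := by
    rw [hs, ht]; field_simp; ring
  have key := certG_interp hA2 (sq_nonneg ca) (by nlinarith) (sq_nonneg cb) (by nlinarith)
    hs0 ht0 hst ha hb
  rw [hx] at key
  have e1 : s * p1 + t * p1 = p1 := by rw [← add_mul, hst, one_mul]
  have e2 : s * q1 + t * q1 = q1 := by rw [← add_mul, hst, one_mul]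
  have e3 : s * (-(Ua * bt)) + t * (-(Ub * bt)) = -(s * (Ua * bt) + t * (Ub * bt)) := by ring
  have e4 : s * (0:ℝ) + t * 0 = 0 := by ring
  rw [e1, e2, e3, e4] at key
  have hsU : Wf A0 A1 A2 c ≤ s * Ua + t * Ub := by
    rw [hs, ht, div_mul_eq_mul_div, div_mul_eq_mul_div, ← add_div, le_div_iff₀ d1]
    linarith [hU c h1 h2]
  have hsV : Wf A0 A1 A2 c / c ^ 2 ≤ s * Va + t * Vb := by
    rw [hs, ht, div_mul_eq_mul_div, div_mul_eq_mul_div, ← add_div, le_div_iff₀ d1]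
    linarith [hV c h1 h2]
  have hWc : 0 ≤ Wf A0 A1 A2 c / c ^ 2 := div_nonneg (hW c h1 h2) (sq_nonneg _)
  refine certG_weaken key ?_ (mul_nonneg hWc hl) ?_ (mul_nonneg hWc hm) ?_ le_rfl
  · have := mul_le_mul_of_nonneg_right hsU hbt
    linarith
  · have := mul_le_mul_of_nonneg_right hsV hl
    linarith
  · have := mul_le_mul_of_nonneg_right hsV hm
    linarith

/-- `CertG` from `PolyOK`, at `x = c²`. -/
theorem certG_of_poly {A0 A1 A2 x K C beta L0 L1 : ℝ} (hx : 0 ≤ x) (hx1 : x ≤ 1) (hL0 : 0 ≤ L0)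
    (hL1 : 0 ≤ L1)
    (h : ∀ y0 y1 : ℝ, 0 ≤ y1 → y1 ≤ y0 → y0 ≤ 1 → PolyOK A0 A1 A2 x K C beta L0 L1 y0 y1) :
    CertG (Real.sqrt (1 - x)) (FA A0 A1 A2) (1 + K) (C - K) beta (-beta) L0 L1 0 := by
  refine ⟨hL0, hL1, ?_⟩
  have := pi_of_poly A0 A1 A2 K C beta L0 L1 (abs_sqrt_le hx hx1).1
    (by rw [(abs_sqrt_le hx hx1).2]; exact h)
  exact this

/-- **Endpoint form with polynomials**: the interval is `[za²-1, zb²-1]`; flux end point values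
`≥ Wtan`, Parseval end point values `≥ W/c²`. -/
theorem certI_of_poly {A0 A1 A2 za zb z0 K C bt l m Ua Ub Va Vb : ℝ} (hA2 : 0 ≤ A2)
    (hza : 1 < za) (hab : za < zb) (hzb : zb ^ 2 ≤ 2) (hz0 : 1 < z0)
    (hbt : 0 ≤ bt) (hl : 0 ≤ l) (hm : 0 ≤ m)
    (hW : ∀ c, za ^ 2 - 1 ≤ c → c ≤ zb ^ 2 - 1 → 0 ≤ Wf A0 A1 A2 c)
    (hUa : Wtan A0 A1 A2 z0 ((za ^ 2 - 1) ^ 2) ≤ Ua)
    (hUb : Wtan A0 A1 A2 z0 ((zb ^ 2 - 1) ^ 2) ≤ Ub)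
    (hVa : Wz A0 A1 A2 za ≤ (za ^ 2 - 1) ^ 2 * Va)
    (hVb : Wz A0 A1 A2 zb ≤ (zb ^ 2 - 1) ^ 2 * Vb)
    (ha : ∀ y0 y1 : ℝ, 0 ≤ y1 → y1 ≤ y0 → y0 ≤ 1 →
      PolyOK A0 A1 A2 ((za ^ 2 - 1) ^ 2) K C (Ua * bt) (Va * l) (Va * m) y0 y1)
    (hb : ∀ y0 y1 : ℝ, 0 ≤ y1 → y1 ≤ y0 → y0 ≤ 1 →
      PolyOK A0 A1 A2 ((zb ^ 2 - 1) ^ 2) K C (Ub * bt) (Vb * l) (Vb * m) y0 y1) :
    CertI A0 A1 A2 (za ^ 2 - 1) (zb ^ 2 - 1) (1 + K) (C - K) bt l m := by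
  have hca : 0 < za ^ 2 - 1 := by nlinarith
  have hcab : za ^ 2 - 1 < zb ^ 2 - 1 := by nlinarith
  have hcb : zb ^ 2 - 1 ≤ 1 := by linarith
  have ea : Wf A0 A1 A2 (za ^ 2 - 1) = Wz A0 A1 A2 za := Wf_eq_Wz (by linarith) rfl
  have eb : Wf A0 A1 A2 (zb ^ 2 - 1) = Wz A0 A1 A2 zb := Wf_eq_Wz (by linarith) rfl
  have hVa' : Wf A0 A1 A2 (za ^ 2 - 1) / (za ^ 2 - 1) ^ 2 ≤ Va := by
    rw [ea, div_le_iff₀ (by positivity)]; linarith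
  have hVb' : Wf A0 A1 A2 (zb ^ 2 - 1) / (zb ^ 2 - 1) ^ 2 ≤ Vb := by
    have : 0 < zb ^ 2 - 1 := by linarith
    rw [eb, div_le_iff₀ (by positivity)]; linarith
  have hWa := hW _ le_rfl hcab.le
  have hWb := hW _ hcab.le le_rfl
  have hVa0 : 0 ≤ Va := le_trans (div_nonneg hWa (sq_nonneg _)) hVa'
  have hVb0 : 0 ≤ Vb := le_trans (div_nonneg hWb (sq_nonneg _)) hVb'
  refine certI_of_endpoints hA2 hca hcab hcb hbt hl hm hW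
    (flux_ok hA2 hz0 hca hcab hUa hUb) (pars_ok hca hcab hVa' hVb') ?_ ?_
  · exact certG_of_poly (sq_nonneg _) (by nlinarith) (mul_nonneg hVa0 hl) (mul_nonneg hVa0 hm) ha
  · exact certG_of_poly (sq_nonneg _) (by nlinarith) (mul_nonneg hVb0 hl) (mul_nonneg hVb0 hm) hb

/-- **Exact form** (dictator certificate): `PolyOK` for all `z = √(1+c)` in the interval, with any
upper bound `V z` of `W/c²`. -/
theorem certI_of_poly_z {A0 A1 A2 za zb K C bt l m : ℝ} (V : ℝ → ℝ)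
    (hza : 1 < za) (hab : za ≤ zb) (hzb : zb ^ 2 ≤ 2) (hl : 0 ≤ l) (hm : 0 ≤ m)
    (hW : ∀ c, za ^ 2 - 1 ≤ c → c ≤ zb ^ 2 - 1 → 0 ≤ Wf A0 A1 A2 c)
    (hV : ∀ z, za ≤ z → z ≤ zb → Wz A0 A1 A2 z ≤ (z ^ 2 - 1) ^ 2 * V z)
    (h : ∀ z, za ≤ z → z ≤ zb → ∀ y0 y1 : ℝ, 0 ≤ y1 → y1 ≤ y0 → y0 ≤ 1 →
      PolyOK A0 A1 A2 ((z ^ 2 - 1) ^ 2) K C (Wz A0 A1 A2 z * bt) (V z * l) (V z * m) y0 y1) :
    CertI A0 A1 A2 (za ^ 2 - 1) (zb ^ 2 - 1) (1 + K) (C - K) bt l m := by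
  intro c h1 h2
  have hca : 0 < za ^ 2 - 1 := by nlinarith
  have hc0 : 0 < c := by linarith
  have hc1 : c ≤ 1 := by linarith
  set z := Real.sqrt (1 + c) with hz
  have hz0 : 0 ≤ z := Real.sqrt_nonneg _
  have hcz : c = z ^ 2 - 1 := by rw [hz, Real.sq_sqrt (by linarith)]; ring
  have hz1 : za ≤ z := (abs_le_of_sq_le_sq' (by linarith : za ^ 2 ≤ z ^ 2) hz0).2
  have hz2 : z ≤ zb := (abs_le_of_sq_le_sq' (by linarith : z ^ 2 ≤ zb ^ 2) (by linarith)).2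
  have hWc : Wf A0 A1 A2 c = Wz A0 A1 A2 z := Wf_eq_Wz hz0 hcz
  have hc2 : c ^ 2 = (z ^ 2 - 1) ^ 2 := by rw [hcz]
  have hVc : Wf A0 A1 A2 c / c ^ 2 ≤ V z := by
    rw [div_le_iff₀ (by positivity), hWc, hc2]
    have := hV z hz1 hz2
    linarith
  have hW0 : 0 ≤ Wf A0 A1 A2 c / c ^ 2 := div_nonneg (hW c h1 h2) (sq_nonneg _)
  have hV0 : 0 ≤ V z := hW0.trans hVc
  have key := certG_of_poly (A0 := A0) (A1 := A1) (A2 := A2) (x := (z ^ 2 - 1) ^ 2)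
    (sq_nonneg _) (by rw [← hc2]; nlinarith) (mul_nonneg hV0 hl) (mul_nonneg hV0 hm)
    (h z hz1 hz2)
  rw [← hc2, ← hWc] at key
  exact certG_weaken key le_rfl (mul_nonneg hW0 hl) (mul_le_mul_of_nonneg_right hVc hl)
    (mul_nonneg hW0 hm) (mul_le_mul_of_nonneg_right hVc hm) le_rfl

/-! ### Conic families on an interval -/

/-- Scaling the flux by `U` and the Parseval rows by `V`. -/
def _root_.Crest.Agent.R307.Conic.Fam.scale (f : Fam) (U V : ℝ) : Fam :=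
  ⟨f.k1, f.k2, U * f.e1, U * f.e2, V * f.m1, V * f.m2, V * f.l1, V * f.l2⟩

lemma wt2_smul (U a1 a2 t : ℝ) : wt2 (U * a1) (U * a2) t = U * wt2 a1 a2 t := by
  unfold wt2; ring

/-- All members of a (normalised) conic family are certificates on the interval. -/
def FamI (A0 A1 A2 ca cb : ℝ) (f : Fam) : Prop :=
  ∀ t : ℝ, 0 ≤ t → t ≤ 1 → CertI A0 A1 A2 ca cb (1 + wt2 f.k1 f.k2 t) (wC t - wt2 f.k1 f.k2 t)
    (wt2 f.e1 f.e2 t) (wt2 f.m1 f.m2 t) (wt2 f.l1 f.l2 t)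

theorem famI_of_endpoints {A0 A1 A2 ca cb Ua Ub Va Vb : ℝ} (f : Fam) (hf : f.OK)
    (he1 : 0 ≤ f.e1) (he2 : 0 ≤ f.e1 + f.e2) (hA2 : 0 ≤ A2)
    (hca : 0 < ca) (hab : ca < cb) (hcb : cb ≤ 1)
    (hW : ∀ c, ca ≤ c → c ≤ cb → 0 ≤ Wf A0 A1 A2 c)
    (hU : ∀ c, ca ≤ c → c ≤ cb →
      (cb ^ 2 - ca ^ 2) * Wf A0 A1 A2 c ≤ (cb ^ 2 - c ^ 2) * Ua + (c ^ 2 - ca ^ 2) * Ub)
    (hV : ∀ c, ca ≤ c → c ≤ cb →
      (cb ^ 2 - ca ^ 2) * (Wf A0 A1 A2 c / c ^ 2) ≤ (cb ^ 2 - c ^ 2) * Va + (c ^ 2 - ca ^ 2) * Vb)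
    (ha : (f.scale Ua Va).Cert (Real.sqrt (1 - ca ^ 2)) (FA A0 A1 A2))
    (hb : (f.scale Ub Vb).Cert (Real.sqrt (1 - cb ^ 2)) (FA A0 A1 A2)) :
    FamI A0 A1 A2 ca cb f := by
  intro t h0 h1
  obtain ⟨_, _, _, _, hm1, hm2, hl1, hl2⟩ := hf
  refine certI_of_endpoints hA2 hca hab hcb (wt2_nonneg he1 he2 h0 h1)
    (wt2_nonneg hm1 hm2 h0 h1) (wt2_nonneg hl1 hl2 h0 h1) hW hU hV ?_ ?_
  · have := ha t h0 h1
    simp only [Fam.scale, wt2_smul] at this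
    exact this
  · have := hb t h0 h1
    simp only [Fam.scale, wt2_smul] at this
    exact this

/-- `FamI` from the polynomial condition `PolyPC` at the two end points. -/
theorem famI_of_PolyPC {A0 A1 A2 za zb z0 Ua Ub Va Vb : ℝ} (f : Fam) (hf : f.OK)
    (he1 : 0 ≤ f.e1) (he2 : 0 ≤ f.e1 + f.e2) (hA2 : 0 ≤ A2)
    (hza : 1 < za) (hab : za < zb) (hzb : zb ^ 2 ≤ 2) (hz0 : 1 < z0)
    (hW : ∀ c, za ^ 2 - 1 ≤ c → c ≤ zb ^ 2 - 1 → 0 ≤ Wf A0 A1 A2 c)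
    (hUa : Wtan A0 A1 A2 z0 ((za ^ 2 - 1) ^ 2) ≤ Ua)
    (hUb : Wtan A0 A1 A2 z0 ((zb ^ 2 - 1) ^ 2) ≤ Ub)
    (hVa : Wz A0 A1 A2 za ≤ (za ^ 2 - 1) ^ 2 * Va)
    (hVb : Wz A0 A1 A2 zb ≤ (zb ^ 2 - 1) ^ 2 * Vb)
    (ha : ∀ y0 r : ℝ, 0 < y0 → y0 ≤ 1 → 0 ≤ r → r ≤ 1 →
      (f.scale Ua Va).PolyPC A0 A1 A2 ((za ^ 2 - 1) ^ 2) y0 r)
    (hb : ∀ y0 r : ℝ, 0 < y0 → y0 ≤ 1 → 0 ≤ r → r ≤ 1 →
      (f.scale Ub Vb).PolyPC A0 A1 A2 ((zb ^ 2 - 1) ^ 2) y0 r) :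
    FamI A0 A1 A2 (za ^ 2 - 1) (zb ^ 2 - 1) f := by
  have hca : 0 < za ^ 2 - 1 := by nlinarith
  have hcab : za ^ 2 - 1 < zb ^ 2 - 1 := by nlinarith
  have hcb : zb ^ 2 - 1 ≤ 1 := by linarith
  have ea : Wf A0 A1 A2 (za ^ 2 - 1) = Wz A0 A1 A2 za := Wf_eq_Wz (by linarith) rfl
  have eb : Wf A0 A1 A2 (zb ^ 2 - 1) = Wz A0 A1 A2 zb := Wf_eq_Wz (by linarith) rfl
  have hVa' : Wf A0 A1 A2 (za ^ 2 - 1) / (za ^ 2 - 1) ^ 2 ≤ Va := by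
    rw [ea, div_le_iff₀ (by positivity)]; linarith
  have hVb' : Wf A0 A1 A2 (zb ^ 2 - 1) / (zb ^ 2 - 1) ^ 2 ≤ Vb := by
    have : 0 < zb ^ 2 - 1 := by linarith
    rw [eb, div_le_iff₀ (by positivity)]; linarith
  have hVa0 : 0 ≤ Va := le_trans (div_nonneg (hW _ le_rfl hcab.le) (sq_nonneg _)) hVa'
  have hVb0 : 0 ≤ Vb := le_trans (div_nonneg (hW _ hcab.le le_rfl) (sq_nonneg _)) hVb'
  have hok : ∀ {U V : ℝ}, 0 ≤ V → (f.scale U V).OK := by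
    intro U V hV0
    obtain ⟨a1, a2, a3, a4, a5, a6, a7, a8⟩ := hf
    refine ⟨a1, a2, a3, a4, mul_nonneg hV0 a5, ?_, mul_nonneg hV0 a7, ?_⟩
    · show 0 ≤ V * f.m1 + V * f.m2
      rw [← mul_add]; exact mul_nonneg hV0 a6
    · show 0 ≤ V * f.l1 + V * f.l2
      rw [← mul_add]; exact mul_nonneg hV0 a8
  have hx : ∀ {y : ℝ}, 0 ≤ y → y ≤ 1 → 0 ≤ y ^ 2 ∧ y ^ 2 ≤ 1 := fun h1 h2 =>
    ⟨sq_nonneg _, by nlinarith⟩
  refine famI_of_endpoints f hf he1 he2 hA2 hca hcab hcb hW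
    (flux_ok hA2 hz0 hca hcab hUa hUb) (pars_ok hca hcab hVa' hVb') ?_ ?_
  · have hh := hx hca.le (by linarith : za ^ 2 - 1 ≤ 1)
    refine Fam.cert_of_PolyPC _ (hok hVa0) (abs_sqrt_le hh.1 hh.2).1 ?_
    rw [(abs_sqrt_le hh.1 hh.2).2]; exact ha
  · have hh := hx (by linarith : 0 ≤ zb ^ 2 - 1) hcb
    refine Fam.cert_of_PolyPC _ (hok hVb0) (abs_sqrt_le hh.1 hh.2).1 ?_
    rw [(abs_sqrt_le hh.1 hh.2).2]; exact hb

/-- The scalar step from a conic family, normalised: choose `t`. -/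
theorem famI_step {A0 A1 A2 ca cb : ℝ} (f : Fam) (hf : f.OK) (hc : FamI A0 A1 A2 ca cb f)
    (B d : ℝ → ℝ) {n0 n1 : ℝ}
    (h : SC (2 * B ((n0 + n1) / 2) - B n0 - B n1)
      (f.Ah (B n0) (B n1) n0 n1 (d n0) (d n1)) (f.Bh (B n0) (B n1) n0 n1 (d n0) (d n1))) :
    ∃ p1 q1 bt l m : ℝ, 0 ≤ p1 ∧ 0 ≤ q1 ∧ CertI A0 A1 A2 ca cb p1 q1 bt l m ∧
      2 * B ((n0 + n1) / 2) ≤ p1 * B n0 + q1 * B n1 + bt * (n0 - n1) + l * d n0 + m * d n1 := by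
  obtain ⟨t, h0, h1, ht⟩ := h.exists
  refine ⟨_, _, _, _, _, one_add_K_nonneg hf.1 hf.2.1 h0 h1,
    C_sub_K_nonneg hf.2.2.1 hf.2.2.2.1 h0 h1, hc t h0 h1, ?_⟩
  have hp : (0:ℝ) < 1 + t ^ 2 := by positivity
  have e := f.row (B n0) (B n1) n0 n1 (d n0) (d n1) (2 * B ((n0 + n1) / 2)) t
  have h2 : (1 + t ^ 2) * (2 * B ((n0 + n1) / 2) - ((1 + wt2 f.k1 f.k2 t) * B n0 +
      (wC t - wt2 f.k1 f.k2 t) * B n1 +
      wt2 f.e1 f.e2 t * n0 + (-wt2 f.e1 f.e2 t) * n1 +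
      wt2 f.m1 f.m2 t * d n0 + wt2 f.l1 f.l2 t * d n1)) ≤ 0 := by
    rw [e]; linarith
  have h3 := nonpos_of_mul_nonpos_right h2 hp
  linarith

/-! ### The one-sided theorem on an interval -/

/-- certificate + a general lower bound `D` of `E P(1-P)` -/
lemma certG_TT_D {ρ : ℝ} (hρ : |ρ| ≤ 1) {u : ℝ → ℝ} {p1 q1 p2 q2 l1 m1 k : ℝ}
    (hc : CertG ρ u p1 q1 p2 q2 l1 m1 k) (D : ℝ → ℝ)
    (hD : ∀ (n : ℕ) (f : (Fin n → Bool) → Bool),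
      D (cubeAverage (TT ρ f)) ≤ cubeAverage (fun x => TT ρ f x * (1 - TT ρ f x)))
    {n : ℕ} (g0 g1 : (Fin n → Bool) → Bool) (hle : ∀ x, TT ρ g1 x ≤ TT ρ g0 x) :
    p1 * cubeAverage (fun x => u (TT ρ g0 x)) + q1 * cubeAverage (fun x => u (TT ρ g1 x)) +
      p2 * cubeAverage (TT ρ g0) + q2 * cubeAverage (TT ρ g1) +
      (l1 * D (cubeAverage (TT ρ g0)) + m1 * D (cubeAverage (TT ρ g1))) - k ≤
    cubeAverage (fun x => u ((1 + ρ) / 2 * TT ρ g0 x + (1 - ρ) / 2 * TT ρ g1 x)) +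
      cubeAverage (fun x => u ((1 - ρ) / 2 * TT ρ g0 x + (1 + ρ) / 2 * TT ρ g1 x)) := by
  have h := certG_average hc (P := TT ρ g0) (Q := TT ρ g1) (TT_nonneg hρ g1) hle
    (TT_le_one hρ g0)
  have a0 := mul_le_mul_of_nonneg_left (hD n g0) hc.1
  have a1 := mul_le_mul_of_nonneg_left (hD n g1) hc.2.1
  linarith

/-- One function, with a general lower bound `D` of `E P(1-P)`. -/
theorem one_functionD {ρ : ℝ} (h0 : 0 ≤ ρ) (h1 : ρ ≤ 1) {u : ℝ → ℝ}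
    (hu : ConcaveOn ℝ (Icc 0 1) u) (D : ℝ → ℝ)
    (hD : ∀ (n : ℕ) (f : (Fin n → Bool) → Bool),
      D (cubeAverage (TT ρ f)) ≤ cubeAverage (fun x => TT ρ f x * (1 - TT ρ f x)))
    (b : ℝ → ℝ) (hb0 : b 0 ≤ u 0) (hb1 : b 1 ≤ u 1)
    (hI : ∀ ν0 ν1 : ℝ, 0 ≤ ν1 → ν1 ≤ ν0 → ν0 ≤ 1 → ∃ p1 q1 p2 q2 l1 m1 k : ℝ,
      0 ≤ p1 ∧ 0 ≤ q1 ∧ CertG ρ u p1 q1 p2 q2 l1 m1 k ∧
      2 * b ((ν0 + ν1) / 2) ≤ p1 * b ν0 + q1 * b ν1 + p2 * ν0 + q2 * ν1 +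
        (l1 * D ν0 + m1 * D ν1) - k)
    (n : ℕ) (f : (Fin n → Bool) → Bool) :
    b (cubeAverage (TT ρ f)) ≤ cubeAverage (fun x => u (TT ρ f x)) := by
  have habs : |ρ| ≤ 1 := by rw [abs_of_nonneg h0]; exact h1
  refine bool_inductionG h0 h1 hu hu (fun μ s _ => b μ ≤ s) ?_ hb0 hb1 ?_ n f
  · intro μ s t s' t' hs hss' _
    exact hs.trans hss'
  · intro n g0 g1 hle a0 a1
    obtain ⟨p1, q1, p2, q2, l1, m1, k, hp1, hq1, hc, hineq⟩ :=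
      hI (cubeAverage (TT ρ g0)) (cubeAverage (TT ρ g1)) (mem_unit_TT habs g1).1
        (cubeAverage_mono hle) (mem_unit_TT habs g0).2
    have e := certG_TT_D habs hc D hD g0 g1 hle
    have e1 := mul_le_mul_of_nonneg_left a0 hp1
    have e2 := mul_le_mul_of_nonneg_left a1 hq1
    linarith

/-- The plain Parseval bound in the form used here. -/
lemma parseval_plain {c : ℝ} (hc : 0 ≤ c) (hc1 : c ≤ 1) (n : ℕ) (f : (Fin n → Bool) → Bool) :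
    c ^ 2 * (cubeAverage (TT (Real.sqrt (1 - c ^ 2)) f) *
        (1 - cubeAverage (TT (Real.sqrt (1 - c ^ 2)) f))) ≤
      cubeAverage (fun x => TT (Real.sqrt (1 - c ^ 2)) f x * (1 - TT (Real.sqrt (1 - c ^ 2)) f x)) := by
  have h2 : c ^ 2 ≤ 1 := by nlinarith
  have h := parseval_TT (abs_sqrt_le (sq_nonneg c) h2).1 f
  rw [(abs_sqrt_le (sq_nonneg c) h2).2] at h
  exact h

/-- **One-sided theorem on an interval.** -/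
theorem one_sided {A0 A1 A2 ca cb : ℝ} (hu : ConcaveOn ℝ (Icc 0 1) (FA A0 A1 A2))
    (hca : 0 < ca) (hcb : cb ≤ 1)
    (hW : ∀ c, ca ≤ c → c ≤ cb → 0 ≤ Wf A0 A1 A2 c) (d : ℝ → ℝ)
    (hd : ∀ c, ca ≤ c → c ≤ cb → ∀ (n : ℕ) (f : (Fin n → Bool) → Bool),
      c ^ 2 * d (cubeAverage (TT (Real.sqrt (1 - c ^ 2)) f)) ≤
      cubeAverage (fun x => TT (Real.sqrt (1 - c ^ 2)) f x *
        (1 - TT (Real.sqrt (1 - c ^ 2)) f x)))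
    (B : ℝ → ℝ) (hB0 : B 0 ≤ 0) (hB1 : B 1 ≤ 0)
    (hI : ∀ n0 n1 : ℝ, 0 ≤ n1 → n1 ≤ n0 → n0 ≤ 1 → ∃ p1 q1 bt l m : ℝ,
      0 ≤ p1 ∧ 0 ≤ q1 ∧ CertI A0 A1 A2 ca cb p1 q1 bt l m ∧
      2 * B ((n0 + n1) / 2) ≤ p1 * B n0 + q1 * B n1 + bt * (n0 - n1) + l * d n0 + m * d n1)
    {c : ℝ} (h1 : ca ≤ c) (h2 : c ≤ cb) (n : ℕ) (f : (Fin n → Bool) → Bool) :
    Wf A0 A1 A2 c * B (cubeAverage (TT (Real.sqrt (1 - c ^ 2)) f)) ≤
      cubeAverage (fun x => FA A0 A1 A2 (TT (Real.sqrt (1 - c ^ 2)) f x)) := by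
  have hc0 : 0 < c := by linarith
  have hc1 : c ≤ 1 := by linarith
  have hW0 := hW c h1 h2
  refine one_functionD (Real.sqrt_nonneg _)
    (Real.sqrt_le_iff.mpr ⟨by norm_num, by nlinarith⟩) hu (fun ν => c ^ 2 * d ν)
    (hd c h1 h2) (fun ν => Wf A0 A1 A2 c * B ν) ?_ ?_ ?_ n f
  · rw [FA_zero]; exact mul_nonpos_of_nonneg_of_nonpos hW0 hB0
  · rw [FA_one]; exact mul_nonpos_of_nonneg_of_nonpos hW0 hB1
  · intro n0 n1 a1 a2 a3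
    obtain ⟨p1, q1, bt, l, m, hp, hq, hC, hineq⟩ := hI n0 n1 a1 a2 a3
    refine ⟨p1, q1, _, _, _, _, 0, hp, hq, hC c h1 h2, ?_⟩
    have e := mul_le_mul_of_nonneg_left hineq hW0
    have e2 : Wf A0 A1 A2 c / c ^ 2 * l * (c ^ 2 * d n0) = Wf A0 A1 A2 c * (l * d n0) := by
      field_simp
    have e3 : Wf A0 A1 A2 c / c ^ 2 * m * (c ^ 2 * d n1) = Wf A0 A1 A2 c * (m * d n1) := by
      field_simp
    rw [e2, e3]
    linarith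

/-- One-sided theorem, both sides added. -/
theorem one_sided' {A0 A1 A2 ca cb : ℝ} (hu : ConcaveOn ℝ (Icc 0 1) (FA A0 A1 A2))
    (hca : 0 < ca) (hcb : cb ≤ 1)
    (hW : ∀ c, ca ≤ c → c ≤ cb → 0 ≤ Wf A0 A1 A2 c) (d : ℝ → ℝ)
    (hd : ∀ c, ca ≤ c → c ≤ cb → ∀ (n : ℕ) (f : (Fin n → Bool) → Bool),
      c ^ 2 * d (cubeAverage (TT (Real.sqrt (1 - c ^ 2)) f)) ≤
      cubeAverage (fun x => TT (Real.sqrt (1 - c ^ 2)) f x *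
        (1 - TT (Real.sqrt (1 - c ^ 2)) f x)))
    (B : ℝ → ℝ) (hB0 : B 0 ≤ 0) (hB1 : B 1 ≤ 0)
    (hI : ∀ n0 n1 : ℝ, 0 ≤ n1 → n1 ≤ n0 → n0 ≤ 1 → ∃ p1 q1 bt l m : ℝ,
      0 ≤ p1 ∧ 0 ≤ q1 ∧ CertI A0 A1 A2 ca cb p1 q1 bt l m ∧
      2 * B ((n0 + n1) / 2) ≤ p1 * B n0 + q1 * B n1 + bt * (n0 - n1) + l * d n0 + m * d n1)
    {c : ℝ} (h1 : ca ≤ c) (h2 : c ≤ cb) (n : ℕ) (f : (Fin n → Bool) → Bool) :
    Wf A0 A1 A2 c * (B (cubeAverage (TT (Real.sqrt (1 - c ^ 2)) f)) +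
        B (1 - cubeAverage (TT (Real.sqrt (1 - c ^ 2)) f))) ≤
      cubeAverage (fun x => FA A0 A1 A2 (TT (Real.sqrt (1 - c ^ 2)) f x)) +
      cubeAverage (fun x => FA A0 A1 A2 (1 - TT (Real.sqrt (1 - c ^ 2)) f x)) := by
  set ρ := Real.sqrt (1 - c ^ 2) with hρ
  have a := one_sided hu hca hcb hW d hd B hB0 hB1 hI h1 h2 n f
  have b := one_sided hu hca hcb hW d hd B hB0 hB1 hI h1 h2 n (fun y => !f y)
  rw [← hρ] at a b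
  have e : ∀ x, TT ρ (fun y => !f y) x = 1 - TT ρ f x := TT_not ρ f
  have e' : cubeAverage (TT ρ fun y => !f y) = 1 - cubeAverage (TT ρ f) := by
    rw [← cubeAverage_one_sub]
    congr 1
    funext x
    exact e x
  rw [e'] at b
  simp only [e] at b
  rw [mul_add]
  linarith

/-! ### The tangent condition and the final inequality -/

/-- The tangent condition (T) at `c`. -/
def TanAt (A0 A1 A2 c : ℝ) : Prop :=
  ∀ x : ℝ, 0 ≤ x → x ≤ 1 → Wf A0 A1 A2 x ≤ Wf A0 A1 A2 c + Wd A0 A1 A2 c * (x - c)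

/-- (T) from a polynomial inequality in `z = √(1+c)`, `y = √(1+x)`. -/
theorem tanAt_of_poly {A0 A1 A2 z : ℝ} (hz : 1 ≤ z)
    (h : ∀ y : ℝ, 1 ≤ y → y ^ 2 ≤ 2 →
      z * (y + z) ^ 2 * ((2 * A0 + A1) / 4 + A2 / 4 -
        A2 * ((y ^ 2 - 1) ^ 2 + 2 * (y ^ 2 - 1) * (z ^ 2 - 1) + 3 * (z ^ 2 - 1) ^ 2) / 8) ≤ 1) :
    TanAt A0 A1 A2 (z ^ 2 - 1) := by
  intro x hx0 hx1
  set y := Real.sqrt (1 + x) with hy
  have hy1 : 1 ≤ y := by rw [hy]; exact Real.le_sqrt_of_sq_le (by linarith)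
  have hxy : x = y ^ 2 - 1 := by rw [hy, Real.sq_sqrt (by linarith)]; ring
  have hy2 : y ^ 2 ≤ 2 := by linarith
  rw [Wf_eq_Wz (by linarith) hxy, Wf_eq_Wz (by linarith) rfl, Wd_eq_Wdz (by linarith) rfl, hxy]
  have key := h y hy1 hy2
  have e : z * (Wz A0 A1 A2 z + Wdz A0 A1 A2 z * (y ^ 2 - 1 - (z ^ 2 - 1)) - Wz A0 A1 A2 y) =
      (y - z) ^ 2 * (1 - z * (y + z) ^ 2 * ((2 * A0 + A1) / 4 + A2 / 4 -
        A2 * ((y ^ 2 - 1) ^ 2 + 2 * (y ^ 2 - 1) * (z ^ 2 - 1) + 3 * (z ^ 2 - 1) ^ 2) / 8)) := by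
    unfold Wz Wdz
    have hz0 : z ≠ 0 := by positivity
    field_simp
    ring
  have h1 : 0 ≤ z * (Wz A0 A1 A2 z + Wdz A0 A1 A2 z * (y ^ 2 - 1 - (z ^ 2 - 1)) -
      Wz A0 A1 A2 y) := by
    rw [e]
    exact mul_nonneg (sq_nonneg _) (by linarith)
  have h2 := nonneg_of_mul_nonneg_right h1 (by linarith : 0 < z)
  linarith

/-- `W'/W` at the right end point is a lower bound on the whole interval. -/
lemma rate_le {A0 A1 A2 ca cb r : ℝ} (hcb : cb ≤ 1) (hca : 0 ≤ ca)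
    (hT : ∀ c, ca ≤ c → c ≤ cb → TanAt A0 A1 A2 c) (hWd : 0 ≤ Wd A0 A1 A2 cb) (hr0 : 0 ≤ r)
    (hr : r * Wf A0 A1 A2 cb ≤ Wd A0 A1 A2 cb) {c : ℝ} (h1 : ca ≤ c) (h2 : c ≤ cb) :
    r * Wf A0 A1 A2 c ≤ Wd A0 A1 A2 c := by
  rcases h2.eq_or_lt with h | h
  · rw [h]; exact hr
  · have a := hT c h1 h2 cb (by linarith) hcb
    have b := hT cb (by linarith) le_rfl c (by linarith) (by linarith)
    have e1 : Wd A0 A1 A2 cb ≤ Wd A0 A1 A2 c := by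
      have : 0 ≤ (Wd A0 A1 A2 c - Wd A0 A1 A2 cb) * (cb - c) := by linarith
      have := nonneg_of_mul_nonneg_left this (by linarith)
      linarith
    have e2 : Wf A0 A1 A2 c ≤ Wf A0 A1 A2 cb := by
      have : Wd A0 A1 A2 cb * (c - cb) ≤ 0 :=
        mul_nonpos_of_nonneg_of_nonpos hWd (by linarith)
      linarith
    have := mul_le_mul_of_nonneg_left e2 hr0
    linarith

/-- **(FIN)** on the interval: from `1 - r(1-√(1-(2μ-1)²)) ≤ S`. -/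
theorem fin_interval {A0 A1 A2 ca cb r : ℝ} (hcb : cb ≤ 1) (hca : 0 ≤ ca)
    (hT : ∀ c, ca ≤ c → c ≤ cb → TanAt A0 A1 A2 c) (hWd : 0 ≤ Wd A0 A1 A2 cb) (hr0 : 0 ≤ r)
    (hr : r * Wf A0 A1 A2 cb ≤ Wd A0 A1 A2 cb)
    (hW : ∀ c, ca ≤ c → c ≤ cb → 0 ≤ Wf A0 A1 A2 c) {μ S c : ℝ}
    (hS : 1 - r * (1 - Real.sqrt (1 - (2 * μ - 1) ^ 2)) ≤ S) (h1 : ca ≤ c) (h2 : c ≤ cb) :
    Wf A0 A1 A2 c - Wd A0 A1 A2 c * (1 - Real.sqrt (1 - (2 * μ - 1) ^ 2)) ≤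
      Wf A0 A1 A2 c * S := by
  have hr' := rate_le hcb hca hT hWd hr0 hr h1 h2
  have hs : Real.sqrt (1 - (2 * μ - 1) ^ 2) ≤ 1 :=
    Real.sqrt_le_iff.mpr ⟨by norm_num, by nlinarith [sq_nonneg (2 * μ - 1)]⟩
  have e1 := mul_le_mul_of_nonneg_left hS (hW c h1 h2)
  have e2 := mul_le_mul_of_nonneg_right hr' (by linarith : 0 ≤ 1 - Real.sqrt (1 - (2 * μ - 1) ^ 2))
  linarith

/-- **Final one-sided theorem on an interval**, in the form needed by the last reduction. -/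
theorem interval_final {A0 A1 A2 ca cb r : ℝ} (hu : ConcaveOn ℝ (Icc 0 1) (FA A0 A1 A2))
    (hca : 0 < ca) (hcb : cb ≤ 1)
    (hW : ∀ c, ca ≤ c → c ≤ cb → 0 ≤ Wf A0 A1 A2 c) (d : ℝ → ℝ)
    (hd : ∀ c, ca ≤ c → c ≤ cb → ∀ (n : ℕ) (f : (Fin n → Bool) → Bool),
      c ^ 2 * d (cubeAverage (TT (Real.sqrt (1 - c ^ 2)) f)) ≤
      cubeAverage (fun x => TT (Real.sqrt (1 - c ^ 2)) f x *
        (1 - TT (Real.sqrt (1 - c ^ 2)) f x)))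
    (B : ℝ → ℝ) (hB0 : B 0 ≤ 0) (hB1 : B 1 ≤ 0)
    (hI : ∀ n0 n1 : ℝ, 0 ≤ n1 → n1 ≤ n0 → n0 ≤ 1 → ∃ p1 q1 bt l m : ℝ,
      0 ≤ p1 ∧ 0 ≤ q1 ∧ CertI A0 A1 A2 ca cb p1 q1 bt l m ∧
      2 * B ((n0 + n1) / 2) ≤ p1 * B n0 + q1 * B n1 + bt * (n0 - n1) + l * d n0 + m * d n1)
    (hT : ∀ c, ca ≤ c → c ≤ cb → TanAt A0 A1 A2 c) (hWd : 0 ≤ Wd A0 A1 A2 cb) (hr0 : 0 ≤ r)
    (hr : r * Wf A0 A1 A2 cb ≤ Wd A0 A1 A2 cb)
    (hfin : ∀ μ : ℝ, 0 ≤ μ → μ ≤ 1 →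
      1 - r * (1 - Real.sqrt (1 - (2 * μ - 1) ^ 2)) ≤ B μ + B (1 - μ))
    {c : ℝ} (h1 : ca ≤ c) (h2 : c ≤ cb) (n : ℕ) (f : (Fin n → Bool) → Bool) :
    Wf A0 A1 A2 c - Wd A0 A1 A2 c *
        (1 - Real.sqrt (1 - (2 * cubeAverage (TT (Real.sqrt (1 - c ^ 2)) f) - 1) ^ 2)) ≤
      cubeAverage (fun x => FA A0 A1 A2 (TT (Real.sqrt (1 - c ^ 2)) f x)) +
      cubeAverage (fun x => FA A0 A1 A2 (1 - TT (Real.sqrt (1 - c ^ 2)) f x)) := by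
  have hc2 : c ^ 2 ≤ 1 := by nlinarith
  have hm := mem_unit_TT (abs_sqrt_le (sq_nonneg c) hc2).1 f
  exact (fin_interval hcb hca.le hT hWd hr0 hr hW (hfin _ hm.1 hm.2) h1 h2).trans
    (one_sided' hu hca hcb hW d hd B hB0 hB1 hI h1 h2 n f)

end Crest.Agent.R307.GenInt
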