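import Crest.Agent.R307.GenInd

/-!
Row 307, S0471: the refined Parseval row (P1) of helper426 (note 6577), by helper775.

`W1 g` is the level-one Fourier weight.

* `level_one`: `4 W1 (1_A) ≤ (1 - m²)(1 - 7/10 m²)`, `m = 2 E 1_A - 1`.
* `noise_sq_le`: `E (T_ρ g)² ≤ (E g)² + ρ² W1 g + ρ⁴ (E g² - (E g)² - W1 g)`.
* `parseval_P1`: `(1-ρ²) DP ρ μ ≤ E P(1-P)`, `DP ρ ν = ν(1-ν)(1 + 7/10 ρ² (1-2ν)²)`.
* `Row ρ D`, `row_plain`, `row_P1`, `row_P1_of_le`, `certG_TT_D`, `certG_TT_D'`,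
  `region_inductionD`, `one_functionD`, `one_functionD'`: the inductions of `GenInd` with an
  arbitrary Parseval row `D`.
-/

set_option autoImplicit false

open Crest.CubeNoise Set

namespace Crest.Agent.R307.ParsevalP1

open Crest.Agent.R307 Crest.Agent.R307.Ode Crest.Agent.R307.TwoSet Crest.Agent.R307.GenInd

/-- first order Fourier coefficient -/
noncomputable def co {n : ℕ} (g : (Fin n → Bool) → ℝ) (i : Fin n) : ℝ :=
  cubeAverage (fun x => g x * spin (x i))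

/-- level-one weight -/
noncomputable def W1 {n : ℕ} (g : (Fin n → Bool) → ℝ) : ℝ := ∑ i, (co g i) ^ 2

lemma co_zero_idx {n : ℕ} (g : (Fin (n + 1) → Bool) → ℝ) :
    co g 0 = (cubeAverage (sl1 g) - cubeAverage (sl0 g)) / 2 := by
  unfold co
  rw [cubeAverage_split]
  have e0 : sl0 (fun x => g x * spin (x 0)) = fun x => (-1) * sl0 g x := by
    funext x; simp [sl0, spin]
  have e1 : sl1 (fun x => g x * spin (x 0)) = fun x => 1 * sl1 g x := by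
    funext x; simp [sl1, spin]
  rw [e0, e1, cubeAverage_const_mul, cubeAverage_const_mul]
  ring

lemma co_succ {n : ℕ} (g : (Fin (n + 1) → Bool) → ℝ) (i : Fin n) :
    co g i.succ = (co (sl0 g) i + co (sl1 g) i) / 2 := by
  unfold co
  rw [cubeAverage_split]
  rfl

lemma W1_succ {n : ℕ} (g : (Fin (n + 1) → Bool) → ℝ) :
    W1 g = ((cubeAverage (sl1 g) - cubeAverage (sl0 g)) / 2) ^ 2 +
      ∑ i, ((co (sl0 g) i + co (sl1 g) i) / 2) ^ 2 := by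
  unfold W1
  rw [Fin.sum_univ_succ, co_zero_idx]
  congr 1
  exact Finset.sum_congr rfl fun i _ => by rw [co_succ]

lemma W1_nonneg {n : ℕ} (g : (Fin n → Bool) → ℝ) : 0 ≤ W1 g :=
  Finset.sum_nonneg fun _ _ => sq_nonneg _

lemma co_add {n : ℕ} (g h : (Fin n → Bool) → ℝ) (i : Fin n) :
    co (fun x => g x + h x) i = co g i + co h i := by
  unfold co
  rw [← cubeAverage_add]
  congr 1
  funext x; ring

lemma co_const_mul {n : ℕ} (c : ℝ) (g : (Fin n → Bool) → ℝ) (i : Fin n) :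
    co (fun x => c * g x) i = c * co g i := by
  unfold co
  rw [← cubeAverage_const_mul]
  congr 1
  funext x; ring

/-! ### the scalar step -/

/-- `(1 - x²)(1 - 7/10 x²)` -/
noncomputable def RR1 (x : ℝ) : ℝ := (1 - x ^ 2) * (1 - 7 / 10 * x ^ 2)

lemma RR1_nonneg {x : ℝ} (h : x ^ 2 ≤ 1) : 0 ≤ RR1 x := by
  unfold RR1
  exact mul_nonneg (by linarith) (by linarith)

lemma disc_aux {U : ℝ} (h0 : 0 ≤ U) (h1 : U ≤ 3 / 5) :
    -(63 / 250) + 23569 / 10000 * U - 3087 / 200 * U ^ 2 + 194481 / 10000 * U ^ 3 ≤ 0 := by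
  rcases le_total U (1 / 5) with h | h
  · nlinarith [mul_nonneg (mul_nonneg h0 h0) (sub_nonneg.2 h), sq_nonneg (U - 1 / 10)]
  · nlinarith [mul_nonneg (mul_nonneg (sub_nonneg.2 h) (sub_nonneg.2 h1)) h0,
      mul_nonneg (sub_nonneg.2 h) (sub_nonneg.2 h1), mul_nonneg h0 h0]

/-- the quotient polynomial is nonnegative -/
lemma EE_nonneg {U V : ℝ} (h0 : 0 ≤ U) (h1 : U ≤ 1) (hV : 0 ≤ V) :
    0 ≤ 7 / 10 * (1 - V) ^ 2 + U * (-(5 / 2) + 287 / 100 * U - 49 / 50 * U ^ 2 + 63 / 100 * V +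
      343 / 100 * U * V + 49 / 25 * V ^ 2) := by
  have hc : 0 ≤ 7 / 10 - 5 / 2 * U + 287 / 100 * U ^ 2 - 49 / 50 * U ^ 3 := by
    nlinarith [mul_nonneg (sub_nonneg.2 h1) (sq_nonneg (U - 13 / 20)), sq_nonneg (U - 13 / 20),
      mul_nonneg h0 (sq_nonneg (U - 13 / 20)), sub_nonneg.2 h1]
  rcases le_total U (3 / 5) with h | h
  · have hd := disc_aux h0 h
    have ha : (0:ℝ) < 7 / 10 + 49 / 25 * U := by linarith
    have key : 0 ≤ 4 * (7 / 10 + 49 / 25 * U) *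
        (7 / 10 * (1 - V) ^ 2 + U * (-(5 / 2) + 287 / 100 * U - 49 / 50 * U ^ 2 + 63 / 100 * V +
      343 / 100 * U * V + 49 / 25 * V ^ 2)) := by
      have h2 : 0 ≤ -U * (-(63 / 250) + 23569 / 10000 * U - 3087 / 200 * U ^ 2 +
          194481 / 10000 * U ^ 3) := by
        have := mul_nonneg h0 (neg_nonneg.2 hd)
        linarith
      have h3 := sq_nonneg (2 * (7 / 10 + 49 / 25 * U) * V +
        (-(7 / 5) + 63 / 100 * U + 343 / 100 * U ^ 2))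
      nlinarith [h2, h3]
    exact nonneg_of_mul_nonneg_right (by linarith) (by linarith : (0:ℝ) < 4 * (7 / 10 + 49 / 25 * U))
  · have hb : 0 ≤ -(7 / 5) + 63 / 100 * U + 343 / 100 * U ^ 2 := by nlinarith
    have := mul_nonneg hV hb
    have := mul_nonneg (mul_nonneg hV hV) (by linarith : (0:ℝ) ≤ 7 / 10 + 49 / 25 * U)
    nlinarith

/-- half of `4(R(M) - h²) - R(M+h) - R(M-h)` -/
noncomputable def SS1 (M h : ℝ) : ℝ :=
  (1 - M ^ 2) * (1 - 7 / 10 * M ^ 2) - h ^ 2 * (3 / 10 + 21 / 5 * M ^ 2 + 7 / 10 * h ^ 2)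

lemma SS1_eq (M h : ℝ) : 2 * SS1 M h = 4 * (RR1 M - h ^ 2) - RR1 (M + h) - RR1 (M - h) := by
  unfold SS1 RR1; ring

lemma SS1_nonneg {M h : ℝ} (hM : 0 ≤ M) (hh : 0 ≤ h) (h1 : M + h ≤ 1) : 0 ≤ SS1 M h := by
  have h2 : h ^ 2 ≤ (1 - M) ^ 2 := by
    have : h ≤ 1 - M := by linarith
    exact pow_le_pow_left₀ hh this 2
  have h3 : h ^ 2 * (3 / 10 + 21 / 5 * M ^ 2 + 7 / 10 * h ^ 2) ≤
      (1 - M) ^ 2 * (3 / 10 + 21 / 5 * M ^ 2 + 7 / 10 * (1 - M) ^ 2) := by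
    apply mul_le_mul h2 (by linarith) (by positivity) (by positivity)
  have h4 : 0 ≤ (1 - M) * (2 * M * (17 / 10 - 7 / 2 * M + 21 / 10 * M ^ 2)) := by
    apply mul_nonneg (by linarith)
    apply mul_nonneg (by linarith)
    nlinarith [sq_nonneg (M - 5 / 6)]
  unfold SS1
  nlinarith [h3, h4]

lemma SS1_sq {M h : ℝ} (hM : M ^ 2 ≤ 1) :
    RR1 (M + h) * RR1 (M - h) ≤ SS1 M h ^ 2 := by
  have := mul_nonneg (sq_nonneg h) (EE_nonneg (sq_nonneg M) hM (sq_nonneg h))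
  have e : SS1 M h ^ 2 - RR1 (M + h) * RR1 (M - h) =
      4 * (h ^ 2 * (7 / 10 * (1 - h ^ 2) ^ 2 + M ^ 2 * (-(5 / 2) + 287 / 100 * M ^ 2
        - 49 / 50 * (M ^ 2) ^ 2 + 63 / 100 * h ^ 2 +
      343 / 100 * M ^ 2 * h ^ 2 + 49 / 25 * (h ^ 2) ^ 2))) := by
    unfold SS1 RR1; ring
  linarith

/-- the step: for `|a|,|b| ≤ 1` and `z² ≤ R(a) R(b)`,
`(R a + R b + 2 z)/4 + ((a-b)/2)² ≤ R((a+b)/2)` -/
lemma step_RR1 {a b z : ℝ} (ha : |a| ≤ 1) (hb : |b| ≤ 1) (hz : z ^ 2 ≤ RR1 a * RR1 b) :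
    (RR1 a + RR1 b + 2 * z) / 4 + ((a - b) / 2) ^ 2 ≤ RR1 ((a + b) / 2) := by
  have ha' := abs_le.1 ha
  have hb' := abs_le.1 hb
  set M := (a + b) / 2 with hM
  set h := (a - b) / 2 with hh
  have ea : M + h = a := by rw [hM, hh]; ring
  have eb : M - h = b := by rw [hM, hh]; ring
  have hMh : |M| + |h| ≤ 1 := by
    rcases abs_cases M with ⟨e1, _⟩ | ⟨e1, _⟩ <;> rcases abs_cases h with ⟨e2, _⟩ | ⟨e2, _⟩ <;>
      rw [e1, e2] <;> linarith [ha'.1, ha'.2, hb'.1, hb'.2]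
  have hS0 : 0 ≤ SS1 M h := by
    have h1 := SS1_nonneg (abs_nonneg M) (abs_nonneg h) hMh
    unfold SS1 at h1 ⊢
    rw [sq_abs, sq_abs] at h1
    exact h1
  have hM2 : M ^ 2 ≤ 1 := by
    rw [sq_le_one_iff_abs_le_one]
    linarith [abs_nonneg h]
  have h2 := SS1_sq (h := h) hM2
  rw [ea, eb] at h2
  have h3 : z ≤ SS1 M h := by
    have : z ^ 2 ≤ SS1 M h ^ 2 := hz.trans h2
    exact (abs_le_of_sq_le_sq' this hS0).2
  have h4 := SS1_eq M h
  rw [ea, eb] at h4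
  linarith

/-- **level-one inequality** -/
theorem level_one {n : ℕ} (f : (Fin n → Bool) → Bool) :
    4 * W1 (fun x => TwoSet.ind (f x)) ≤
      RR1 (2 * cubeAverage (fun x => TwoSet.ind (f x)) - 1) := by
  induction n with
  | zero =>
    rw [cubeAverage_zero]
    unfold W1
    simp only [Finset.univ_eq_empty, Finset.sum_empty, mul_zero]
    apply RR1_nonneg
    cases f default <;> simp [TwoSet.ind] <;> norm_num
  | succ n ih =>
    set f0 : (Fin n → Bool) → Bool := fun x => f (Fin.cons false x) with hf0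
    set f1 : (Fin n → Bool) → Bool := fun x => f (Fin.cons true x) with hf1
    have e0 : sl0 (fun x => TwoSet.ind (f x)) = fun x => TwoSet.ind (f0 x) := rfl
    have e1 : sl1 (fun x => TwoSet.ind (f x)) = fun x => TwoSet.ind (f1 x) := rfl
    rw [W1_succ, cubeAverage_split, e0, e1]
    set g0 : (Fin n → Bool) → ℝ := fun x => TwoSet.ind (f0 x) with hg0
    set g1 : (Fin n → Bool) → ℝ := fun x => TwoSet.ind (f1 x) with hg1
    have i0 := ih f0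
    have i1 := ih f1
    rw [← hg0] at i0
    rw [← hg1] at i1
    have b0 : 0 ≤ cubeAverage g0 ∧ cubeAverage g0 ≤ 1 :=
      ⟨cubeAverage_nonneg fun x => TwoSet.ind_nonneg _, by
        rw [← cubeAverage_const (n := n) 1]; exact cubeAverage_mono fun x => TwoSet.ind_le_one _⟩
    have b1 : 0 ≤ cubeAverage g1 ∧ cubeAverage g1 ≤ 1 :=
      ⟨cubeAverage_nonneg fun x => TwoSet.ind_nonneg _, by
        rw [← cubeAverage_const (n := n) 1]; exact cubeAverage_mono fun x => TwoSet.ind_le_one _⟩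
    set a := 2 * cubeAverage g0 - 1 with ha
    set b := 2 * cubeAverage g1 - 1 with hb
    have hcs : (∑ i, co g0 i * co g1 i) ^ 2 ≤ W1 g0 * W1 g1 :=
      Finset.sum_mul_sq_le_sq_mul_sq _ _ _
    have hz : (4 * ∑ i, co g0 i * co g1 i) ^ 2 ≤ RR1 a * RR1 b := by
      have h1 : (4 * W1 g0) * (4 * W1 g1) ≤ RR1 a * RR1 b :=
        mul_le_mul i0 i1 (by linarith [W1_nonneg g1])
          (by linarith [W1_nonneg g0])
      nlinarith [hcs, h1]
    have hst := step_RR1 (a := a) (b := b) (z := 4 * ∑ i, co g0 i * co g1 i)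
      (abs_le.2 ⟨by linarith [b0.1], by linarith [b0.2]⟩)
      (abs_le.2 ⟨by linarith [b1.1], by linarith [b1.2]⟩) hz
    have hs : ∑ i, ((co g0 i + co g1 i) / 2) ^ 2 =
        (W1 g0 + W1 g1 + 2 * ∑ i, co g0 i * co g1 i) / 4 := by
      unfold W1
      rw [Finset.mul_sum, ← Finset.sum_add_distrib, ← Finset.sum_add_distrib, Finset.sum_div]
      exact Finset.sum_congr rfl fun i _ => by ring
    have eM : (a + b) / 2 = 2 * ((cubeAverage g0 + cubeAverage g1) / 2) - 1 := by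
      rw [ha, hb]; ring
    rw [← eM, hs]
    have e3 : 4 * (((cubeAverage g1 - cubeAverage g0) / 2) ^ 2 +
        (W1 g0 + W1 g1 + 2 * ∑ i, co g0 i * co g1 i) / 4) =
        (4 * W1 g0 + 4 * W1 g1 + 2 * (4 * ∑ i, co g0 i * co g1 i)) / 4 + ((a - b) / 2) ^ 2 := by
      rw [ha, hb]; ring
    rw [e3]
    linarith

/-! ### noise -/

/-- `E (T_ρ g)² ≤ (E g)² + ρ² W1 g + ρ⁴ (E g² - (E g)² - W1 g)` -/
theorem noise_sq_le {n : ℕ} {ρ : ℝ} (hρ : |ρ| ≤ 1) (g : (Fin n → Bool) → ℝ) :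
    cubeAverage (fun x => (noise ρ g x) ^ 2) ≤ (cubeAverage g) ^ 2 + ρ ^ 2 * W1 g +
      ρ ^ 4 * (cubeAverage (fun x => (g x) ^ 2) - (cubeAverage g) ^ 2 - W1 g) := by
  induction n with
  | zero =>
    have h : noise ρ g = g := by
      funext x
      unfold noise
      rw [Fintype.sum_unique]
      simp
      congr 1
      exact Subsingleton.elim _ _
    rw [h, cubeAverage_zero, cubeAverage_zero]
    unfold W1
    simp
  | succ n ih =>
    set g0 := sl0 g with hg0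
    set g1 := sl1 g with hg1
    set a : (Fin n → Bool) → ℝ := fun x => 1 / 2 * g0 x + 1 / 2 * g1 x with ha
    set d : (Fin n → Bool) → ℝ := fun x => 1 / 2 * g0 x + (-(1 / 2)) * g1 x with hd
    have na : ∀ x, noise ρ a x = 1 / 2 * noise ρ g0 x + 1 / 2 * noise ρ g1 x := by
      intro x
      rw [noise_eq, noise_eq, noise_eq, Finset.mul_sum, Finset.mul_sum, ← Finset.sum_add_distrib]
      exact Finset.sum_congr rfl fun y _ => by rw [ha]; ring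
    have nd : ∀ x, noise ρ d x = 1 / 2 * noise ρ g0 x + (-(1 / 2)) * noise ρ g1 x := by
      intro x
      rw [noise_eq, noise_eq, noise_eq, Finset.mul_sum, Finset.mul_sum, ← Finset.sum_add_distrib]
      exact Finset.sum_congr rfl fun y _ => by rw [hd]; ring
    -- left side
    have hL : cubeAverage (fun x => (noise ρ g x) ^ 2) =
        cubeAverage (fun x => (noise ρ a x) ^ 2) + ρ ^ 2 * cubeAverage (fun x => (noise ρ d x) ^ 2) := by
      rw [cubeAverage_split, ← cubeAverage_const_mul, ← cubeAverage_add, ← cubeAverage_add]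
      have : ∀ F : (Fin n → Bool) → ℝ, cubeAverage F / 2 = cubeAverage (fun x => 1 / 2 * F x) := by
        intro F; rw [cubeAverage_const_mul]; ring
      rw [this]
      congr 1
      funext x
      have s0 : sl0 (fun x => (noise ρ g x) ^ 2) x = (sl0 (noise ρ g) x) ^ 2 := rfl
      have s1 : sl1 (fun x => (noise ρ g x) ^ 2) x = (sl1 (noise ρ g) x) ^ 2 := rfl
      rw [s0, s1, sl0_noise, sl1_noise, na, nd]
      ring
    have hI := ih a
    have hC := Flow.contraction ρ hρ d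
    have Ea : cubeAverage a = cubeAverage g := by
      rw [ha, cubeAverage_add, cubeAverage_const_mul, cubeAverage_const_mul, cubeAverage_split g]
      ring
    have Ed : cubeAverage d = (cubeAverage g0 - cubeAverage g1) / 2 := by
      rw [hd, cubeAverage_add, cubeAverage_const_mul, cubeAverage_const_mul]
      ring
    have EW : W1 g = W1 a + (cubeAverage d) ^ 2 := by
      rw [W1_succ, Ed]
      have : ∀ i, co a i = (co g0 i + co g1 i) / 2 := by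
        intro i
        rw [ha, co_add, co_const_mul, co_const_mul]; ring
      unfold W1
      simp only [this]
      ring
    have E2 : cubeAverage (fun x => (g x) ^ 2) =
        cubeAverage (fun x => (a x) ^ 2) + cubeAverage (fun x => (d x) ^ 2) := by
      rw [cubeAverage_split, ← cubeAverage_add, ← cubeAverage_add]
      have : ∀ F : (Fin n → Bool) → ℝ, cubeAverage F / 2 = cubeAverage (fun x => 1 / 2 * F x) := by
        intro F; rw [cubeAverage_const_mul]; ring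
      rw [this]
      congr 1
      funext x
      have s0 : sl0 (fun x => (g x) ^ 2) x = (g0 x) ^ 2 := rfl
      have s1 : sl1 (fun x => (g x) ^ 2) x = (g1 x) ^ 2 := rfl
      rw [s0, s1, ha, hd]
      ring
    rw [hL, EW, E2, ← Ea]
    have hC' := mul_le_mul_of_nonneg_left hC (sq_nonneg ρ)
    nlinarith [hI, hC']

/-- the refined Parseval function -/
noncomputable def DP (ρ ν : ℝ) : ℝ := ν * (1 - ν) * (1 + 7 / 10 * ρ ^ 2 * (1 - 2 * ν) ^ 2)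

/-- **(P1)** -/
theorem parseval_P1 {n : ℕ} {ρ : ℝ} (hρ : |ρ| ≤ 1) (f : (Fin n → Bool) → Bool) :
    (1 - ρ ^ 2) * DP ρ (cubeAverage (TT ρ f)) ≤
      cubeAverage (fun x => TT ρ f x * (1 - TT ρ f x)) := by
  have hρ2 : ρ ^ 2 ≤ 1 := by
    have h1 := abs_le.1 hρ
    nlinarith [h1.1, h1.2]
  have hc := noise_sq_le hρ (fun y => TwoSet.ind (f y))
  have hw := level_one f
  have e1 : cubeAverage (fun x => (TwoSet.ind (f x)) ^ 2) = cubeAverage (fun x => TwoSet.ind (f x)) := by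
    congr 1
    funext x
    cases f x <;> simp [TwoSet.ind]
  have e2 : cubeAverage (TT ρ f) = cubeAverage (fun x => TwoSet.ind (f x)) := cubeAverage_TT ρ f
  rw [e1, ← e2] at hc
  rw [← e2] at hw
  have e3 : cubeAverage (fun x => TT ρ f x * (1 - TT ρ f x)) =
      cubeAverage (TT ρ f) - cubeAverage (fun x => (TT ρ f x) ^ 2) := by
    have : (fun x => TT ρ f x * (1 - TT ρ f x)) = fun x => TT ρ f x + (-1) * (TT ρ f x) ^ 2 := by
      funext x; ring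
    rw [this, cubeAverage_add, cubeAverage_const_mul]; ring
  have hc' : cubeAverage (fun x => (TT ρ f x) ^ 2) ≤ (cubeAverage (TT ρ f)) ^ 2 +
      ρ ^ 2 * W1 (fun y => TwoSet.ind (f y)) + ρ ^ 4 * (cubeAverage (TT ρ f) -
        (cubeAverage (TT ρ f)) ^ 2 - W1 (fun y => TwoSet.ind (f y))) := hc
  rw [e3]
  set ν := cubeAverage (TT ρ f) with hν
  set w := W1 (fun y => TwoSet.ind (f y)) with hw'
  have h5 : 0 ≤ ρ ^ 2 * (1 - ρ ^ 2) := mul_nonneg (sq_nonneg ρ) (by linarith)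
  have h6 := mul_le_mul_of_nonneg_left hw h5
  unfold RR1 at h6
  unfold DP
  nlinarith [h6, hc']

/-! ### inductions with an arbitrary Parseval row -/

/-- `D` is a Parseval row at `ρ`: `(1-ρ²) D(μ) ≤ E P(1-P)`. -/
def Row (ρ : ℝ) (D : ℝ → ℝ) : Prop :=
  ∀ (n : ℕ) (f : (Fin n → Bool) → Bool),
    (1 - ρ ^ 2) * D (cubeAverage (TT ρ f)) ≤ cubeAverage (fun x => TT ρ f x * (1 - TT ρ f x))

lemma row_plain {ρ : ℝ} (hρ : |ρ| ≤ 1) : Row ρ (fun ν => ν * (1 - ν)) :=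
  fun _ f => parseval_TT hρ f

lemma row_P1 {ρ : ℝ} (hρ : |ρ| ≤ 1) : Row ρ (DP ρ) := fun _ f => parseval_P1 hρ f

/-- the (P1) row with `ρ²` replaced by a smaller constant `s` (for a `c`-interval take
`s = 1 - cb²`). -/
lemma row_P1_of_le {ρ s : ℝ} (hρ : |ρ| ≤ 1) (hs : s ≤ ρ ^ 2) :
    Row ρ (fun ν => ν * (1 - ν) * (1 + 7 / 10 * s * (1 - 2 * ν) ^ 2)) := by
  intro n f
  refine le_trans ?_ (parseval_P1 hρ f)
  have hρ2 : 0 ≤ 1 - ρ ^ 2 := by
    have h1 := abs_le.1 hρ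
    nlinarith [h1.1, h1.2]
  refine mul_le_mul_of_nonneg_left ?_ hρ2
  unfold DP
  obtain ⟨a, b⟩ := mem_unit_TT hρ f
  refine mul_le_mul_of_nonneg_left ?_ (mul_nonneg a (by linarith))
  have := mul_le_mul_of_nonneg_right hs (sq_nonneg (1 - 2 * cubeAverage (TT ρ f)))
  linarith

/-- certificate + Parseval row for two ordered noises of Boolean functions -/
lemma certG_TT_D {ρ : ℝ} (hρ : |ρ| ≤ 1) {D : ℝ → ℝ} (hD : Row ρ D) {u : ℝ → ℝ}
    {p1 q1 p2 q2 l1 m1 k : ℝ}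
    (hc : CertG ρ u p1 q1 p2 q2 l1 m1 k) {n : ℕ} (g0 g1 : (Fin n → Bool) → Bool)
    (hle : ∀ x, TT ρ g1 x ≤ TT ρ g0 x) :
    p1 * cubeAverage (fun x => u (TT ρ g0 x)) + q1 * cubeAverage (fun x => u (TT ρ g1 x)) +
      p2 * cubeAverage (TT ρ g0) + q2 * cubeAverage (TT ρ g1) +
      (1 - ρ ^ 2) * (l1 * D (cubeAverage (TT ρ g0)) +
        m1 * D (cubeAverage (TT ρ g1))) - k ≤
    cubeAverage (fun x => u ((1 + ρ) / 2 * TT ρ g0 x + (1 - ρ) / 2 * TT ρ g1 x)) +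
      cubeAverage (fun x => u ((1 - ρ) / 2 * TT ρ g0 x + (1 + ρ) / 2 * TT ρ g1 x)) := by
  have h := certG_average hc (P := TT ρ g0) (Q := TT ρ g1) (TT_nonneg hρ g1) hle
    (TT_le_one hρ g0)
  have a0 := mul_le_mul_of_nonneg_left (hD n g0) hc.1
  have a1 := mul_le_mul_of_nonneg_left (hD n g1) hc.2.1
  linarith

/-- certificate + Parseval row applied to the complements -/
lemma certG_TT_D' {ρ : ℝ} (hρ : |ρ| ≤ 1) {D : ℝ → ℝ} (hD : Row ρ D) {u : ℝ → ℝ}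
    {p1 q1 p2 q2 l1 m1 k : ℝ}
    (hc : CertG ρ u p1 q1 p2 q2 l1 m1 k) {n : ℕ} (g0 g1 : (Fin n → Bool) → Bool)
    (hle : ∀ x, TT ρ g1 x ≤ TT ρ g0 x) :
    p1 * cubeAverage (fun x => u (1 - TT ρ g1 x)) +
      q1 * cubeAverage (fun x => u (1 - TT ρ g0 x)) +
      p2 * (1 - cubeAverage (TT ρ g1)) + q2 * (1 - cubeAverage (TT ρ g0)) +
      (1 - ρ ^ 2) * (l1 * D (cubeAverage (TT ρ g1)) +
        m1 * D (cubeAverage (TT ρ g0))) - k ≤
    cubeAverage (fun x => u (1 - ((1 + ρ) / 2 * TT ρ g0 x + (1 - ρ) / 2 * TT ρ g1 x))) +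
      cubeAverage (fun x => u (1 - ((1 - ρ) / 2 * TT ρ g0 x + (1 + ρ) / 2 * TT ρ g1 x))) := by
  have h := certG_average hc (P := fun x => 1 - TT ρ g1 x) (Q := fun x => 1 - TT ρ g0 x)
    (fun x => by linarith [TT_le_one hρ g0 x]) (fun x => by linarith [hle x])
    (fun x => by linarith [TT_nonneg hρ g1 x])
  rw [cubeAverage_one_sub, cubeAverage_one_sub] at h
  have e1 : ∀ x, (1 + ρ) / 2 * (1 - TT ρ g1 x) + (1 - ρ) / 2 * (1 - TT ρ g0 x) =
      1 - ((1 - ρ) / 2 * TT ρ g0 x + (1 + ρ) / 2 * TT ρ g1 x) := fun x => by ring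
  have e2 : ∀ x, (1 - ρ) / 2 * (1 - TT ρ g1 x) + (1 + ρ) / 2 * (1 - TT ρ g0 x) =
      1 - ((1 + ρ) / 2 * TT ρ g0 x + (1 - ρ) / 2 * TT ρ g1 x) := fun x => by ring
  have e3 : ∀ x, (1 - TT ρ g1 x) * (1 - (1 - TT ρ g1 x)) = TT ρ g1 x * (1 - TT ρ g1 x) :=
    fun x => by ring
  have e4 : ∀ x, (1 - TT ρ g0 x) * (1 - (1 - TT ρ g0 x)) = TT ρ g0 x * (1 - TT ρ g0 x) :=
    fun x => by ring
  simp only [e1, e2, e3, e4] at h
  have a0 := mul_le_mul_of_nonneg_left (hD n g1) hc.1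
  have a1 := mul_le_mul_of_nonneg_left (hD n g0) hc.2.1
  linarith

/-- **G2 with a Parseval row `D`.** -/
theorem region_inductionD {ρ : ℝ} (h0 : 0 ≤ ρ) (h1 : ρ ≤ 1) {D : ℝ → ℝ} (hD : Row ρ D)
    {u : ℝ → ℝ}
    (hu : ConcaveOn ℝ (Icc 0 1) u) (R : ℝ → ℝ → ℝ → Prop)
    (hup : ∀ μ s t s' t', R μ s t → s ≤ s' → t ≤ t' → R μ s' t')
    (hR0 : R 0 (u 0) (u 1)) (hR1 : R 1 (u 1) (u 0))
    (hstep : ∀ μ0 α0 β0 μ1 α1 β1 α β : ℝ, 0 ≤ μ1 → μ1 ≤ μ0 → μ0 ≤ 1 →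
      R μ0 α0 β0 → R μ1 α1 β1 →
      (∀ p1 q1 p2 q2 l1 m1 k : ℝ, CertG ρ u p1 q1 p2 q2 l1 m1 k →
        p1 * α0 + q1 * α1 + p2 * μ0 + q2 * μ1 +
          (1 - ρ ^ 2) * (l1 * D μ0 + m1 * D μ1) - k ≤ 2 * α) →
      (∀ p1 q1 p2 q2 l1 m1 k : ℝ, CertG ρ u p1 q1 p2 q2 l1 m1 k →
        p1 * β1 + q1 * β0 + p2 * (1 - μ1) + q2 * (1 - μ0) +
          (1 - ρ ^ 2) * (l1 * D μ1 + m1 * D μ0) - k ≤ 2 * β) →
      R ((μ0 + μ1) / 2) α β)
    (n : ℕ) (f : (Fin n → Bool) → Bool) :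
    R (cubeAverage (TT ρ f)) (cubeAverage fun x => u (TT ρ f x))
        (cubeAverage fun x => u (1 - TT ρ f x)) := by
  have habs : |ρ| ≤ 1 := by rw [abs_of_nonneg h0]; exact h1
  refine bool_inductionG h0 h1 hu (concave_one_sub hu) R hup (by simpa using hR0)
    (by simpa using hR1) ?_ n f
  intro n g0 g1 hle hR0' hR1'
  refine hstep (cubeAverage (TT ρ g0)) _ _ (cubeAverage (TT ρ g1)) _ _ _ _
    (mem_unit_TT habs g1).1 (cubeAverage_mono hle) (mem_unit_TT habs g0).2 hR0' hR1'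
    (fun p1 q1 p2 q2 l1 m1 k hc => ?_) (fun p1 q1 p2 q2 l1 m1 k hc => ?_)
  · have := certG_TT_D habs hD hc g0 g1 hle
    linarith
  · have := certG_TT_D' habs hD hc g0 g1 hle
    linarith

/-- **G1 with a Parseval row `D`.** -/
theorem one_functionD {ρ : ℝ} (h0 : 0 ≤ ρ) (h1 : ρ ≤ 1) {D : ℝ → ℝ} (hD : Row ρ D) {u : ℝ → ℝ}
    (hu : ConcaveOn ℝ (Icc 0 1) u) (b : ℝ → ℝ) (hb0 : b 0 ≤ u 0) (hb1 : b 1 ≤ u 1)
    (hI : ∀ ν0 ν1 : ℝ, 0 ≤ ν1 → ν1 ≤ ν0 → ν0 ≤ 1 → ∃ p1 q1 p2 q2 l1 m1 k : ℝ,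
      0 ≤ p1 ∧ 0 ≤ q1 ∧ CertG ρ u p1 q1 p2 q2 l1 m1 k ∧
      2 * b ((ν0 + ν1) / 2) ≤ p1 * b ν0 + q1 * b ν1 + p2 * ν0 + q2 * ν1 +
        (1 - ρ ^ 2) * (l1 * D ν0 + m1 * D ν1) - k)
    (n : ℕ) (f : (Fin n → Bool) → Bool) :
    b (cubeAverage (TT ρ f)) ≤ cubeAverage (fun x => u (TT ρ f x)) := by
  have habs : |ρ| ≤ 1 := by rw [abs_of_nonneg h0]; exact h1
  refine bool_inductionG h0 h1 hu hu (fun μ s _ => b μ ≤ s) ?_ hb0 hb1 ?_ n f
  · intro μ s t s' t' hs hss' _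
    exact hs.trans hss'
  · intro n g0 g1 hle a0 a1
    obtain ⟨p1, q1, p2, q2, l1, m1, k, hp1, hq1, hc, hineq⟩ :=
      hI (cubeAverage (TT ρ g0)) (cubeAverage (TT ρ g1)) (mem_unit_TT habs g1).1
        (cubeAverage_mono hle) (mem_unit_TT habs g0).2
    have e := certG_TT_D habs hD hc g0 g1 hle
    have e1 := mul_le_mul_of_nonneg_left a0 hp1
    have e2 := mul_le_mul_of_nonneg_left a1 hq1
    linarith

/-- **G1' with a Parseval row `D`.** -/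
theorem one_functionD' {ρ : ℝ} (h0 : 0 ≤ ρ) (h1 : ρ ≤ 1) {D : ℝ → ℝ} (hD : Row ρ D) {u : ℝ → ℝ}
    (hu : ConcaveOn ℝ (Icc 0 1) u) (b : ℝ → ℝ) (hb0 : b 0 ≤ u 0) (hb1 : b 1 ≤ u 1)
    (hI : ∀ ν0 ν1 : ℝ, 0 ≤ ν1 → ν1 ≤ ν0 → ν0 ≤ 1 → ∃ p1 q1 p2 q2 l1 m1 k : ℝ,
      0 ≤ p1 ∧ 0 ≤ q1 ∧ CertG ρ u p1 q1 p2 q2 l1 m1 k ∧
      2 * b ((ν0 + ν1) / 2) ≤ p1 * b ν0 + q1 * b ν1 + p2 * ν0 + q2 * ν1 +
        (1 - ρ ^ 2) * (l1 * D ν0 + m1 * D ν1) - k)
    (n : ℕ) (f : (Fin n → Bool) → Bool) :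
    b (cubeAverage (TT ρ f)) + b (1 - cubeAverage (TT ρ f)) ≤
      cubeAverage (fun x => u (TT ρ f x)) + cubeAverage (fun x => u (1 - TT ρ f x)) := by
  have a := one_functionD h0 h1 hD hu b hb0 hb1 hI n f
  have c := one_functionD h0 h1 hD hu b hb0 hb1 hI n (fun y => !f y)
  have e : ∀ x, TT ρ (fun y => !f y) x = 1 - TT ρ f x := TT_not ρ f
  have e' : cubeAverage (TT ρ fun y => !f y) = 1 - cubeAverage (TT ρ f) := by
    rw [← cubeAverage_one_sub]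
    congr 1
    funext x
    exact e x
  rw [e'] at c
  simp only [e] at c
  linarith

/-- **G1'' : region version for one function.** If `b` satisfies the step with row `D` then the
lower bounds `b μ ≤ E u(P)` and `b (1-μ) ≤ E u(1-P)` hold separately. -/
theorem one_functionD_both {ρ : ℝ} (h0 : 0 ≤ ρ) (h1 : ρ ≤ 1) {D : ℝ → ℝ} (hD : Row ρ D)
    {u : ℝ → ℝ}
    (hu : ConcaveOn ℝ (Icc 0 1) u) (b : ℝ → ℝ) (hb0 : b 0 ≤ u 0) (hb1 : b 1 ≤ u 1)
    (hI : ∀ ν0 ν1 : ℝ, 0 ≤ ν1 → ν1 ≤ ν0 → ν0 ≤ 1 → ∃ p1 q1 p2 q2 l1 m1 k : ℝ,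
      0 ≤ p1 ∧ 0 ≤ q1 ∧ CertG ρ u p1 q1 p2 q2 l1 m1 k ∧
      2 * b ((ν0 + ν1) / 2) ≤ p1 * b ν0 + q1 * b ν1 + p2 * ν0 + q2 * ν1 +
        (1 - ρ ^ 2) * (l1 * D ν0 + m1 * D ν1) - k)
    (n : ℕ) (f : (Fin n → Bool) → Bool) :
    b (cubeAverage (TT ρ f)) ≤ cubeAverage (fun x => u (TT ρ f x)) ∧
      b (1 - cubeAverage (TT ρ f)) ≤ cubeAverage (fun x => u (1 - TT ρ f x)) := by
  refine ⟨one_functionD h0 h1 hD hu b hb0 hb1 hI n f, ?_⟩
  have c := one_functionD h0 h1 hD hu b hb0 hb1 hI n (fun y => !f y)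
  have e : ∀ x, TT ρ (fun y => !f y) x = 1 - TT ρ f x := TT_not ρ f
  have e' : cubeAverage (TT ρ fun y => !f y) = 1 - cubeAverage (TT ρ f) := by
    rw [← cubeAverage_one_sub]
    congr 1
    funext x
    exact e x
  rw [e'] at c
  simp only [e] at c
  exact c

end Crest.Agent.R307.ParsevalP1
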