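import Crest.Agent.R307.GenS
import Crest.Agent.R307.ParsevalP1
import Crest.Agent.R307.Final71
import Crest.Agent.Tools.KB

/-!
Row 307, S0471, regime M: assembly of one `c`-interval `[ca, cb]`.

* `dP s`: the row (P1) `n(1-n)(1 + 7/10 s (1-2n)²)`, `s ≤ 1 - cb²`.
* `HasStep`: the scalar step at one pair `(n0,n1)`; `HasStep.of_fam` (conic family, `SC`),
  `HasStep.of_famT` (conic family, explicit `t ≤ t1`), `HasStep.of_cert` (discrete certificate),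
  `HasStep.of_symm`.
* `bound_M`: `BoundOn ca cb` from `HasStep` for `n1 < n0` and FIN at `cb` (Jensen form).
* `Bpw bl br`: piecewise potential; `fin_pw`, `fin_piece`: FIN from rational univariate polynomial
  inequalities.
* `bound_M_pw`: the complete assembly theorem, Jensen form of FIN (needs `W` concave).
* `bound_M_tan`, `bound_M_pw_tan`: the same with the tangent condition `TanAt` and
  `1 - r (1 - φ) ≤ B(n) + B(1-n)`, `r = W'(cb)/W(cb)`.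
* `IData`, `IData.ok`, `IData.boundOn`: everything except the steps is a computable check of
  rational data: `decide +kernel`.
-/

set_option autoImplicit false

open Crest.CubeNoise Set

namespace Crest.Agent.R307.GenM

open Crest.Agent.R307 Crest.Agent.R307.Ode Crest.Agent.R307.TwoSet Crest.Agent.R307.GenInd
  Crest.Agent.R307.Flow Crest.Agent.R307.GenFin Crest.Agent.R307.GenProd Crest.Agent.R307.GenS
  Crest.Agent.R307.GenInt Crest.Agent.R307.Conic Crest.Agent.R307.Final71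

/-! ### The Parseval row -/

/-- The row (P1) of regime M. -/
noncomputable def dP (s n : ℝ) : ℝ := n * (1 - n) * (1 + 7 / 10 * s * (1 - 2 * n) ^ 2)

lemma dP_symm (s n : ℝ) : dP s (1 - n) = dP s n := by unfold dP; ring

lemma dP_row {ca cb s : ℝ} (hca : 0 < ca) (hcb : cb ≤ 1) (hs : s ≤ 1 - cb ^ 2) :
    ∀ c, ca ≤ c → c ≤ cb → ∀ (n : ℕ) (f : (Fin n → Bool) → Bool),
      c ^ 2 * dP s (cubeAverage (TT (Real.sqrt (1 - c ^ 2)) f)) ≤
      cubeAverage (fun x => TT (Real.sqrt (1 - c ^ 2)) f x *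
        (1 - TT (Real.sqrt (1 - c ^ 2)) f x)) := by
  intro c h1 h2 n f
  have hc1 : c ^ 2 ≤ 1 := by nlinarith
  have hρ := abs_sqrt_le (sq_nonneg c) hc1
  have h := ParsevalP1.row_P1_of_le (s := s) hρ.1
    (by rw [Real.sq_sqrt (by linarith)]; nlinarith) n f
  rw [hρ.2] at h
  exact h

/-! ### Interval theorem, Jensen form of FIN -/

/-- **Final step on an interval, Jensen form**: `S` is any lower bound of the normalised sum. -/
theorem boundOn_of_lower {ca cb A0 A1 A2 : ℝ} (hca : 0 < ca) (hcb : cb ≤ 1)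
    (hWc : ConcaveOn ℝ (Icc 0 1) (WA A0 A1 A2)) (hA : 0 ≤ 2 * A0 + A1) (hA2 : 0 ≤ A2) (S : ℝ → ℝ)
    (hfin : ∀ n, 0 ≤ n → n ≤ 1 → 0 ≤ cb - 1 + ph (2 * n - 1) →
      WA A0 A1 A2 (cb - 1 + ph (2 * n - 1)) ≤ WA A0 A1 A2 cb * S n)
    (hlow : ∀ c, ca ≤ c → c ≤ cb → ∀ (n : ℕ) (f : (Fin n → Bool) → Bool),
      WA A0 A1 A2 c * S (cubeAverage (TT (Real.sqrt (1 - c ^ 2)) f)) ≤
        cubeAverage (fun x => FA A0 A1 A2 (TT (Real.sqrt (1 - c ^ 2)) f x)) +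
        cubeAverage (fun x => FA A0 A1 A2 (1 - TT (Real.sqrt (1 - c ^ 2)) f x))) :
    BoundOn ca cb := by
  intro c h1 h2
  have hc0 : 0 < c := by linarith
  have hc1 : c ≤ 1 := by linarith
  have hc2 : c ^ 2 ≤ 1 := by nlinarith
  have hρ := (abs_sqrt_le (sq_nonneg c) hc2).1
  have hph : ph (Real.sqrt (1 - c ^ 2)) = c := GenInt.ph_sqrt hc0.le hc1
  refine bound_of_jensen hρ (u := FA A0 A1 A2) (W := WA A0 A1 A2)
    (fun q h0 h1 => (GenFin.FA_add_FA A0 A1 A2 h0 h1).le) hWc (strictMono_WA hA hA2)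
    fun n f hpos => ?_
  rw [hph] at hpos ⊢
  have hm := mem_unit_TT hρ f
  refine le_trans ?_ (hlow c h1 h2 n f)
  exact fin_mono hWc (fun x hx hx1 => WA_pos hA hA2 hx hx1) (WA_zero _ _ _) hc0 h2 hcb
    (ph_le_one _) hpos (hfin _ hm.1 hm.2)

/-- The scalar step at the pair `(n0, n1)`. -/
def HasStep (A0 A1 A2 ca cb : ℝ) (B d : ℝ → ℝ) (n0 n1 : ℝ) : Prop :=
  ∃ p1 q1 bt l m : ℝ, 0 ≤ p1 ∧ 0 ≤ q1 ∧ CertI A0 A1 A2 ca cb p1 q1 bt l m ∧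
    2 * B ((n0 + n1) / 2) ≤ p1 * B n0 + q1 * B n1 + bt * (n0 - n1) + l * d n0 + m * d n1

/-- One discrete certificate. -/
theorem HasStep.of_cert {A0 A1 A2 ca cb : ℝ} {B d : ℝ → ℝ} {n0 n1 p1 q1 bt l m : ℝ}
    (hc : CertI A0 A1 A2 ca cb p1 q1 bt l m) (hp : 0 ≤ p1) (hq : 0 ≤ q1)
    (h : 2 * B ((n0 + n1) / 2) ≤ p1 * B n0 + q1 * B n1 + bt * (n0 - n1) + l * d n0 + m * d n1) :
    HasStep A0 A1 A2 ca cb B d n0 n1 := ⟨p1, q1, bt, l, m, hp, hq, hc, h⟩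

/-- A conic family, all `t ∈ [0,1]`. -/
theorem HasStep.of_fam {A0 A1 A2 ca cb : ℝ} {f : Fam} (hf : f.OK) (hc : FamI A0 A1 A2 ca cb f)
    {B d : ℝ → ℝ} {n0 n1 : ℝ}
    (h : SC (2 * B ((n0 + n1) / 2) - B n0 - B n1)
      (f.Ah (B n0) (B n1) n0 n1 (d n0) (d n1)) (f.Bh (B n0) (B n1) n0 n1 (d n0) (d n1))) :
    HasStep A0 A1 A2 ca cb B d n0 n1 := famI_step f hf hc B d h

/-- A conic family whose members `t ∈ [0,t1]` are certificates. -/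
def FamT (A0 A1 A2 ca cb : ℝ) (f : Fam) (t1 : ℝ) : Prop :=
  ∀ t : ℝ, 0 ≤ t → t ≤ t1 → CertI A0 A1 A2 ca cb (1 + wt2 f.k1 f.k2 t) (wC t - wt2 f.k1 f.k2 t)
    (wt2 f.e1 f.e2 t) (wt2 f.m1 f.m2 t) (wt2 f.l1 f.l2 t)

lemma FamT.of_famI {A0 A1 A2 ca cb : ℝ} {f : Fam} (h : FamI A0 A1 A2 ca cb f) {t1 : ℝ}
    (ht : t1 ≤ 1) : FamT A0 A1 A2 ca cb f t1 := fun t h0 h1 => h t h0 (h1.trans ht)

/-- A conic family with an explicit `t`. -/
theorem HasStep.of_famT {A0 A1 A2 ca cb t1 : ℝ} {f : Fam} (hf : f.OK)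
    (hc : FamT A0 A1 A2 ca cb f t1) (ht1 : t1 ≤ 1) {B d : ℝ → ℝ} {n0 n1 t : ℝ}
    (ht0 : 0 ≤ t) (ht : t ≤ t1)
    (h : 2 * B ((n0 + n1) / 2) ≤ (1 + wt2 f.k1 f.k2 t) * B n0 + (wC t - wt2 f.k1 f.k2 t) * B n1 +
      wt2 f.e1 f.e2 t * (n0 - n1) + wt2 f.m1 f.m2 t * d n0 + wt2 f.l1 f.l2 t * d n1) :
    HasStep A0 A1 A2 ca cb B d n0 n1 :=
  ⟨_, _, _, _, _, one_add_K_nonneg hf.1 hf.2.1 ht0 (ht.trans ht1),
    C_sub_K_nonneg hf.2.2.1 hf.2.2.2.1 ht0 (ht.trans ht1), hc t ht0 ht, h⟩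

/-- The step with an explicit `t`, multiplied by `1 + t²`:
`(1+t²) (gain of the plain mean) ≤ 2 t Ah - 2 t² Bh`. -/
theorem HasStep.of_famT' {A0 A1 A2 ca cb t1 : ℝ} {f : Fam} (hf : f.OK)
    (hc : FamT A0 A1 A2 ca cb f t1) (ht1 : t1 ≤ 1) {B d : ℝ → ℝ} {n0 n1 t : ℝ}
    (ht0 : 0 ≤ t) (ht : t ≤ t1)
    (h : (1 + t ^ 2) * (2 * B ((n0 + n1) / 2) - B n0 - B n1) ≤
      2 * t * f.Ah (B n0) (B n1) n0 n1 (d n0) (d n1) -
        2 * t ^ 2 * f.Bh (B n0) (B n1) n0 n1 (d n0) (d n1)) :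
    HasStep A0 A1 A2 ca cb B d n0 n1 := by
  refine HasStep.of_famT hf hc ht1 ht0 ht ?_
  have hp : (0:ℝ) < 1 + t ^ 2 := by positivity
  have e := f.row (B n0) (B n1) n0 n1 (d n0) (d n1) (2 * B ((n0 + n1) / 2)) t
  have h2 : (1 + t ^ 2) * (2 * B ((n0 + n1) / 2) - ((1 + wt2 f.k1 f.k2 t) * B n0 +
      (wC t - wt2 f.k1 f.k2 t) * B n1 +
      wt2 f.e1 f.e2 t * n0 + (-wt2 f.e1 f.e2 t) * n1 +
      wt2 f.m1 f.m2 t * d n0 + wt2 f.l1 f.l2 t * d n1)) ≤ 0 := by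
    rw [e]; linarith
  have h3 := nonpos_of_mul_nonpos_right h2 hp
  linarith

/-- The trivial certificate (concavity). -/
lemma certI_one {A0 A1 A2 ca cb : ℝ} (hu : ConcaveOn ℝ (Icc 0 1) (FA A0 A1 A2)) : CertI A0 A1 A2 ca cb 1 1 0 0 0 := by
  intro c _ _
  have h := certG_one (Real.sqrt_nonneg (1 - c ^ 2))
    (Real.sqrt_le_one.mpr (by nlinarith [sq_nonneg c])) hu (Wf A0 A1 A2 c)
  simpa using h

/-- The diagonal. -/
theorem HasStep.diag {A0 A1 A2 ca cb : ℝ} (hu : ConcaveOn ℝ (Icc 0 1) (FA A0 A1 A2)) (B d : ℝ → ℝ) (n : ℝ) :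
    HasStep A0 A1 A2 ca cb B d n n := by
  refine ⟨1, 1, 0, 0, 0, zero_le_one, zero_le_one, certI_one hu, ?_⟩
  have e : (n + n) / 2 = n := by ring
  rw [e]
  apply le_of_eq
  ring

/-- **Regime M on an interval**: `BoundOn ca cb` from the steps and FIN at `cb`. -/
theorem bound_M {ca cb A0 A1 A2 s : ℝ} (hca : 0 < ca) (hcb : cb ≤ 1) (hs : s ≤ 1 - cb ^ 2)
    (hu : ConcaveOn ℝ (Icc 0 1) (FA A0 A1 A2))
    (hWc : ConcaveOn ℝ (Icc 0 1) (WA A0 A1 A2)) (hA : 0 ≤ 2 * A0 + A1) (hA2 : 0 ≤ A2)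
    (B : ℝ → ℝ) (hB0 : B 0 ≤ 0) (hB1 : B 1 ≤ 0)
    (hstep : ∀ n0 n1 : ℝ, 0 ≤ n1 → n1 < n0 → n0 ≤ 1 → HasStep A0 A1 A2 ca cb B (dP s) n0 n1)
    (hfin : ∀ n, 0 ≤ n → n ≤ 1 → 0 ≤ cb - 1 + ph (2 * n - 1) →
      WA A0 A1 A2 (cb - 1 + ph (2 * n - 1)) ≤ WA A0 A1 A2 cb * (B n + B (1 - n))) :
    BoundOn ca cb := by
  refine boundOn_of_lower hca hcb hWc hA hA2 (fun n => B n + B (1 - n)) hfin ?_
  intro c h1 h2 n f
  refine one_sided' hu hca hcb (fun c h1 h2 => ?_) (dP s) (dP_row hca hcb hs) B hB0 hB1 ?_ h1 h2 n f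
  · exact WA_nonneg hA hA2 (by linarith) (by linarith)
  · intro n0 n1 hn1 hn hn0
    rcases hn.eq_or_lt with h | h
    · subst h
      exact HasStep.diag hu B (dP s) _
    · exact hstep n0 n1 hn1 h hn0

/-! ### Tangent lines of `W` -/

/-- Concavity of `W` gives the tangent condition everywhere. -/
theorem tanAt_of_concave {A0 A1 A2 : ℝ} (hWc : ConcaveOn ℝ (Icc 0 1) (WA A0 A1 A2)) {c : ℝ}
    (hc : 0 ≤ c) (hc1 : c ≤ 1) : TanAt A0 A1 A2 c := by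
  intro x hx hx1
  have hd := hasDerivAt_WA A0 A1 A2 (x := c) (by linarith)
  have e : WA' A0 A1 A2 c = Wd A0 A1 A2 c := by
    unfold WA' Wd; ring
  rw [e] at hd
  have e1 : ∀ y, Wf A0 A1 A2 y = WA A0 A1 A2 y := fun _ => rfl
  rw [e1, e1]
  rcases lt_trichotomy x c with h | h | h
  · have := hWc.le_slope_of_hasDerivAt ⟨hx, hx1⟩ ⟨hc, hc1⟩ h hd
    rw [slope_def_field, le_div_iff₀ (by linarith)] at this
    linarith
  · rw [h]; simp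
  · have := hWc.slope_le_of_hasDerivAt ⟨hc, hc1⟩ ⟨hx, hx1⟩ h hd
    rw [slope_def_field, div_le_iff₀ (by linarith)] at this
    linarith

lemma Wd_nonneg {A0 A1 A2 c : ℝ} (hA : 0 ≤ 2 * A0 + A1) (hA2 : 0 ≤ A2) (hc : 0 ≤ c)
    (hc1 : c ≤ 1) : 0 ≤ Wd A0 A1 A2 c := by
  unfold Wd
  have h1 : 0 ≤ 1 / Real.sqrt (1 + c) := by positivity
  have h2 : 0 ≤ (2 * A0 + A1) / 2 * c := mul_nonneg (by linarith) hc
  have h3 : 0 ≤ A2 * (c / 2) * (1 - c ^ 2) := by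
    have : c ^ 2 ≤ 1 := by nlinarith
    exact mul_nonneg (by positivity) (by linarith)
  linarith

/-- `√u ≤ (u + s²)/(2s)` -/
lemma sqrt_le_tan {u s : ℝ} (hu : 0 ≤ u) (hs : 0 < s) : Real.sqrt u ≤ (u + s ^ 2) / (2 * s) := by
  rw [le_div_iff₀ (by positivity)]
  have := Real.sq_sqrt hu
  nlinarith [sq_nonneg (Real.sqrt u - s)]

/-- **One piece of FIN** (`x = 1 - |1-2n|`, `φ = √(x(2-x))`). -/
theorem fin_piece {A0 A1 A2 zb z0 s x S : ℝ} (hWc : ConcaveOn ℝ (Icc 0 1) (WA A0 A1 A2))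
    (hA : 0 ≤ 2 * A0 + A1) (hA2 : 0 ≤ A2) (hzb : 1 ≤ zb) (hzb2 : zb ^ 2 ≤ 2)
    (hz0 : 1 ≤ z0) (hz02 : z0 ^ 2 ≤ 2) (hs : 0 < s) (hx0 : 0 ≤ x) (hx1 : x ≤ 1)
    (h : Wz A0 A1 A2 z0 + Wdz A0 A1 A2 z0 *
      (zb ^ 2 - 2 + (x * (2 - x) + s ^ 2) / (2 * s) - (z0 ^ 2 - 1)) ≤ Wz A0 A1 A2 zb * S)
    (hpos : 0 ≤ zb ^ 2 - 1 - 1 + Real.sqrt (x * (2 - x))) :
    WA A0 A1 A2 (zb ^ 2 - 1 - 1 + Real.sqrt (x * (2 - x))) ≤ WA A0 A1 A2 (zb ^ 2 - 1) * S := by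
  have hu : 0 ≤ x * (2 - x) := mul_nonneg hx0 (by linarith)
  have hu1 : x * (2 - x) ≤ 1 := by nlinarith [sq_nonneg (1 - x)]
  have h1 : Real.sqrt (x * (2 - x)) ≤ 1 := Real.sqrt_le_one.mpr hu1
  have hc0 : 0 ≤ z0 ^ 2 - 1 := by nlinarith
  have hT := tanAt_of_concave hWc hc0 (by linarith) _ hpos (by linarith)
  have hD := Wd_nonneg hA hA2 hc0 (by linarith)
  rw [Wd_eq_Wdz (z := z0) (by linarith) rfl] at hT hD
  rw [Wf_eq_Wz (z := z0) (by linarith) rfl] at hT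
  have e1 : WA A0 A1 A2 (zb ^ 2 - 1) = Wz A0 A1 A2 zb := Wf_eq_Wz (by linarith) rfl
  rw [e1]
  have h2 := sqrt_le_tan hu hs
  have h3 := mul_le_mul_of_nonneg_left h2 hD
  have e2 : WA A0 A1 A2 (zb ^ 2 - 1 - 1 + Real.sqrt (x * (2 - x))) =
    Wf A0 A1 A2 (zb ^ 2 - 1 - 1 + Real.sqrt (x * (2 - x))) := rfl
  rw [e2]
  nlinarith

/-! ### Piecewise potentials -/

/-- Left/right potential: `B n = bl (2n)` for `n ≤ 1/2`, `B n = br (2(1-n))` for `n > 1/2`. -/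
noncomputable def Bpw (bl br : ℝ → ℝ) (n : ℝ) : ℝ :=
  if n ≤ 1 / 2 then bl (2 * n) else br (2 * (1 - n))

lemma Bpw_left {bl br : ℝ → ℝ} {n : ℝ} (h : n ≤ 1 / 2) : Bpw bl br n = bl (2 * n) := by
  unfold Bpw; rw [if_pos h]

lemma Bpw_right {bl br : ℝ → ℝ} (hb : bl 1 = br 1) {n : ℝ} (h : 1 / 2 ≤ n) :
    Bpw bl br n = br (2 * (1 - n)) := by
  rcases h.eq_or_lt with h | h
  · rw [Bpw_left h.symm.le, ← h]
    norm_num [hb]
  · unfold Bpw; rw [if_neg (by linarith)]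

/-- FIN for a piecewise potential, in the variable `x = 1 - |1-2n|`. -/
theorem fin_pw {W bl br : ℝ → ℝ} {cb Wb : ℝ} (hb : bl 1 = br 1)
    (h : ∀ x, 0 ≤ x → x ≤ 1 → 0 ≤ cb - 1 + Real.sqrt (x * (2 - x)) →
      W (cb - 1 + Real.sqrt (x * (2 - x))) ≤ Wb * (bl x + br x)) :
    ∀ n, 0 ≤ n → n ≤ 1 → 0 ≤ cb - 1 + ph (2 * n - 1) →
      W (cb - 1 + ph (2 * n - 1)) ≤ Wb * (Bpw bl br n + Bpw bl br (1 - n)) := by
  intro n hn0 hn1 hpos
  have hphx : ∀ y : ℝ, ph (2 * y - 1) = Real.sqrt ((2 * y) * (2 - 2 * y)) := by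
    intro y; unfold ph; congr 1; ring
  have hphy : ph (2 * n - 1) = ph (2 * (1 - n) - 1) := by unfold ph; congr 1; ring
  rcases le_total n (1 / 2) with h2 | h2
  · rw [Bpw_left h2, Bpw_right hb (n := 1 - n) (by linarith)]
    rw [hphx] at hpos ⊢
    have := h (2 * n) (by linarith) (by linarith) hpos
    have e : 2 * (1 - (1 - n)) = 2 * n := by ring
    rw [e]
    exact this
  · rw [Bpw_right hb h2, Bpw_left (n := 1 - n) (by linarith)]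
    rw [hphy, hphx] at hpos ⊢
    have := h (2 * (1 - n)) (by linarith) (by linarith) hpos
    linarith

/-- **Assembly of one interval of regime M** with a piecewise potential. -/
theorem bound_M_pw {za zb A0 A1 A2 s : ℝ} (hza : 1 < za) (hzb : 1 ≤ zb) (hzb2 : zb ^ 2 ≤ 2)
    (hs : s ≤ 1 - (zb ^ 2 - 1) ^ 2)
    (hu : ConcaveOn ℝ (Icc 0 1) (FA A0 A1 A2))
    (hWc : ConcaveOn ℝ (Icc 0 1) (WA A0 A1 A2)) (hA : 0 ≤ 2 * A0 + A1) (hA2 : 0 ≤ A2)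
    (bl br : ℝ → ℝ) (hbl : bl 0 ≤ 0) (hbr : br 0 ≤ 0) (hb : bl 1 = br 1)
    (hstep : ∀ n0 n1 : ℝ, 0 ≤ n1 → n1 < n0 → n0 ≤ 1 →
      HasStep A0 A1 A2 (za ^ 2 - 1) (zb ^ 2 - 1) (Bpw bl br) (dP s) n0 n1)
    (hfin : ∀ x, 0 ≤ x → x ≤ 1 → ∃ z0 t : ℝ, 1 ≤ z0 ∧ z0 ^ 2 ≤ 2 ∧ 0 < t ∧
      Wz A0 A1 A2 z0 + Wdz A0 A1 A2 z0 *
        (zb ^ 2 - 2 + (x * (2 - x) + t ^ 2) / (2 * t) - (z0 ^ 2 - 1)) ≤
          Wz A0 A1 A2 zb * (bl x + br x)) :
    BoundOn (za ^ 2 - 1) (zb ^ 2 - 1) := by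
  refine bound_M (by nlinarith) (by linarith) hs hu hWc hA hA2 (Bpw bl br) ?_ ?_ hstep
    (fin_pw hb ?_)
  · rw [Bpw_left (by norm_num)]; simpa using hbl
  · rw [Bpw_right hb (by norm_num)]; simpa using hbr
  · intro x hx0 hx1 hpos
    obtain ⟨z0, t, a1, a2, a3, a4⟩ := hfin x hx0 hx1
    exact fin_piece hWc hA hA2 hzb hzb2 a1 a2 a3 hx0 hx1 a4 hpos

/-! ### Tangent form of FIN -/

lemma Wd_pos {A0 A1 A2 c : ℝ} (hA : 0 ≤ 2 * A0 + A1) (hA2 : 0 ≤ A2) (hc : 0 ≤ c)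
    (hc1 : c ≤ 1) : 0 < Wd A0 A1 A2 c := by
  unfold Wd
  have h1 : 0 < 1 / Real.sqrt (1 + c) := by positivity
  have h2 : 0 ≤ (2 * A0 + A1) / 2 * c := mul_nonneg (by linarith) hc
  have h3 : 0 ≤ A2 * (c / 2) * (1 - c ^ 2) := by
    have : c ^ 2 ≤ 1 := by nlinarith
    exact mul_nonneg (by positivity) (by linarith)
  linarith

/-- **Regime M on an interval, tangent form of FIN.** -/
theorem bound_M_tan {ca cb A0 A1 A2 s r : ℝ} (hca : 0 < ca) (hab : ca ≤ cb) (hcb : cb ≤ 1)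
    (hs : s ≤ 1 - cb ^ 2) (hu : ConcaveOn ℝ (Icc 0 1) (FA A0 A1 A2))
    (hT : ∀ c, ca ≤ c → c ≤ cb → TanAt A0 A1 A2 c) (hA : 0 ≤ 2 * A0 + A1) (hA2 : 0 ≤ A2)
    (hr0 : 0 ≤ r) (hr : r * Wf A0 A1 A2 cb ≤ Wd A0 A1 A2 cb)
    (B : ℝ → ℝ) (hB0 : B 0 ≤ 0) (hB1 : B 1 ≤ 0)
    (hstep : ∀ n0 n1 : ℝ, 0 ≤ n1 → n1 < n0 → n0 ≤ 1 → HasStep A0 A1 A2 ca cb B (dP s) n0 n1)
    (hfin : ∀ n, 0 ≤ n → n ≤ 1 → 1 - r * (1 - ph (2 * n - 1)) ≤ B n + B (1 - n)) :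
    BoundOn ca cb := by
  refine BoundOn.of_msHyp hca.le hcb (mshyp_one_sided hu hca hcb (fun c h1 h2 => ?_) hT
    (Wd_pos hA hA2 (by linarith) hcb) hr0 hr (dP s) (dP_row hca hcb hs) B hB0 hB1 ?_ hfin)
  · exact WA_nonneg hA hA2 (by linarith) (by linarith)
  · intro n0 n1 hn1 hn hn0
    rcases hn.eq_or_lt with h | h
    · subst h
      exact HasStep.diag hu B (dP s) _
    · exact hstep n0 n1 hn1 h hn0

/-- **Assembly with a piecewise potential, tangent form**: FIN is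
`W(cb) - W'(cb) (1 - (x(2-x)+t²)/(2t)) ≤ W(cb) (bl x + br x)` for some `t > 0`. -/
theorem bound_M_pw_tan {za zb A0 A1 A2 s : ℝ} (hza : 1 < za) (hab : za ≤ zb) (hzb2 : zb ^ 2 ≤ 2)
    (hs : s ≤ 1 - (zb ^ 2 - 1) ^ 2)
    (hu : ConcaveOn ℝ (Icc 0 1) (FA A0 A1 A2))
    (hT : ∀ z, za ≤ z → z ≤ zb → TanAt A0 A1 A2 (z ^ 2 - 1))
    (hA : 0 ≤ 2 * A0 + A1) (hA2 : 0 ≤ A2)
    (bl br : ℝ → ℝ) (hbl : bl 0 ≤ 0) (hbr : br 0 ≤ 0) (hb : bl 1 = br 1)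
    (hstep : ∀ n0 n1 : ℝ, 0 ≤ n1 → n1 < n0 → n0 ≤ 1 →
      HasStep A0 A1 A2 (za ^ 2 - 1) (zb ^ 2 - 1) (Bpw bl br) (dP s) n0 n1)
    (hfin : ∀ x, 0 ≤ x → x ≤ 1 → ∃ t : ℝ, 0 < t ∧
      Wz A0 A1 A2 zb - Wdz A0 A1 A2 zb * (1 - (x * (2 - x) + t ^ 2) / (2 * t)) ≤
          Wz A0 A1 A2 zb * (bl x + br x)) :
    BoundOn (za ^ 2 - 1) (zb ^ 2 - 1) := by
  have hca : 0 < za ^ 2 - 1 := by nlinarith
  have hcab : za ^ 2 - 1 ≤ zb ^ 2 - 1 := by nlinarith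
  have hcb : zb ^ 2 - 1 ≤ 1 := by linarith
  have hW := WA_pos hA hA2 (x := zb ^ 2 - 1) (by linarith) hcb
  have eW : Wf A0 A1 A2 (zb ^ 2 - 1) = Wz A0 A1 A2 zb := Wf_eq_Wz (by linarith) rfl
  have eWA : WA A0 A1 A2 (zb ^ 2 - 1) = Wz A0 A1 A2 zb := eW
  have eD : Wd A0 A1 A2 (zb ^ 2 - 1) = Wdz A0 A1 A2 zb := Wd_eq_Wdz (by linarith) rfl
  have hD := Wd_pos hA hA2 (c := zb ^ 2 - 1) (by linarith) hcb
  rw [eWA] at hW
  rw [eD] at hD
  have hfin' := fin_pw (W := fun y => 1 - Wdz A0 A1 A2 zb / Wz A0 A1 A2 zb * (1 - y)) (cb := 1)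
    (Wb := 1) hb (fun x hx0 hx1 _ => ?_)
  · refine bound_M_tan (r := Wdz A0 A1 A2 zb / Wz A0 A1 A2 zb) hca hcab hcb hs hu ?_ hA hA2
      (div_nonneg hD.le hW.le) ?_ (Bpw bl br) ?_ ?_ hstep ?_
    · intro c h1 h2
      have hc0 : 0 < c := by linarith
      set z := Real.sqrt (1 + c) with hz
      have hz0 : 0 ≤ z := Real.sqrt_nonneg _
      have hcz : c = z ^ 2 - 1 := by rw [hz, Real.sq_sqrt (by linarith)]; ring
      have hz1 : za ≤ z := (abs_le_of_sq_le_sq' (by linarith : za ^ 2 ≤ z ^ 2) hz0).2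
      have hz2 : z ≤ zb := (abs_le_of_sq_le_sq' (by linarith : z ^ 2 ≤ zb ^ 2) (by linarith)).2
      rw [hcz]
      exact hT z hz1 hz2
    · rw [eW, eD, div_mul_cancel₀ _ hW.ne']
    · rw [Bpw_left (by norm_num)]; simpa using hbl
    · rw [Bpw_right hb (by norm_num)]; simpa using hbr
    · intro n h0 h1
      have := hfin' n h0 h1 (by have := ph_nonneg (2 * n - 1); linarith)
      simp only [one_mul] at this
      have e : 1 - (1 - 1 + ph (2 * n - 1)) = 1 - ph (2 * n - 1) := by ring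
      rw [e] at this
      exact this
  · obtain ⟨t, ht, h⟩ := hfin x hx0 hx1
    have hu : 0 ≤ x * (2 - x) := mul_nonneg hx0 (by linarith)
    have h2 := sqrt_le_tan hu ht
    have e : 1 - (1 - 1 + Real.sqrt (x * (2 - x))) = 1 - Real.sqrt (x * (2 - x)) := by ring
    simp only [one_mul]
    rw [e]
    have h3 : Wdz A0 A1 A2 zb * (1 - (x * (2 - x) + t ^ 2) / (2 * t)) ≤
        Wdz A0 A1 A2 zb * (1 - Real.sqrt (x * (2 - x))) :=
      mul_le_mul_of_nonneg_left (by linarith) hD.le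
    have h4 : Wz A0 A1 A2 zb * (1 - Wdz A0 A1 A2 zb / Wz A0 A1 A2 zb *
        (1 - Real.sqrt (x * (2 - x)))) =
        Wz A0 A1 A2 zb - Wdz A0 A1 A2 zb * (1 - Real.sqrt (x * (2 - x))) := by
      field_simp
    refine le_of_mul_le_mul_left ?_ hW
    rw [h4]
    linarith

/-! ### Numeric conditions -/

/-- Concavity of `F` from a numeric condition. -/
theorem concave_FA_num {A0 A1 A2 : ℝ}
    (h : (0 < A2 ∧ 8 * A2 * (A1 - A0) + 3 * (A2 - A1) ^ 2 ≤ 2 * A2) ∨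
      (A2 = 0 ∧ 2 * (A1 - A0) ≤ 1 / 2 ∧ 2 * (A1 - A0) - 6 * A1 ≤ 1 / 2)) :
    ConcaveOn ℝ (Icc 0 1) (FA A0 A1 A2) := by
  refine concave_FA fun y hy hy1 => ?_
  have h3 : y ^ 3 ≤ 1 := pow_le_one₀ hy.le hy1.le
  have h3' : 0 ≤ y ^ 3 := by positivity
  have h2 : y ^ 2 ≤ 1 := pow_le_one₀ hy.le hy1.le
  have h2' : 0 ≤ y ^ 2 := by positivity
  have key : 2 * (A1 - A0) + 6 * (A2 - A1) * y ^ 2 - 12 * A2 * y ^ 4 ≤ 1 / 2 := by
    rcases h with ⟨h, h'⟩ | ⟨h, h', h''⟩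
    · have e : 4 * A2 * (2 * (A1 - A0) + 6 * (A2 - A1) * y ^ 2 - 12 * A2 * y ^ 4) =
        8 * A2 * (A1 - A0) + 3 * (A2 - A1) ^ 2 - 3 * ((A2 - A1) - 4 * A2 * y ^ 2) ^ 2 := by ring
      have h4 : 4 * A2 * (2 * (A1 - A0) + 6 * (A2 - A1) * y ^ 2 - 12 * A2 * y ^ 4) ≤
          4 * A2 * (1 / 2) := by
        rw [e]
        have := sq_nonneg ((A2 - A1) - 4 * A2 * y ^ 2)
        linarith
      exact le_of_mul_le_mul_left h4 (by linarith)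
    · subst h
      nlinarith
  rcases le_total (2 * (A1 - A0) + 6 * (A2 - A1) * y ^ 2 - 12 * A2 * y ^ 4) 0 with h5 | h5
  · have := mul_nonpos_of_nonpos_of_nonneg h5 h3'
    linarith
  · nlinarith

/-- the polynomial of the tangent condition, upper bound on a cell -/
def tanU {K : Type*} [Field K] (A0 A1 A2 za zb y0 y1 : K) : K :=
  zb * (y1 + zb) ^ 2 * ((2 * A0 + A1) / 4 + A2 / 4 -
    A2 * ((y0 ^ 2 - 1) ^ 2 + 2 * (y0 ^ 2 - 1) * (za ^ 2 - 1) + 3 * (za ^ 2 - 1) ^ 2) / 8)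

lemma tan_cell {A0 A1 A2 za zb y0 y1 y z : ℝ} (hA2 : 0 ≤ A2) (hza : 1 ≤ za) (h1 : za ≤ z)
    (h2 : z ≤ zb) (hy0 : 1 ≤ y0) (h3 : y0 ≤ y) (h4 : y ≤ y1)
    (h : tanU A0 A1 A2 za zb y0 y1 ≤ 1) :
    z * (y + z) ^ 2 * ((2 * A0 + A1) / 4 + A2 / 4 -
        A2 * ((y ^ 2 - 1) ^ 2 + 2 * (y ^ 2 - 1) * (z ^ 2 - 1) + 3 * (z ^ 2 - 1) ^ 2) / 8) ≤ 1 := by
  unfold tanU at h
  have a0 : 0 ≤ y0 ^ 2 - 1 := by nlinarith
  have a1 : y0 ^ 2 - 1 ≤ y ^ 2 - 1 := by nlinarith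
  have b0 : 0 ≤ za ^ 2 - 1 := by nlinarith
  have b1 : za ^ 2 - 1 ≤ z ^ 2 - 1 := by nlinarith
  have g : (y0 ^ 2 - 1) ^ 2 + 2 * (y0 ^ 2 - 1) * (za ^ 2 - 1) + 3 * (za ^ 2 - 1) ^ 2 ≤
      (y ^ 2 - 1) ^ 2 + 2 * (y ^ 2 - 1) * (z ^ 2 - 1) + 3 * (z ^ 2 - 1) ^ 2 := by
    have c1 := pow_le_pow_left₀ a0 a1 2
    have c2 := pow_le_pow_left₀ b0 b1 2
    have c3 := mul_le_mul a1 b1 b0 (a0.trans a1)
    linarith
  have g2 := mul_le_mul_of_nonneg_left g hA2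
  set E := (2 * A0 + A1) / 4 + A2 / 4 -
        A2 * ((y ^ 2 - 1) ^ 2 + 2 * (y ^ 2 - 1) * (z ^ 2 - 1) + 3 * (z ^ 2 - 1) ^ 2) / 8 with hE
  have g3 : E ≤ (2 * A0 + A1) / 4 + A2 / 4 -
    A2 * ((y0 ^ 2 - 1) ^ 2 + 2 * (y0 ^ 2 - 1) * (za ^ 2 - 1) + 3 * (za ^ 2 - 1) ^ 2) / 8 := by
    rw [hE]; linarith
  have hz0 : 0 ≤ z := by linarith
  have hzy : 0 ≤ z * (y + z) ^ 2 := by positivity
  rcases le_total E 0 with hE0 | hE0
  · have := mul_nonpos_of_nonneg_of_nonpos hzy hE0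
    linarith
  · refine le_trans ?_ h
    refine mul_le_mul ?_ g3 hE0 (by have : 0 ≤ zb := by linarith
                                    positivity)
    have : (y + z) ^ 2 ≤ (y1 + zb) ^ 2 := pow_le_pow_left₀ (by linarith) (by linarith) 2
    exact mul_le_mul h2 this (sq_nonneg _) (by linarith)

/-! ### Rational univariate polynomials -/

/-- Horner evaluation. -/
noncomputable def qev : List ℚ → ℝ → ℝ
  | [], _ => 0
  | c :: p, x => (c : ℝ) + x * qev p x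

/-- sum -/
def qadd : List ℚ → List ℚ → List ℚ
  | [], q => q
  | a :: p, [] => a :: p
  | a :: p, b :: q => (a + b) :: qadd p q

/-- scalar multiple -/
def qsmul (c : ℚ) (p : List ℚ) : List ℚ := p.map (fun a => c * a)

lemma qev_add (p q : List ℚ) (x : ℝ) : qev (qadd p q) x = qev p x + qev q x := by
  induction p generalizing q with
  | nil => simp [qadd, qev]
  | cons a p ih =>
    cases q with
    | nil => simp [qadd, qev]
    | cons b q => simp only [qadd, qev, ih]; push_cast; ring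

lemma qev_smul (c : ℚ) (p : List ℚ) (x : ℝ) : qev (qsmul c p) x = (c : ℝ) * qev p x := by
  induction p with
  | nil => simp [qsmul, qev]
  | cons a p ih =>
    have : qsmul c (a :: p) = (c * a) :: qsmul c p := rfl
    rw [this]; simp only [qev, ih]; push_cast; ring

lemma qev_zero_cons (p : List ℚ) (x : ℝ) : qev (0 :: p) x = x * qev p x := by
  simp [qev]

lemma qev_zero (p : List ℚ) : qev p 0 = ((p.headD 0 : ℚ) : ℝ) := by
  cases p <;> simp [qev]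

/-- value at `1` -/
def qsum : List ℚ → ℚ
  | [] => 0
  | c :: p => c + qsum p

lemma qev_one (p : List ℚ) : qev p 1 = (qsum p : ℝ) := by
  induction p with
  | nil => simp [qsum, qev]
  | cons a p ih => simp only [qsum, qev, ih]; push_cast; ring

lemma qev_nonneg {p : List ℚ} (h : p.all (fun a => decide (0 ≤ a)) = true) {t : ℝ} (ht : 0 ≤ t) :
    0 ≤ qev p t := by
  induction p with
  | nil => simp [qev]
  | cons a p ih =>
    simp only [List.all_cons, Bool.and_eq_true, decide_eq_true_eq] at h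
    have h1 : (0 : ℝ) ≤ (a : ℝ) := by exact_mod_cast h.1
    have := mul_nonneg ht (ih h.2)
    unfold qev
    linarith

lemma continuous_qev (p : List ℚ) : Continuous (qev p) := by
  induction p with
  | nil => exact continuous_const
  | cons a p ih => exact continuous_const.add (continuous_id.mul ih)

/-- Möbius substitution `x = (a + b t)/(1 + t)`: numerator and `(1+t)^length`. -/
def mob (a b : ℚ) : List ℚ → List ℚ × List ℚ
  | [] => ([], [1])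
  | c :: p =>
    let r := mob a b p
    let D := qadd r.2 (0 :: r.2)
    (qadd (qsmul c D) (qadd (qsmul a r.1) (0 :: qsmul b r.1)), D)

lemma mob_sound (a b : ℚ) (p : List ℚ) {t : ℝ} (ht : 0 ≤ t) :
    qev (mob a b p).2 t = (1 + t) ^ p.length ∧
    qev (mob a b p).1 t = (1 + t) ^ p.length * qev p ((a + b * t) / (1 + t)) := by
  have h1 : (1 + t) ≠ 0 := by positivity
  induction p with
  | nil => simp [mob, qev]
  | cons c p ih =>
    obtain ⟨e2, e1⟩ := ih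
    have d : qev (mob a b (c :: p)).2 t = (1 + t) ^ (c :: p).length := by
      show qev (qadd (mob a b p).2 (0 :: (mob a b p).2)) t = _
      rw [qev_add, qev_zero_cons, e2, List.length_cons, pow_succ]
      ring
    refine ⟨d, ?_⟩
    have hn : qev (mob a b (c :: p)).1 t = (c : ℝ) * qev (mob a b (c :: p)).2 t +
        (a * qev (mob a b p).1 t + t * (b * qev (mob a b p).1 t)) := by
      show qev (qadd (qsmul c (mob a b (c :: p)).2) (qadd (qsmul a (mob a b p).1)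
        (0 :: qsmul b (mob a b p).1))) t = _
      rw [qev_add, qev_add, qev_smul, qev_smul, qev_zero_cons, qev_smul]
    have e3 : qev (c :: p) (((a : ℝ) + b * t) / (1 + t)) =
      (c : ℝ) + ((a : ℝ) + b * t) / (1 + t) * qev p (((a : ℝ) + b * t) / (1 + t)) := rfl
    rw [hn, d, e1, List.length_cons, pow_succ, e3]
    field_simp

/-- `0 ≤ p` on `[a,b]`. -/
def chk1 (p : List ℚ) (a b : ℚ) : Bool :=
  decide (a < b) && (mob a b p).1.all (fun a => decide (0 ≤ a))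

theorem chk1_sound {p : List ℚ} {a b : ℚ} (h : chk1 p a b = true) {x : ℝ} (h1 : (a : ℝ) ≤ x)
    (h2 : x ≤ (b : ℝ)) : 0 ≤ qev p x := by
  simp only [chk1, Bool.and_eq_true, decide_eq_true_eq] at h
  obtain ⟨hab, hc⟩ := h
  have hab' : (a : ℝ) < (b : ℝ) := by exact_mod_cast hab
  have hsub : Ico (a : ℝ) (b : ℝ) ⊆ {x | 0 ≤ qev p x} := by
    intro x hx
    obtain ⟨hx1, hx2⟩ := hx
    have hbx : 0 < (b : ℝ) - x := by linarith
    have ht : 0 ≤ (x - a) / ((b : ℝ) - x) := div_nonneg (by linarith) hbx.le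
    have key := qev_nonneg hc ht
    rw [(mob_sound a b p ht).2] at key
    have e : ((a : ℝ) + b * ((x - a) / ((b : ℝ) - x))) / (1 + (x - a) / ((b : ℝ) - x)) = x := by
      have h3 : (b : ℝ) - x + (x - a) ≠ 0 := by
        have : (b : ℝ) - x + (x - a) = b - a := by ring
        rw [this]; exact (sub_pos.mpr hab').ne'
      rw [div_eq_iff (by positivity)]
      field_simp
      ring
    rw [e] at key
    exact nonneg_of_mul_nonneg_right key (by positivity)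
  have hcl : IsClosed {x | 0 ≤ qev p x} := isClosed_le continuous_const (continuous_qev p)
  have := hcl.closure_subset_iff.mpr hsub
  rw [closure_Ico hab'.ne] at this
  exact this ⟨h1, h2⟩

/-- a chain of intervals starting at `a`, with parameters -/
def chainChk (P : ℚ → List ℚ) : ℚ → List (ℚ × ℚ) → Bool
  | a, [] => decide (1 ≤ a)
  | a, (b, s) :: l => decide (0 < s) && chk1 (P s) a b && chainChk P b l

theorem chain_sound (P : ℚ → List ℚ) (l : List (ℚ × ℚ)) (a : ℚ) (h : chainChk P a l = true)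
    {x : ℝ} (h1 : (a : ℝ) ≤ x) (h2 : x < 1) : ∃ s : ℚ, 0 < s ∧ 0 ≤ qev (P s) x := by
  induction l generalizing a with
  | nil =>
    simp only [chainChk, decide_eq_true_eq] at h
    have : (1 : ℝ) ≤ (a : ℝ) := by exact_mod_cast h
    linarith
  | cons q l ih =>
    obtain ⟨b, s⟩ := q
    simp only [chainChk, Bool.and_eq_true, decide_eq_true_eq] at h
    rcases le_total x (b : ℝ) with hb | hb
    · exact ⟨s, h.1.1, chk1_sound h.1.2 h1 hb⟩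
    · exact ih b h.2 hb

/-- a chain of `y`-values for the tangent condition -/
def tanChk (A0 A1 A2 za zb : ℚ) : ℚ → List ℚ → Bool
  | y0, [] => decide (2 ≤ y0 ^ 2) && decide (0 ≤ y0)
  | y0, y1 :: l => decide (1 ≤ y0) && decide (tanU A0 A1 A2 za zb y0 y1 ≤ 1) &&
      tanChk A0 A1 A2 za zb y1 l

theorem tanChk_sound {A0 A1 A2 za zb : ℚ} (hA2 : 0 ≤ A2) (hza : 1 ≤ za) (l : List ℚ) (y0 : ℚ)
    (h : tanChk A0 A1 A2 za zb y0 l = true) {z y : ℝ} (h1 : (za : ℝ) ≤ z) (h2 : z ≤ (zb : ℝ))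
    (h3 : (y0 : ℝ) ≤ y) (h4 : y ^ 2 < 2) :
    z * (y + z) ^ 2 * ((2 * (A0 : ℝ) + A1) / 4 + A2 / 4 -
        A2 * ((y ^ 2 - 1) ^ 2 + 2 * (y ^ 2 - 1) * (z ^ 2 - 1) + 3 * (z ^ 2 - 1) ^ 2) / 8) ≤ 1 := by
  induction l generalizing y0 with
  | nil =>
    simp only [tanChk, Bool.and_eq_true, decide_eq_true_eq] at h
    have a : (2 : ℝ) ≤ (y0 : ℝ) ^ 2 := by exact_mod_cast h.1
    have b : (0 : ℝ) ≤ (y0 : ℝ) := by exact_mod_cast h.2
    nlinarith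
  | cons y1 l ih =>
    simp only [tanChk, Bool.and_eq_true, decide_eq_true_eq] at h
    rcases le_total y (y1 : ℝ) with hb | hb
    · refine tan_cell (y0 := (y0 : ℝ)) (y1 := (y1 : ℝ)) (by exact_mod_cast hA2)
        (by exact_mod_cast hza) h1 h2 (by exact_mod_cast h.1.1) h3 hb ?_
      have := h.1.2
      unfold tanU at this ⊢
      exact_mod_cast this
    · exact ih y1 h.2 hb

/-! ### Interval data -/

/-- Data of one interval of regime M. -/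
structure IData where
  /-- `z = √(1+c)` at the end points -/
  za : ℚ
  /-- `z = √(1+c)` at the end points -/
  zb : ℚ
  /-- functional -/
  A0 : ℚ
  /-- functional -/
  A1 : ℚ
  /-- functional -/
  A2 : ℚ
  /-- the constant of the row (P1), `≤ 1 - cb²` -/
  s : ℚ
  /-- `B(n)` as a polynomial in `x = 2n`, `n ≤ 1/2` (coefficients of `1, x, x², ...`) -/
  bl : List ℚ
  /-- `B(n)` as a polynomial in `x = 2(1-n)`, `n ≥ 1/2` -/
  br : List ℚ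
  /-- FIN: list of `(x_i, t_i)`: on `[x_{i-1}, x_i]` use `φ ≤ (x(2-x)+t²)/(2t)`; `x_0 = 0`, last `1` -/
  fin : List (ℚ × ℚ)
  /-- tangent condition: `1 = y_0 < y_1 < ... `, last `y² ≥ 2` -/
  tan : List ℚ

/-- `W(cb)` -/
def IData.Wb (D : IData) : ℚ :=
  2 * (D.zb - 1) + (2 * D.A0 + D.A1) / 4 * (D.zb ^ 2 - 1) ^ 2
    + D.A2 * ((D.zb ^ 2 - 1) ^ 2 / 4) * (1 - (D.zb ^ 2 - 1) ^ 2 / 2)

/-- `W'(cb)` -/
def IData.Wdb (D : IData) : ℚ :=
  1 / D.zb + (2 * D.A0 + D.A1) / 2 * (D.zb ^ 2 - 1)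
    + D.A2 * ((D.zb ^ 2 - 1) / 2) * (1 - (D.zb ^ 2 - 1) ^ 2)

/-- the polynomial of FIN -/
def IData.finP (D : IData) (t : ℚ) : List ℚ :=
  qadd (qsmul D.Wb (qadd D.bl D.br))
    [D.Wdb * (1 - t / 2) - D.Wb, -(D.Wdb / t), D.Wdb / (2 * t)]

/-- the numeric checks -/
def IData.ok (D : IData) : Bool :=
  decide (1 < D.za) && decide (D.za ≤ D.zb) && decide (D.zb ^ 2 ≤ 2) &&
  decide (D.s ≤ 1 - (D.zb ^ 2 - 1) ^ 2) &&
  decide (0 ≤ 2 * D.A0 + D.A1) && decide (0 ≤ D.A2) &&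
  ((decide (0 < D.A2) &&
      decide (8 * D.A2 * (D.A1 - D.A0) + 3 * (D.A2 - D.A1) ^ 2 ≤ 2 * D.A2)) ||
    (decide (D.A2 = 0) && decide (2 * (D.A1 - D.A0) ≤ 1 / 2) &&
      decide (2 * (D.A1 - D.A0) - 6 * D.A1 ≤ 1 / 2))) &&
  decide (D.bl.headD 0 ≤ 0) && decide (D.br.headD 0 ≤ 0) && decide (qsum D.bl = qsum D.br) &&
  decide (1 ≤ 2 * qsum D.bl) &&
  chainChk D.finP 0 D.fin && tanChk D.A0 D.A1 D.A2 D.za D.zb 1 D.tan

/-- the potential -/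
noncomputable def IData.B (D : IData) : ℝ → ℝ := Bpw (qev D.bl) (qev D.br)

lemma IData.Wb_eq (D : IData) : (D.Wb : ℝ) = Wz D.A0 D.A1 D.A2 D.zb := by
  unfold IData.Wb Wz; push_cast; ring

lemma IData.Wdb_eq (D : IData) : (D.Wdb : ℝ) = Wdz D.A0 D.A1 D.A2 D.zb := by
  unfold IData.Wdb Wdz; push_cast; ring

/-- **Assembly theorem for one interval of regime M.** -/
theorem IData.boundOn (D : IData) (h : D.ok = true)
    (hstep : ∀ n0 n1 : ℝ, 0 ≤ n1 → n1 < n0 → n0 ≤ 1 →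
      HasStep D.A0 D.A1 D.A2 ((D.za : ℝ) ^ 2 - 1) ((D.zb : ℝ) ^ 2 - 1) D.B (dP D.s) n0 n1) :
    BoundOn ((D.za : ℝ) ^ 2 - 1) ((D.zb : ℝ) ^ 2 - 1) := by
  simp only [IData.ok, Bool.and_eq_true, Bool.or_eq_true, decide_eq_true_eq] at h
  obtain ⟨⟨⟨⟨⟨⟨⟨⟨⟨⟨⟨⟨h1, h2⟩, h3⟩, h4⟩, h5⟩, h6⟩, h7⟩, h8⟩, h9⟩, h10⟩, h11⟩, h12⟩, h13⟩ := h
  have k1 : (1 : ℝ) < D.za := by exact_mod_cast h1
  have k2 : (D.za : ℝ) ≤ D.zb := by exact_mod_cast h2
  have k3 : (D.zb : ℝ) ^ 2 ≤ 2 := by exact_mod_cast h3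
  have k4 : (D.s : ℝ) ≤ 1 - ((D.zb : ℝ) ^ 2 - 1) ^ 2 := by exact_mod_cast h4
  have k5 : (0 : ℝ) ≤ 2 * D.A0 + D.A1 := by exact_mod_cast h5
  have k6 : (0 : ℝ) ≤ D.A2 := by exact_mod_cast h6
  have k7 : (0 < (D.A2 : ℝ) ∧ 8 * (D.A2 : ℝ) * (D.A1 - D.A0) + 3 * ((D.A2 : ℝ) - D.A1) ^ 2 ≤
        2 * D.A2) ∨ ((D.A2 : ℝ) = 0 ∧ 2 * ((D.A1 : ℝ) - D.A0) ≤ 1 / 2 ∧
        2 * ((D.A1 : ℝ) - D.A0) - 6 * D.A1 ≤ 1 / 2) := by
    rcases h7 with ⟨a, b⟩ | ⟨⟨a, b⟩, c⟩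
    · exact Or.inl ⟨by exact_mod_cast a, by exact_mod_cast b⟩
    · refine Or.inr ⟨by exact_mod_cast a, ?_, ?_⟩
      · have : ((2 * (D.A1 - D.A0) : ℚ) : ℝ) ≤ ((1 / 2 : ℚ) : ℝ) := by exact_mod_cast b
        push_cast at this; exact this
      · have : ((2 * (D.A1 - D.A0) - 6 * D.A1 : ℚ) : ℝ) ≤ ((1 / 2 : ℚ) : ℝ) := by exact_mod_cast c
        push_cast at this; exact this
  have k8 : ((D.bl.headD 0 : ℚ) : ℝ) ≤ 0 := by exact_mod_cast h8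
  have k9 : ((D.br.headD 0 : ℚ) : ℝ) ≤ 0 := by exact_mod_cast h9
  have k10 : (qsum D.bl : ℝ) = qsum D.br := by exact_mod_cast h10
  have k11 : (1 : ℝ) ≤ 2 * qsum D.bl := by exact_mod_cast h11
  refine bound_M_pw_tan k1 k2 k3 k4 (concave_FA_num k7) ?_ k5 k6 (qev D.bl) (qev D.br)
    (by rw [qev_zero]; exact k8) (by rw [qev_zero]; exact k9)
    (by rw [qev_one, qev_one]; exact k10) hstep ?_
  · -- tangent condition
    intro z hz1 hz2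
    refine tanAt_of_poly (by linarith) fun y hy1 hy2 => ?_
    rcases hy2.eq_or_lt with hy2 | hy2
    · -- `y = √2`: by continuity; the condition is closed
      have hc : Continuous fun y : ℝ => z * (y + z) ^ 2 * ((2 * (D.A0 : ℝ) + D.A1) / 4 + D.A2 / 4 -
          D.A2 * ((y ^ 2 - 1) ^ 2 + 2 * (y ^ 2 - 1) * (z ^ 2 - 1) + 3 * (z ^ 2 - 1) ^ 2) / 8) := by
        fun_prop
      have hcl : IsClosed {y : ℝ | z * (y + z) ^ 2 * ((2 * (D.A0 : ℝ) + D.A1) / 4 + D.A2 / 4 -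
          D.A2 * ((y ^ 2 - 1) ^ 2 + 2 * (y ^ 2 - 1) * (z ^ 2 - 1) + 3 * (z ^ 2 - 1) ^ 2) / 8) ≤ 1} :=
        isClosed_le hc continuous_const
      have hy : 1 < y := by nlinarith
      have hsub : Ico 1 y ⊆ {y : ℝ | z * (y + z) ^ 2 * ((2 * (D.A0 : ℝ) + D.A1) / 4 + D.A2 / 4 -
          D.A2 * ((y ^ 2 - 1) ^ 2 + 2 * (y ^ 2 - 1) * (z ^ 2 - 1) + 3 * (z ^ 2 - 1) ^ 2) / 8) ≤
            1} := by
        intro w hw
        exact tanChk_sound h6 h1.le D.tan 1 h13 hz1 hz2 (by simpa using hw.1)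
          (by nlinarith [hw.1, hw.2])
      have := hcl.closure_subset_iff.mpr hsub
      rw [closure_Ico hy.ne] at this
      exact this ⟨hy.le, le_rfl⟩
    · exact tanChk_sound h6 h1.le D.tan 1 h13 hz1 hz2 (by simpa using hy1) hy2
  · -- FIN
    intro x hx0 hx1
    rw [← D.Wb_eq, ← D.Wdb_eq]
    rcases hx1.eq_or_lt with hx1 | hx1
    · subst hx1
      refine ⟨1, one_pos, ?_⟩
      have hWb : (0 : ℝ) ≤ D.Wb := by
        rw [D.Wb_eq]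
        have := WA_nonneg k5 k6 (x := (D.zb : ℝ) ^ 2 - 1) (by nlinarith) (by linarith)
        have e : WA D.A0 D.A1 D.A2 ((D.zb : ℝ) ^ 2 - 1) = Wz D.A0 D.A1 D.A2 D.zb :=
          Wf_eq_Wz (by linarith) rfl
        rw [e] at this
        exact this
      rw [qev_one, qev_one, ← k10]
      have : (D.Wb : ℝ) * 1 ≤ D.Wb * (qsum D.bl + qsum D.bl) :=
        mul_le_mul_of_nonneg_left (by linarith) hWb
      norm_num at this ⊢
      linarith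
    · obtain ⟨t, ht, h⟩ := chain_sound D.finP D.fin 0 h12 (by simpa using hx0) hx1
      have ht' : (0 : ℝ) < t := by exact_mod_cast ht
      refine ⟨t, ht', ?_⟩
      unfold IData.finP at h
      rw [qev_add, qev_smul, qev_add] at h
      simp only [qev] at h
      push_cast at h
      have e : (D.Wdb : ℝ) * (1 - (x * (2 - x) + t ^ 2) / (2 * t)) =
          D.Wdb * (1 - t / 2) + x * (-(D.Wdb / t) + x * (D.Wdb / (2 * t))) := by
        field_simp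
        ring
      rw [e]
      linarith

end Crest.Agent.R307.GenM
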