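import Crest.Agent.R307.PIConic
import Crest.Agent.R307.GenInt

/-!
Row 307 (S0471), helper14: generic kernel check of the exact dictator certificate
(`K = C = 0`, flux exactly `W(c)`) for all `z = √(1+c)` in an interval (three variables
`y = √q0`, `ε = 1 - √q1/√q0`, `z`), and the assembly `FamI`, `CertI` for one `c`-interval.
-/

set_option autoImplicit false

namespace Crest.Agent.R307.PIConic

open Crest.Agent.R307.GenPI Crest.Agent.R307.PIEng Crest.Agent.R307.Conic Crest.Agent.KB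
open Crest.Agent.R307.GenInt Crest.Agent.R307.GenInd

/-- the variable `z`, to the power `k` -/
def PE.z (k : ℕ) : PE := ⟨.X 2 k, 0, 0, k⟩
@[simp] lemma PE.z_val (k : ℕ) (x : ℕ → ℝ) : (PE.z k).val x = x 2 ^ k := rfl

/-- Horner evaluation in `r`, coefficients `α + β z` -/
def PE.horner2 : List (ℤ × ℤ) → PE
  | [] => .cst 0
  | p :: l => PE.add ((PE.cst p.1).add (PE.smul p.2 (PE.z 1))) (PE.mul .r (PE.horner2 l))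

/-- real value of the list -/
noncomputable def evl2 (r z : ℝ) : List (ℤ × ℤ) → ℝ
  | [] => 0
  | p :: l => (p.1 + p.2 * z) + r * evl2 r z l

lemma PE.horner2_val (l : List (ℤ × ℤ)) (x : ℕ → ℝ) :
    (PE.horner2 l).val x = evl2 (1 - x 1) (x 2) l := by
  induction l with
  | nil => simp [PE.horner2, evl2]
  | cons a l ih => simp [PE.horner2, evl2, ih]

/-- data of the dictator check; `N` common denominator of the `a_i`, `l_i`, `v_i`;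
`V(z) = (v0 + v1 z)/N`, `D = (1-r)² R(r,z)`, `R = horner2 R / NR` -/
structure DatZ where
  N : ℕ
  a0 : ℤ
  a1 : ℤ
  a2 : ℤ
  l0 : ℤ
  l1 : ℤ
  v0 : ℤ
  v1 : ℤ
  NR : ℕ
  R : List (ℤ × ℤ)

namespace DatZ

def yr : PE := (PE.y 1).mul PE.r
/-- `c² = (z²-1)²` -/
def cc : PE := ((PE.z 2).sub (PE.cst 1)).mul ((PE.z 2).sub (PE.cst 1))
/-- `N * f1f` -/
def f1s (d : DatZ) : PE :=
  (PE.r.mul ((PE.cst 1).sub yr)).mul ((PE.cst (2 * d.N)).add ((yr.mul ((PE.cst 1).add yr)).mul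
    ((PE.cst d.a0).add ((yr.mul yr).mul ((PE.cst d.a1).add (PE.smul d.a2 (yr.mul yr)))))))
/-- `8 N corrf` -/
def co8 (d : DatZ) : PE :=
  (((PE.cst (4 * (d.a0 - d.a1))).add (PE.smul (6 * (d.a1 - d.a2))
    ((PE.y 2).mul ((PE.cst 1).add (PE.r.mul PE.r))))).add
    (PE.smul (8 * d.a2) ((PE.y 4).mul
      ((PE.cst 1).add ((PE.r.mul PE.r).mul ((PE.cst 1).add (PE.r.mul PE.r))))))).sub
    (PE.smul d.a2 (cc.mul (((PE.y 4).mul (PE.ep 2)).mul (PE.r1.mul PE.r1))))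
/-- `8 N W` -/
def W8 (d : DatZ) : PE :=
  ((PE.smul (16 * d.N) ((PE.z 1).sub (PE.cst 1))).add
    (PE.smul (2 * (2 * d.a0 + d.a1) + 2 * d.a2) cc)).sub (PE.smul d.a2 (cc.mul cc))
/-- `N V` -/
def Vs (d : DatZ) : PE := (PE.cst d.v0).add (PE.smul d.v1 (PE.z 1))
def Rs (d : DatZ) : PE := PE.horner2 d.R

def Q2 (d : DatZ) : PE :=
  (PE.smul (d.NR ^ 4) (cc.mul (PE.r1.mul PE.r1))).sub
    (d.Rs.mul ((((PE.ep 2).mul d.Rs).add (.cst (2 * d.NR))).mul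
      ((((PE.ep 2).mul d.Rs).add (PE.smul (2 * d.NR) PE.r)).mul
        (((PE.ep 2).mul d.Rs).add (PE.smul (2 * d.NR) PE.r1)))))
/-- `8 N ((z²-1)² V - W)` -/
def QV (d : DatZ) : PE := (PE.smul 8 (cc.mul d.Vs)).sub d.W8

/-- `8 N² NR G` -/
def G (d : DatZ) : PE :=
  ((((PE.smul (16 * d.N ^ 2) ((PE.ep 2).mul d.Rs)).add
    (PE.smul (d.N * d.NR) ((cc.mul (((PE.y 3).mul (PE.ep 2)).mul (PE.r1.mul PE.r1))).mul d.co8))).add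
    (PE.smul (8 * d.N * d.NR) d.f1s)).sub
    (PE.smul (d.N * d.NR) (d.W8.mul (((PE.y 1).mul (PE.ep 1)).mul PE.r1)))).sub
    (PE.smul (8 * d.NR) (d.Vs.mul
      ((PE.smul d.l0 ((PE.y 1).mul ((PE.cst 1).sub (PE.y 2)))).add
        (PE.smul d.l1 (((PE.y 1).mul (PE.r.mul PE.r)).mul ((PE.cst 1).sub (yr.mul yr)))))))

noncomputable def A0 (d : DatZ) : ℝ := d.a0 / d.N
noncomputable def A1 (d : DatZ) : ℝ := d.a1 / d.N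
noncomputable def A2 (d : DatZ) : ℝ := d.a2 / d.N
noncomputable def L0 (d : DatZ) : ℝ := d.l0 / d.N
noncomputable def L1 (d : DatZ) : ℝ := d.l1 / d.N
noncomputable def V (d : DatZ) (z : ℝ) : ℝ := (d.v0 + d.v1 * z) / d.N
noncomputable def Rr (d : DatZ) (r z : ℝ) : ℝ := evl2 r z d.R / d.NR

/-- real version of `G` -/
noncomputable def Gr (d : DatZ) (y r z : ℝ) : ℝ :=
  2 * ((1 - r) ^ 2 * d.Rr r z) +
    (z ^ 2 - 1) ^ 2 * y ^ 3 * (1 - r ^ 2) ^ 2 * corrf d.A0 d.A1 d.A2 ((z ^ 2 - 1) ^ 2) y r +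
    f1f d.A0 d.A1 d.A2 y r - Wz d.A0 d.A1 d.A2 z * (y * (1 - r ^ 2)) -
    d.V z * (d.L0 * (y * (1 - y ^ 2)) + d.L1 * (y * r ^ 2 * (1 - y ^ 2 * r ^ 2)))

section
variable (d : DatZ) (hN : 0 < d.N) (hNR : 0 < d.NR) (x : ℕ → ℝ)
include hN

lemma W8_val : d.W8.val x = 8 * d.N * Wz d.A0 d.A1 d.A2 (x 2) := by
  have h1 : (d.N : ℝ) ≠ 0 := by exact_mod_cast hN.ne'
  simp only [W8, cc, Wz, A0, A1, A2, PE.sub_val, PE.add_val, PE.smul_val, PE.mul_val,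
    PE.cst_val, PE.z_val]
  push_cast
  field_simp
  ring

lemma QV_val : d.QV.val x =
    8 * d.N * ((x 2 ^ 2 - 1) ^ 2 * d.V (x 2) - Wz d.A0 d.A1 d.A2 (x 2)) := by
  have h1 : (d.N : ℝ) ≠ 0 := by exact_mod_cast hN.ne'
  simp only [QV, Vs, cc, V, PE.sub_val, PE.add_val, PE.smul_val, PE.mul_val,
    PE.cst_val, PE.z_val, d.W8_val hN]
  push_cast
  field_simp

include hNR in
lemma G_val : d.G.val x = 8 * d.N ^ 2 * d.NR * d.Gr (x 0) (1 - x 1) (x 2) := by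
  have h1 : (d.N : ℝ) ≠ 0 := by exact_mod_cast hN.ne'
  have h3 : (d.NR : ℝ) ≠ 0 := by exact_mod_cast hNR.ne'
  simp only [G, Vs, Rs, f1s, co8, yr, cc, Gr, Rr, V, L0, L1, f1f, corrf, PE.sub_val, PE.add_val,
    PE.smul_val, PE.mul_val, PE.cst_val, PE.z_val, PE.y_val, PE.ep_val, PE.r_val, PE.r1_val,
    PE.horner2_val, d.W8_val hN]
  obtain ⟨W, hW⟩ : ∃ W, W = Wz d.A0 d.A1 d.A2 (x 2) := ⟨_, rfl⟩
  rw [← hW]
  unfold A0 A1 A2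
  push_cast
  field_simp
  ring

end

/-- **soundness** of the dictator check -/
theorem sound (d : DatZ) {w1 s1 w2 s2 : ℕ} {Xl1 M1 Xl2 M2 : List ℕ} {tr1 tr2 : Tr} {a b : ℤ}
    {a' b' : ℤ} (h0 : (decide (0 < d.N) && decide (0 < d.NR)) = true)
    (h1 : run 3 w1 s1 Xl1 M1 [[d.Rs.e, d.Q2.e, d.QV.e]] tr1 [(0, 2 ^ s1), (0, 2 ^ s1), (a, b)] = true)
    (h2 : run 3 w2 s2 Xl2 M2 [[d.G.e]] tr2 [(0, 2 ^ s2), (0, 2 ^ s2), (a', b')] = true)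
    {z y0 y1 : ℝ} (hza : (a : ℝ) ≤ z * 2 ^ s1) (hzb : z * 2 ^ s1 ≤ b)
    (hza' : (a' : ℝ) ≤ z * 2 ^ s2) (hzb' : z * 2 ^ s2 ≤ b')
    (hy1 : 0 ≤ y1) (h01 : y1 ≤ y0) (hy0 : y0 ≤ 1) :
    Wz d.A0 d.A1 d.A2 z ≤ (z ^ 2 - 1) ^ 2 * d.V z ∧
    PolyOK d.A0 d.A1 d.A2 ((z ^ 2 - 1) ^ 2) 0 0 (Wz d.A0 d.A1 d.A2 z) (d.V z * d.L0)
      (d.V z * d.L1) y0 y1 := by
  simp only [Bool.and_eq_true, decide_eq_true_eq] at h0
  obtain ⟨hN, hNR⟩ := h0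
  have hy : 0 ≤ y0 := hy1.trans h01
  obtain ⟨r, hr0, hr1, hr⟩ : ∃ r, 0 ≤ r ∧ r ≤ 1 ∧ y1 = y0 * r := by
    rcases hy.eq_or_lt with h | h
    · refine ⟨0, le_rfl, zero_le_one, ?_⟩
      rw [← h] at h01 ⊢
      rw [le_antisymm h01 hy1]; ring
    · exact ⟨y1 / y0, div_nonneg hy1 hy, div_le_one_of_le₀ h01 hy, by field_simp⟩
  subst hr
  obtain ⟨x, x0, x1, x2⟩ : ∃ x : ℕ → ℝ, x 0 = y0 ∧ x 1 = 1 - r ∧ x 2 = z :=
    ⟨fun i => if i = 0 then y0 else if i = 1 then 1 - r else z, by simp, by simp, by simp⟩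
  have hbox : ∀ (s : ℕ) (a b : ℤ), (a : ℝ) ≤ z * 2 ^ s → z * 2 ^ s ≤ b →
      InBox 3 s [(0, 2 ^ s), (0, 2 ^ s), (a, b)] x := by
    intro s a b h1 h2 i hi
    have hs : (0 : ℝ) < 2 ^ s := by positivity
    interval_cases i
    · simp only [ba, bb, List.getD_cons_zero, x0]
      push_cast
      constructor
      · positivity
      · nlinarith
    · simp only [ba, bb, List.getD_cons_succ, List.getD_cons_zero, x1]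
      push_cast
      constructor
      · have : 0 ≤ 1 - r := by linarith
        positivity
      · nlinarith
    · simp only [ba, bb, List.getD_cons_succ, List.getD_cons_zero, x2]
      exact ⟨h1, h2⟩
  obtain ⟨cl, hcl, h⟩ := run_sound _ _ _ _ _ _ _ _ h1 x (hbox s1 a b hza hzb)
  simp only [List.mem_cons, List.not_mem_nil, or_false] at hcl
  subst hcl
  obtain ⟨cl, hcl, h'⟩ := run_sound _ _ _ _ _ _ _ _ h2 x (hbox s2 a' b' hza' hzb')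
  simp only [List.mem_cons, List.not_mem_nil, or_false] at hcl
  subst hcl
  have q1 : 0 ≤ d.Rs.val x := h _ (by simp)
  have q2 : 0 ≤ d.Q2.val x := h _ (by simp)
  have q3 : 0 ≤ d.QV.val x := h _ (by simp)
  have q4 : 0 ≤ d.G.val x := h' _ (by simp)
  have n1 : (0 : ℝ) < d.N := by exact_mod_cast hN
  have n3 : (0 : ℝ) < d.NR := by exact_mod_cast hNR
  have hrr : 1 - (1 - r) = r := by ring
  rw [d.QV_val hN, x2] at q3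
  rw [d.G_val hN hNR, x0, x1, x2, hrr] at q4
  have q3' := nonneg_of_mul_nonneg_right q3 (by positivity)
  have q4' := nonneg_of_mul_nonneg_right q4 (by positivity)
  refine ⟨by linarith, ?_⟩
  have vR : d.Rs.val x = d.NR * d.Rr r z := by
    unfold Rs Rr
    rw [PE.horner2_val, x1, x2, hrr]
    field_simp
  have hR : 0 ≤ d.Rr r z := by
    have : 0 ≤ (d.NR : ℝ) * d.Rr r z := by rw [← vR]; exact q1
    exact nonneg_of_mul_nonneg_right this n3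
  obtain ⟨D, hDd⟩ : ∃ D, D = (1 - r) ^ 2 * d.Rr r z := ⟨_, rfl⟩
  have hD0 : 0 ≤ D := by rw [hDd]; exact mul_nonneg (sq_nonneg _) hR
  have hD : D * (D + 2) * (D + 2 * r) * (D + 2 + 2 * r) ≤ (z ^ 2 - 1) ^ 2 * (1 - r ^ 2) ^ 2 := by
    simp only [Q2, cc, PE.add_val, PE.sub_val, PE.smul_val, PE.mul_val, PE.cst_val, PE.ep_val,
      PE.r_val, PE.r1_val, PE.z_val, vR, x1, x2, hrr] at q2
    push_cast at q2
    have q5 : 0 ≤ (d.NR : ℝ) ^ 4 * ((z ^ 2 - 1) ^ 2 * (1 + r) ^ 2 - d.Rr r z * (D + 2) *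
        (D + 2 * r) * (D + 2 + 2 * r)) := by
      refine q2.trans (le_of_eq ?_)
      rw [hDd]
      ring
    have q6 := nonneg_of_mul_nonneg_right q5 (by positivity)
    have q7 := mul_nonneg (sq_nonneg (1 - r)) q6
    have e2 : (1 - r) ^ 2 * ((z ^ 2 - 1) ^ 2 * (1 + r) ^ 2 - d.Rr r z * (D + 2) *
        (D + 2 * r) * (D + 2 + 2 * r)) = (z ^ 2 - 1) ^ 2 * (1 - r ^ 2) ^ 2 -
            ((1 - r) ^ 2 * d.Rr r z) * (D + 2) * (D + 2 * r) * (D + 2 + 2 * r) := by ring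
    rw [e2, ← hDd] at q7
    linarith
  refine Dat.polyOK_of_le hy hr0 hD0 ?_ hD
  have key : 2 * (y0 * D - tau d.A0 d.A1 d.A2 ((z ^ 2 - 1) ^ 2) 0 0 (Wz d.A0 d.A1 d.A2 z)
      (d.V z * d.L0) (d.V z * d.L1) y0 (y0 * r)) = y0 * d.Gr y0 r z := by
    rw [hDd]
    unfold tau
    rw [Corr_eq, FP_f1]
    unfold Gr
    ring
  have h3 : 0 ≤ 2 * (y0 * D - tau d.A0 d.A1 d.A2 ((z ^ 2 - 1) ^ 2) 0 0 (Wz d.A0 d.A1 d.A2 z)
      (d.V z * d.L0) (d.V z * d.L1) y0 (y0 * r)) := by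
    rw [key]; exact mul_nonneg hy q4'
  linarith

/-- the dictator certificate on an interval -/
theorem certI (d : DatZ) {A0 A1 A2 l m za zb : ℝ} {w1 s1 w2 s2 : ℕ} {Xl1 M1 Xl2 M2 : List ℕ}
    {tr1 tr2 : Tr} {a b a' b' : ℤ} (h0 : (decide (0 < d.N) && decide (0 < d.NR)) = true)
    (h1 : run 3 w1 s1 Xl1 M1 [[d.Rs.e, d.Q2.e, d.QV.e]] tr1 [(0, 2 ^ s1), (0, 2 ^ s1), (a, b)] = true)
    (h2 : run 3 w2 s2 Xl2 M2 [[d.G.e]] tr2 [(0, 2 ^ s2), (0, 2 ^ s2), (a', b')] = true)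
    (hA0 : d.A0 = A0) (hA1 : d.A1 = A1) (hA2 : d.A2 = A2) (hl : d.L0 = l) (hm : d.L1 = m)
    (hl0 : 0 ≤ l) (hm0 : 0 ≤ m) (hza : 1 < za) (hab : za ≤ zb) (hzb : zb ^ 2 ≤ 2)
    (e1 : (a : ℝ) ≤ za * 2 ^ s1) (e2 : zb * 2 ^ s1 ≤ b) (e3 : (a' : ℝ) ≤ za * 2 ^ s2)
    (e4 : zb * 2 ^ s2 ≤ b') (hW : ∀ c, za ^ 2 - 1 ≤ c → c ≤ zb ^ 2 - 1 → 0 ≤ Wf A0 A1 A2 c) :
    CertI A0 A1 A2 (za ^ 2 - 1) (zb ^ 2 - 1) 1 0 1 l m := by
  have hp : ∀ s : ℕ, (0 : ℝ) < 2 ^ s := fun s => by positivity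
  have key : ∀ z, za ≤ z → z ≤ zb → ∀ y0 y1 : ℝ, 0 ≤ y1 → y1 ≤ y0 → y0 ≤ 1 →
      Wz A0 A1 A2 z ≤ (z ^ 2 - 1) ^ 2 * d.V z ∧
        PolyOK A0 A1 A2 ((z ^ 2 - 1) ^ 2) 0 0 (Wz A0 A1 A2 z) (d.V z * l) (d.V z * m) y0 y1 := by
    intro z h3 h4 y0 y1 h5 h6 h7
    have := d.sound h0 h1 h2 (z := z) (y0 := y0) (y1 := y1)
      (e1.trans (mul_le_mul_of_nonneg_right h3 (hp s1).le))
      ((mul_le_mul_of_nonneg_right h4 (hp s1).le).trans e2)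
      (e3.trans (mul_le_mul_of_nonneg_right h3 (hp s2).le))
      ((mul_le_mul_of_nonneg_right h4 (hp s2).le).trans e4) h5 h6 h7
    rw [hA0, hA1, hA2, hl, hm] at this
    exact this
  have := certI_of_poly_z (A0 := A0) (A1 := A1) (A2 := A2) (za := za) (zb := zb) (K := 0) (C := 0)
    (bt := 1) (l := l) (m := m) d.V hza hab hzb hl0 hm0 hW
    (fun z h3 h4 => (key z h3 h4 0 0 le_rfl le_rfl zero_le_one).1)
    (fun z h3 h4 y0 y1 h5 h6 h7 => by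
      have := (key z h3 h4 y0 y1 h5 h6 h7).2
      rw [mul_one]
      exact this)
  simpa using this

end DatZ

/-! ### families on an interval -/

namespace Dat

/-- the two kernel checks of `Dat.sound`, packed -/
def OK (d : Dat) : Prop :=
  ∃ (w1 s1 w2 s2 : ℕ) (Xl1 M1 Xl2 M2 : List ℕ) (tr1 tr2 : Tr),
    (decide (0 < d.N) && decide (0 < d.cd) && decide (0 < d.NR) && decide (0 < d.td)) = true ∧
    run 2 w1 s1 Xl1 M1 [[d.Q1.e, d.Q2.e]] tr1 [(0, 2 ^ s1), (0, 2 ^ s1)] = true ∧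
    run 2 w2 s2 Xl2 M2 [d.c1, d.c2, d.c3] tr2 [(0, 2 ^ s2), (0, 2 ^ s2)] = true

theorem OK.polyOK {d : Dat} (h : d.OK) {t y0 y1 : ℝ} (ht0 : 0 ≤ t) (ht1 : t ≤ d.T1)
    (hy1 : 0 ≤ y1) (h01 : y1 ≤ y0) (hy0 : y0 ≤ 1) :
    PolyOK d.A0 d.A1 d.A2 d.C2 (wt2 d.K1 d.K2 t) (wC t) (wt2 d.E1 d.E2 t) (wt2 0 d.M2 t)
      (wt2 0 d.L2 t) y0 y1 := by
  obtain ⟨_, _, _, _, _, _, _, _, _, _, h0, h1, h2⟩ := h
  exact d.sound h0 h1 h2 ht0 ht1 hy1 h01 hy0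

/-- certificates at one `ρ`, for `t ∈ [0, t1]` -/
theorem OK.certG {d : Dat} (h : d.OK) (hM : 0 ≤ d.M2) (hL : 0 ≤ d.L2) {ρ : ℝ} (hρ : |ρ| ≤ 1)
    (hc : 1 - ρ ^ 2 = d.C2) {t : ℝ} (ht0 : 0 ≤ t) (ht1 : t ≤ d.T1) :
    CertG ρ (FA d.A0 d.A1 d.A2) (1 + wt2 d.K1 d.K2 t) (wC t - wt2 d.K1 d.K2 t)
      (wt2 d.E1 d.E2 t) (-wt2 d.E1 d.E2 t) (wt2 0 d.M2 t) (wt2 0 d.L2 t) 0 := by
  have hw : ∀ v : ℝ, 0 ≤ v → 0 ≤ wt2 0 v t := by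
    intro v hv
    unfold wt2
    positivity
  refine ⟨hw _ hM, hw _ hL, ?_⟩
  exact pi_of_poly d.A0 d.A1 d.A2 (wt2 d.K1 d.K2 t) (wC t) (wt2 d.E1 d.E2 t) (wt2 0 d.M2 t)
    (wt2 0 d.L2 t) hρ (fun y0 y1 h1 h2 h3 => by rw [hc]; exact h.polyOK ht0 ht1 h1 h2 h3)

/-- the family on the `c`-interval, for one `t`: certificates from the two end points; the
parameters `k1`, `k2` may differ at the two end points only if they are equal here -/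
theorem certI_of_ends {da db : Dat} (ha : da.OK) (hb : db.OK)
    {A0 A1 A2 za zb z0 Ua Ub Va Vb k1 k2 e1 e2 m2 l2 : ℝ}
    (hA2 : 0 ≤ A2) (hza : 1 < za) (hab : za < zb) (hzb : zb ^ 2 ≤ 2) (hz0 : 1 < z0)
    (he1 : 0 ≤ e1) (he2 : 0 ≤ e1 + e2) (hm2 : 0 ≤ m2) (hl2 : 0 ≤ l2) (hVa : 0 ≤ Va) (hVb : 0 ≤ Vb)
    (hW : ∀ c, za ^ 2 - 1 ≤ c → c ≤ zb ^ 2 - 1 → 0 ≤ Wf A0 A1 A2 c)
    (hUa : Wtan A0 A1 A2 z0 ((za ^ 2 - 1) ^ 2) ≤ Ua)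
    (hUb : Wtan A0 A1 A2 z0 ((zb ^ 2 - 1) ^ 2) ≤ Ub)
    (hVa' : Wz A0 A1 A2 za ≤ (za ^ 2 - 1) ^ 2 * Va)
    (hVb' : Wz A0 A1 A2 zb ≤ (zb ^ 2 - 1) ^ 2 * Vb)
    (a1 : da.A0 = A0) (a2 : da.A1 = A1) (a3 : da.A2 = A2) (a4 : da.C2 = (za ^ 2 - 1) ^ 2)
    (a5 : da.K1 = k1) (a6 : da.K2 = k2) (a7 : da.E1 = Ua * e1) (a8 : da.E2 = Ua * e2)
    (a9 : da.M2 = Va * m2) (a10 : da.L2 = Va * l2)
    (b1 : db.A0 = A0) (b2 : db.A1 = A1) (b3 : db.A2 = A2) (b4 : db.C2 = (zb ^ 2 - 1) ^ 2)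
    (b5 : db.K1 = k1) (b6 : db.K2 = k2) (b7 : db.E1 = Ub * e1) (b8 : db.E2 = Ub * e2)
    (b9 : db.M2 = Vb * m2) (b10 : db.L2 = Vb * l2)
    {t : ℝ} (ht0 : 0 ≤ t) (ht1 : t ≤ da.T1) (ht2 : t ≤ db.T1) (ht3 : t ≤ 1) :
    CertI A0 A1 A2 (za ^ 2 - 1) (zb ^ 2 - 1) (1 + wt2 k1 k2 t) (wC t - wt2 k1 k2 t)
      (wt2 e1 e2 t) (wt2 0 m2 t) (wt2 0 l2 t) := by
  refine certI_of_poly (z0 := z0) (Ua := Ua) (Ub := Ub) (Va := Va) (Vb := Vb) hA2 hza hab hzb hz0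
    (wt2_nonneg he1 he2 ht0 ht3) (wt2_nonneg le_rfl (by linarith) ht0 ht3)
    (wt2_nonneg le_rfl (by linarith) ht0 ht3) hW hUa hUb hVa' hVb' ?_ ?_
  · intro y0 y1 h1 h2 h3
    have := ha.polyOK ht0 ht1 h1 h2 h3
    rw [a1, a2, a3, a4, a5, a6, a7, a8, a9, a10] at this
    have e1 : wt2 (Ua * e1) (Ua * e2) t = Ua * wt2 e1 e2 t := wt2_smul _ _ _ _
    have e3 : wt2 0 (Va * m2) t = Va * wt2 0 m2 t := by rw [← wt2_smul]; simp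
    have e4 : wt2 0 (Va * l2) t = Va * wt2 0 l2 t := by rw [← wt2_smul]; simp
    rw [e1, e3, e4] at this
    exact this
  · intro y0 y1 h1 h2 h3
    have := hb.polyOK ht0 ht2 h1 h2 h3
    rw [b1, b2, b3, b4, b5, b6, b7, b8, b9, b10] at this
    have e1 : wt2 (Ub * e1) (Ub * e2) t = Ub * wt2 e1 e2 t := wt2_smul _ _ _ _
    have e3 : wt2 0 (Vb * m2) t = Vb * wt2 0 m2 t := by rw [← wt2_smul]; simp
    have e4 : wt2 0 (Vb * l2) t = Vb * wt2 0 l2 t := by rw [← wt2_smul]; simp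
    rw [e1, e3, e4] at this
    exact this

/-- the whole conic family on the `c`-interval (`t1 = 1` at both end points) -/
theorem famI_of_ends {da db : Dat} (ha : da.OK) (hb : db.OK)
    {A0 A1 A2 za zb z0 Ua Ub Va Vb k1 k2 e1 e2 m2 l2 : ℝ}
    (hA2 : 0 ≤ A2) (hza : 1 < za) (hab : za < zb) (hzb : zb ^ 2 ≤ 2) (hz0 : 1 < z0)
    (he1 : 0 ≤ e1) (he2 : 0 ≤ e1 + e2) (hm2 : 0 ≤ m2) (hl2 : 0 ≤ l2) (hVa : 0 ≤ Va) (hVb : 0 ≤ Vb)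
    (hW : ∀ c, za ^ 2 - 1 ≤ c → c ≤ zb ^ 2 - 1 → 0 ≤ Wf A0 A1 A2 c)
    (hUa : Wtan A0 A1 A2 z0 ((za ^ 2 - 1) ^ 2) ≤ Ua)
    (hUb : Wtan A0 A1 A2 z0 ((zb ^ 2 - 1) ^ 2) ≤ Ub)
    (hVa' : Wz A0 A1 A2 za ≤ (za ^ 2 - 1) ^ 2 * Va)
    (hVb' : Wz A0 A1 A2 zb ≤ (zb ^ 2 - 1) ^ 2 * Vb)
    (a1 : da.A0 = A0) (a2 : da.A1 = A1) (a3 : da.A2 = A2) (a4 : da.C2 = (za ^ 2 - 1) ^ 2)
    (a5 : da.K1 = k1) (a6 : da.K2 = k2) (a7 : da.E1 = Ua * e1) (a8 : da.E2 = Ua * e2)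
    (a9 : da.M2 = Va * m2) (a10 : da.L2 = Va * l2)
    (b1 : db.A0 = A0) (b2 : db.A1 = A1) (b3 : db.A2 = A2) (b4 : db.C2 = (zb ^ 2 - 1) ^ 2)
    (b5 : db.K1 = k1) (b6 : db.K2 = k2) (b7 : db.E1 = Ub * e1) (b8 : db.E2 = Ub * e2)
    (b9 : db.M2 = Vb * m2) (b10 : db.L2 = Vb * l2)
    (ht1 : da.T1 = 1) (ht2 : db.T1 = 1) :
    FamI A0 A1 A2 (za ^ 2 - 1) (zb ^ 2 - 1) ⟨k1, k2, e1, e2, 0, m2, 0, l2⟩ := by
  intro t h0 h1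
  exact certI_of_ends ha hb hA2 hza hab hzb hz0 he1 he2 hm2 hl2 hVa hVb hW hUa hUb hVa' hVb'
    a1 a2 a3 a4 a5 a6 a7 a8 a9 a10 b1 b2 b3 b4 b5 b6 b7 b8 b9 b10 h0 (by rw [ht1]; exact h1)
    (by rw [ht2]; exact h1) h1

end Dat

end Crest.Agent.R307.PIConic
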