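import Crest.Agent.R307.GenM
import Crest.Agent.R307.PIDict

/-!
Row 307, S0471, regime M, two-sided product region with one conic family per `c`-interval
(notes 7706, 7737, v8): from the two end points to every `c`.

* `CQ`: the coefficients of a certificate; `famQ`, `dictQ`: member of a conic family, dictator.
* `Fam2`: a conic family with end dependent parameters; `Fam2.atA`, `Fam2.atB`: the members
  (`some t`) and the dictator (`none`) at the two end points.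
* `SIq`: (SI) at one end point `x = c²`, with the row (P1)
  `dP (1-x) n = n(1-n)(1 + 7/10 (1-x)(1-2n)²)`; `SI2`: the target of the (SI) computation.
* `CertP`: a pair of end point certificates whose interpolation is a certificate for all `c`;
  `certP_of_dat` (two end point checks `Dat.OK`), `certP_dict` (dictator certificate).
* `stepOK_of_ends`: `StepOK` for every `c`.
-/

set_option autoImplicit false

open Crest.CubeNoise Set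

namespace Crest.Agent.R307.GenM2

open Crest.Agent.R307 Crest.Agent.R307.Ode Crest.Agent.R307.TwoSet Crest.Agent.R307.GenInd
  Crest.Agent.R307.Flow Crest.Agent.R307.GenFin Crest.Agent.R307.GenProd Crest.Agent.R307.GenInt
  Crest.Agent.R307.Conic Crest.Agent.R307.GenM Crest.Agent.R307.GenPI

/-! ### Definitions -/

/-- Conic family with end dependent parameters (`a`: left end, `b`: right end of the
`c`-interval). `K = wt2 k1 k2 t`, flux/W `= wt2 e1 e2 t`, Parseval rows in units of `W/c²`: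
`wt2 0 m2 t` on the larger slice, `wt2 0 l2 t` on the smaller slice; `md`, `ld`: Parseval rows of
the dictator certificate. -/
structure Fam2 where
  /-- left end -/
  k1a : ℝ
  /-- left end -/
  k2a : ℝ
  /-- left end -/
  e1a : ℝ
  /-- left end -/
  e2a : ℝ
  /-- left end -/
  m2a : ℝ
  /-- left end -/
  l2a : ℝ
  /-- right end -/
  k1b : ℝ
  /-- right end -/
  k2b : ℝ
  /-- right end -/
  e1b : ℝ
  /-- right end -/
  e2b : ℝ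
  /-- right end -/
  m2b : ℝ
  /-- right end -/
  l2b : ℝ
  /-- dictator, larger slice -/
  md : ℝ
  /-- dictator, smaller slice -/
  ld : ℝ

/-- Coefficients of a certificate at one end point. -/
structure CQ where
  /-- coefficient of the larger slice -/
  a0 : ℝ
  /-- coefficient of the smaller slice -/
  a1 : ℝ
  /-- flux -/
  bt : ℝ
  /-- Parseval row, larger slice -/
  l0 : ℝ
  /-- Parseval row, smaller slice -/
  l1 : ℝ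

/-- Member of a conic family. -/
noncomputable def famQ (k1 k2 e1 e2 m2 l2 t : ℝ) : CQ :=
  ⟨1 + wt2 k1 k2 t, wC t - wt2 k1 k2 t, wt2 e1 e2 t, wt2 0 m2 t, wt2 0 l2 t⟩

/-- The dictator certificate. -/
def dictQ (md ld : ℝ) : CQ := ⟨1, 0, 1, md, ld⟩

/-- The certificates at the left end point. -/
noncomputable def Fam2.atA (f : Fam2) : Option ℝ → CQ
  | some t => famQ f.k1a f.k2a f.e1a f.e2a f.m2a f.l2a t
  | none => dictQ f.md f.ld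

/-- The certificates at the right end point. -/
noncomputable def Fam2.atB (f : Fam2) : Option ℝ → CQ
  | some t => famQ f.k1b f.k2b f.e1b f.e2b f.m2b f.l2b t
  | none => dictQ f.md f.ld

/-- (SI) at one end point `x = c²`. -/
def SIq (B Q : ℝ → ℝ) (x : ℝ) (p q : CQ) (n0 n1 : ℝ) : Prop :=
  SI B Q (dP (1 - x)) p.a0 p.a1 p.bt p.l0 p.l1 q.a0 q.a1 q.bt q.l0 q.l1 n0 n1

/-- Admissible choices. -/
def TT1 (t1 : ℝ) : Option ℝ → Prop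
  | some t => 0 ≤ t ∧ t ≤ t1
  | none => True

/-- (SI) at both end points with the same choice, at one pair. -/
def SI2at (B Q : ℝ → ℝ) (f : Fam2) (xa xb t1 n0 n1 : ℝ) : Prop :=
  ∃ s s' : Option ℝ, TT1 t1 s ∧ TT1 t1 s' ∧
    SIq B Q xa (f.atA s) (f.atA s') n0 n1 ∧ SIq B Q xb (f.atB s) (f.atB s') n0 n1

/-- The target of the (SI) computation on one interval. -/
def SI2 (B Q : ℝ → ℝ) (f : Fam2) (xa xb t1 : ℝ) : Prop :=
  ∀ n0 n1 : ℝ, 0 ≤ n1 → n1 < n0 → n0 + n1 ≤ 1 → ∃ s s' : Option ℝ, TT1 t1 s ∧ TT1 t1 s' ∧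
    SIq B Q xa (f.atA s) (f.atA s') n0 n1 ∧ SIq B Q xb (f.atB s) (f.atB s') n0 n1

lemma SI2_iff {B Q : ℝ → ℝ} {f : Fam2} {xa xb t1 : ℝ} :
    SI2 B Q f xa xb t1 ↔
      ∀ n0 n1 : ℝ, 0 ≤ n1 → n1 < n0 → n0 + n1 ≤ 1 → SI2at B Q f xa xb t1 n0 n1 := Iff.rfl

/-- Conditions on the family. -/
structure Fam2.OK (f : Fam2) : Prop where
  ka0 : 0 ≤ 1 + f.k1a
  ka1 : 0 ≤ 1 + f.k1a + f.k2a
  ka2 : f.k1a ≤ 1
  ka3 : f.k1a + f.k2a ≤ 0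
  kb0 : 0 ≤ 1 + f.k1b
  kb1 : 0 ≤ 1 + f.k1b + f.k2b
  kb2 : f.k1b ≤ 1
  kb3 : f.k1b + f.k2b ≤ 0
  e1 : f.e1a ≤ f.e1b
  e2 : f.e1a + f.e2a ≤ f.e1b + f.e2b
  m0 : 0 ≤ f.m2a
  m1 : f.m2a ≤ f.m2b
  l0 : 0 ≤ f.l2a
  l1 : f.l2a ≤ f.l2b
  md : 0 ≤ f.md
  ld : 0 ≤ f.ld

/-- `1 - s`, `s`: the weights of `c² ∈ [ca², cb²]`. -/
def Wt (ca cb s c : ℝ) : Prop :=
  0 ≤ s ∧ s ≤ 1 ∧ 0 < c ∧ c ^ 2 = (1 - s) * ca ^ 2 + s * cb ^ 2

lemma Wt.mem {ca cb s c : ℝ} (h : Wt ca cb s c) (hca : 0 < ca) (hab : ca ≤ cb) :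
    ca ≤ c ∧ c ≤ cb := by
  obtain ⟨hs0, hs1, hc, hx⟩ := h
  have d1 : 0 ≤ cb ^ 2 - ca ^ 2 := by nlinarith
  constructor
  · have : ca ^ 2 ≤ c ^ 2 := by
      have := mul_nonneg hs0 d1
      rw [hx]; linarith
    exact (abs_le_of_sq_le_sq' this hc.le).2
  · have : c ^ 2 ≤ cb ^ 2 := by
      have := mul_nonneg (by linarith : 0 ≤ 1 - s) d1
      rw [hx]; linarith
    exact (abs_le_of_sq_le_sq' this (by linarith)).2

/-- A pair of end point certificates whose interpolation is a certificate for every `c`. -/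
def CertP (A0 A1 A2 ca cb : ℝ) (p p' : CQ) : Prop :=
  ∀ s c : ℝ, Wt ca cb s c →
    CertG (Real.sqrt (1 - c ^ 2)) (FA A0 A1 A2)
      ((1 - s) * p.a0 + s * p'.a0) ((1 - s) * p.a1 + s * p'.a1)
      (Wf A0 A1 A2 c * ((1 - s) * p.bt + s * p'.bt))
      (-(Wf A0 A1 A2 c * ((1 - s) * p.bt + s * p'.bt)))
      (Wf A0 A1 A2 c / c ^ 2 * ((1 - s) * p.l0 + s * p'.l0))
      (Wf A0 A1 A2 c / c ^ 2 * ((1 - s) * p.l1 + s * p'.l1)) 0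

/-- Signs and monotonicity of a pair. -/
structure PairOK (p p' : CQ) : Prop where
  a0 : 0 ≤ p.a0
  a1 : 0 ≤ p.a1
  a0' : 0 ≤ p'.a0
  a1' : 0 ≤ p'.a1
  l0 : p.l0 ≤ p'.l0
  l1 : p.l1 ≤ p'.l1

/-! ### Interpolation inequalities -/

/-- product of two affine functions, opposite directions -/
lemma prod_interp_le {s a b u v : ℝ} (hs0 : 0 ≤ s) (hs1 : s ≤ 1) (h : (u - v) * (a - b) ≤ 0) :
    (1 - s) * (u * a) + s * (v * b) ≤ ((1 - s) * u + s * v) * ((1 - s) * a + s * b) := by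
  have : 0 ≤ s * (1 - s) * (-((u - v) * (a - b))) :=
    mul_nonneg (mul_nonneg hs0 (by linarith)) (by linarith)
  nlinarith

/-- product of two affine functions, same direction -/
lemma prod_interp_ge {s a b u v : ℝ} (hs0 : 0 ≤ s) (hs1 : s ≤ 1) (h : 0 ≤ (u - v) * (a - b)) :
    ((1 - s) * u + s * v) * ((1 - s) * a + s * b) ≤ (1 - s) * (u * a) + s * (v * b) := by
  have : 0 ≤ s * (1 - s) * ((u - v) * (a - b)) :=
    mul_nonneg (mul_nonneg hs0 (by linarith)) h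
  nlinarith

/-- Upper bound `W ≤ U` with affine `U`. -/
def UOK (A0 A1 A2 ca cb Ua Ub : ℝ) : Prop :=
  ∀ s c : ℝ, Wt ca cb s c → Wf A0 A1 A2 c ≤ (1 - s) * Ua + s * Ub

theorem uOK_of_tan {A0 A1 A2 z0 ca cb Ua Ub : ℝ} (hA2 : 0 ≤ A2) (hz0 : 1 < z0)
    (hUa : Wtan A0 A1 A2 z0 (ca ^ 2) ≤ Ua) (hUb : Wtan A0 A1 A2 z0 (cb ^ 2) ≤ Ub) :
    UOK A0 A1 A2 ca cb Ua Ub := by
  intro s c h
  obtain ⟨hs0, hs1, hc, hx⟩ := h
  have h1 := Wf_le_Wtan (A0 := A0) (A1 := A1) (z0 := z0) (c := c) hA2 hz0 hc.le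
  have e : Wtan A0 A1 A2 z0 (c ^ 2) =
      (1 - s) * Wtan A0 A1 A2 z0 (ca ^ 2) + s * Wtan A0 A1 A2 z0 (cb ^ 2) := by
    unfold Wtan; rw [hx]; ring
  have a2 := mul_le_mul_of_nonneg_left hUa (by linarith : 0 ≤ 1 - s)
  have a3 := mul_le_mul_of_nonneg_left hUb hs0
  linarith

/-- Admissible end values `La`, `Lb` of a Parseval row with constants `la`, `lb` (units `W/c²`). -/
def RowOK (A0 A1 A2 ca cb la lb La Lb : ℝ) : Prop :=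
  ∀ s c : ℝ, Wt ca cb s c →
    Wf A0 A1 A2 c / c ^ 2 * ((1 - s) * la + s * lb) ≤ (1 - s) * La + s * Lb

/-- constant row: `W/c²` is convex in `c²` -/
theorem rowOK_const {A0 A1 A2 ca cb l La Lb : ℝ} (hca : 0 < ca) (hcb : 0 < cb) (hl : 0 ≤ l)
    (ha : Wf A0 A1 A2 ca / ca ^ 2 * l ≤ La) (hb : Wf A0 A1 A2 cb / cb ^ 2 * l ≤ Lb) :
    RowOK A0 A1 A2 ca cb l l La Lb := by
  intro s c h
  obtain ⟨hs0, hs1, hc, hx⟩ := h
  have h := Wf_div_sq_convex (A0 := A0) (A1 := A1) (A2 := A2) (s := 1 - s) (t := s)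
    (by linarith : 0 ≤ 1 - s) hs0 (by ring) hca hcb hc hx
  have h2 := mul_le_mul_of_nonneg_right h hl
  have e : (1 - s) * l + s * l = l := by ring
  rw [e]
  have a2 := mul_le_mul_of_nonneg_left ha (by linarith : 0 ≤ 1 - s)
  have a3 := mul_le_mul_of_nonneg_left hb hs0
  linarith

/-- affine row: `U(x) l(x) / x` is convex -/
theorem rowOK_aff {A0 A1 A2 ca cb la lb La Lb Ua Ub : ℝ} (hca : 0 < ca) (hcb : 0 < cb)
    (hla : 0 ≤ la) (hlb : 0 ≤ lb) (hU : UOK A0 A1 A2 ca cb Ua Ub)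
    (h1 : lb * ca ^ 2 ≤ la * cb ^ 2) (h2 : Ub * ca ^ 2 ≤ Ua * cb ^ 2)
    (ha : Ua * la ≤ ca ^ 2 * La) (hb : Ub * lb ≤ cb ^ 2 * Lb) :
    RowOK A0 A1 A2 ca cb la lb La Lb := by
  intro s c h
  have hUc := hU s c h
  obtain ⟨hs0, hs1, hc, hx⟩ := h
  have hs' : 0 ≤ 1 - s := by linarith
  have hl : 0 ≤ (1 - s) * la + s * lb := by positivity
  have hc2 : 0 < c ^ 2 := by positivity
  have hxa : 0 < ca ^ 2 := by positivity
  have hxb : 0 < cb ^ 2 := by positivity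
  rw [div_mul_eq_mul_div, div_le_iff₀ hc2]
  refine (mul_le_mul_of_nonneg_right hUc hl).trans ?_
  -- multiply by `xa xb`
  have hp : 0 < ca ^ 2 * cb ^ 2 := by positivity
  refine le_of_mul_le_mul_right ?_ hp
  have key : ((1 - s) * (Ua * la) * cb ^ 2 + s * (Ub * lb) * ca ^ 2) *
      ((1 - s) * ca ^ 2 + s * cb ^ 2) -
      ((1 - s) * Ua + s * Ub) * ((1 - s) * la + s * lb) * (ca ^ 2 * cb ^ 2) =
      s * (1 - s) * ((la * cb ^ 2 - lb * ca ^ 2) * (Ua * cb ^ 2 - Ub * ca ^ 2)) := by ring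
  have k1 : 0 ≤ s * (1 - s) * ((la * cb ^ 2 - lb * ca ^ 2) * (Ua * cb ^ 2 - Ub * ca ^ 2)) :=
    mul_nonneg (mul_nonneg hs0 hs') (mul_nonneg (by linarith) (by linarith))
  have k2 : ((1 - s) * (Ua * la) * cb ^ 2 + s * (Ub * lb) * ca ^ 2) *
      ((1 - s) * ca ^ 2 + s * cb ^ 2) ≤
      ((1 - s) * La + s * Lb) * c ^ 2 * (ca ^ 2 * cb ^ 2) := by
    rw [hx]
    have b1 : (1 - s) * (Ua * la) * cb ^ 2 ≤ (1 - s) * (ca ^ 2 * La) * cb ^ 2 :=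
      mul_le_mul_of_nonneg_right (mul_le_mul_of_nonneg_left ha hs') hxb.le
    have b2 : s * (Ub * lb) * ca ^ 2 ≤ s * (cb ^ 2 * Lb) * ca ^ 2 :=
      mul_le_mul_of_nonneg_right (mul_le_mul_of_nonneg_left hb hs0) hxa.le
    have b3 : 0 ≤ (1 - s) * ca ^ 2 + s * cb ^ 2 := by positivity
    have := mul_le_mul_of_nonneg_right (add_le_add b1 b2) b3
    refine this.trans (le_of_eq ?_)
    ring
  linarith

/-! ### Certificates -/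

/-- A certificate at each end point gives the interpolated certificate. -/
theorem certP_of_ends {A0 A1 A2 ca cb βa βb Ra0 Ra1 Rb0 Rb1 : ℝ} {p p' : CQ} (hA2 : 0 ≤ A2)
    (hca : 0 < ca) (hab : ca ≤ cb) (hcb : cb ≤ 1)
    (hW : ∀ c, ca ≤ c → c ≤ cb → 0 ≤ Wf A0 A1 A2 c)
    (hl0 : 0 ≤ p.l0) (hl0' : 0 ≤ p'.l0) (hl1 : 0 ≤ p.l1) (hl1' : 0 ≤ p'.l1)
    (ha : CertG (Real.sqrt (1 - ca ^ 2)) (FA A0 A1 A2) p.a0 p.a1 βa (-βa) Ra0 Ra1 0)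
    (hb : CertG (Real.sqrt (1 - cb ^ 2)) (FA A0 A1 A2) p'.a0 p'.a1 βb (-βb) Rb0 Rb1 0)
    (hβ : ∀ s c : ℝ, Wt ca cb s c →
      Wf A0 A1 A2 c * ((1 - s) * p.bt + s * p'.bt) ≤ (1 - s) * βa + s * βb)
    (hr0 : ∀ s c : ℝ, Wt ca cb s c →
      Wf A0 A1 A2 c / c ^ 2 * ((1 - s) * p.l0 + s * p'.l0) ≤ (1 - s) * Ra0 + s * Rb0)
    (hr1 : ∀ s c : ℝ, Wt ca cb s c →
      Wf A0 A1 A2 c / c ^ 2 * ((1 - s) * p.l1 + s * p'.l1) ≤ (1 - s) * Ra1 + s * Rb1) :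
    CertP A0 A1 A2 ca cb p p' := by
  intro s c h
  have hm := h.mem hca hab
  have k0 := hβ s c h
  have k1 := hr0 s c h
  have k2 := hr1 s c h
  obtain ⟨hs0, hs1, hc, hx⟩ := h
  have hs' : 0 ≤ 1 - s := by linarith
  have hWc : 0 ≤ Wf A0 A1 A2 c / c ^ 2 := div_nonneg (hW c hm.1 hm.2) (sq_nonneg _)
  have key := certG_interp hA2 (sq_nonneg ca) (by nlinarith) (sq_nonneg cb) (by nlinarith)
    hs' hs0 (by ring : (1 - s) + s = 1) ha hb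
  rw [← hx] at key
  have e4 : (1 - s) * (-βa) + s * (-βb) = -((1 - s) * βa + s * βb) := by ring
  have e5 : (1 - s) * (0:ℝ) + s * 0 = 0 := by ring
  rw [e4, e5] at key
  exact certG_weaken key k0 (mul_nonneg hWc (by positivity)) k1
    (mul_nonneg hWc (by positivity)) k2 le_rfl

lemma wt2_row (m t : ℝ) : wt2 0 m t = m * wt2 0 1 t := by unfold wt2; ring

lemma wt2_mono {a a' b b' t : ℝ} (h1 : a ≤ b) (h2 : a + a' ≤ b + b') (h0 : 0 ≤ t) (h3 : t ≤ 1) :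
    wt2 a a' t ≤ wt2 b b' t := by
  have := wt2_nonneg (a1 := b - a) (a2 := b' - a') (by linarith) (by linarith) h0 h3
  have e : wt2 (b - a) (b' - a') t = wt2 b b' t - wt2 a a' t := by unfold wt2; ring
  linarith

lemma rowOK_t {A0 A1 A2 ca cb la lb La Lb t : ℝ} (h : RowOK A0 A1 A2 ca cb la lb La Lb)
    (h0 : 0 ≤ t) (h1 : t ≤ 1) (s c : ℝ) (hw : Wt ca cb s c) :
    Wf A0 A1 A2 c / c ^ 2 * ((1 - s) * wt2 0 la t + s * wt2 0 lb t) ≤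
      (1 - s) * wt2 0 La t + s * wt2 0 Lb t := by
  have hp : 0 ≤ wt2 0 1 t := wt2_nonneg le_rfl (by norm_num) h0 h1
  have := mul_le_mul_of_nonneg_right (h s c hw) hp
  rw [wt2_row la, wt2_row lb, wt2_row La, wt2_row Lb]
  linarith

lemma flux_t {A0 A1 A2 ca cb Ua Ub ea eb : ℝ} (hU : UOK A0 A1 A2 ca cb Ua Ub) (hUab : Ua ≤ Ub)
    (hea : 0 ≤ ea) (he : ea ≤ eb) (s c : ℝ) (hw : Wt ca cb s c) :
    Wf A0 A1 A2 c * ((1 - s) * ea + s * eb) ≤ (1 - s) * (Ua * ea) + s * (Ub * eb) := by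
  have hUc := hU s c hw
  obtain ⟨hs0, hs1, hc, hx⟩ := hw
  have h1 : 0 ≤ (1 - s) * ea + s * eb :=
    add_nonneg (mul_nonneg (by linarith) hea) (mul_nonneg hs0 (hea.trans he))
  refine (mul_le_mul_of_nonneg_right hUc h1).trans (prod_interp_ge hs0 hs1 ?_)
  nlinarith

/-- The family members from the polynomial conditions at the two end points. -/
theorem certP_of_poly {A0 A1 A2 ca cb Ua Ub Ma Mb La Lb t : ℝ} {f : Fam2} (hf : f.OK)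
    (hA2 : 0 ≤ A2) (hca : 0 < ca) (hab : ca ≤ cb) (hcb : cb ≤ 1)
    (hW : ∀ c, ca ≤ c → c ≤ cb → 0 ≤ Wf A0 A1 A2 c)
    (he1 : 0 ≤ f.e1a) (he2 : 0 ≤ f.e1a + f.e2a)
    (hU : UOK A0 A1 A2 ca cb Ua Ub) (hUab : Ua ≤ Ub)
    (hM : RowOK A0 A1 A2 ca cb f.m2a f.m2b Ma Mb) (hL : RowOK A0 A1 A2 ca cb f.l2a f.l2b La Lb)
    (hMa : 0 ≤ Ma) (hMb : 0 ≤ Mb) (hLa : 0 ≤ La) (hLb : 0 ≤ Lb)
    (ht0 : 0 ≤ t) (ht1 : t ≤ 1)
    (ha : ∀ y0 y1 : ℝ, 0 ≤ y1 → y1 ≤ y0 → y0 ≤ 1 →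
      PolyOK A0 A1 A2 (ca ^ 2) (wt2 f.k1a f.k2a t) (wC t) (Ua * wt2 f.e1a f.e2a t)
        (wt2 0 Ma t) (wt2 0 La t) y0 y1)
    (hb : ∀ y0 y1 : ℝ, 0 ≤ y1 → y1 ≤ y0 → y0 ≤ 1 →
      PolyOK A0 A1 A2 (cb ^ 2) (wt2 f.k1b f.k2b t) (wC t) (Ub * wt2 f.e1b f.e2b t)
        (wt2 0 Mb t) (wt2 0 Lb t) y0 y1) :
    CertP A0 A1 A2 ca cb (f.atA (some t)) (f.atB (some t)) := by
  have hw : ∀ v : ℝ, 0 ≤ v → 0 ≤ wt2 0 v t := fun v hv =>
    wt2_nonneg le_rfl (by linarith) ht0 ht1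
  have hca1 : ca ≤ 1 := hab.trans hcb
  refine certP_of_ends (p := f.atA (some t)) (p' := f.atB (some t)) hA2 hca hab hcb hW
    (hw _ hf.m0) (hw _ (hf.m0.trans hf.m1)) (hw _ hf.l0) (hw _ (hf.l0.trans hf.l1))
    (certG_of_poly (sq_nonneg _) (by nlinarith) (hw _ hMa) (hw _ hLa) ha)
    (certG_of_poly (sq_nonneg _) (by nlinarith) (hw _ hMb) (hw _ hLb) hb) ?_
    (rowOK_t hM ht0 ht1) (rowOK_t hL ht0 ht1)
  exact flux_t hU hUab (wt2_nonneg he1 he2 ht0 ht1) (wt2_mono hf.e1 hf.e2 ht0 ht1)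

open Crest.Agent.R307.PIConic in
/-- The family members `t ∈ [0, t1]` from two end point checks. -/
theorem certP_of_dat {da db : Dat} (hda : da.OK) (hdb : db.OK)
    {A0 A1 A2 ca cb Ua Ub Ma Mb La Lb t1 : ℝ} {f : Fam2} (hf : f.OK)
    (hA2 : 0 ≤ A2) (hca : 0 < ca) (hab : ca ≤ cb) (hcb : cb ≤ 1)
    (hW : ∀ c, ca ≤ c → c ≤ cb → 0 ≤ Wf A0 A1 A2 c)
    (he1 : 0 ≤ f.e1a) (he2 : 0 ≤ f.e1a + f.e2a)
    (hU : UOK A0 A1 A2 ca cb Ua Ub) (hUab : Ua ≤ Ub)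
    (hM : RowOK A0 A1 A2 ca cb f.m2a f.m2b Ma Mb) (hL : RowOK A0 A1 A2 ca cb f.l2a f.l2b La Lb)
    (hMa : 0 ≤ Ma) (hMb : 0 ≤ Mb) (hLa : 0 ≤ La) (hLb : 0 ≤ Lb)
    (a1 : da.A0 = A0) (a2 : da.A1 = A1) (a3 : da.A2 = A2) (a4 : da.C2 = ca ^ 2)
    (a5 : da.K1 = f.k1a) (a6 : da.K2 = f.k2a) (a7 : da.E1 = Ua * f.e1a) (a8 : da.E2 = Ua * f.e2a)
    (a9 : da.M2 = Ma) (a10 : da.L2 = La)
    (b1 : db.A0 = A0) (b2 : db.A1 = A1) (b3 : db.A2 = A2) (b4 : db.C2 = cb ^ 2)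
    (b5 : db.K1 = f.k1b) (b6 : db.K2 = f.k2b) (b7 : db.E1 = Ub * f.e1b) (b8 : db.E2 = Ub * f.e2b)
    (b9 : db.M2 = Mb) (b10 : db.L2 = Lb)
    (ht1a : t1 ≤ da.T1) (ht1b : t1 ≤ db.T1) (ht1 : t1 ≤ 1) {t : ℝ} (h0 : 0 ≤ t) (h1 : t ≤ t1) :
    CertP A0 A1 A2 ca cb (f.atA (some t)) (f.atB (some t)) := by
  refine certP_of_poly (Ua := Ua) (Ub := Ub) hf hA2 hca hab hcb hW he1 he2 hU hUab hM hL
    hMa hMb hLa hLb h0 (h1.trans ht1) ?_ ?_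
  · intro y0 y1 h2 h3 h4
    have := hda.polyOK h0 (h1.trans ht1a) h2 h3 h4
    rw [a1, a2, a3, a4, a5, a6, a7, a8, a9, a10, wt2_smul] at this
    exact this
  · intro y0 y1 h2 h3 h4
    have := hdb.polyOK h0 (h1.trans ht1b) h2 h3 h4
    rw [b1, b2, b3, b4, b5, b6, b7, b8, b9, b10, wt2_smul] at this
    exact this

/-- The dictator certificate. -/
theorem certP_dict {A0 A1 A2 ca cb : ℝ} {f : Fam2} (hca : 0 < ca) (hab : ca ≤ cb)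
    (h : CertI A0 A1 A2 ca cb 1 0 1 f.md f.ld) :
    CertP A0 A1 A2 ca cb (f.atA none) (f.atB none) := by
  intro s c hw
  have hm := hw.mem hca hab
  have key := h c hm.1 hm.2
  show CertG (Real.sqrt (1 - c ^ 2)) (FA A0 A1 A2) ((1 - s) * 1 + s * 1) ((1 - s) * 0 + s * 0)
    (Wf A0 A1 A2 c * ((1 - s) * 1 + s * 1)) (-(Wf A0 A1 A2 c * ((1 - s) * 1 + s * 1)))
    (Wf A0 A1 A2 c / c ^ 2 * ((1 - s) * f.md + s * f.md))
    (Wf A0 A1 A2 c / c ^ 2 * ((1 - s) * f.ld + s * f.ld)) 0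
  have e1 : (1 - s) * 1 + s * 1 = (1 : ℝ) := by ring
  have e2 : (1 - s) * 0 + s * 0 = (0 : ℝ) := by ring
  have e3 : (1 - s) * f.md + s * f.md = f.md := by ring
  have e4 : (1 - s) * f.ld + s * f.ld = f.ld := by ring
  rw [e1, e2, e3, e4]
  exact key

/-! ### (SI) in between -/

lemma gap_le {g0 g1 G0 G1 : ℝ} (h0 : 0 ≤ g0) (h1 : 0 ≤ g1) (k0 : g0 ≤ G0) (k1 : g1 ≤ G1) :
    Real.sqrt (g0 * g1) ≤ Real.sqrt (G0 * G1) :=
  Real.sqrt_le_sqrt (mul_le_mul k0 k1 h1 (h0.trans k0))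

/-- (SI) on a segment, everything interpolated. -/
theorem SI_segmentD {B Q D D' Ds : ℝ → ℝ} {n0 n1 : ℝ} (hQ0 : 0 ≤ Q n0) (hQ1 : 0 ≤ Q n1)
    {p q p' q' : CQ} {s : ℝ}
    (hp : PairOK p p') (hq : PairOK q q')
    (hD0 : Ds n0 = (1 - s) * D n0 + s * D' n0) (hD1 : Ds n1 = (1 - s) * D n1 + s * D' n1)
    (hd0 : D' n0 ≤ D n0) (hd1 : D' n1 ≤ D n1)
    (h : SI B Q D p.a0 p.a1 p.bt p.l0 p.l1 q.a0 q.a1 q.bt q.l0 q.l1 n0 n1)
    (h' : SI B Q D' p'.a0 p'.a1 p'.bt p'.l0 p'.l1 q'.a0 q'.a1 q'.bt q'.l0 q'.l1 n0 n1)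
    (hs0 : 0 ≤ s) (hs1 : s ≤ 1) :
    SI B Q Ds ((1 - s) * p.a0 + s * p'.a0) ((1 - s) * p.a1 + s * p'.a1)
      ((1 - s) * p.bt + s * p'.bt) ((1 - s) * p.l0 + s * p'.l0) ((1 - s) * p.l1 + s * p'.l1)
      ((1 - s) * q.a0 + s * q'.a0) ((1 - s) * q.a1 + s * q'.a1)
      ((1 - s) * q.bt + s * q'.bt) ((1 - s) * q.l0 + s * q'.l0) ((1 - s) * q.l1 + s * q'.l1)
      n0 n1 := by
  have hs : 0 ≤ 1 - s := by linarith
  have k := h.to_sqrt hQ0 hQ1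
  have k' := h'.to_sqrt hQ0 hQ1
  -- rows
  have row : ∀ {l l' d d' : ℝ}, l ≤ l' → d' ≤ d →
      (1 - s) * (l * d) + s * (l' * d') ≤ ((1 - s) * l + s * l') * ((1 - s) * d + s * d') := by
    intro l l' d d' h1 h2
    refine prod_interp_le hs0 hs1 ?_
    nlinarith
  have r00 := row hp.l0 hd0
  have r01 := row hp.l1 hd1
  have r10 := row hq.l0 hd1
  have r11 := row hq.l1 hd0
  have e1 : (1 - s) * gapL B D p.a0 p.a1 p.bt p.l0 p.l1 n0 n1 +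
      s * gapL B D' p'.a0 p'.a1 p'.bt p'.l0 p'.l1 n0 n1 ≤
      gapL B Ds ((1 - s) * p.a0 + s * p'.a0) ((1 - s) * p.a1 + s * p'.a1)
      ((1 - s) * p.bt + s * p'.bt) ((1 - s) * p.l0 + s * p'.l0) ((1 - s) * p.l1 + s * p'.l1)
      n0 n1 := by
    unfold gapL; rw [hD0, hD1]; linarith
  have e2 : (1 - s) * gapR B D q.a0 q.a1 q.bt q.l0 q.l1 n0 n1 +
      s * gapR B D' q'.a0 q'.a1 q'.bt q'.l0 q'.l1 n0 n1 ≤
      gapR B Ds ((1 - s) * q.a0 + s * q'.a0) ((1 - s) * q.a1 + s * q'.a1)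
      ((1 - s) * q.bt + s * q'.bt) ((1 - s) * q.l0 + s * q'.l0) ((1 - s) * q.l1 + s * q'.l1)
      n0 n1 := by
    unfold gapR; rw [hD0, hD1]; linarith
  have g1 : 0 ≤ (1 - s) * gapL B D p.a0 p.a1 p.bt p.l0 p.l1 n0 n1 +
      s * gapL B D' p'.a0 p'.a1 p'.bt p'.l0 p'.l1 n0 n1 :=
    add_nonneg (mul_nonneg hs h.1) (mul_nonneg hs0 h'.1)
  have g2 : 0 ≤ (1 - s) * gapR B D q.a0 q.a1 q.bt q.l0 q.l1 n0 n1 +
      s * gapR B D' q'.a0 q'.a1 q'.bt q'.l0 q'.l1 n0 n1 :=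
    add_nonneg (mul_nonneg hs h.2.1) (mul_nonneg hs0 h'.2.1)
  have pp := hp.a0; have pp1 := hp.a1; have pp' := hp.a0'; have pp1' := hp.a1'
  have qq := hq.a0; have qq1 := hq.a1; have qq' := hq.a0'; have qq1' := hq.a1'
  refine SI.of_sqrt (by positivity) (by positivity) (by positivity) (by positivity)
    (g1.trans e1) (g2.trans e2) ?_
  have c0 := mul_le_mul_of_nonneg_right (gm_combo hp.a0 hq.a1 hp.a0' hq.a1' hs0 hs1) hQ0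
  have c1 := mul_le_mul_of_nonneg_right (gm_combo hp.a1 hq.a0 hp.a1' hq.a0' hs0 hs1) hQ1
  have c2 := (gm_combo h.1 h.2.1 h'.1 h'.2.1 hs0 hs1).trans (gap_le g1 g2 e1 e2)
  have m := mul_le_mul_of_nonneg_left k hs
  have m' := mul_le_mul_of_nonneg_left k' hs0
  nlinarith [c0, c1, c2, m, m']

/-- rescaling of `D` -/
theorem SI_scale {B Q D : ℝ → ℝ} {κ n0 n1 : ℝ} (hκ : κ ≠ 0)
    {a0 a1 bt l0 l1 b0 b1 bt' l0' l1' : ℝ}
    (h : SI B Q D a0 a1 bt l0 l1 b0 b1 bt' l0' l1' n0 n1) :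
    SI B Q (fun n => κ * D n) a0 a1 bt (l0 / κ) (l1 / κ) b0 b1 bt' (l0' / κ) (l1' / κ) n0 n1 := by
  have e1 : gapL B (fun n => κ * D n) a0 a1 bt (l0 / κ) (l1 / κ) n0 n1 =
      gapL B D a0 a1 bt l0 l1 n0 n1 := by
    unfold gapL; field_simp
  have e2 : gapR B (fun n => κ * D n) b0 b1 bt' (l0' / κ) (l1' / κ) n0 n1 =
      gapR B D b0 b1 bt' l0' l1' n0 n1 := by
    unfold gapR; field_simp
  unfold SI
  rw [e1, e2]
  exact h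

/-- monotonicity of (SI) in `D` -/
theorem SI_monoD {B Q D D' : ℝ → ℝ} {n0 n1 : ℝ}
    {a0 a1 bt l0 l1 b0 b1 bt' l0' l1' : ℝ} (hl0 : 0 ≤ l0) (hl1 : 0 ≤ l1) (hl0' : 0 ≤ l0')
    (hl1' : 0 ≤ l1') (h0 : D n0 ≤ D' n0) (h1 : D n1 ≤ D' n1)
    (h : SI B Q D a0 a1 bt l0 l1 b0 b1 bt' l0' l1' n0 n1) :
    SI B Q D' a0 a1 bt l0 l1 b0 b1 bt' l0' l1' n0 n1 := by
  have k1 : gapL B D a0 a1 bt l0 l1 n0 n1 ≤ gapL B D' a0 a1 bt l0 l1 n0 n1 := by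
    unfold gapL
    have := mul_le_mul_of_nonneg_left h0 hl0
    have := mul_le_mul_of_nonneg_left h1 hl1
    linarith
  have k2 : gapR B D b0 b1 bt' l0' l1' n0 n1 ≤ gapR B D' b0 b1 bt' l0' l1' n0 n1 := by
    unfold gapR
    have := mul_le_mul_of_nonneg_left h0 hl1'
    have := mul_le_mul_of_nonneg_left h1 hl0'
    linarith
  obtain ⟨hx, hy, r0, r1, hr0, hr1, hr0', hr1', hS⟩ := h
  refine ⟨hx.trans k1, hy.trans k2, r0, r1, hr0, hr1, hr0', hr1', ?_⟩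
  rcases hS with hS | hS
  · exact Or.inl hS
  · exact Or.inr (hS.trans (mul_le_mul k1 k2 hy (hx.trans k1)))

/-- monotonicity of `StepOK` in `D` (the Parseval coefficients of a certificate are
nonnegative). -/
theorem stepOK_monoD {ρ : ℝ} {u : ℝ → ℝ} {W : ℝ} (hW : 0 < W) {B Q D D' : ℝ → ℝ} {n0 n1 : ℝ}
    (h0 : D n0 ≤ D' n0) (h1 : D n1 ≤ D' n1) (h : StepOK ρ u W B Q D n0 n1) :
    StepOK ρ u W B Q D' n0 n1 := by
  obtain ⟨a0, a1, bt, l0, l1, b0, b1, bt', l0', l1', ha0, ha1, hb0, hb1, hc, hc', hS⟩ := h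
  have g : ∀ l : ℝ, 0 ≤ W * l → 0 ≤ l := fun l hl => nonneg_of_mul_nonneg_right hl hW
  exact ⟨a0, a1, bt, l0, l1, b0, b1, bt', l0', l1', ha0, ha1, hb0, hb1, hc, hc',
    SI_monoD (g _ hc.1) (g _ hc.2.1) (g _ hc'.1) (g _ hc'.2.1) h0 h1 hS⟩

lemma dP_mono {s s' n : ℝ} (h : s ≤ s') (h0 : 0 ≤ n) (h1 : n ≤ 1) : dP s n ≤ dP s' n := by
  unfold dP
  have : 0 ≤ n * (1 - n) := mul_nonneg h0 (by linarith)
  apply mul_le_mul_of_nonneg_left _ this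
  have := mul_le_mul_of_nonneg_right h (sq_nonneg (1 - 2 * n))
  linarith

/-- **`StepOK` at one `c`**, from certified pairs and (SI) at the two end points. -/
theorem stepOK_of_pair {A0 A1 A2 ca cb n0 n1 : ℝ} {p p' q q' : CQ} {B Q : ℝ → ℝ}
    (hca : 0 < ca) (hab : ca ≤ cb)
    (hQ : ∀ n, 0 ≤ n → n ≤ 1 → 0 ≤ Q n) (hn1 : 0 ≤ n1) (hn : n1 ≤ n0) (hn0 : n0 ≤ 1)
    (hp : PairOK p p') (hq : PairOK q q')
    (hc : CertP A0 A1 A2 ca cb p p') (hc' : CertP A0 A1 A2 ca cb q q')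
    (ha : SIq B Q (ca ^ 2) p q n0 n1) (hb : SIq B Q (cb ^ 2) p' q' n0 n1)
    {c : ℝ} (h1 : ca ≤ c) (h2 : c ≤ cb) :
    StepOK (Real.sqrt (1 - c ^ 2)) (FA A0 A1 A2) (WA A0 A1 A2 c) B Q
      (fun n => c ^ 2 * dP (1 - c ^ 2) n) n0 n1 := by
  have hc0 : 0 < c := by linarith
  obtain ⟨s, hs0, hs1, hs⟩ := exists_seg (a := ca ^ 2) (b := cb ^ 2) (x := c ^ 2)
    (by nlinarith) (by nlinarith)
  have k := hc s c ⟨hs0, hs1, hc0, hs⟩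
  have k' := hc' s c ⟨hs0, hs1, hc0, hs⟩
  have hs' : 0 ≤ 1 - s := by linarith
  have hd : ∀ n, dP (1 - c ^ 2) n = (1 - s) * dP (1 - ca ^ 2) n + s * dP (1 - cb ^ 2) n := by
    intro n
    unfold dP
    rw [hs]; ring
  have hxab : ca ^ 2 ≤ cb ^ 2 := by nlinarith
  have S := SI_segmentD (Ds := dP (1 - c ^ 2)) (hQ n0 (by linarith) hn0)
    (hQ n1 hn1 (by linarith)) hp hq (hd n0) (hd n1)
    (dP_mono (by linarith) (by linarith) (by linarith))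
    (dP_mono (by linarith) (by linarith) (by linarith)) ha hb hs0 hs1
  have S' := SI_scale (κ := c ^ 2) (by positivity) S
  have eW : WA A0 A1 A2 c = Wf A0 A1 A2 c := rfl
  rw [eW]
  have r : ∀ x : ℝ, Wf A0 A1 A2 c * (x / c ^ 2) = Wf A0 A1 A2 c / c ^ 2 * x := by
    intro x; ring
  refine ⟨_, _, _, _, _, _, _, _, _, _,
    add_nonneg (mul_nonneg hs' hp.a0) (mul_nonneg hs0 hp.a0'),
    add_nonneg (mul_nonneg hs' hp.a1) (mul_nonneg hs0 hp.a1'),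
    add_nonneg (mul_nonneg hs' hq.a0) (mul_nonneg hs0 hq.a0'),
    add_nonneg (mul_nonneg hs' hq.a1) (mul_nonneg hs0 hq.a1'), ?_, ?_, S'⟩
  · rw [r, r]; exact k
  · rw [r, r]; exact k'

lemma Fam2.OK.pair {f : Fam2} (hf : f.OK) {t1 : ℝ} (ht1 : t1 ≤ 1) :
    ∀ s : Option ℝ, TT1 t1 s → PairOK (f.atA s) (f.atB s)
  | none, _ => ⟨zero_le_one, le_rfl, zero_le_one, le_rfl, le_rfl, le_rfl⟩
  | some t, h =>
    have h0 : 0 ≤ t := h.1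
    have h1 : t ≤ 1 := h.2.trans ht1
    ⟨one_add_K_nonneg hf.ka0 hf.ka1 h0 h1, C_sub_K_nonneg hf.ka2 hf.ka3 h0 h1,
      one_add_K_nonneg hf.kb0 hf.kb1 h0 h1, C_sub_K_nonneg hf.kb2 hf.kb3 h0 h1,
      wt2_mono le_rfl (by linarith [hf.m1]) h0 h1, wt2_mono le_rfl (by linarith [hf.l1]) h0 h1⟩

/-- **`StepOK` for every `c` of the interval.** -/
theorem stepOK_of_ends {A0 A1 A2 ca cb t1 : ℝ} {f : Fam2} (hf : f.OK) {B Q : ℝ → ℝ}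
    (hca : 0 < ca) (hab : ca ≤ cb) (ht1 : t1 ≤ 1)
    (hQ : ∀ n, 0 ≤ n → n ≤ 1 → 0 ≤ Q n)
    (hC : ∀ t, 0 ≤ t → t ≤ t1 → CertP A0 A1 A2 ca cb (f.atA (some t)) (f.atB (some t)))
    (hC1 : CertP A0 A1 A2 ca cb (f.atA none) (f.atB none))
    (hSI : SI2 B Q f (ca ^ 2) (cb ^ 2) t1) {c : ℝ} (h1 : ca ≤ c) (h2 : c ≤ cb) :
    ∀ n0 n1 : ℝ, 0 ≤ n1 → n1 < n0 → n0 + n1 ≤ 1 →
    StepOK (Real.sqrt (1 - c ^ 2)) (FA A0 A1 A2) (WA A0 A1 A2 c) B Q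
      (fun n => c ^ 2 * dP (1 - c ^ 2) n) n0 n1 := by
  intro n0 n1 hn1 hn hn01
  obtain ⟨s, s', hT, hT', ha, hb⟩ := hSI n0 n1 hn1 hn hn01
  have g : ∀ s : Option ℝ, TT1 t1 s → CertP A0 A1 A2 ca cb (f.atA s) (f.atB s) := by
    intro s hs
    cases s with
    | none => exact hC1
    | some t => exact hC t hs.1 hs.2
  exact stepOK_of_pair hca hab hQ hn1 hn.le (by linarith) (hf.pair ht1 s hT)
    (hf.pair ht1 s' hT') (g s hT) (g s' hT') ha hb h1 h2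

/-- The same for any row which is at least (P1). -/
theorem stepOK_of_ends_mono {A0 A1 A2 ca cb t1 : ℝ} {f : Fam2} (hf : f.OK) {B Q : ℝ → ℝ}
    (hca : 0 < ca) (hab : ca ≤ cb) (hcb : cb ≤ 1) (ht1 : t1 ≤ 1)
    (hA : 0 ≤ 2 * A0 + A1) (hA2 : 0 ≤ A2)
    (hQ : ∀ n, 0 ≤ n → n ≤ 1 → 0 ≤ Q n)
    (hC : ∀ t, 0 ≤ t → t ≤ t1 → CertP A0 A1 A2 ca cb (f.atA (some t)) (f.atB (some t)))
    (hC1 : CertP A0 A1 A2 ca cb (f.atA none) (f.atB none))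
    (hSI : SI2 B Q f (ca ^ 2) (cb ^ 2) t1) {c : ℝ} (h1 : ca ≤ c) (h2 : c ≤ cb)
    {D' : ℝ → ℝ} (hD' : ∀ n, 0 ≤ n → n ≤ 1 → c ^ 2 * dP (1 - c ^ 2) n ≤ D' n) :
    ∀ n0 n1 : ℝ, 0 ≤ n1 → n1 < n0 → n0 + n1 ≤ 1 →
    StepOK (Real.sqrt (1 - c ^ 2)) (FA A0 A1 A2) (WA A0 A1 A2 c) B Q D' n0 n1 := by
  intro n0 n1 hn1 hn hn01
  have hc0 : 0 < c := by linarith
  exact stepOK_monoD (GenS.WA_pos hA hA2 hc0 (by linarith)) (hD' n0 (by linarith) (by linarith))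
    (hD' n1 hn1 (by linarith))
    (stepOK_of_ends hf hca hab ht1 hQ hC hC1 hSI h1 h2 n0 n1 hn1 hn hn01)

/-- The row (P1) in the form used here. -/
lemma pBound_dP {c : ℝ} (hc0 : 0 ≤ c) (hc1 : c ≤ 1) :
    PBound (Real.sqrt (1 - c ^ 2)) (fun n => c ^ 2 * dP (1 - c ^ 2) n) := by
  intro n f
  rcases hc0.eq_or_lt with h | h
  · subst h
    have : (0 : ℝ) ^ 2 * dP (1 - 0 ^ 2) (cubeAverage (TT (Real.sqrt (1 - 0 ^ 2)) f)) = 0 := by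
      simp
    simp only [this]
    have hρ := (abs_sqrt_le (x := (0 : ℝ) ^ 2) (by norm_num) (by norm_num)).1
    exact cubeAverage_nonneg fun x =>
      mul_nonneg (TT_nonneg hρ f x) (by linarith [TT_le_one hρ f x])
  · exact dP_row h hc1 le_rfl c le_rfl le_rfl n f

/-! ### Interval theorem -/

/-- The tangent form of the final step. -/
theorem boundOn_tan {ca cb A0 A1 A2 r : ℝ} (hca : 0 < ca) (hab : ca ≤ cb) (hcb : cb ≤ 1)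
    (hu : ConcaveOn ℝ (Icc 0 1) (FA A0 A1 A2)) (hA : 0 ≤ 2 * A0 + A1) (hA2 : 0 ≤ A2)
    (hT : ∀ c, ca ≤ c → c ≤ cb → TanAt A0 A1 A2 c)
    (hr0 : 0 ≤ r) (hr : r * Wf A0 A1 A2 cb ≤ Wd A0 A1 A2 cb)
    {B Q : ℝ → ℝ} (hB0 : B 0 = 0) (hB1 : B 1 = 0) (hQ0 : Q 0 = 0)
    (hQs : ∀ n, Q (1 - n) = Q n) (hQ : ∀ n, 0 ≤ n → n ≤ 1 → 0 ≤ Q n)
    (hstep : ∀ c, ca ≤ c → c ≤ cb → ∀ n0 n1 : ℝ, 0 ≤ n1 → n1 < n0 → n0 + n1 ≤ 1 →
      StepOK (Real.sqrt (1 - c ^ 2)) (FA A0 A1 A2) (WA A0 A1 A2 c) B Q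
        (fun n => c ^ 2 * dP (1 - c ^ 2) n) n0 n1)
    (hfin : ∀ n, 0 ≤ n → n ≤ 1 →
      1 - r * (1 - ph (2 * n - 1)) ≤ B n + B (1 - n) + 2 * Q n) :
    Final71.BoundOn ca cb := by
  intro c h1 h2
  have hc0 : 0 < c := by linarith
  have hc1 : c ≤ 1 := by linarith
  have hph : ph (Real.sqrt (1 - c ^ 2)) = c := GenInt.ph_sqrt hc0.le hc1
  have hρ0 : 0 ≤ Real.sqrt (1 - c ^ 2) := Real.sqrt_nonneg _
  have hρ1 : Real.sqrt (1 - c ^ 2) ≤ 1 := by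
    rw [Real.sqrt_le_one]; nlinarith
  have habs : |Real.sqrt (1 - c ^ 2)| ≤ 1 := by rw [abs_of_nonneg hρ0]; exact hρ1
  have hQ1 : Q 1 = 0 := by
    have := hQs 0
    rw [sub_zero, hQ0] at this
    exact this
  have hWd := Wd_pos hA hA2 (c := c) hc0.le hc1
  have hWdb := Wd_pos hA hA2 (c := cb) (by linarith) hcb
  have hW : 0 < WA A0 A1 A2 c := GenS.WA_pos hA hA2 hc0 hc1
  have eW : WA A0 A1 A2 c = Wf A0 A1 A2 c := rfl
  refine bound_of_msHyp habs (msHyp_of_prod hρ0 hρ1 A0 A1 A2 (Wd A0 A1 A2 c) hWd hu ?_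
    (pBound_dP hc0.le hc1) hW hB0 hB1 hQ0 hQ1 hQ ?_ ?_)
  · rw [hph]
    exact hT c h1 h2
  · refine stepOK_of_half hρ0 hρ1 hu hQs (fun n => ?_) (hstep c h1 h2)
    simp only [dP_symm]
  · intro n hn0 hn1
    rw [hph]
    have hr' := rate_le hcb hca.le hT hWdb.le hr0 hr h1 h2
    have e1 := mul_le_mul_of_nonneg_left (hfin n hn0 hn1) hW.le
    have e2 := mul_le_mul_of_nonneg_right hr'
      (by linarith [ph_le_one (2 * n - 1)] : 0 ≤ 1 - ph (2 * n - 1))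
    rw [eW] at e1 ⊢
    linarith

end Crest.Agent.R307.GenM2
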