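import Crest.Agent.R307.GenM

/-!
Row 307, S0471, regime M, two-sided (product region) version: all numeric side conditions of one
`c`-interval as one computable check (helper775).

* `TData`: rational data: `za, zb` (`z = √(1+c)`), the functional, the constant `s` of the row (P1),
  `B(n) = 4n(1-n) b(1-2n)`, `Q(n) = 4n(1-n) q((1-2n)²)`.
* `TData.ok`: concavity of `F`, tangent condition for all `c` of the interval, `Q ≥ 0`, FIN.
* `TData.boundOn`: `BoundOn` from `ok` and the step condition `StepOK` for all `c`.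
-/

set_option autoImplicit false

open Crest.CubeNoise Set

namespace Crest.Agent.R307.GenM2Dat

open Crest.Agent.R307 Crest.Agent.R307.Ode Crest.Agent.R307.TwoSet Crest.Agent.R307.GenInd
  Crest.Agent.R307.Flow Crest.Agent.R307.GenFin Crest.Agent.R307.GenProd Crest.Agent.R307.GenS
  Crest.Agent.R307.GenInt Crest.Agent.R307.Conic Crest.Agent.R307.Final71 Crest.Agent.R307.GenM

/-- even part of a polynomial in `m`, as a polynomial in `w = m²` -/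
def evenPart : List ℚ → List ℚ
  | [] => []
  | [a] => [a]
  | a :: _ :: p => a :: evenPart p

lemma evenPart_eq : ∀ (p : List ℚ) (m : ℝ), qev p m + qev p (-m) = 2 * qev (evenPart p) (m ^ 2)
  | [], m => by simp [evenPart, qev]
  | [a], m => by simp [evenPart, qev]; ring
  | a :: b :: p, m => by
    have ih := evenPart_eq p m
    have e1 : ∀ x, qev (a :: b :: p) x = (a : ℝ) + x * ((b : ℝ) + x * qev p x) := fun _ => rfl
    have e2 : qev (evenPart (a :: b :: p)) (m ^ 2) = (a : ℝ) + m ^ 2 * qev (evenPart p) (m ^ 2) :=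
      rfl
    rw [e1, e1, e2]
    linear_combination m ^ 2 * ih

/-! ### Tangent condition on `[ca, 1]` from the tangent condition at `ca` and concavity on `[ca,1]` -/

theorem concave_WA_tail {A0 A1 A2 za : ℝ} (hza : 1 ≤ za)
    (h : ∀ y : ℝ, za ≤ y → y ^ 2 ≤ 2 →
      ((2 * A0 + A1 + A2) / 2 - 3 / 2 * A2 * (y ^ 2 - 1) ^ 2) * y ^ 3 ≤ 1 / 2) :
    ConcaveOn ℝ (Icc (za ^ 2 - 1) 1) (WA A0 A1 A2) := by
  have hca : 0 ≤ za ^ 2 - 1 := by nlinarith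
  have hint : interior (Icc (za ^ 2 - 1 : ℝ) 1) = Ioo (za ^ 2 - 1) 1 := interior_Icc
  have hd : ∀ q ∈ Ioo (za ^ 2 - 1 : ℝ) 1, deriv (WA A0 A1 A2) q = WA' A0 A1 A2 q := fun q hq =>
    (hasDerivAt_WA A0 A1 A2 (by linarith [hq.1])).deriv
  have hd2 : ∀ q ∈ Ioo (za ^ 2 - 1 : ℝ) 1, HasDerivAt (deriv (WA A0 A1 A2))
      (-(1 / (2 * (Real.sqrt (1 + q)) ^ 3)) +
        ((2 * A0 + A1 + A2) / 2 - 3 / 2 * A2 * q ^ 2)) q := by
    intro q hq
    refine (hasDerivAt_WA' A0 A1 A2 (by linarith [hq.1])).congr_of_eventuallyEq ?_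
    filter_upwards [isOpen_Ioo.mem_nhds hq] with x hx
    exact hd x hx
  refine concaveOn_of_deriv2_nonpos (convex_Icc _ 1) (continuous_WA A0 A1 A2).continuousOn
    ?_ ?_ ?_
  · rw [hint]
    exact fun q hq =>
      (hasDerivAt_WA A0 A1 A2 (by linarith [hq.1])).differentiableAt.differentiableWithinAt
  · rw [hint]
    exact fun q hq => (hd2 q hq).differentiableAt.differentiableWithinAt
  · rw [hint]
    intro q hq
    have e : deriv^[2] (WA A0 A1 A2) q = deriv (deriv (WA A0 A1 A2)) q := rfl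
    rw [e, (hd2 q hq).deriv]
    have hq0 : 0 ≤ q := by linarith [hq.1]
    have hy : 0 < Real.sqrt (1 + q) := Real.sqrt_pos.mpr (by linarith)
    have e2 : (Real.sqrt (1 + q)) ^ 2 = 1 + q := Real.sq_sqrt (by linarith)
    have hy1 : za ≤ Real.sqrt (1 + q) := Real.le_sqrt_of_sq_le (by linarith [hq.1])
    have hh := h (Real.sqrt (1 + q)) hy1 (by rw [e2]; linarith [hq.2])
    rw [e2] at hh
    have e3 : (1 + q - 1) ^ 2 = q ^ 2 := by ring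
    rw [e3] at hh
    have hy3 : 0 < (Real.sqrt (1 + q)) ^ 3 := by positivity
    have : (2 * A0 + A1 + A2) / 2 - 3 / 2 * A2 * q ^ 2 ≤ 1 / 2 / (Real.sqrt (1 + q)) ^ 3 := by
      rw [le_div_iff₀ hy3]; exact hh
    have e5 : 1 / 2 / (Real.sqrt (1 + q)) ^ 3 = 1 / (2 * (Real.sqrt (1 + q)) ^ 3) := by
      rw [div_div]
    linarith

/-- Tangent line inequality inside `[ca,1]`. -/
lemma tan_tail_aux {A0 A1 A2 ca : ℝ} (hca : 0 ≤ ca)
    (hconc : ConcaveOn ℝ (Icc ca 1) (WA A0 A1 A2)) {c x : ℝ} (hc : ca ≤ c) (hc1 : c ≤ 1)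
    (hx : ca ≤ x) (hx1 : x ≤ 1) : Wf A0 A1 A2 x ≤ Wf A0 A1 A2 c + Wd A0 A1 A2 c * (x - c) := by
  have hd := hasDerivAt_WA A0 A1 A2 (x := c) (by linarith)
  have e : WA' A0 A1 A2 c = Wd A0 A1 A2 c := by
    unfold WA' Wd; ring
  rw [e] at hd
  have e1 : ∀ y, Wf A0 A1 A2 y = WA A0 A1 A2 y := fun _ => rfl
  rw [e1, e1]
  rcases lt_trichotomy x c with h | h | h
  · have := hconc.le_slope_of_hasDerivAt ⟨hx, hx1⟩ ⟨hc, hc1⟩ h hd
    rw [slope_def_field, le_div_iff₀ (by linarith)] at this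
    linarith
  · rw [h]; simp
  · have := hconc.slope_le_of_hasDerivAt ⟨hc, hc1⟩ ⟨hx, hx1⟩ h hd
    rw [slope_def_field, div_le_iff₀ (by linarith)] at this
    linarith

theorem tanAt_tail {A0 A1 A2 ca : ℝ} (hca : 0 ≤ ca) (hT : TanAt A0 A1 A2 ca)
    (hconc : ConcaveOn ℝ (Icc ca 1) (WA A0 A1 A2)) {c : ℝ} (hc : ca ≤ c) (hc1 : c ≤ 1) :
    TanAt A0 A1 A2 c := by
  intro x hx hx1
  rcases le_total ca x with h | h
  · exact tan_tail_aux hca hconc hc hc1 h hx1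
  · rcases hc.eq_or_lt with hcc | hcc
    · rw [← hcc]; exact hT x hx hx1
    · have a := hT x hx hx1
      have b := tan_tail_aux hca hconc hc hc1 le_rfl (hc.trans hc1)
      have d := tan_tail_aux hca hconc le_rfl (hc.trans hc1) hc hc1
      have e : Wd A0 A1 A2 c ≤ Wd A0 A1 A2 ca := by
        have : 0 ≤ (Wd A0 A1 A2 ca - Wd A0 A1 A2 c) * (c - ca) := by linarith
        have := nonneg_of_mul_nonneg_left this (by linarith)
        linarith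
      have f := mul_le_mul_of_nonneg_right e (by linarith : 0 ≤ ca - x)
      linarith

/-- product -/
def qmul : List ℚ → List ℚ → List ℚ
  | [], _ => []
  | a :: p, q => qadd (qsmul a q) (0 :: qmul p q)

lemma qev_mul (p q : List ℚ) (x : ℝ) : qev (qmul p q) x = qev p x * qev q x := by
  induction p with
  | nil => simp [qmul, qev]
  | cons a p ih =>
    have e : qmul (a :: p) q = qadd (qsmul a q) (0 :: qmul p q) := rfl
    have e1 : qev (a :: p) x = (a : ℝ) + x * qev p x := rfl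
    rw [e, qev_add, qev_smul, qev_zero_cons, ih, e1]
    ring

/-- `1 - za (y+za)² (α - A2 g(y)/8)`, polynomial in `y` -/
def tanP (A0 A1 A2 za : ℚ) : List ℚ :=
  qadd [1] (qsmul (-za) (qmul [za ^ 2, 2 * za, 1]
    [(2 * A0 + A1) / 4 + A2 / 4 - A2 / 8 * (1 - 2 * (za ^ 2 - 1) + 3 * (za ^ 2 - 1) ^ 2), 0,
      -(A2 / 8 * (-2 + 2 * (za ^ 2 - 1))), 0, -(A2 / 8)]))

lemma tanP_eq (A0 A1 A2 za : ℚ) (y : ℝ) : qev (tanP A0 A1 A2 za) y =
    1 - za * (y + za) ^ 2 * ((2 * (A0 : ℝ) + A1) / 4 + A2 / 4 -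
        A2 * ((y ^ 2 - 1) ^ 2 + 2 * (y ^ 2 - 1) * ((za : ℝ) ^ 2 - 1) +
          3 * ((za : ℝ) ^ 2 - 1) ^ 2) / 8) := by
  unfold tanP
  rw [qev_add, qev_smul, qev_mul]
  simp only [qev]
  push_cast
  ring

/-- `1/2 - ((2A0+A1+A2)/2 - 3/2 A2 (y²-1)²) y³` -/
def cvxP (A0 A1 A2 : ℚ) : List ℚ :=
  [1 / 2, 0, 0, -((2 * A0 + A1 + A2) / 2 - 3 / 2 * A2), 0, -(3 * A2), 0, 3 / 2 * A2]

lemma cvxP_eq (A0 A1 A2 : ℚ) (y : ℝ) : qev (cvxP A0 A1 A2) y =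
    1 / 2 - ((2 * (A0 : ℝ) + A1 + A2) / 2 - 3 / 2 * A2 * (y ^ 2 - 1) ^ 2) * y ^ 3 := by
  unfold cvxP
  simp only [qev]
  push_cast
  ring

/-- a chain of intervals from `a` to beyond `√2` -/
def yChk (P : List ℚ) : ℚ → List ℚ → Bool
  | a, [] => decide (2 ≤ a ^ 2) && decide (0 ≤ a)
  | a, b :: l => chk1 P a b && yChk P b l

theorem yChk_sound (P : List ℚ) (l : List ℚ) (a : ℚ) (h : yChk P a l = true) {y : ℝ}
    (h1 : (a : ℝ) ≤ y) (h2 : y ^ 2 < 2) : 0 ≤ qev P y := by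
  induction l generalizing a with
  | nil =>
    simp only [yChk, Bool.and_eq_true, decide_eq_true_eq] at h
    have a1 : (2 : ℝ) ≤ (a : ℝ) ^ 2 := by exact_mod_cast h.1
    have a2 : (0 : ℝ) ≤ (a : ℝ) := by exact_mod_cast h.2
    nlinarith
  | cons b l ih =>
    simp only [yChk, Bool.and_eq_true] at h
    rcases le_total y (b : ℝ) with hb | hb
    · exact chk1_sound h.1 h1 hb
    · exact ih b h.2 hb

theorem yChk_sound' (P : List ℚ) (l : List ℚ) (a : ℚ) (h : yChk P a l = true) (ha : 0 ≤ a)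
    (ha2 : a ^ 2 < 2) {y : ℝ} (h1 : (a : ℝ) ≤ y) (h2 : y ^ 2 ≤ 2) : 0 ≤ qev P y := by
  rcases h2.eq_or_lt with h2 | h2
  · have hcl : IsClosed {x | 0 ≤ qev P x} := isClosed_le continuous_const (continuous_qev P)
    have a0 : (0 : ℝ) ≤ (a : ℝ) := by exact_mod_cast ha
    have a2 : (a : ℝ) ^ 2 < 2 := by exact_mod_cast ha2
    have hay : (a : ℝ) < y := by nlinarith
    have hsub : Ico (a : ℝ) y ⊆ {x | 0 ≤ qev P x} := fun x hx =>
      yChk_sound P l a h hx.1 (by nlinarith [hx.1, hx.2])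
    have := hcl.closure_subset_iff.mpr hsub
    rw [closure_Ico hay.ne] at this
    exact this ⟨hay.le, le_rfl⟩
  · exact yChk_sound P l a h h1 h2

/-- Two-sided data of one interval of regime M. -/
structure TData where
  /-- `z = √(1+c)` at the left end -/
  za : ℚ
  /-- `z = √(1+c)` at the right end -/
  zb : ℚ
  /-- functional -/
  A0 : ℚ
  /-- functional -/
  A1 : ℚ
  /-- functional -/
  A2 : ℚ
  /-- the constant of the row (P1), `≤ 1 - cb²` -/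
  s : ℚ
  /-- `B(n) = 4n(1-n) b(m)`, `m = 1-2n` -/
  b : List ℚ
  /-- `Q(n) = 4n(1-n) q(m²)` -/
  q : List ℚ
  /-- FIN: list of `(w_i, t_i)`: on `[w_{i-1}, w_i]` use `φ ≤ (1-w+t²)/(2t)`, `w_0 = 0`, last `1` -/
  fin : List (ℚ × ℚ)
  /-- tangent condition at `ca`: break points `y_1 < y_2 < ... ` (`y_0 = 1`), last `y² ≥ 2` -/
  tan : List ℚ
  /-- concavity of `W` on `[ca,1]`: break points (`y_0 = za`), last `y² ≥ 2` -/
  cvx : List ℚ

variable (D : TData)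

/-- the potential `B` -/
noncomputable def TData.B (n : ℝ) : ℝ := 4 * n * (1 - n) * qev D.b (1 - 2 * n)

/-- the potential `Q` -/
noncomputable def TData.Q (n : ℝ) : ℝ := 4 * n * (1 - n) * qev D.q ((1 - 2 * n) ^ 2)

/-- `W(cb)` -/
def TData.Wb : ℚ :=
  2 * (D.zb - 1) + (2 * D.A0 + D.A1) / 4 * (D.zb ^ 2 - 1) ^ 2
    + D.A2 * ((D.zb ^ 2 - 1) ^ 2 / 4) * (1 - (D.zb ^ 2 - 1) ^ 2 / 2)

/-- `W'(cb)` -/
def TData.Wdb : ℚ :=
  1 / D.zb + (2 * D.A0 + D.A1) / 2 * (D.zb ^ 2 - 1)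
    + D.A2 * ((D.zb ^ 2 - 1) / 2) * (1 - (D.zb ^ 2 - 1) ^ 2)

/-- `b_even + q` -/
def TData.sum : List ℚ := qadd (evenPart D.b) D.q

/-- the polynomial of FIN in `w = m²`:
`W (2 (1-w) (b_even + q)(w) - 1) + W' (1 - (1-w+t²)/(2t))`. -/
def TData.finP (t : ℚ) : List ℚ :=
  qadd (qsmul (2 * D.Wb) (qadd D.sum (0 :: qsmul (-1) D.sum)))
    [D.Wdb * (1 - (1 + t ^ 2) / (2 * t)) - D.Wb, D.Wdb / (2 * t)]

/-- `0 ≤ q` on `[0,1]` (bisection once). -/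
def TData.posQ : Bool :=
  chk1 D.q 0 1 || (chk1 D.q 0 (1 / 2) && chk1 D.q (1 / 2) 1) ||
    (chk1 D.q 0 (1 / 4) && chk1 D.q (1 / 4) (1 / 2) && chk1 D.q (1 / 2) (3 / 4) &&
      chk1 D.q (3 / 4) 1)

/-- the numeric checks -/
def TData.ok : Bool :=
  decide (1 < D.za) && decide (D.za ≤ D.zb) && decide (D.zb ^ 2 ≤ 2) &&
  decide (D.s ≤ 1 - (D.zb ^ 2 - 1) ^ 2) &&
  decide (0 ≤ 2 * D.A0 + D.A1) && decide (0 ≤ D.A2) &&
  ((decide (0 < D.A2) &&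
      decide (8 * D.A2 * (D.A1 - D.A0) + 3 * (D.A2 - D.A1) ^ 2 ≤ 2 * D.A2)) ||
    (decide (D.A2 = 0) && decide (2 * (D.A1 - D.A0) ≤ 1 / 2) &&
      decide (2 * (D.A1 - D.A0) - 6 * D.A1 ≤ 1 / 2))) &&
  D.posQ && chainChk D.finP 0 D.fin && decide (D.za ^ 2 < 2) &&
  yChk (tanP D.A0 D.A1 D.A2 D.za) 1 D.tan && yChk (cvxP D.A0 D.A1 D.A2) D.za D.cvx

lemma TData.Wb_eq : (D.Wb : ℝ) = Wz D.A0 D.A1 D.A2 D.zb := by
  unfold TData.Wb Wz; push_cast; ring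

lemma TData.Wdb_eq : (D.Wdb : ℝ) = Wdz D.A0 D.A1 D.A2 D.zb := by
  unfold TData.Wdb Wdz; push_cast; ring

lemma TData.B_zero : D.B 0 = 0 := by simp [TData.B]
lemma TData.B_one : D.B 1 = 0 := by simp [TData.B]
lemma TData.Q_zero : D.Q 0 = 0 := by simp [TData.Q]
lemma TData.Q_one : D.Q 1 = 0 := by simp [TData.Q]

lemma TData.Q_symm (n : ℝ) : D.Q (1 - n) = D.Q n := by
  unfold TData.Q
  have e : (1 - 2 * (1 - n)) ^ 2 = (1 - 2 * n) ^ 2 := by ring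
  rw [e]; ring

lemma TData.sum_eq (n : ℝ) : D.B n + D.B (1 - n) + 2 * D.Q n =
    2 * ((1 - (1 - 2 * n) ^ 2) * qev D.sum ((1 - 2 * n) ^ 2)) := by
  have h := evenPart_eq D.b (1 - 2 * n)
  unfold TData.B TData.Q TData.sum
  rw [qev_add]
  have e : 1 - 2 * (1 - n) = -(1 - 2 * n) := by ring
  rw [e]
  linear_combination (4 * n * (1 - n)) * h

lemma TData.Q_nonneg (h : D.posQ = true) {n : ℝ} (h0 : 0 ≤ n) (h1 : n ≤ 1) : 0 ≤ D.Q n := by
  unfold TData.Q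
  have hw0 : 0 ≤ (1 - 2 * n) ^ 2 := sq_nonneg _
  have hw1 : (1 - 2 * n) ^ 2 ≤ 1 := by nlinarith
  refine mul_nonneg (mul_nonneg (by linarith) (by linarith)) ?_
  set w := (1 - 2 * n) ^ 2
  simp only [TData.posQ, Bool.or_eq_true, Bool.and_eq_true] at h
  rcases h with (h | ⟨h, h'⟩) | ⟨⟨⟨a, b⟩, c⟩, d⟩
  · exact chk1_sound h (by simpa using hw0) (by simpa using hw1)
  · rcases le_total w (1 / 2) with hw | hw
    · exact chk1_sound h (by simpa using hw0) (by push_cast; exact hw)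
    · exact chk1_sound h' (by push_cast; exact hw) (by simpa using hw1)
  · rcases le_total w (1 / 2) with hw | hw
    · rcases le_total w (1 / 4) with hw' | hw'
      · exact chk1_sound a (by simpa using hw0) (by push_cast; exact hw')
      · exact chk1_sound b (by push_cast; exact hw') (by push_cast; exact hw)
    · rcases le_total w (3 / 4) with hw' | hw'
      · exact chk1_sound c (by push_cast; exact hw) (by push_cast; exact hw')
      · exact chk1_sound d (by push_cast; exact hw') (by simpa using hw1)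

/-- **All numeric side conditions.** -/
structure TData.Facts : Prop where
  hza : (1 : ℝ) < D.za
  hab : (D.za : ℝ) ≤ D.zb
  hzb2 : (D.zb : ℝ) ^ 2 ≤ 2
  hs : (D.s : ℝ) ≤ 1 - ((D.zb : ℝ) ^ 2 - 1) ^ 2
  hA : (0 : ℝ) ≤ 2 * D.A0 + D.A1
  hA2 : (0 : ℝ) ≤ D.A2
  conc : ConcaveOn ℝ (Icc 0 1) (FA D.A0 D.A1 D.A2)
  tan : ∀ c : ℝ, (D.za : ℝ) ^ 2 - 1 ≤ c → c ≤ 1 → TanAt D.A0 D.A1 D.A2 c
  Q_nonneg : ∀ n : ℝ, 0 ≤ n → n ≤ 1 → 0 ≤ D.Q n
  fin : ∀ n : ℝ, 0 ≤ n → n ≤ 1 →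
    (D.Wb : ℝ) - D.Wdb * (1 - ph (2 * n - 1)) ≤ D.Wb * (D.B n + D.B (1 - n) + 2 * D.Q n)

theorem TData.facts (h : D.ok = true) : D.Facts := by
  simp only [TData.ok, Bool.and_eq_true, Bool.or_eq_true, decide_eq_true_eq] at h
  obtain ⟨⟨⟨⟨⟨⟨⟨⟨⟨⟨⟨h1, h2⟩, h3⟩, h4⟩, h5⟩, h6⟩, h7⟩, h8⟩, h9⟩, h10⟩, h11⟩, h12⟩ := h
  have k1 : (1 : ℝ) < D.za := by exact_mod_cast h1
  have k2 : (D.za : ℝ) ≤ D.zb := by exact_mod_cast h2
  have k3 : (D.zb : ℝ) ^ 2 ≤ 2 := by exact_mod_cast h3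
  have k4 : (D.s : ℝ) ≤ 1 - ((D.zb : ℝ) ^ 2 - 1) ^ 2 := by exact_mod_cast h4
  have k5 : (0 : ℝ) ≤ 2 * D.A0 + D.A1 := by exact_mod_cast h5
  have k6 : (0 : ℝ) ≤ D.A2 := by exact_mod_cast h6
  have k7 : (0 < (D.A2 : ℝ) ∧ 8 * (D.A2 : ℝ) * (D.A1 - D.A0) + 3 * ((D.A2 : ℝ) - D.A1) ^ 2 ≤
        2 * D.A2) ∨ ((D.A2 : ℝ) = 0 ∧ 2 * ((D.A1 : ℝ) - D.A0) ≤ 1 / 2 ∧
        2 * ((D.A1 : ℝ) - D.A0) - 6 * D.A1 ≤ 1 / 2) := by
    rcases h7 with ⟨a, b⟩ | ⟨⟨a, b⟩, c⟩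
    · exact Or.inl ⟨by exact_mod_cast a, by exact_mod_cast b⟩
    · refine Or.inr ⟨by exact_mod_cast a, ?_, ?_⟩
      · have : ((2 * (D.A1 - D.A0) : ℚ) : ℝ) ≤ ((1 / 2 : ℚ) : ℝ) := by exact_mod_cast b
        push_cast at this; exact this
      · have : ((2 * (D.A1 - D.A0) - 6 * D.A1 : ℚ) : ℝ) ≤ ((1 / 2 : ℚ) : ℝ) := by exact_mod_cast c
        push_cast at this; exact this
  have hWd : (0 : ℝ) < D.Wdb := by
    rw [D.Wdb_eq]
    have := Wd_pos k5 k6 (c := (D.zb : ℝ) ^ 2 - 1) (by nlinarith) (by linarith)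
    rwa [Wd_eq_Wdz (by linarith : (0 : ℝ) ≤ D.zb) rfl] at this
  refine ⟨k1, k2, k3, k4, k5, k6, concave_FA_num k7, ?_,
    fun n h0 h1 => D.Q_nonneg h8 h0 h1, ?_⟩
  · -- tangent condition
    intro c hc1 hc2
    have hca : 0 ≤ (D.za : ℝ) ^ 2 - 1 := by nlinarith
    refine tanAt_tail hca ?_ (concave_WA_tail k1.le ?_) hc1 hc2
    · refine tanAt_of_poly k1.le fun y hy1 hy2 => ?_
      have := yChk_sound' _ _ _ h11 (by norm_num) (by norm_num) (by simpa using hy1) hy2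
      rw [tanP_eq] at this
      linarith
    · intro y hy1 hy2
      have := yChk_sound' _ _ _ h12 (by linarith) h10 hy1 hy2
      rw [cvxP_eq] at this
      linarith
  · -- FIN
    intro n hn0 hn1
    rw [D.sum_eq]
    have eph : ph (2 * n - 1) = Real.sqrt (1 - (1 - 2 * n) ^ 2) := by
      unfold ph; congr 1; ring
    rw [eph]
    have hw0 : 0 ≤ (1 - 2 * n) ^ 2 := sq_nonneg _
    have hw1 : (1 - 2 * n) ^ 2 ≤ 1 := by nlinarith
    set w := (1 - 2 * n) ^ 2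
    -- the statement for `w < 1`
    have key : ∀ w : ℝ, 0 ≤ w → w < 1 → (D.Wb : ℝ) - D.Wdb * (1 - Real.sqrt (1 - w)) ≤
        D.Wb * (2 * ((1 - w) * qev D.sum w)) := by
      intro w hw0 hw1
      obtain ⟨t, ht, h⟩ := chain_sound D.finP D.fin 0 h9 (by simpa using hw0) hw1
      have ht' : (0 : ℝ) < t := by exact_mod_cast ht
      unfold TData.finP at h
      rw [qev_add, qev_smul, qev_add, qev_zero_cons, qev_smul] at h
      simp only [qev] at h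
      push_cast at h
      have h2 := sqrt_le_tan (u := 1 - w) (by linarith) ht'
      have h3 := mul_le_mul_of_nonneg_left h2 hWd.le
      have e : (D.Wdb : ℝ) * ((1 - w + t ^ 2) / (2 * t)) =
          D.Wdb * ((1 + t ^ 2) / (2 * t)) - w * (D.Wdb / (2 * t)) := by
        field_simp
        ring
      rw [e] at h3
      linarith
    rcases hw1.eq_or_lt with hw1 | hw1
    · -- `w = 1` by continuity
      have hc1 : Continuous fun w : ℝ => (D.Wb : ℝ) - D.Wdb * (1 - Real.sqrt (1 - w)) := by fun_prop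
      have hc2 : Continuous fun w : ℝ => (D.Wb : ℝ) * (2 * ((1 - w) * qev D.sum w)) := by
        have := continuous_qev D.sum
        fun_prop
      have hcl := isClosed_le hc1 hc2
      have hsub : Ico (0 : ℝ) 1 ⊆ {w : ℝ | (D.Wb : ℝ) - D.Wdb * (1 - Real.sqrt (1 - w)) ≤
          D.Wb * (2 * ((1 - w) * qev D.sum w))} := fun w hw => key w hw.1 hw.2
      have := hcl.closure_subset_iff.mpr hsub
      rw [closure_Ico (by norm_num)] at this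
      exact this ⟨hw0, hw1.le⟩
    · exact key w hw0 hw1

/-- **Regime M, two-sided, one interval**: `BoundOn` from the checks and the steps, with any
symmetric row `Dc c` (`Dc c (E q) ≤ E q(1-q)`). -/
theorem TData.boundOn_gen (h : D.ok = true) (Dc : ℝ → ℝ → ℝ)
    (hDc : ∀ c : ℝ, (D.za : ℝ) ^ 2 - 1 ≤ c → c ≤ (D.zb : ℝ) ^ 2 - 1 →
      PBound (Real.sqrt (1 - c ^ 2)) (Dc c))
    (hDs : ∀ c n, Dc c (1 - n) = Dc c n)
    (hstep : ∀ c : ℝ, (D.za : ℝ) ^ 2 - 1 ≤ c → c ≤ (D.zb : ℝ) ^ 2 - 1 → ∀ n0 n1 : ℝ,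
      0 ≤ n1 → n1 < n0 → n0 + n1 ≤ 1 →
      StepOK (Real.sqrt (1 - c ^ 2)) (FA D.A0 D.A1 D.A2) (WA D.A0 D.A1 D.A2 c) D.B D.Q
        (Dc c) n0 n1) :
    BoundOn ((D.za : ℝ) ^ 2 - 1) ((D.zb : ℝ) ^ 2 - 1) := by
  have F := D.facts h
  have hca : 0 < (D.za : ℝ) ^ 2 - 1 := by nlinarith [F.hza]
  have hcab : (D.za : ℝ) ^ 2 - 1 ≤ (D.zb : ℝ) ^ 2 - 1 := by nlinarith [F.hza, F.hab]
  have hcb : (D.zb : ℝ) ^ 2 - 1 ≤ 1 := by linarith [F.hzb2]
  refine BoundOn.of_msHyp hca.le hcb fun c h1 h2 => ?_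
  have hc0 : 0 < c := by linarith
  have hc1 : c ≤ 1 := by linarith
  have hc2 : c ^ 2 ≤ 1 := by nlinarith
  have hρ := abs_sqrt_le (sq_nonneg c) hc2
  have hρ0 : 0 ≤ Real.sqrt (1 - c ^ 2) := Real.sqrt_nonneg _
  have hρ1 : Real.sqrt (1 - c ^ 2) ≤ 1 := by
    have := hρ.1
    rwa [abs_of_nonneg hρ0] at this
  have hph : ph (Real.sqrt (1 - c ^ 2)) = c := GenInt.ph_sqrt hc0.le hc1
  have hTan : ∀ c, (D.za : ℝ) ^ 2 - 1 ≤ c → c ≤ (D.zb : ℝ) ^ 2 - 1 → TanAt D.A0 D.A1 D.A2 c :=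
    fun c h1 h2 => F.tan c h1 (h2.trans hcb)
  have eW : Wf D.A0 D.A1 D.A2 ((D.zb : ℝ) ^ 2 - 1) = D.Wb := by
    rw [D.Wb_eq]; exact Wf_eq_Wz (by linarith [F.hza, F.hab]) rfl
  have eD : Wd D.A0 D.A1 D.A2 ((D.zb : ℝ) ^ 2 - 1) = D.Wdb := by
    rw [D.Wdb_eq]; exact Wd_eq_Wdz (by linarith [F.hza, F.hab]) rfl
  have hWb : (0 : ℝ) < D.Wb := by
    rw [← eW]; exact WA_pos F.hA F.hA2 (by linarith) hcb
  have hWdb : (0 : ℝ) < D.Wdb := by
    rw [← eD]; exact Wd_pos F.hA F.hA2 (by linarith) hcb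
  have hWc := WA_pos F.hA F.hA2 hc0 hc1
  have hWdc := Wd_pos F.hA F.hA2 hc0.le hc1
  refine msHyp_of_prod hρ0 hρ1 D.A0 D.A1 D.A2 (Wd D.A0 D.A1 D.A2 c) hWdc F.conc ?_
    (D := Dc c) (hDc c h1 h2) hWc D.B_zero D.B_one D.Q_zero D.Q_one F.Q_nonneg ?_ ?_
  · rw [hph]; exact hTan c h1 h2
  · exact stepOK_of_half hρ0 hρ1 F.conc D.Q_symm (hDs c) (hstep c h1 h2)
  · intro n hn0 hn1
    rw [hph]
    have hr := rate_le (r := (D.Wdb : ℝ) / D.Wb) hcb hca.le hTan (by rw [eD]; exact hWdb.le)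
      (div_nonneg hWdb.le hWb.le) (by rw [eW, eD, div_mul_cancel₀ _ hWb.ne']) h1 h2
    have hf := F.fin n hn0 hn1
    have hphn := ph_le_one (2 * n - 1)
    -- divide FIN by `W(cb)`, multiply by `W(c)`
    have hf' : 1 - (D.Wdb : ℝ) / D.Wb * (1 - ph (2 * n - 1)) ≤ D.B n + D.B (1 - n) + 2 * D.Q n := by
      refine le_of_mul_le_mul_left ?_ hWb
      have e : (D.Wb : ℝ) * (1 - (D.Wdb : ℝ) / D.Wb * (1 - ph (2 * n - 1))) =
          D.Wb - D.Wdb * (1 - ph (2 * n - 1)) := by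
        field_simp
      rw [e]
      exact hf
    have e1 := mul_le_mul_of_nonneg_left hf' hWc.le
    have e2 := mul_le_mul_of_nonneg_right hr (by linarith : 0 ≤ 1 - ph (2 * n - 1))
    have e3 : Wf D.A0 D.A1 D.A2 c = WA D.A0 D.A1 D.A2 c := rfl
    rw [e3] at e2
    linarith

/-- Row with the constant `s ≤ 1 - cb²`. -/
theorem TData.boundOn (h : D.ok = true)
    (hstep : ∀ c : ℝ, (D.za : ℝ) ^ 2 - 1 ≤ c → c ≤ (D.zb : ℝ) ^ 2 - 1 → ∀ n0 n1 : ℝ,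
      0 ≤ n1 → n1 < n0 → n0 + n1 ≤ 1 →
      StepOK (Real.sqrt (1 - c ^ 2)) (FA D.A0 D.A1 D.A2) (WA D.A0 D.A1 D.A2 c) D.B D.Q
        (fun n => c ^ 2 * dP D.s n) n0 n1) :
    BoundOn ((D.za : ℝ) ^ 2 - 1) ((D.zb : ℝ) ^ 2 - 1) := by
  have F := D.facts h
  refine D.boundOn_gen h (fun c n => c ^ 2 * dP D.s n) ?_ (fun c n => by simp only [dP_symm]) hstep
  intro c h1 h2 n f
  exact dP_row (ca := (D.za : ℝ) ^ 2 - 1) (cb := (D.zb : ℝ) ^ 2 - 1) (by nlinarith [F.hza])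
    (by linarith [F.hzb2]) F.hs c h1 h2 n f

/-- Strongest row (P1): `s = 1 - c²`. -/
theorem TData.boundOn_P1 (h : D.ok = true)
    (hstep : ∀ c : ℝ, (D.za : ℝ) ^ 2 - 1 ≤ c → c ≤ (D.zb : ℝ) ^ 2 - 1 → ∀ n0 n1 : ℝ,
      0 ≤ n1 → n1 < n0 → n0 + n1 ≤ 1 →
      StepOK (Real.sqrt (1 - c ^ 2)) (FA D.A0 D.A1 D.A2) (WA D.A0 D.A1 D.A2 c) D.B D.Q
        (fun n => c ^ 2 * dP (1 - c ^ 2) n) n0 n1) :
    BoundOn ((D.za : ℝ) ^ 2 - 1) ((D.zb : ℝ) ^ 2 - 1) := by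
  have F := D.facts h
  refine D.boundOn_gen h (fun c n => c ^ 2 * dP (1 - c ^ 2) n) ?_
    (fun c n => by simp only [dP_symm]) hstep
  intro c h1 h2 n f
  have hca : 0 < (D.za : ℝ) ^ 2 - 1 := by nlinarith [F.hza]
  exact dP_row (ca := c) (cb := c) (by linarith) (by linarith [F.hzb2]) le_rfl c le_rfl le_rfl n f

/-- **One-sided version with a global polynomial potential** `B(n) = 4n(1-n) b(1-2n)` (`q = []`):
only the steps `HasStep` are left. -/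
theorem TData.boundOn_one (h : D.ok = true) (hq : D.q = [])
    (hstep : ∀ n0 n1 : ℝ, 0 ≤ n1 → n1 < n0 → n0 ≤ 1 →
      HasStep D.A0 D.A1 D.A2 ((D.za : ℝ) ^ 2 - 1) ((D.zb : ℝ) ^ 2 - 1) D.B (dP D.s) n0 n1) :
    BoundOn ((D.za : ℝ) ^ 2 - 1) ((D.zb : ℝ) ^ 2 - 1) := by
  have F := D.facts h
  have hca : 0 < (D.za : ℝ) ^ 2 - 1 := by nlinarith [F.hza]
  have hcab : (D.za : ℝ) ^ 2 - 1 ≤ (D.zb : ℝ) ^ 2 - 1 := by nlinarith [F.hza, F.hab]
  have hcb : (D.zb : ℝ) ^ 2 - 1 ≤ 1 := by linarith [F.hzb2]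
  have eW : Wf D.A0 D.A1 D.A2 ((D.zb : ℝ) ^ 2 - 1) = D.Wb := by
    rw [D.Wb_eq]; exact Wf_eq_Wz (by linarith [F.hza, F.hab]) rfl
  have eD : Wd D.A0 D.A1 D.A2 ((D.zb : ℝ) ^ 2 - 1) = D.Wdb := by
    rw [D.Wdb_eq]; exact Wd_eq_Wdz (by linarith [F.hza, F.hab]) rfl
  have hWb : (0 : ℝ) < D.Wb := by
    rw [← eW]; exact WA_pos F.hA F.hA2 (by linarith) hcb
  have hWdb : (0 : ℝ) < D.Wdb := by
    rw [← eD]; exact Wd_pos F.hA F.hA2 (by linarith) hcb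
  have hQ : ∀ n, D.Q n = 0 := by
    intro n; unfold TData.Q; rw [hq]; simp [qev]
  refine bound_M_tan (r := (D.Wdb : ℝ) / D.Wb) hca hcab hcb F.hs F.conc
    (fun c h1 h2 => F.tan c h1 (h2.trans hcb)) F.hA F.hA2 (div_nonneg hWdb.le hWb.le)
    (by rw [eW, eD, div_mul_cancel₀ _ hWb.ne']) D.B D.B_zero.le D.B_one.le hstep ?_
  intro n hn0 hn1
  have hf := F.fin n hn0 hn1
  rw [hQ, mul_zero, add_zero] at hf
  refine le_of_mul_le_mul_left ?_ hWb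
  have e : (D.Wb : ℝ) * (1 - (D.Wdb : ℝ) / D.Wb * (1 - ph (2 * n - 1))) =
      D.Wb - D.Wdb * (1 - ph (2 * n - 1)) := by
    field_simp
  rw [e]
  exact hf

end Crest.Agent.R307.GenM2Dat
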