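import Crest.Agent.R307.GenM2
import Crest.Agent.R307.GenM2Dat

/-!
Row 307, S0471, regime M, two-sided: assembly of one `c`-interval.

`boundOn_M2`: `BoundOn` from the potential data (`TData`), the family (`Fam2`), two end point
checks (`Dat.OK`), the dictator certificate and the (SI) target `SI2`.
-/

set_option autoImplicit false

open Crest.CubeNoise Set

namespace Crest.Agent.R307.GenM2

open Crest.Agent.R307 Crest.Agent.R307.Ode Crest.Agent.R307.TwoSet Crest.Agent.R307.GenInd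
  Crest.Agent.R307.Flow Crest.Agent.R307.GenFin Crest.Agent.R307.GenProd Crest.Agent.R307.GenInt
  Crest.Agent.R307.Conic Crest.Agent.R307.GenM Crest.Agent.R307.GenPI Crest.Agent.R307.PIConic
  Crest.Agent.R307.GenM2Dat

/-- Row condition in the variables `z = √(1+c)`: constant row or affine row. -/
def RowZ (A0 A1 A2 za zb Ua Ub la lb La Lb : ℝ) : Prop :=
  (la = lb ∧ Wz A0 A1 A2 za * la ≤ (za ^ 2 - 1) ^ 2 * La ∧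
    Wz A0 A1 A2 zb * lb ≤ (zb ^ 2 - 1) ^ 2 * Lb) ∨
  (lb * (za ^ 2 - 1) ^ 2 ≤ la * (zb ^ 2 - 1) ^ 2 ∧ Ub * (za ^ 2 - 1) ^ 2 ≤ Ua * (zb ^ 2 - 1) ^ 2 ∧
    Ua * la ≤ (za ^ 2 - 1) ^ 2 * La ∧ Ub * lb ≤ (zb ^ 2 - 1) ^ 2 * Lb)

theorem RowZ.rowOK {A0 A1 A2 za zb Ua Ub la lb La Lb : ℝ} (hza : 1 < za) (hab : za ≤ zb)
    (hla : 0 ≤ la) (hlb : 0 ≤ lb) (hU : UOK A0 A1 A2 (za ^ 2 - 1) (zb ^ 2 - 1) Ua Ub)
    (h : RowZ A0 A1 A2 za zb Ua Ub la lb La Lb) :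
    RowOK A0 A1 A2 (za ^ 2 - 1) (zb ^ 2 - 1) la lb La Lb := by
  have hca : 0 < za ^ 2 - 1 := by nlinarith
  have hcb : 0 < zb ^ 2 - 1 := by nlinarith
  have ea : Wf A0 A1 A2 (za ^ 2 - 1) = Wz A0 A1 A2 za := Wf_eq_Wz (by linarith) rfl
  have eb : Wf A0 A1 A2 (zb ^ 2 - 1) = Wz A0 A1 A2 zb := Wf_eq_Wz (by linarith) rfl
  rcases h with ⟨h, h1, h2⟩ | ⟨h1, h2, h3, h4⟩
  · subst h
    refine rowOK_const hca hcb hla ?_ ?_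
    · rw [ea, div_mul_eq_mul_div, div_le_iff₀ (by positivity)]; linarith
    · rw [eb, div_mul_eq_mul_div, div_le_iff₀ (by positivity)]; linarith
  · exact rowOK_aff hca hcb hla hlb hU h1 h2 h3 h4

/-- **Assembly of one interval**, from the certificates. -/
theorem boundOn_of_SI2 (D : TData) (h : D.ok = true) {f : Fam2} (hf : f.OK) {t1 : ℝ}
    (ht1 : t1 ≤ 1)
    (hC : ∀ t, 0 ≤ t → t ≤ t1 →
      CertP D.A0 D.A1 D.A2 ((D.za : ℝ) ^ 2 - 1) ((D.zb : ℝ) ^ 2 - 1) (f.atA (some t))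
        (f.atB (some t)))
    (hC1 : CertP D.A0 D.A1 D.A2 ((D.za : ℝ) ^ 2 - 1) ((D.zb : ℝ) ^ 2 - 1) (f.atA none)
      (f.atB none))
    (hSI : SI2 D.B D.Q f (((D.za : ℝ) ^ 2 - 1) ^ 2) (((D.zb : ℝ) ^ 2 - 1) ^ 2) t1) :
    Final71.BoundOn ((D.za : ℝ) ^ 2 - 1) ((D.zb : ℝ) ^ 2 - 1) := by
  have F := D.facts h
  have hca : 0 < (D.za : ℝ) ^ 2 - 1 := by nlinarith [F.hza]
  have hcab : (D.za : ℝ) ^ 2 - 1 ≤ (D.zb : ℝ) ^ 2 - 1 := by nlinarith [F.hza, F.hab]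
  exact D.boundOn_P1 h fun c h1 h2 => stepOK_of_ends hf hca hcab ht1 F.Q_nonneg hC hC1 hSI h1 h2

/-- **Assembly of one interval**, from the two end point checks and the dictator certificate. -/
theorem boundOn_M2 (D : TData) (h : D.ok = true) {da db : Dat} (hda : da.OK) (hdb : db.OK)
    {f : Fam2} (hf : f.OK) {z0 Ua Ub Ma Mb La Lb t1 : ℝ} (hz0 : 1 < z0)
    (he1 : 0 ≤ f.e1a) (he2 : 0 ≤ f.e1a + f.e2a) (hUab : Ua ≤ Ub)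
    (hUa : Wtan D.A0 D.A1 D.A2 z0 (((D.za : ℝ) ^ 2 - 1) ^ 2) ≤ Ua)
    (hUb : Wtan D.A0 D.A1 D.A2 z0 (((D.zb : ℝ) ^ 2 - 1) ^ 2) ≤ Ub)
    (hM : RowZ D.A0 D.A1 D.A2 D.za D.zb Ua Ub f.m2a f.m2b Ma Mb)
    (hL : RowZ D.A0 D.A1 D.A2 D.za D.zb Ua Ub f.l2a f.l2b La Lb)
    (hMa : 0 ≤ Ma) (hMb : 0 ≤ Mb) (hLa : 0 ≤ La) (hLb : 0 ≤ Lb)
    (a1 : da.A0 = D.A0) (a2 : da.A1 = D.A1) (a3 : da.A2 = D.A2)
    (a4 : da.C2 = ((D.za : ℝ) ^ 2 - 1) ^ 2)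
    (a5 : da.K1 = f.k1a) (a6 : da.K2 = f.k2a) (a7 : da.E1 = Ua * f.e1a) (a8 : da.E2 = Ua * f.e2a)
    (a9 : da.M2 = Ma) (a10 : da.L2 = La)
    (b1 : db.A0 = D.A0) (b2 : db.A1 = D.A1) (b3 : db.A2 = D.A2)
    (b4 : db.C2 = ((D.zb : ℝ) ^ 2 - 1) ^ 2)
    (b5 : db.K1 = f.k1b) (b6 : db.K2 = f.k2b) (b7 : db.E1 = Ub * f.e1b) (b8 : db.E2 = Ub * f.e2b)
    (b9 : db.M2 = Mb) (b10 : db.L2 = Lb)
    (ht1a : t1 ≤ da.T1) (ht1b : t1 ≤ db.T1) (ht1 : t1 ≤ 1)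
    (hdict : CertI D.A0 D.A1 D.A2 ((D.za : ℝ) ^ 2 - 1) ((D.zb : ℝ) ^ 2 - 1) 1 0 1 f.md f.ld)
    (hSI : SI2 D.B D.Q f (((D.za : ℝ) ^ 2 - 1) ^ 2) (((D.zb : ℝ) ^ 2 - 1) ^ 2) t1) :
    Final71.BoundOn ((D.za : ℝ) ^ 2 - 1) ((D.zb : ℝ) ^ 2 - 1) := by
  have F := D.facts h
  have hca : 0 < (D.za : ℝ) ^ 2 - 1 := by nlinarith [F.hza]
  have hcab : (D.za : ℝ) ^ 2 - 1 ≤ (D.zb : ℝ) ^ 2 - 1 := by nlinarith [F.hza, F.hab]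
  have hcb : (D.zb : ℝ) ^ 2 - 1 ≤ 1 := by linarith [F.hzb2]
  have hU : UOK D.A0 D.A1 D.A2 ((D.za : ℝ) ^ 2 - 1) ((D.zb : ℝ) ^ 2 - 1) Ua Ub :=
    uOK_of_tan F.hA2 hz0 hUa hUb
  refine boundOn_of_SI2 D h hf ht1 (fun t h0 h1 => ?_) (certP_dict hca hcab hdict) hSI
  exact certP_of_dat hda hdb hf F.hA2 hca hcab hcb
    (fun c h1 h2 => GenS.WA_nonneg F.hA F.hA2 (by linarith) (by linarith)) he1 he2 hU hUab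
    (hM.rowOK F.hza F.hab hf.m0 (hf.m0.trans hf.m1) hU)
    (hL.rowOK F.hza F.hab hf.l0 (hf.l0.trans hf.l1) hU) hMa hMb hLa hLb
    a1 a2 a3 a4 a5 a6 a7 a8 a9 a10 b1 b2 b3 b4 b5 b6 b7 b8 b9 b10 ht1a ht1b ht1 h0 h1

end Crest.Agent.R307.GenM2
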