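import Crest.Agent.R307.GenFin
import Crest.Agent.R307.GenPI

/-!
Row 307, S0471 (task 1160, G6): the product region step from the scalar inequality (SI),
two-sided, with a general lower bound `D` of `E q(1-q)`.

* `PBound ρ D`: `D (E q) ≤ E q(1-q)`, `q = T_ρ 1_A` (`pBound_parseval`: `D n = c² n(1-n)`).
* `region_inductionD`: `GenInd.region_inductionG` with `D`.
* `Reg W B Q`: the region `W B(μ) ≤ α`, `W B(1-μ) ≤ β`,
  `(W Q(μ))² ≤ (α - W B(μ)) (β - W B(1-μ))`.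
* `gapL`, `gapR`: the gaps `x`, `x'`;  `SI`: the scalar inequality;  `StepOK`: certificates + (SI).
* `reg_step`, `prod_region`, `prod_bound` (FIN), `msHyp_of_prod`.
* `SI.rect`: (SI) on a rectangle of `(K, K')` from the four corners.
* `stepOK_diag`, `stepOK_symm`: the diagonal and the reflection.
-/

set_option autoImplicit false

open Crest.CubeNoise Set

namespace Crest.Agent.R307.GenProd

open Crest.Agent.R307 Crest.Agent.R307.Ode Crest.Agent.R307.TwoSet Crest.Agent.R307.GenInd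
  Crest.Agent.R307.Flow Crest.Agent.R307.GenFin

/-- `D (E q) ≤ E q(1-q)` for all `q = T_ρ 1_A`. -/
def PBound (ρ : ℝ) (D : ℝ → ℝ) : Prop :=
  ∀ (n : ℕ) (f : (Fin n → Bool) → Bool),
    D (cubeAverage (TT ρ f)) ≤ cubeAverage (fun x => TT ρ f x * (1 - TT ρ f x))

theorem pBound_parseval {ρ : ℝ} (hρ : |ρ| ≤ 1) :
    PBound ρ (fun n => (1 - ρ ^ 2) * (n * (1 - n))) :=
  fun _ f => parseval_TT hρ f

/-- certificate + bound `D` for two ordered noises of Boolean functions -/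
lemma certD_TT {ρ : ℝ} (hρ : |ρ| ≤ 1) {D : ℝ → ℝ} (hD : PBound ρ D) {u : ℝ → ℝ}
    {p1 q1 p2 q2 l1 m1 k : ℝ}
    (hc : CertG ρ u p1 q1 p2 q2 l1 m1 k) {n : ℕ} (g0 g1 : (Fin n → Bool) → Bool)
    (hle : ∀ x, TT ρ g1 x ≤ TT ρ g0 x) :
    p1 * cubeAverage (fun x => u (TT ρ g0 x)) + q1 * cubeAverage (fun x => u (TT ρ g1 x)) +
      p2 * cubeAverage (TT ρ g0) + q2 * cubeAverage (TT ρ g1) +
      (l1 * D (cubeAverage (TT ρ g0)) + m1 * D (cubeAverage (TT ρ g1))) - k ≤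
    cubeAverage (fun x => u ((1 + ρ) / 2 * TT ρ g0 x + (1 - ρ) / 2 * TT ρ g1 x)) +
      cubeAverage (fun x => u ((1 - ρ) / 2 * TT ρ g0 x + (1 + ρ) / 2 * TT ρ g1 x)) := by
  have h := certG_average hc (P := TT ρ g0) (Q := TT ρ g1) (TT_nonneg hρ g1) hle
    (TT_le_one hρ g0)
  have a0 := mul_le_mul_of_nonneg_left (hD n g0) hc.1
  have a1 := mul_le_mul_of_nonneg_left (hD n g1) hc.2.1
  linarith

/-- certificate + bound `D` applied to the complements -/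
lemma certD_TT' {ρ : ℝ} (hρ : |ρ| ≤ 1) {D : ℝ → ℝ} (hD : PBound ρ D) {u : ℝ → ℝ}
    {p1 q1 p2 q2 l1 m1 k : ℝ}
    (hc : CertG ρ u p1 q1 p2 q2 l1 m1 k) {n : ℕ} (g0 g1 : (Fin n → Bool) → Bool)
    (hle : ∀ x, TT ρ g1 x ≤ TT ρ g0 x) :
    p1 * cubeAverage (fun x => u (1 - TT ρ g1 x)) +
      q1 * cubeAverage (fun x => u (1 - TT ρ g0 x)) +
      p2 * (1 - cubeAverage (TT ρ g1)) + q2 * (1 - cubeAverage (TT ρ g0)) +
      (l1 * D (cubeAverage (TT ρ g1)) + m1 * D (cubeAverage (TT ρ g0))) - k ≤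
    cubeAverage (fun x => u (1 - ((1 + ρ) / 2 * TT ρ g0 x + (1 - ρ) / 2 * TT ρ g1 x))) +
      cubeAverage (fun x => u (1 - ((1 - ρ) / 2 * TT ρ g0 x + (1 + ρ) / 2 * TT ρ g1 x))) := by
  have h := certG_average hc (P := fun x => 1 - TT ρ g1 x) (Q := fun x => 1 - TT ρ g0 x)
    (fun x => by linarith [TT_le_one hρ g0 x]) (fun x => by linarith [hle x])
    (fun x => by linarith [TT_nonneg hρ g1 x])
  rw [cubeAverage_one_sub, cubeAverage_one_sub] at h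
  have e1 : ∀ x, (1 + ρ) / 2 * (1 - TT ρ g1 x) + (1 - ρ) / 2 * (1 - TT ρ g0 x) =
      1 - ((1 - ρ) / 2 * TT ρ g0 x + (1 + ρ) / 2 * TT ρ g1 x) := fun x => by ring
  have e2 : ∀ x, (1 - ρ) / 2 * (1 - TT ρ g1 x) + (1 + ρ) / 2 * (1 - TT ρ g0 x) =
      1 - ((1 + ρ) / 2 * TT ρ g0 x + (1 - ρ) / 2 * TT ρ g1 x) := fun x => by ring
  have e3 : ∀ x, (1 - TT ρ g1 x) * (1 - (1 - TT ρ g1 x)) = TT ρ g1 x * (1 - TT ρ g1 x) :=
    fun x => by ring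
  have e4 : ∀ x, (1 - TT ρ g0 x) * (1 - (1 - TT ρ g0 x)) = TT ρ g0 x * (1 - TT ρ g0 x) :=
    fun x => by ring
  simp only [e1, e2, e3, e4] at h
  have a0 := mul_le_mul_of_nonneg_left (hD n g1) hc.1
  have a1 := mul_le_mul_of_nonneg_left (hD n g0) hc.2.1
  linarith

/-- `GenInd.region_inductionG` with a general lower bound `D` of `E q(1-q)`. -/
theorem region_inductionD {ρ : ℝ} (h0 : 0 ≤ ρ) (h1 : ρ ≤ 1) {u : ℝ → ℝ}
    (hu : ConcaveOn ℝ (Icc 0 1) u) {D : ℝ → ℝ} (hD : PBound ρ D) (R : ℝ → ℝ → ℝ → Prop)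
    (hup : ∀ μ s t s' t', R μ s t → s ≤ s' → t ≤ t' → R μ s' t')
    (hR0 : R 0 (u 0) (u 1)) (hR1 : R 1 (u 1) (u 0))
    (hstep : ∀ μ0 α0 β0 μ1 α1 β1 α β : ℝ, 0 ≤ μ1 → μ1 ≤ μ0 → μ0 ≤ 1 →
      R μ0 α0 β0 → R μ1 α1 β1 →
      (∀ p1 q1 p2 q2 l1 m1 k : ℝ, CertG ρ u p1 q1 p2 q2 l1 m1 k →
        p1 * α0 + q1 * α1 + p2 * μ0 + q2 * μ1 + (l1 * D μ0 + m1 * D μ1) - k ≤ 2 * α) →
      (∀ p1 q1 p2 q2 l1 m1 k : ℝ, CertG ρ u p1 q1 p2 q2 l1 m1 k →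
        p1 * β1 + q1 * β0 + p2 * (1 - μ1) + q2 * (1 - μ0) + (l1 * D μ1 + m1 * D μ0) - k
          ≤ 2 * β) →
      R ((μ0 + μ1) / 2) α β)
    (n : ℕ) (f : (Fin n → Bool) → Bool) :
    R (cubeAverage (TT ρ f)) (cubeAverage fun x => u (TT ρ f x))
        (cubeAverage fun x => u (1 - TT ρ f x)) := by
  have habs : |ρ| ≤ 1 := by rw [abs_of_nonneg h0]; exact h1
  refine bool_inductionG h0 h1 hu (concave_one_sub hu) R hup (by simpa using hR0)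
    (by simpa using hR1) ?_ n f
  intro n g0 g1 hle hR0' hR1'
  refine hstep (cubeAverage (TT ρ g0)) _ _ (cubeAverage (TT ρ g1)) _ _ _ _
    (mem_unit_TT habs g1).1 (cubeAverage_mono hle) (mem_unit_TT habs g0).2 hR0' hR1'
    (fun p1 q1 p2 q2 l1 m1 k hc => ?_) (fun p1 q1 p2 q2 l1 m1 k hc => ?_)
  · have := certD_TT habs hD hc g0 g1 hle
    linarith
  · have := certD_TT' habs hD hc g0 g1 hle
    linarith

/-- The product region. -/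
def Reg (W : ℝ) (B Q : ℝ → ℝ) (μ α β : ℝ) : Prop :=
  W * B μ ≤ α ∧ W * B (1 - μ) ≤ β ∧ (W * Q μ) ^ 2 ≤ (α - W * B μ) * (β - W * B (1 - μ))

lemma Reg.mono {W : ℝ} {B Q : ℝ → ℝ} {μ α β α' β' : ℝ} (h : Reg W B Q μ α β) (h1 : α ≤ α')
    (h2 : β ≤ β') : Reg W B Q μ α' β' := by
  obtain ⟨a, b, c⟩ := h
  refine ⟨a.trans h1, b.trans h2, c.trans ?_⟩
  exact mul_le_mul (by linarith) (by linarith) (by linarith) (by linarith)

/-- The gap `x` of the certificate `(a0, a1, bt, l0, l1)` at `(n0, n1)` (units of `W`). -/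
noncomputable def gapL (B D : ℝ → ℝ) (a0 a1 bt l0 l1 n0 n1 : ℝ) : ℝ :=
  a0 * B n0 + a1 * B n1 + bt * (n0 - n1) + (l0 * D n0 + l1 * D n1) - 2 * B ((n0 + n1) / 2)

/-- The gap `x'` of the certificate `(a0, a1, bt, l0, l1)`, used for the complements. -/
noncomputable def gapR (B D : ℝ → ℝ) (a0 a1 bt l0 l1 n0 n1 : ℝ) : ℝ :=
  a0 * B (1 - n1) + a1 * B (1 - n0) + bt * (n0 - n1) + (l0 * D n1 + l1 * D n0)
    - 2 * B (1 - (n0 + n1) / 2)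

/-- Three term Cauchy–Schwarz in the form needed. -/
lemma cs3 {a0 a1 b0 b1 X0 X1 Y0 Y1 x y Q0 Q1 Qm r0 r1 : ℝ}
    (ha0 : 0 ≤ a0) (ha1 : 0 ≤ a1) (hb0 : 0 ≤ b0) (hb1 : 0 ≤ b1)
    (hX0 : 0 ≤ X0) (hX1 : 0 ≤ X1) (hY0 : 0 ≤ Y0) (hY1 : 0 ≤ Y1)
    (hx : 0 ≤ x) (hy : 0 ≤ y)
    (h0 : Q0 ^ 2 ≤ X0 * Y0) (h1 : Q1 ^ 2 ≤ X1 * Y1) (hQ0 : 0 ≤ Q0) (hQ1 : 0 ≤ Q1)
    (hr0 : 0 ≤ r0) (hr1 : 0 ≤ r1) (hr0' : r0 ^ 2 ≤ a0 * b0) (hr1' : r1 ^ 2 ≤ a1 * b1)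
    (hQm : 0 ≤ Qm)
    (hS : 2 * Qm ≤ r0 * Q0 + r1 * Q1 ∨ (2 * Qm - r0 * Q0 - r1 * Q1) ^ 2 ≤ x * y) :
    (2 * Qm) ^ 2 ≤ (a0 * X0 + a1 * X1 + x) * (b0 * Y0 + b1 * Y1 + y) := by
  -- the third term
  obtain ⟨z, hz, hz', hzS⟩ : ∃ z : ℝ, 0 ≤ z ∧ z ^ 2 ≤ x * y ∧
      2 * Qm ≤ r0 * Q0 + r1 * Q1 + z := by
    rcases hS with hS | hS
    · exact ⟨0, le_rfl, by simpa using mul_nonneg hx hy, by linarith⟩
    · refine ⟨|2 * Qm - r0 * Q0 - r1 * Q1|, abs_nonneg _, by rw [sq_abs]; exact hS, ?_⟩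
      have := le_abs_self (2 * Qm - r0 * Q0 - r1 * Q1)
      linarith
  set s0 := r0 * Q0 with hs0
  set s1 := r1 * Q1 with hs1
  have hs0' : 0 ≤ s0 := mul_nonneg hr0 hQ0
  have hs1' : 0 ≤ s1 := mul_nonneg hr1 hQ1
  have e0 : s0 ^ 2 ≤ (a0 * X0) * (b0 * Y0) := by
    have := mul_le_mul hr0' h0 (sq_nonneg _) (mul_nonneg ha0 hb0)
    calc s0 ^ 2 = r0 ^ 2 * Q0 ^ 2 := by rw [hs0]; ring
      _ ≤ a0 * b0 * (X0 * Y0) := this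
      _ = _ := by ring
  have e1 : s1 ^ 2 ≤ (a1 * X1) * (b1 * Y1) := by
    have := mul_le_mul hr1' h1 (sq_nonneg _) (mul_nonneg ha1 hb1)
    calc s1 ^ 2 = r1 ^ 2 * Q1 ^ 2 := by rw [hs1]; ring
      _ ≤ a1 * b1 * (X1 * Y1) := this
      _ = _ := by ring
  -- two-term Cauchy–Schwarz
  have cs2 : ∀ {p q p' q' s s' : ℝ}, 0 ≤ p → 0 ≤ q → 0 ≤ p' → 0 ≤ q' → 0 ≤ s → 0 ≤ s' →
      s ^ 2 ≤ p * q → s' ^ 2 ≤ p' * q' → (s + s') ^ 2 ≤ (p + p') * (q + q') := by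
    intro p q p' q' s s' hp hq hp' hq' hs hs' h h'
    have h2 : s * s' ≤ (p * q' + p' * q) / 2 := by
      have hA : (s * s') ^ 2 ≤ (p * q') * (p' * q) := by
        calc (s * s') ^ 2 = s ^ 2 * s' ^ 2 := by ring
          _ ≤ (p * q) * (p' * q') := mul_le_mul h h' (sq_nonneg _) (mul_nonneg hp hq)
          _ = _ := by ring
      have hB : (s * s') ^ 2 ≤ ((p * q' + p' * q) / 2) ^ 2 := by
        nlinarith [sq_nonneg (p * q' - p' * q)]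
      have hC : 0 ≤ (p * q' + p' * q) / 2 := by positivity
      exact abs_le_of_sq_le_sq' hB hC |>.2
    nlinarith
  have step1 := cs2 (mul_nonneg ha0 hX0) (mul_nonneg hb0 hY0) (mul_nonneg ha1 hX1)
    (mul_nonneg hb1 hY1) hs0' hs1' e0 e1
  have step2 := cs2 (add_nonneg (mul_nonneg ha0 hX0) (mul_nonneg ha1 hX1))
    (add_nonneg (mul_nonneg hb0 hY0) (mul_nonneg hb1 hY1)) hx hy (add_nonneg hs0' hs1') hz
    step1 hz'
  refine le_trans ?_ step2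
  exact pow_le_pow_left₀ (by linarith) hzS 2

/-- The scalar inequality (SI) at the pair `(n0, n1)`, for the certificate
`(a0, a1, bt, l0, l1)` of `α` and the certificate `(b0, b1, bt', l0', l1')` of `β`
(all certificate constants of `bt, l` in units of `W`). -/
def SI (B Q D : ℝ → ℝ) (a0 a1 bt l0 l1 b0 b1 bt' l0' l1' n0 n1 : ℝ) : Prop :=
  0 ≤ gapL B D a0 a1 bt l0 l1 n0 n1 ∧ 0 ≤ gapR B D b0 b1 bt' l0' l1' n0 n1 ∧
  ∃ r0 r1 : ℝ, 0 ≤ r0 ∧ 0 ≤ r1 ∧ r0 ^ 2 ≤ a0 * b1 ∧ r1 ^ 2 ≤ a1 * b0 ∧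
    (2 * Q ((n0 + n1) / 2) ≤ r0 * Q n0 + r1 * Q n1 ∨
      (2 * Q ((n0 + n1) / 2) - r0 * Q n0 - r1 * Q n1) ^ 2 ≤
        gapL B D a0 a1 bt l0 l1 n0 n1 * gapR B D b0 b1 bt' l0' l1' n0 n1)

/-- The step hypothesis at `(n0, n1)`: two certificates and (SI). -/
def StepOK (ρ : ℝ) (u : ℝ → ℝ) (W : ℝ) (B Q D : ℝ → ℝ) (n0 n1 : ℝ) : Prop :=
  ∃ a0 a1 bt l0 l1 b0 b1 bt' l0' l1' : ℝ, 0 ≤ a0 ∧ 0 ≤ a1 ∧ 0 ≤ b0 ∧ 0 ≤ b1 ∧
    CertG ρ u a0 a1 (W * bt) (-(W * bt)) (W * l0) (W * l1) 0 ∧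
    CertG ρ u b0 b1 (W * bt') (-(W * bt')) (W * l0') (W * l1') 0 ∧
    SI B Q D a0 a1 bt l0 l1 b0 b1 bt' l0' l1' n0 n1

/-- The algebra of the step. -/
lemma reg_step_aux {W a0 a1 b0 b1 X0 X1 Y0 Y1 x y q0 q1 qm r0 r1 A B : ℝ} (hW : 0 < W)
    (ha0 : 0 ≤ a0) (ha1 : 0 ≤ a1) (hb0 : 0 ≤ b0) (hb1 : 0 ≤ b1)
    (hX0 : 0 ≤ X0) (hX1 : 0 ≤ X1) (hY0 : 0 ≤ Y0) (hY1 : 0 ≤ Y1) (hx : 0 ≤ x) (hy : 0 ≤ y)
    (h0 : (W * q0) ^ 2 ≤ X0 * Y0) (h1 : (W * q1) ^ 2 ≤ X1 * Y1)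
    (hq0 : 0 ≤ q0) (hq1 : 0 ≤ q1) (hqm : 0 ≤ qm)
    (hr0 : 0 ≤ r0) (hr1 : 0 ≤ r1) (hr0' : r0 ^ 2 ≤ a0 * b1) (hr1' : r1 ^ 2 ≤ a1 * b0)
    (hS : 2 * qm ≤ r0 * q0 + r1 * q1 ∨ (2 * qm - r0 * q0 - r1 * q1) ^ 2 ≤ x * y)
    (kα : a0 * X0 + a1 * X1 + W * x ≤ 2 * A) (kβ : b1 * Y0 + b0 * Y1 + W * y ≤ 2 * B) :
    0 ≤ A ∧ 0 ≤ B ∧ (W * qm) ^ 2 ≤ A * B := by
  have hWx : 0 ≤ W * x := mul_nonneg hW.le hx
  have hWy : 0 ≤ W * y := mul_nonneg hW.le hy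
  have hLα : 0 ≤ a0 * X0 + a1 * X1 + W * x := by positivity
  have hLβ : 0 ≤ b1 * Y0 + b0 * Y1 + W * y := by positivity
  have hS' : 2 * (W * qm) ≤ r0 * (W * q0) + r1 * (W * q1) ∨
      (2 * (W * qm) - r0 * (W * q0) - r1 * (W * q1)) ^ 2 ≤ W * x * (W * y) := by
    rcases hS with hS | hS
    · left
      have := mul_le_mul_of_nonneg_left hS hW.le
      linarith
    · right
      have := mul_le_mul_of_nonneg_left hS (sq_nonneg W)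
      calc (2 * (W * qm) - r0 * (W * q0) - r1 * (W * q1)) ^ 2
          = W ^ 2 * (2 * qm - r0 * q0 - r1 * q1) ^ 2 := by ring
        _ ≤ W ^ 2 * (x * y) := this
        _ = W * x * (W * y) := by ring
  have key := cs3 (Qm := W * qm) (Q0 := W * q0) (Q1 := W * q1)
    ha0 ha1 hb1 hb0 hX0 hX1 hY0 hY1 hWx hWy h0 h1
    (mul_nonneg hW.le hq0) (mul_nonneg hW.le hq1)
    hr0 hr1 hr0' hr1' (mul_nonneg hW.le hqm) hS'
  have hm := mul_le_mul kα kβ hLβ (hLα.trans kα)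
  have e1 : (2 * (W * qm)) ^ 2 = 4 * (W * qm) ^ 2 := by ring
  have e2 : 2 * A * (2 * B) = 4 * (A * B) := by ring
  rw [e1] at key
  rw [e2] at hm
  exact ⟨by linarith, by linarith, by linarith⟩

/-- The step of the induction. -/
theorem reg_step {ρ W : ℝ} (hW : 0 < W) {u B Q D : ℝ → ℝ} (hQ : ∀ n, 0 ≤ n → n ≤ 1 → 0 ≤ Q n)
    {μ0 α0 β0 μ1 α1 β1 α β : ℝ} (hμ1 : 0 ≤ μ1) (hμ : μ1 ≤ μ0) (hμ0 : μ0 ≤ 1)
    (hR0 : Reg W B Q μ0 α0 β0) (hR1 : Reg W B Q μ1 α1 β1)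
    (hα : ∀ p1 q1 p2 q2 l1 m1 k : ℝ, CertG ρ u p1 q1 p2 q2 l1 m1 k →
        p1 * α0 + q1 * α1 + p2 * μ0 + q2 * μ1 + (l1 * D μ0 + m1 * D μ1) - k ≤ 2 * α)
    (hβ : ∀ p1 q1 p2 q2 l1 m1 k : ℝ, CertG ρ u p1 q1 p2 q2 l1 m1 k →
        p1 * β1 + q1 * β0 + p2 * (1 - μ1) + q2 * (1 - μ0) + (l1 * D μ1 + m1 * D μ0) - k
          ≤ 2 * β)
    (hOK : StepOK ρ u W B Q D μ0 μ1) :
    Reg W B Q ((μ0 + μ1) / 2) α β := by
  obtain ⟨a0, a1, bt, l0, l1, b0, b1, bt', l0', l1', ha0, ha1, hb0, hb1, hc, hc', hx, hx', r0, r1,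
    hr0, hr1, hr0', hr1', hS⟩ := hOK
  have hα' := hα _ _ _ _ _ _ _ hc
  have hβ' := hβ _ _ _ _ _ _ _ hc'
  have e1 : a0 * (α0 - W * B μ0) + a1 * (α1 - W * B μ1) + W * gapL B D a0 a1 bt l0 l1 μ0 μ1 =
      a0 * α0 + a1 * α1 + W * bt * μ0 + -(W * bt) * μ1 +
        (W * l0 * D μ0 + W * l1 * D μ1) - 0 - 2 * (W * B ((μ0 + μ1) / 2)) := by
    unfold gapL; ring
  have e2 : b1 * (β0 - W * B (1 - μ0)) + b0 * (β1 - W * B (1 - μ1)) +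
      W * gapR B D b0 b1 bt' l0' l1' μ0 μ1 = b0 * β1 + b1 * β0 + W * bt' * (1 - μ1) +
        -(W * bt') * (1 - μ0) + (W * l0' * D μ1 + W * l1' * D μ0) - 0
          - 2 * (W * B (1 - (μ0 + μ1) / 2)) := by
    unfold gapR; ring
  have key := reg_step_aux hW ha0 ha1 hb0 hb1 (sub_nonneg.mpr hR0.1) (sub_nonneg.mpr hR1.1)
    (sub_nonneg.mpr hR0.2.1) (sub_nonneg.mpr hR1.2.1) hx hx' hR0.2.2 hR1.2.2
    (hQ _ (hμ1.trans hμ) hμ0) (hQ _ hμ1 (hμ.trans hμ0))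
    (hQ ((μ0 + μ1) / 2) (by linarith) (by linarith)) hr0 hr1 hr0' hr1' hS
    (A := α - W * B ((μ0 + μ1) / 2)) (B := β - W * B (1 - (μ0 + μ1) / 2))
    (by rw [e1]; linarith) (by rw [e2]; linarith)
  exact ⟨sub_nonneg.mp key.1, sub_nonneg.mp key.2.1, key.2.2⟩

/-- **G6.** The product region contains all `(E u(P), E u(1-P))`. -/
theorem prod_region {ρ : ℝ} (h0 : 0 ≤ ρ) (h1 : ρ ≤ 1) {u : ℝ → ℝ}
    (hu : ConcaveOn ℝ (Icc 0 1) u) (hu0 : u 0 = 0) (hu1 : u 1 = 0)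
    {D : ℝ → ℝ} (hD : PBound ρ D) {W : ℝ} (hW : 0 < W) {B Q : ℝ → ℝ}
    (hB0 : B 0 = 0) (hB1 : B 1 = 0) (hQ0 : Q 0 = 0) (hQ1 : Q 1 = 0)
    (hQ : ∀ n, 0 ≤ n → n ≤ 1 → 0 ≤ Q n)
    (hstep : ∀ n0 n1 : ℝ, 0 ≤ n1 → n1 ≤ n0 → n0 ≤ 1 → StepOK ρ u W B Q D n0 n1)
    (n : ℕ) (f : (Fin n → Bool) → Bool) :
    Reg W B Q (cubeAverage (TT ρ f)) (cubeAverage fun x => u (TT ρ f x))
        (cubeAverage fun x => u (1 - TT ρ f x)) := by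
  refine region_inductionD h0 h1 hu hD (Reg W B Q) (fun μ s t s' t' h a b => h.mono a b) ?_ ?_ ?_
    n f
  · rw [hu0, hu1]
    simp [Reg, hB0, hB1, hQ0]
  · rw [hu0, hu1]
    simp [Reg, hB0, hB1, hQ1]
  · intro μ0 α0 β0 μ1 α1 β1 α β hμ1 hμ hμ0 hR0 hR1 hα hβ
    exact reg_step hW hQ hμ1 hμ hμ0 hR0 hR1 hα hβ (hstep μ0 μ1 hμ1 hμ hμ0)

lemma Reg.sum_le {W : ℝ} {B Q : ℝ → ℝ} {μ α β : ℝ}
    (h : Reg W B Q μ α β) : W * (B μ + B (1 - μ) + 2 * Q μ) ≤ α + β := by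
  obtain ⟨a, b, c⟩ := h
  set X := α - W * B μ with hX
  set Y := β - W * B (1 - μ) with hY
  have hX0 : 0 ≤ X := by rw [hX]; linarith
  have hY0 : 0 ≤ Y := by rw [hY]; linarith
  have h1 : (2 * (W * Q μ)) ^ 2 ≤ (X + Y) ^ 2 := by nlinarith [sq_nonneg (X - Y)]
  have h2 := abs_le_of_sq_le_sq' h1 (by linarith) |>.2
  have : X + Y = α + β - W * B μ - W * B (1 - μ) := by rw [hX, hY]; ring
  rw [this] at h2
  linarith

/-- **FIN.** `E u(P) + E u(1-P) ≥ W (B(μ) + B(1-μ) + 2 Q(μ))`. -/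
theorem prod_bound {ρ : ℝ} (h0 : 0 ≤ ρ) (h1 : ρ ≤ 1) {u : ℝ → ℝ}
    (hu : ConcaveOn ℝ (Icc 0 1) u) (hu0 : u 0 = 0) (hu1 : u 1 = 0)
    {D : ℝ → ℝ} (hD : PBound ρ D) {W : ℝ} (hW : 0 < W) {B Q : ℝ → ℝ}
    (hB0 : B 0 = 0) (hB1 : B 1 = 0) (hQ0 : Q 0 = 0) (hQ1 : Q 1 = 0)
    (hQ : ∀ n, 0 ≤ n → n ≤ 1 → 0 ≤ Q n)
    (hstep : ∀ n0 n1 : ℝ, 0 ≤ n1 → n1 ≤ n0 → n0 ≤ 1 → StepOK ρ u W B Q D n0 n1)
    (n : ℕ) (f : (Fin n → Bool) → Bool) :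
    W * (B (cubeAverage (TT ρ f)) + B (1 - cubeAverage (TT ρ f)) +
        2 * Q (cubeAverage (TT ρ f))) ≤
      cubeAverage (fun x => u (TT ρ f x)) + cubeAverage (fun x => u (1 - TT ρ f x)) := by
  exact (prod_region h0 h1 hu hu0 hu1 hD hW hB0 hB1 hQ0 hQ1 hQ hstep n f).sum_le

/-! ### The scalar inequality with square roots; convexity in the certificate -/

/-- superadditivity of the geometric mean -/
lemma gm_add {a b a' b' : ℝ} (ha : 0 ≤ a) (hb : 0 ≤ b) (ha' : 0 ≤ a') (hb' : 0 ≤ b') :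
    Real.sqrt (a * b) + Real.sqrt (a' * b') ≤ Real.sqrt ((a + a') * (b + b')) := by
  apply Real.le_sqrt_of_sq_le
  have h1 := Real.sq_sqrt (mul_nonneg ha hb)
  have h2 := Real.sq_sqrt (mul_nonneg ha' hb')
  have h3 : Real.sqrt (a * b) * Real.sqrt (a' * b') ≤ (a * b' + a' * b) / 2 := by
    rw [← Real.sqrt_mul (mul_nonneg ha hb)]
    apply Real.sqrt_le_iff.mpr
    refine ⟨by positivity, ?_⟩
    nlinarith [sq_nonneg (a * b' - a' * b)]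
  nlinarith

lemma gm_combo {a b a' b' s : ℝ} (ha : 0 ≤ a) (hb : 0 ≤ b) (ha' : 0 ≤ a') (hb' : 0 ≤ b')
    (hs0 : 0 ≤ s) (hs1 : s ≤ 1) :
    (1 - s) * Real.sqrt (a * b) + s * Real.sqrt (a' * b') ≤
      Real.sqrt (((1 - s) * a + s * a') * ((1 - s) * b + s * b')) := by
  have h1 : 0 ≤ 1 - s := by linarith
  have h := gm_add (mul_nonneg h1 ha) (mul_nonneg h1 hb) (mul_nonneg hs0 ha') (mul_nonneg hs0 hb')
  have e1 : Real.sqrt ((1 - s) * a * ((1 - s) * b)) = (1 - s) * Real.sqrt (a * b) := by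
    have : (1 - s) * a * ((1 - s) * b) = (1 - s) ^ 2 * (a * b) := by ring
    rw [this, Real.sqrt_mul (sq_nonneg _), Real.sqrt_sq h1]
  have e2 : Real.sqrt (s * a' * (s * b')) = s * Real.sqrt (a' * b') := by
    have : s * a' * (s * b') = s ^ 2 * (a' * b') := by ring
    rw [this, Real.sqrt_mul (sq_nonneg _), Real.sqrt_sq hs0]
  rw [e1, e2] at h
  exact h

theorem SI.of_sqrt {B Q D : ℝ → ℝ} {a0 a1 bt l0 l1 b0 b1 bt' l0' l1' n0 n1 : ℝ}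
    (ha0 : 0 ≤ a0) (ha1 : 0 ≤ a1) (hb0 : 0 ≤ b0) (hb1 : 0 ≤ b1)
    (hx : 0 ≤ gapL B D a0 a1 bt l0 l1 n0 n1) (hy : 0 ≤ gapR B D b0 b1 bt' l0' l1' n0 n1)
    (H : 2 * Q ((n0 + n1) / 2) ≤ Real.sqrt (a0 * b1) * Q n0 + Real.sqrt (a1 * b0) * Q n1 +
      Real.sqrt (gapL B D a0 a1 bt l0 l1 n0 n1 * gapR B D b0 b1 bt' l0' l1' n0 n1)) :
    SI B Q D a0 a1 bt l0 l1 b0 b1 bt' l0' l1' n0 n1 := by
  refine ⟨hx, hy, Real.sqrt (a0 * b1), Real.sqrt (a1 * b0), Real.sqrt_nonneg _,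
    Real.sqrt_nonneg _, (Real.sq_sqrt (mul_nonneg ha0 hb1)).le,
    (Real.sq_sqrt (mul_nonneg ha1 hb0)).le, ?_⟩
  rcases le_total (2 * Q ((n0 + n1) / 2))
    (Real.sqrt (a0 * b1) * Q n0 + Real.sqrt (a1 * b0) * Q n1) with h | h
  · exact Or.inl h
  · right
    set z := Real.sqrt (gapL B D a0 a1 bt l0 l1 n0 n1 * gapR B D b0 b1 bt' l0' l1' n0 n1) with hz
    have h2 : 2 * Q ((n0 + n1) / 2) - Real.sqrt (a0 * b1) * Q n0 - Real.sqrt (a1 * b0) * Q n1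
        ≤ z := by linarith
    have h3 := pow_le_pow_left₀ (by linarith) h2 2
    rwa [hz, Real.sq_sqrt (mul_nonneg hx hy)] at h3

theorem SI.to_sqrt {B Q D : ℝ → ℝ} {a0 a1 bt l0 l1 b0 b1 bt' l0' l1' n0 n1 : ℝ}
    (h : SI B Q D a0 a1 bt l0 l1 b0 b1 bt' l0' l1' n0 n1) (hQ0 : 0 ≤ Q n0) (hQ1 : 0 ≤ Q n1) :
    2 * Q ((n0 + n1) / 2) ≤ Real.sqrt (a0 * b1) * Q n0 + Real.sqrt (a1 * b0) * Q n1 +
      Real.sqrt (gapL B D a0 a1 bt l0 l1 n0 n1 * gapR B D b0 b1 bt' l0' l1' n0 n1) := by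
  obtain ⟨hx, hy, r0, r1, hr0, hr1, hr0', hr1', hS⟩ := h
  have h0 : r0 ≤ Real.sqrt (a0 * b1) := Real.le_sqrt_of_sq_le hr0'
  have h1 : r1 ≤ Real.sqrt (a1 * b0) := Real.le_sqrt_of_sq_le hr1'
  have k0 := mul_le_mul_of_nonneg_right h0 hQ0
  have k1 := mul_le_mul_of_nonneg_right h1 hQ1
  rcases hS with hS | hS
  · have := Real.sqrt_nonneg
      (gapL B D a0 a1 bt l0 l1 n0 n1 * gapR B D b0 b1 bt' l0' l1' n0 n1)
    linarith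
  · have := Real.le_sqrt_of_sq_le hS
    linarith

/-- (SI) is a convex condition in the pair of certificates. -/
theorem SI.segment {B Q D : ℝ → ℝ} {n0 n1 : ℝ} (hQ0 : 0 ≤ Q n0) (hQ1 : 0 ≤ Q n1)
    {a0 a1 bt l0 l1 b0 b1 bt' l0' l1' A0 A1 Bt L0 L1 B0 B1 Bt' L0' L1' s : ℝ}
    (ha0 : 0 ≤ a0) (ha1 : 0 ≤ a1) (hb0 : 0 ≤ b0) (hb1 : 0 ≤ b1)
    (hA0 : 0 ≤ A0) (hA1 : 0 ≤ A1) (hB0 : 0 ≤ B0) (hB1 : 0 ≤ B1)
    (h : SI B Q D a0 a1 bt l0 l1 b0 b1 bt' l0' l1' n0 n1)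
    (h' : SI B Q D A0 A1 Bt L0 L1 B0 B1 Bt' L0' L1' n0 n1) (hs0 : 0 ≤ s) (hs1 : s ≤ 1) :
    SI B Q D ((1 - s) * a0 + s * A0) ((1 - s) * a1 + s * A1) ((1 - s) * bt + s * Bt)
      ((1 - s) * l0 + s * L0) ((1 - s) * l1 + s * L1)
      ((1 - s) * b0 + s * B0) ((1 - s) * b1 + s * B1) ((1 - s) * bt' + s * Bt')
      ((1 - s) * l0' + s * L0') ((1 - s) * l1' + s * L1') n0 n1 := by
  have hs : 0 ≤ 1 - s := by linarith
  have k := h.to_sqrt hQ0 hQ1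
  have k' := h'.to_sqrt hQ0 hQ1
  have e1 : gapL B D ((1 - s) * a0 + s * A0) ((1 - s) * a1 + s * A1) ((1 - s) * bt + s * Bt)
      ((1 - s) * l0 + s * L0) ((1 - s) * l1 + s * L1) n0 n1 =
      (1 - s) * gapL B D a0 a1 bt l0 l1 n0 n1 + s * gapL B D A0 A1 Bt L0 L1 n0 n1 := by
    unfold gapL; ring
  have e2 : gapR B D ((1 - s) * b0 + s * B0) ((1 - s) * b1 + s * B1) ((1 - s) * bt' + s * Bt')
      ((1 - s) * l0' + s * L0') ((1 - s) * l1' + s * L1') n0 n1 =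
      (1 - s) * gapR B D b0 b1 bt' l0' l1' n0 n1 + s * gapR B D B0 B1 Bt' L0' L1' n0 n1 := by
    unfold gapR; ring
  refine SI.of_sqrt (by positivity) (by positivity) (by positivity) (by positivity)
    (by rw [e1]; exact add_nonneg (mul_nonneg hs h.1) (mul_nonneg hs0 h'.1))
    (by rw [e2]; exact add_nonneg (mul_nonneg hs h.2.1) (mul_nonneg hs0 h'.2.1)) ?_
  rw [e1, e2]
  have c0 := mul_le_mul_of_nonneg_right (gm_combo ha0 hb1 hA0 hB1 hs0 hs1) hQ0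
  have c1 := mul_le_mul_of_nonneg_right (gm_combo ha1 hb0 hA1 hB0 hs0 hs1) hQ1
  have c2 := gm_combo h.1 h.2.1 h'.1 h'.2.1 hs0 hs1
  have m := mul_le_mul_of_nonneg_left k hs
  have m' := mul_le_mul_of_nonneg_left k' hs0
  nlinarith [c0, c1, c2, m, m']

lemma exists_seg {a b x : ℝ} (h : a ≤ x) (h' : x ≤ b) :
    ∃ s : ℝ, 0 ≤ s ∧ s ≤ 1 ∧ x = (1 - s) * a + s * b := by
  rcases (h.trans h').eq_or_lt with hab | hab
  · subst hab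
    exact ⟨0, le_rfl, zero_le_one, by linarith⟩
  · refine ⟨(x - a) / (b - a), div_nonneg (by linarith) (by linarith), ?_, ?_⟩
    · rw [div_le_one (by linarith)]; linarith
    · have : b - a ≠ 0 := by linarith
      field_simp
      ring

/-- (SI) in the shape of the family, `a0 = 1 + K`, `a1 = C - K`. -/
def SIK (B Q D : ℝ → ℝ) (C bt l0 l1 C' bt' l0' l1' n0 n1 K K' : ℝ) : Prop :=
  SI B Q D (1 + K) (C - K) bt l0 l1 (1 + K') (C' - K') bt' l0' l1' n0 n1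

/-- **Elimination of `c` by the four corners** of a rectangle of `(K, K')`. -/
theorem SIK.rect {B Q D : ℝ → ℝ} {n0 n1 : ℝ} (hQ0 : 0 ≤ Q n0) (hQ1 : 0 ≤ Q n1)
    {C bt l0 l1 C' bt' l0' l1' Ka Kb Ka' Kb' K K' : ℝ}
    (hKa : -1 ≤ Ka) (hKb : Kb ≤ C) (hKa' : -1 ≤ Ka') (hKb' : Kb' ≤ C')
    (h00 : SIK B Q D C bt l0 l1 C' bt' l0' l1' n0 n1 Ka Ka')
    (h01 : SIK B Q D C bt l0 l1 C' bt' l0' l1' n0 n1 Ka Kb')
    (h10 : SIK B Q D C bt l0 l1 C' bt' l0' l1' n0 n1 Kb Ka')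
    (h11 : SIK B Q D C bt l0 l1 C' bt' l0' l1' n0 n1 Kb Kb')
    (k1 : Ka ≤ K) (k2 : K ≤ Kb) (k1' : Ka' ≤ K') (k2' : K' ≤ Kb') :
    SIK B Q D C bt l0 l1 C' bt' l0' l1' n0 n1 K K' := by
  obtain ⟨s, hs0, hs1, rfl⟩ := exists_seg k1 k2
  obtain ⟨t, ht0, ht1, rfl⟩ := exists_seg k1' k2'
  have hab := k1.trans k2
  have hab' := k1'.trans k2'
  -- first move `K'`
  have g : ∀ K, -1 ≤ K → K ≤ C → SIK B Q D C bt l0 l1 C' bt' l0' l1' n0 n1 K Ka' →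
      SIK B Q D C bt l0 l1 C' bt' l0' l1' n0 n1 K Kb' →
      SIK B Q D C bt l0 l1 C' bt' l0' l1' n0 n1 K ((1 - t) * Ka' + t * Kb') := by
    intro K hK hK' h h'
    have := SI.segment hQ0 hQ1 (by linarith) (by linarith) (by linarith) (by linarith)
      (by linarith) (by linarith) (by linarith) (by linarith) h h' ht0 ht1
    unfold SIK
    convert this using 1 <;> ring
  have g0 := g Ka (by linarith) (by linarith) h00 h01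
  have g1 := g Kb (by linarith) (by linarith) h10 h11
  have := SI.segment hQ0 hQ1 (by linarith) (by linarith) (by linarith) (by linarith)
      (by linarith) (by linarith) (by linarith) (by linarith) g0 g1 hs0 hs1
  unfold SIK
  convert this using 1 <;> ring

/-- rational lower bound of the square root: `r = 2 u h / (u + h²)` satisfies `r² ≤ u`. -/
lemma am_sq_le {u h : ℝ} (hu : 0 ≤ u) (hh : 0 < h) : (2 * u * h / (u + h ^ 2)) ^ 2 ≤ u := by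
  have hp : 0 < u + h ^ 2 := by positivity
  rw [div_pow, div_le_iff₀ (by positivity)]
  nlinarith [mul_nonneg hu (sq_nonneg (u - h ^ 2))]

/-! ### Diagonal, reflection -/

/-- certificate from concavity -/
lemma certG_one {ρ : ℝ} (h0 : 0 ≤ ρ) (h1 : ρ ≤ 1) {u : ℝ → ℝ} (hu : ConcaveOn ℝ (Icc 0 1) u)
    (W : ℝ) : CertG ρ u 1 1 (W * 0) (-(W * 0)) (W * 0) (W * 0) 0 := by
  refine ⟨by simp, by simp, fun P Q hQ hQP hP => ?_⟩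
  have hP' : P ∈ Icc (0 : ℝ) 1 := ⟨hQ.trans hQP, hP⟩
  have hQ' : Q ∈ Icc (0 : ℝ) 1 := ⟨hQ, hQP.trans hP⟩
  have e1 := hu.2 hP' hQ' (show (0 : ℝ) ≤ (1 + ρ) / 2 by linarith)
    (show (0 : ℝ) ≤ (1 - ρ) / 2 by linarith) (by ring)
  have e2 := hu.2 hP' hQ' (show (0 : ℝ) ≤ (1 - ρ) / 2 by linarith)
    (show (0 : ℝ) ≤ (1 + ρ) / 2 by linarith) (by ring)
  simp only [smul_eq_mul] at e1 e2
  simp only [mul_zero, neg_zero, zero_mul, add_zero, sub_zero, one_mul]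
  linarith

/-- the diagonal is free -/
theorem stepOK_diag {ρ : ℝ} (h0 : 0 ≤ ρ) (h1 : ρ ≤ 1) {u : ℝ → ℝ}
    (hu : ConcaveOn ℝ (Icc 0 1) u) (W : ℝ) (B Q D : ℝ → ℝ) (n : ℝ) :
    StepOK ρ u W B Q D n n := by
  have e : (n + n) / 2 = n := by ring
  refine ⟨1, 1, 0, 0, 0, 1, 1, 0, 0, 0, zero_le_one, zero_le_one, zero_le_one, zero_le_one,
    certG_one h0 h1 hu W, certG_one h0 h1 hu W, ?_, ?_, 1, 1, zero_le_one, zero_le_one, by simp,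
    by simp, Or.inl ?_⟩
  · unfold gapL; rw [e]; apply le_of_eq; ring
  · unfold gapR; rw [e]; apply le_of_eq; ring
  · rw [e]; apply le_of_eq; ring

/-- reflection of a pair -/
theorem stepOK_symm {ρ : ℝ} {u : ℝ → ℝ} {W : ℝ} {B Q D : ℝ → ℝ}
    (hQ : ∀ n, Q (1 - n) = Q n) (hD : ∀ n, D (1 - n) = D n) {n0 n1 : ℝ}
    (h : StepOK ρ u W B Q D n0 n1) : StepOK ρ u W B Q D (1 - n1) (1 - n0) := by
  obtain ⟨a0, a1, bt, l0, l1, b0, b1, bt', l0', l1', ha0, ha1, hb0, hb1, hc, hc', hx, hy, r0, r1,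
    hr0, hr1, hr0', hr1', hS⟩ := h
  have em : (1 - n1 + (1 - n0)) / 2 = 1 - (n0 + n1) / 2 := by ring
  have em' : 1 - (1 - (n0 + n1) / 2) = (n0 + n1) / 2 := by ring
  have e1 : gapL B D b0 b1 bt' l0' l1' (1 - n1) (1 - n0) =
      gapR B D b0 b1 bt' l0' l1' n0 n1 := by
    unfold gapL gapR; rw [em, hD, hD]; ring
  have e2 : gapR B D a0 a1 bt l0 l1 (1 - n1) (1 - n0) = gapL B D a0 a1 bt l0 l1 n0 n1 := by
    unfold gapL gapR; rw [em, em', hD, hD]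
    have e3 : 1 - (1 - n0) = n0 := by ring
    have e4 : 1 - (1 - n1) = n1 := by ring
    rw [e3, e4]; ring
  refine ⟨b0, b1, bt', l0', l1', a0, a1, bt, l0, l1, hb0, hb1, ha0, ha1, hc', hc, ?_, ?_, r1, r0,
    hr1, hr0, by rw [mul_comm]; exact hr1', by rw [mul_comm]; exact hr0', ?_⟩
  · rw [e1]; exact hy
  · rw [e2]; exact hx
  · rw [e1, e2, em, hQ, hQ, hQ]
    rcases hS with hS | hS
    · left; linarith
    · right
      have e5 : 2 * Q ((n0 + n1) / 2) - r1 * Q n1 - r0 * Q n0 =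
        2 * Q ((n0 + n1) / 2) - r0 * Q n0 - r1 * Q n1 := by ring
      rw [e5, mul_comm (gapR B D b0 b1 bt' l0' l1' n0 n1)]
      exact hS

/-- The step hypothesis for all pairs from the pairs `n1 < n0`, `n0 + n1 ≤ 1`. -/
theorem stepOK_of_half {ρ : ℝ} (h0 : 0 ≤ ρ) (h1 : ρ ≤ 1) {u : ℝ → ℝ}
    (hu : ConcaveOn ℝ (Icc 0 1) u) {W : ℝ} {B Q D : ℝ → ℝ}
    (hQ : ∀ n, Q (1 - n) = Q n) (hD : ∀ n, D (1 - n) = D n)
    (H : ∀ n0 n1 : ℝ, 0 ≤ n1 → n1 < n0 → n0 + n1 ≤ 1 → StepOK ρ u W B Q D n0 n1)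
    (n0 n1 : ℝ) (hn1 : 0 ≤ n1) (hn : n1 ≤ n0) (hn0 : n0 ≤ 1) : StepOK ρ u W B Q D n0 n1 := by
  rcases hn.eq_or_lt with h | h
  · subst h; exact stepOK_diag h0 h1 hu W B Q D _
  · rcases le_total (n0 + n1) 1 with h2 | h2
    · exact H n0 n1 hn1 h h2
    · have := stepOK_symm hQ hD
        (H (1 - n1) (1 - n0) (by linarith) (by linarith) (by linarith))
      have e3 : 1 - (1 - n0) = n0 := by ring
      have e4 : 1 - (1 - n1) = n1 := by ring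
      rwa [e3, e4] at this

/-! ### Final reduction -/

/-- `MSHyp` from the product region (tangent version of FIN). -/
theorem msHyp_of_prod {ρ : ℝ} (h0 : 0 ≤ ρ) (h1 : ρ ≤ 1) (A0 A1 A2 T : ℝ) (hT : 0 < T)
    (hconc : ConcaveOn ℝ (Icc 0 1) (FA A0 A1 A2))
    (tang : ∀ x, 0 ≤ x → x ≤ 1 → WA A0 A1 A2 x ≤ WA A0 A1 A2 (ph ρ) + T * (x - ph ρ))
    {D : ℝ → ℝ} (hD : PBound ρ D) {W : ℝ} (hW : 0 < W) {B Q : ℝ → ℝ}
    (hB0 : B 0 = 0) (hB1 : B 1 = 0) (hQ0 : Q 0 = 0) (hQ1 : Q 1 = 0)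
    (hQ : ∀ n, 0 ≤ n → n ≤ 1 → 0 ≤ Q n)
    (hstep : ∀ n0 n1 : ℝ, 0 ≤ n1 → n1 ≤ n0 → n0 ≤ 1 →
      StepOK ρ (FA A0 A1 A2) W B Q D n0 n1)
    (hfin : ∀ n, 0 ≤ n → n ≤ 1 →
      WA A0 A1 A2 (ph ρ) - T * (1 - ph (2 * n - 1)) ≤ W * (B n + B (1 - n) + 2 * Q n)) :
    MSHyp ρ := by
  have habs : |ρ| ≤ 1 := by rw [abs_of_nonneg h0]; exact h1
  refine ⟨A0, A1, A2, T, hT, tang, fun n f => ?_⟩
  have hm := mem_unit_TT habs f
  exact (hfin _ hm.1 hm.2).trans (prod_bound h0 h1 hconc (FA_zero _ _ _) (FA_one _ _ _) hD hW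
    hB0 hB1 hQ0 hQ1 hQ hstep n f)

/-- The bound for one `ρ`. -/
def Bound (ρ : ℝ) : Prop :=
  ∀ (n : ℕ) (f : (Fin n → Bool) → Bool), ph (cubeAverage (sf f)) - 1 + ph ρ ≤ Z (sf f) ρ

theorem bound_of_msHyp {ρ : ℝ} (hρ : |ρ| ≤ 1) (h : MSHyp ρ) : Bound ρ :=
  fun _ f => bound_of_ms hρ h f

theorem jensen_cube {n : ℕ} {W : ℝ → ℝ} (hW : ConcaveOn ℝ (Icc 0 1) W) (g : (Fin n → Bool) → ℝ)
    (hg : ∀ x, g x ∈ Icc (0 : ℝ) 1) :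
    cubeAverage (fun x => W (g x)) ≤ W (cubeAverage g) := by
  have h := hW.le_map_sum (t := Finset.univ) (w := fun _ : Fin n → Bool => (1 : ℝ) / 2 ^ n)
    (p := g) (fun _ _ => by positivity) (by simp) (fun x _ => hg x)
  have e1 : ∑ i : Fin n → Bool, ((1 : ℝ) / 2 ^ n) • W (g i) = cubeAverage (fun x => W (g x)) := by
    unfold cubeAverage
    rw [Finset.sum_div]
    exact Finset.sum_congr rfl fun _ _ => by simp only [smul_eq_mul]; ring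
  have e2 : ∑ i : Fin n → Bool, ((1 : ℝ) / 2 ^ n) • g i = cubeAverage g := by
    unfold cubeAverage
    rw [Finset.sum_div]
    exact Finset.sum_congr rfl fun _ _ => by simp only [smul_eq_mul]; ring
  rw [e1, e2] at h
  exact h

/-- Jensen version of the final reduction. -/
theorem bound_of_jensen {ρ : ℝ} (hρ : |ρ| ≤ 1) {u W : ℝ → ℝ}
    (hW : ∀ q, 0 ≤ q → q ≤ 1 → u q + u (1 - q) ≤ W (ph (2 * q - 1)))
    (hWc : ConcaveOn ℝ (Icc 0 1) W) (hWm : StrictMonoOn W (Icc 0 1))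
    (H : ∀ (n : ℕ) (f : (Fin n → Bool) → Bool),
      0 ≤ ph ρ - 1 + ph (2 * cubeAverage (TT ρ f) - 1) →
      W (ph ρ - 1 + ph (2 * cubeAverage (TT ρ f) - 1)) ≤
        cubeAverage (fun x => u (TT ρ f x)) + cubeAverage (fun x => u (1 - TT ρ f x))) :
    Bound ρ := by
  intro n f
  have e : ∀ x, noise ρ (sf f) x = 2 * TT ρ f x - 1 := fun x => noise_spin ρ f x
  have hZ : Z (sf f) ρ = cubeAverage (fun x => ph (noise ρ (sf f) x)) := rfl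
  have hZ0 : 0 ≤ Z (sf f) ρ := by
    rw [hZ]; exact cubeAverage_nonneg fun x => ph_nonneg _
  have hZ1 : Z (sf f) ρ ≤ 1 := by
    rw [hZ, ← cubeAverage_const (n := n) 1]
    exact cubeAverage_mono fun x => ph_le_one _
  rw [avg_sf_eq ρ f]
  by_cases hpos : 0 ≤ ph ρ - 1 + ph (2 * cubeAverage (TT ρ f) - 1)
  · have a := H n f hpos
    have b := cubeAverage_mono (n := n) (g := fun x => u (TT ρ f x) + u (1 - TT ρ f x))
      (h := fun x => W (ph (noise ρ (sf f) x))) (fun x => by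
        have := hW (TT ρ f x) (TT_nonneg hρ f x) (TT_le_one hρ f x)
        rw [e x]; exact this)
    rw [cubeAverage_add] at b
    have c := jensen_cube hWc (fun x => ph (noise ρ (sf f) x))
      (fun x => ⟨ph_nonneg _, ph_le_one _⟩)
    rw [← hZ] at c
    have d : W (ph ρ - 1 + ph (2 * cubeAverage (TT ρ f) - 1)) ≤ W (Z (sf f) ρ) :=
      (a.trans b).trans c
    have k1 : ph ρ - 1 + ph (2 * cubeAverage (TT ρ f) - 1) ≤ 1 := by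
      have := ph_le_one ρ
      have := ph_le_one (2 * cubeAverage (TT ρ f) - 1)
      linarith
    have := (hWm.le_iff_le ⟨hpos, k1⟩ ⟨hZ0, hZ1⟩).mp d
    linarith
  · rw [not_le] at hpos
    linarith

/-- `Bound ρ` from the product region, Jensen version of FIN. -/
theorem bound_of_prod {ρ : ℝ} (h0 : 0 ≤ ρ) (h1 : ρ ≤ 1) (A0 A1 A2 : ℝ)
    (hconc : ConcaveOn ℝ (Icc 0 1) (FA A0 A1 A2))
    (hWc : ConcaveOn ℝ (Icc 0 1) (WA A0 A1 A2)) (hWm : StrictMonoOn (WA A0 A1 A2) (Icc 0 1))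
    {D : ℝ → ℝ} (hD : PBound ρ D) {W : ℝ} (hW : 0 < W) {B Q : ℝ → ℝ}
    (hB0 : B 0 = 0) (hB1 : B 1 = 0) (hQ0 : Q 0 = 0) (hQ1 : Q 1 = 0)
    (hQ : ∀ n, 0 ≤ n → n ≤ 1 → 0 ≤ Q n)
    (hstep : ∀ n0 n1 : ℝ, 0 ≤ n1 → n1 ≤ n0 → n0 ≤ 1 →
      StepOK ρ (FA A0 A1 A2) W B Q D n0 n1)
    (hfin : ∀ n, 0 ≤ n → n ≤ 1 → 0 ≤ ph ρ - 1 + ph (2 * n - 1) →
      WA A0 A1 A2 (ph ρ - 1 + ph (2 * n - 1)) ≤ W * (B n + B (1 - n) + 2 * Q n)) :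
    Bound ρ := by
  have habs : |ρ| ≤ 1 := by rw [abs_of_nonneg h0]; exact h1
  refine bound_of_jensen habs (u := FA A0 A1 A2) (W := WA A0 A1 A2)
    (fun q h0 h1 => (FA_add_FA A0 A1 A2 h0 h1).le) hWc hWm fun n f hpos => ?_
  have hm := mem_unit_TT habs f
  exact (hfin _ hm.1 hm.2 hpos).trans (prod_bound h0 h1 hconc (FA_zero _ _ _) (FA_one _ _ _) hD hW
    hB0 hB1 hQ0 hQ1 hQ hstep n f)

/-- S0471 from the flow hypothesis for `c₀ ≤ c < 1` and `Bound` for `0 < c ≤ c₀`. -/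
theorem s0471_of_flow_boundc {c₀ : ℝ} (h0 : 0 < c₀) (h1 : c₀ < 1)
    (L : ∀ c, c₀ ≤ c → c < 1 → FlowHyp (Real.sqrt (1 - c ^ 2)))
    (MS : ∀ c, 0 < c → c ≤ c₀ → Bound (Real.sqrt (1 - c ^ 2)))
    (n : ℕ) (f : (Fin n → Bool) → Bool) (ρ : ℝ) (hρ : |ρ| ≤ 1) :
    Real.sqrt (1 - (cubeAverage (fun x => spin (f x))) ^ 2)
        - cubeAverage (fun x => Real.sqrt (1 - (noise ρ (fun y => spin (f y)) x) ^ 2))
      ≤ 1 - Real.sqrt (1 - ρ ^ 2) := by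
  have hc2 : c₀ ^ 2 < 1 := by nlinarith
  have hc2' : 0 < c₀ ^ 2 := by positivity
  have hlt : Real.sqrt (1 - c₀ ^ 2) < 1 := by
    rw [Real.sqrt_lt' one_pos]; linarith
  have back : ∀ r : ℝ, 0 ≤ r → r ≤ 1 → Real.sqrt (1 - (ph r) ^ 2) = r := by
    intro r hr0 hr1
    rw [ph_sq (by rw [abs_of_nonneg hr0]; exact hr1), sub_sub_cancel, Real.sqrt_sq hr0]
  refine s0471_of_bound (fun r hr0 hr1 n f => ?_) n f ρ hρ
  rcases le_total r (Real.sqrt (1 - c₀ ^ 2)) with h | h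
  · refine flow_reduction hlt (fun r hr0 hr1 => ?_) f hr0 h
    have h := L (ph r) ?_ ?_
    · rwa [back r hr0.le (by linarith)] at h
    · refine Real.le_sqrt_of_sq_le ?_
      have h2 : r ^ 2 ≤ Real.sqrt (1 - c₀ ^ 2) ^ 2 := pow_le_pow_left₀ hr0.le hr1 2
      rw [Real.sq_sqrt (by linarith)] at h2
      linarith
    · unfold ph
      rw [Real.sqrt_lt' one_pos]
      have : 0 < r ^ 2 := by positivity
      linarith
  · have h := MS (ph r) ?_ ?_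
    · rw [back r hr0 hr1.le] at h
      exact h n f
    · exact ph_pos (by rw [abs_of_nonneg hr0]; exact hr1)
    · unfold ph
      rw [Real.sqrt_le_left h0.le]
      have h2 : Real.sqrt (1 - c₀ ^ 2) ^ 2 ≤ r ^ 2 := pow_le_pow_left₀ (Real.sqrt_nonneg _) h 2
      rw [Real.sq_sqrt (by linarith)] at h2
      linarith

end Crest.Agent.R307.GenProd
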