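import Crest.Agent.R307.GenProd
import Crest.Agent.R307.GenIntFin

/-!
Row 307, S0471: glue for regime S (small `c`, two-sided product region).

* `concave_WA`, `strictMono_WA`: concavity and monotonicity of `W = WA A0 A1 A2` on `[0,1]`.
* `fin_mono`: the Jensen form of FIN at `c₁` implies it for all `c ≤ c₁`.
* `bound_of_corners`: `Bound (√(1-c²))` from certificates for one `c`, four corners of (SI), FIN.
* `bound_S`: the same on a `c`-interval.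
* `concave_FA_S`, `concave_WA_S`, `strictMono_WA_S`: the frozen functional
  `(A0, A1, A2) = (3/10, -6/25, 43/100)`.
-/

set_option autoImplicit false

open Crest.CubeNoise Set

namespace Crest.Agent.R307.GenS

open Crest.Agent.R307 Crest.Agent.R307.Ode Crest.Agent.R307.TwoSet Crest.Agent.R307.GenInd
  Crest.Agent.R307.Flow Crest.Agent.R307.GenFin Crest.Agent.R307.GenProd

/-! ### `WA` -/

lemma WA_zero (A0 A1 A2 : ℝ) : WA A0 A1 A2 0 = 0 := by simp [WA]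

lemma hasDerivAt_WA (A0 A1 A2 : ℝ) {x : ℝ} (hx : -1 < x) :
    HasDerivAt (WA A0 A1 A2) (WA' A0 A1 A2 x) x := by
  have hs : 0 < Real.sqrt (1 + x) := Real.sqrt_pos.mpr (by linarith)
  have h1 : HasDerivAt (fun x : ℝ => Real.sqrt (1 + x)) (1 / (2 * Real.sqrt (1 + x))) x := by
    have h0 : HasDerivAt (fun x : ℝ => 1 + x) 1 x := (hasDerivAt_id x).const_add 1
    exact h0.sqrt (by linarith)
  have h3 : HasDerivAt (fun q : ℝ => q ^ 2) (2 * x) x := by simpa using hasDerivAt_pow 2 x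
  have h5 : HasDerivAt (fun q : ℝ => q ^ 4) (4 * x ^ 3) x := by simpa using hasDerivAt_pow 4 x
  have h := (h1.const_mul 2).add (((h3.const_mul ((2 * A0 + A1) / 4 + A2 / 4)).add
    (h5.const_mul (-(A2 / 8)))).add (hasDerivAt_const x (-2 : ℝ)))
  refine (h.congr_of_eventuallyEq (Filter.Eventually.of_forall fun y => ?_)).congr_deriv ?_
  · simp only [WA, Pi.add_apply]
    ring
  · unfold WA'
    field_simp
    ring

lemma hasDerivAt_WA' (A0 A1 A2 : ℝ) {x : ℝ} (hx : -1 < x) :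
    HasDerivAt (WA' A0 A1 A2)
      (-(1 / (2 * (Real.sqrt (1 + x)) ^ 3)) + ((2 * A0 + A1 + A2) / 2 - 3 / 2 * A2 * x ^ 2)) x := by
  have hs : 0 < Real.sqrt (1 + x) := Real.sqrt_pos.mpr (by linarith)
  have h1 : HasDerivAt (fun x : ℝ => Real.sqrt (1 + x)) (1 / (2 * Real.sqrt (1 + x))) x := by
    have h0 : HasDerivAt (fun x : ℝ => 1 + x) 1 x := (hasDerivAt_id x).const_add 1
    exact h0.sqrt (by linarith)
  have h1' := h1.inv hs.ne'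
  have h2 : HasDerivAt (fun q : ℝ => q) 1 x := hasDerivAt_id x
  have h4 : HasDerivAt (fun q : ℝ => q ^ 3) (3 * x ^ 2) x := by simpa using hasDerivAt_pow 3 x
  have h := h1'.add ((h2.const_mul ((2 * A0 + A1 + A2) / 2)).add (h4.const_mul (-(A2 / 2))))
  refine (h.congr_of_eventuallyEq (Filter.Eventually.of_forall fun y => ?_)).congr_deriv ?_
  · simp only [WA', Pi.add_apply, Pi.inv_apply]
    ring
  · field_simp
    ring

lemma continuous_WA (A0 A1 A2 : ℝ) : Continuous (WA A0 A1 A2) := by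
  unfold WA
  fun_prop

/-- Concavity of `WA` from an inequality for the second derivative, in `y = √(1+x)`. -/
theorem concave_WA {A0 A1 A2 : ℝ}
    (h : ∀ y : ℝ, 1 < y → y ^ 2 < 2 →
      ((2 * A0 + A1 + A2) / 2 - 3 / 2 * A2 * (y ^ 2 - 1) ^ 2) * y ^ 3 ≤ 1 / 2) :
    ConcaveOn ℝ (Icc 0 1) (WA A0 A1 A2) := by
  have hint : interior (Icc (0 : ℝ) 1) = Ioo 0 1 := interior_Icc
  have hd : ∀ q ∈ Ioo (0 : ℝ) 1, deriv (WA A0 A1 A2) q = WA' A0 A1 A2 q := fun q hq =>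
    (hasDerivAt_WA A0 A1 A2 (by linarith [hq.1])).deriv
  have hd2 : ∀ q ∈ Ioo (0 : ℝ) 1, HasDerivAt (deriv (WA A0 A1 A2))
      (-(1 / (2 * (Real.sqrt (1 + q)) ^ 3)) +
        ((2 * A0 + A1 + A2) / 2 - 3 / 2 * A2 * q ^ 2)) q := by
    intro q hq
    refine (hasDerivAt_WA' A0 A1 A2 (by linarith [hq.1])).congr_of_eventuallyEq ?_
    filter_upwards [isOpen_Ioo.mem_nhds hq] with x hx
    exact hd x hx
  refine concaveOn_of_deriv2_nonpos (convex_Icc 0 1) (continuous_WA A0 A1 A2).continuousOn ?_ ?_ ?_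
  · rw [hint]
    exact fun q hq =>
      (hasDerivAt_WA A0 A1 A2 (by linarith [hq.1])).differentiableAt.differentiableWithinAt
  · rw [hint]
    exact fun q hq => (hd2 q hq).differentiableAt.differentiableWithinAt
  · rw [hint]
    intro q hq
    have e : deriv^[2] (WA A0 A1 A2) q = deriv (deriv (WA A0 A1 A2)) q := rfl
    rw [e, (hd2 q hq).deriv]
    have hy : 0 < Real.sqrt (1 + q) := Real.sqrt_pos.mpr (by linarith [hq.1])
    have e2 : (Real.sqrt (1 + q)) ^ 2 = 1 + q := Real.sq_sqrt (by linarith [hq.1])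
    have hy1 : 1 < Real.sqrt (1 + q) := by
      rw [Real.lt_sqrt (by norm_num)]; linarith [hq.1]
    have hh := h (Real.sqrt (1 + q)) hy1 (by rw [e2]; linarith [hq.2])
    rw [e2] at hh
    have e3 : (1 + q - 1) ^ 2 = q ^ 2 := by ring
    rw [e3] at hh
    have hy3 : 0 < (Real.sqrt (1 + q)) ^ 3 := by positivity
    have : (2 * A0 + A1 + A2) / 2 - 3 / 2 * A2 * q ^ 2 ≤ 1 / 2 / (Real.sqrt (1 + q)) ^ 3 := by
      rw [le_div_iff₀ hy3]; exact hh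
    have e5 : 1 / 2 / (Real.sqrt (1 + q)) ^ 3 = 1 / (2 * (Real.sqrt (1 + q)) ^ 3) := by
      rw [div_div]
    linarith

/-- Strict monotonicity of `WA` on `[0,1]`. -/
theorem strictMono_WA {A0 A1 A2 : ℝ} (h1 : 0 ≤ 2 * A0 + A1) (h2 : 0 ≤ A2) :
    StrictMonoOn (WA A0 A1 A2) (Icc 0 1) := by
  refine strictMonoOn_of_deriv_pos (convex_Icc 0 1) (continuous_WA A0 A1 A2).continuousOn ?_
  rw [interior_Icc]
  intro x hx
  rw [(hasDerivAt_WA A0 A1 A2 (by linarith [hx.1])).deriv]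
  unfold WA'
  have hs : 0 < Real.sqrt (1 + x) := Real.sqrt_pos.mpr (by linarith [hx.1])
  have a : 0 < 1 / Real.sqrt (1 + x) := by positivity
  have b : 0 ≤ (2 * A0 + A1) / 2 * x := mul_nonneg (by linarith) hx.1.le
  have c : 0 ≤ A2 / 2 * x - A2 / 2 * x ^ 3 := by
    have : A2 / 2 * x - A2 / 2 * x ^ 3 = A2 / 2 * (x * (1 - x ^ 2)) := by ring
    rw [this]
    have hx2 : x ^ 2 ≤ 1 := by nlinarith [hx.1, hx.2]
    exact mul_nonneg (by linarith) (mul_nonneg hx.1.le (by linarith))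
  linarith

lemma WA_nonneg {A0 A1 A2 : ℝ} (h1 : 0 ≤ 2 * A0 + A1) (h2 : 0 ≤ A2) {x : ℝ} (hx : 0 ≤ x)
    (hx1 : x ≤ 1) : 0 ≤ WA A0 A1 A2 x := by
  have := (strictMono_WA h1 h2).monotoneOn ⟨le_rfl, zero_le_one⟩ ⟨hx, hx1⟩ hx
  rwa [WA_zero] at this

lemma WA_pos {A0 A1 A2 : ℝ} (h1 : 0 ≤ 2 * A0 + A1) (h2 : 0 ≤ A2) {x : ℝ} (hx : 0 < x)
    (hx1 : x ≤ 1) : 0 < WA A0 A1 A2 x := by
  have := (strictMono_WA h1 h2) ⟨le_rfl, zero_le_one⟩ ⟨hx.le, hx1⟩ hx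
  rwa [WA_zero] at this

/-! ### FIN at the largest `c` suffices -/

/-- A nonnegative concave function is "log-concave" on equal steps. -/
lemma concave_mul_le {f : ℝ → ℝ} (hf : ConcaveOn ℝ (Icc 0 1) f) (hf0 : ∀ x ∈ Icc (0 : ℝ) 1, 0 ≤ f x)
    {a c d : ℝ} (ha : 0 ≤ a) (hac : a ≤ c) (hd : 0 ≤ d) (hcd : c + d ≤ 1) :
    f a * f (c + d) ≤ f (a + d) * f c := by
  rcases (add_nonneg (sub_nonneg.mpr hac) hd).eq_or_lt with h | h
  · have h1 : c = a := by linarith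
    have h2 : d = 0 := by linarith
    subst h1; subst h2
    simp
  · set L := c - a + d with hL
    have hlam0 : 0 ≤ (c - a) / L := div_nonneg (by linarith) h.le
    have hlam1 : (c - a) / L ≤ 1 := by rw [div_le_one h]; linarith
    have hmem1 : a ∈ Icc (0 : ℝ) 1 := ⟨ha, by linarith⟩
    have hmem2 : c + d ∈ Icc (0 : ℝ) 1 := ⟨by linarith, hcd⟩
    set l := (c - a) / L with hl
    have hlL : l * L = c - a := by rw [hl]; field_simp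
    have e1 := hf.2 hmem1 hmem2 hlam0 (show (0 : ℝ) ≤ 1 - l by linarith) (by ring)
    have e2 := hf.2 hmem1 hmem2 (show (0 : ℝ) ≤ 1 - l by linarith) hlam0 (by ring)
    simp only [smul_eq_mul] at e1 e2
    have k1 : l * a + (1 - l) * (c + d) = a + d := by
      have : l * a + (1 - l) * (c + d) = c + d - l * L := by rw [hL]; ring
      rw [this, hlL]; ring
    have k2 : (1 - l) * a + l * (c + d) = c := by
      have : (1 - l) * a + l * (c + d) = a + l * L := by rw [hL]; ring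
      rw [this, hlL]; ring
    rw [k1] at e1
    rw [k2] at e2
    have fa := hf0 _ hmem1
    have fb := hf0 _ hmem2
    have g1 : 0 ≤ l * f a + (1 - l) * f (c + d) := by
      have : 0 ≤ 1 - l := by linarith
      positivity
    have g2 : 0 ≤ (1 - l) * f a + l * f (c + d) := by
      have : 0 ≤ 1 - l := by linarith
      positivity
    have key := mul_le_mul e1 e2 g2 (g1.trans e1)
    have : f a * f (c + d) ≤ (l * f a + (1 - l) * f (c + d)) * ((1 - l) * f a + l * f (c + d)) := by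
      have : (l * f a + (1 - l) * f (c + d)) * ((1 - l) * f a + l * f (c + d)) - f a * f (c + d) =
          l * (1 - l) * (f a - f (c + d)) ^ 2 := by ring
      have : 0 ≤ l * (1 - l) * (f a - f (c + d)) ^ 2 :=
        mul_nonneg (mul_nonneg hlam0 (by linarith)) (sq_nonneg _)
      linarith
    exact this.trans key

/-- FIN (Jensen form) at `c₁` implies it for `c ≤ c₁`. -/
theorem fin_mono {W : ℝ → ℝ} (hW : ConcaveOn ℝ (Icc 0 1) W) (hWp : ∀ x, 0 < x → x ≤ 1 → 0 < W x)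
    (hW0 : W 0 = 0) {c c₁ f P : ℝ} (hc : 0 < c) (hcc : c ≤ c₁) (hc1 : c₁ ≤ 1) (hf : f ≤ 1)
    (hpos : 0 ≤ c - 1 + f) (h : 0 ≤ c₁ - 1 + f → W (c₁ - 1 + f) ≤ W c₁ * P) :
    W (c - 1 + f) ≤ W c * P := by
  have hn : ∀ x ∈ Icc (0 : ℝ) 1, 0 ≤ W x := fun x hx => by
    rcases hx.1.eq_or_lt with h | h
    · rw [← h, hW0]
    · exact (hWp x h hx.2).le
  have a := concave_mul_le hW hn (a := c - 1 + f) (c := c) (d := c₁ - c) hpos (by linarith)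
    (by linarith) (by linarith)
  have e1 : c + (c₁ - c) = c₁ := by ring
  have e2 : c - 1 + f + (c₁ - c) = c₁ - 1 + f := by ring
  rw [e1, e2] at a
  have b := h (by linarith)
  have hWc := hWp c hc (by linarith)
  have hWc1 := hWp c₁ (by linarith) hc1
  have key : W (c - 1 + f) * W c₁ ≤ W c * P * W c₁ := by
    calc W (c - 1 + f) * W c₁ ≤ W (c₁ - 1 + f) * W c := a
      _ ≤ W c₁ * P * W c := mul_le_mul_of_nonneg_right b hWc.le
      _ = W c * P * W c₁ := by ring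
  exact le_of_mul_le_mul_right key hWc1

/-! ### The product region from the four corners -/

/-- The four corners of (SI) for `t`, `t'` at the pair `(n0, n1)`. -/
def Corners (B Q : ℝ → ℝ) (Cf bt Klo Khi : ℝ → ℝ) (t t' n0 n1 : ℝ) : Prop :=
  SIK B Q (fun _ => 0) (Cf t) (bt t) 0 0 (Cf t') (bt t') 0 0 n0 n1 (Klo t) (Klo t') ∧
  SIK B Q (fun _ => 0) (Cf t) (bt t) 0 0 (Cf t') (bt t') 0 0 n0 n1 (Klo t) (Khi t') ∧
  SIK B Q (fun _ => 0) (Cf t) (bt t) 0 0 (Cf t') (bt t') 0 0 n0 n1 (Khi t) (Klo t') ∧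
  SIK B Q (fun _ => 0) (Cf t) (bt t) 0 0 (Cf t') (bt t') 0 0 n0 n1 (Khi t) (Khi t')

lemma pBound_zero {ρ : ℝ} (hρ : |ρ| ≤ 1) : PBound ρ (fun _ => 0) := by
  intro n f
  exact cubeAverage_nonneg fun x =>
    mul_nonneg (TT_nonneg hρ f x) (by linarith [TT_le_one hρ f x])

/-- **Regime S for one `c`.** -/
theorem bound_of_corners {c A0 A1 A2 : ℝ} (hc0 : 0 < c) (hc1 : c ≤ 1)
    (hconc : ConcaveOn ℝ (Icc 0 1) (FA A0 A1 A2))
    (hWc : ConcaveOn ℝ (Icc 0 1) (WA A0 A1 A2)) (hA : 0 ≤ 2 * A0 + A1) (hA2 : 0 ≤ A2)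
    {B Q : ℝ → ℝ} (hB0 : B 0 = 0) (hB1 : B 1 = 0) (hQ0 : Q 0 = 0)
    (hQs : ∀ n, Q (1 - n) = Q n) (hQ : ∀ n, 0 ≤ n → n ≤ 1 → 0 ≤ Q n)
    {K Klo Khi bt Cf : ℝ → ℝ}
    (hcert : ∀ t, 0 ≤ t → t ≤ 1 → CertG (Real.sqrt (1 - c ^ 2)) (FA A0 A1 A2) (1 + K t)
      (Cf t - K t) (WA A0 A1 A2 c * bt t) (-(WA A0 A1 A2 c * bt t)) 0 0 0)
    (hK : ∀ t, 0 ≤ t → t ≤ 1 → 0 ≤ Klo t ∧ Klo t ≤ K t ∧ K t ≤ Khi t ∧ Khi t ≤ Cf t)
    (hcor : ∀ n0 n1 : ℝ, 0 ≤ n1 → n1 < n0 → n0 + n1 ≤ 1 → ∃ t t' : ℝ, 0 ≤ t ∧ t ≤ 1 ∧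
      0 ≤ t' ∧ t' ≤ 1 ∧ Corners B Q Cf bt Klo Khi t t' n0 n1)
    (hfin : ∀ n, 0 ≤ n → n ≤ 1 → 0 ≤ c - 1 + ph (2 * n - 1) →
      WA A0 A1 A2 (c - 1 + ph (2 * n - 1)) ≤ WA A0 A1 A2 c * (B n + B (1 - n) + 2 * Q n)) :
    Bound (Real.sqrt (1 - c ^ 2)) := by
  have hph : ph (Real.sqrt (1 - c ^ 2)) = c := GenInt.ph_sqrt hc0.le hc1
  have hρ0 : 0 ≤ Real.sqrt (1 - c ^ 2) := Real.sqrt_nonneg _
  have hρ1 : Real.sqrt (1 - c ^ 2) ≤ 1 := by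
    rw [Real.sqrt_le_one]; nlinarith
  have habs : |Real.sqrt (1 - c ^ 2)| ≤ 1 := by rw [abs_of_nonneg hρ0]; exact hρ1
  have hQ1 : Q 1 = 0 := by
    have := hQs 0
    rw [sub_zero, hQ0] at this
    exact this
  refine bound_of_prod hρ0 hρ1 A0 A1 A2 hconc hWc (strictMono_WA hA hA2)
    (pBound_zero habs) (WA_pos hA hA2 hc0 hc1) hB0 hB1 hQ0 hQ1 hQ ?_ ?_
  · refine stepOK_of_half hρ0 hρ1 hconc hQs (fun _ => rfl) ?_
    intro n0 n1 hn1 hn hn01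
    obtain ⟨t, t', ht0, ht1, ht0', ht1', c00, c01, c10, c11⟩ := hcor n0 n1 hn1 hn hn01
    obtain ⟨k1, k2, k3, k4⟩ := hK t ht0 ht1
    obtain ⟨k1', k2', k3', k4'⟩ := hK t' ht0' ht1'
    have hS := SIK.rect (hQ n0 (by linarith) (by linarith)) (hQ n1 hn1 (by linarith))
      (by linarith) k4 (by linarith) k4' c00 c01 c10 c11 k2 k3 k2' k3'
    refine ⟨1 + K t, Cf t - K t, bt t, 0, 0, 1 + K t', Cf t' - K t', bt t', 0, 0,
      by linarith, by linarith, by linarith, by linarith, ?_, ?_, hS⟩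
    · simpa using hcert t ht0 ht1
    · simpa using hcert t' ht0' ht1'
  · rw [hph]
    exact hfin

/-- **Regime S on a `c`-interval** `(ca, cb]`, FIN at some `c₁ ≥ cb`. -/
theorem bound_S {ca cb c₁ A0 A1 A2 : ℝ} (hca : 0 ≤ ca) (hcb : cb ≤ c₁) (hc₁ : c₁ ≤ 1)
    (hconc : ConcaveOn ℝ (Icc 0 1) (FA A0 A1 A2))
    (hWc : ConcaveOn ℝ (Icc 0 1) (WA A0 A1 A2)) (hA : 0 ≤ 2 * A0 + A1) (hA2 : 0 ≤ A2)
    {B Q : ℝ → ℝ} (hB0 : B 0 = 0) (hB1 : B 1 = 0) (hQ0 : Q 0 = 0)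
    (hQs : ∀ n, Q (1 - n) = Q n) (hQ : ∀ n, 0 ≤ n → n ≤ 1 → 0 ≤ Q n)
    {K : ℝ → ℝ → ℝ} {Klo Khi bt Cf : ℝ → ℝ}
    (hcert : ∀ c, ca < c → c ≤ cb → ∀ t, 0 ≤ t → t ≤ 1 →
      CertG (Real.sqrt (1 - c ^ 2)) (FA A0 A1 A2) (1 + K c t)
      (Cf t - K c t) (WA A0 A1 A2 c * bt t) (-(WA A0 A1 A2 c * bt t)) 0 0 0)
    (hK : ∀ c, ca < c → c ≤ cb → ∀ t, 0 ≤ t → t ≤ 1 →
      0 ≤ Klo t ∧ Klo t ≤ K c t ∧ K c t ≤ Khi t ∧ Khi t ≤ Cf t)
    (hcor : ∀ n0 n1 : ℝ, 0 ≤ n1 → n1 < n0 → n0 + n1 ≤ 1 → ∃ t t' : ℝ, 0 ≤ t ∧ t ≤ 1 ∧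
      0 ≤ t' ∧ t' ≤ 1 ∧ Corners B Q Cf bt Klo Khi t t' n0 n1)
    (hfin : ∀ n, 0 ≤ n → n ≤ 1 → 0 ≤ c₁ - 1 + ph (2 * n - 1) →
      WA A0 A1 A2 (c₁ - 1 + ph (2 * n - 1)) ≤ WA A0 A1 A2 c₁ * (B n + B (1 - n) + 2 * Q n))
    (c : ℝ) (h1 : ca < c) (h2 : c ≤ cb) : Bound (Real.sqrt (1 - c ^ 2)) := by
  have hc0 : 0 < c := by linarith
  refine bound_of_corners hc0 (by linarith) hconc hWc hA hA2 hB0 hB1 hQ0 hQs hQ
    (hcert c h1 h2) (hK c h1 h2) hcor ?_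
  intro n hn0 hn1 hpos
  exact fin_mono hWc (fun x hx hx1 => WA_pos hA hA2 hx hx1) (WA_zero _ _ _) hc0 (by linarith) hc₁
    (ph_le_one _) hpos (hfin n hn0 hn1)

/-! ### The frozen functional of regime S -/

theorem concave_FA_S : ConcaveOn ℝ (Icc 0 1) (FA (3 / 10) (-6 / 25) (43 / 100)) := by
  refine concave_FA fun y hy hy1 => ?_
  have : 2 * ((-6 / 25 : ℝ) - 3 / 10) + 6 * (43 / 100 - (-6 / 25)) * y ^ 2
      - 12 * (43 / 100) * y ^ 4 ≤ 0 := by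
    nlinarith [sq_nonneg (y ^ 2 - 67 / 172)]
  have h3 : 0 < y ^ 3 := by positivity
  nlinarith

theorem concave_WA_S : ConcaveOn ℝ (Icc 0 1) (WA (3 / 10) (-6 / 25) (43 / 100)) := by
  refine concave_WA fun y hy hy2 => ?_
  -- `z = y / (57/50)`: `5 z³ ≤ 2 + 3 z⁵`
  have hz : 0 < 50 / 57 * y := by linarith
  set z := 50 / 57 * y with hzdef
  have hyz : y = 57 / 50 * z := by rw [hzdef]; ring
  have k : 5 * z ^ 3 ≤ 2 + 3 * z ^ 5 := by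
    have : 0 ≤ (z - 1) ^ 2 * (3 * z ^ 3 + 6 * z ^ 2 + 4 * z + 2) := by positivity
    nlinarith
  have q : (2 * (3 / 10 : ℝ) + -6 / 25 + 43 / 100) / 2 - 3 / 2 * (43 / 100) * (y ^ 2 - 1) ^ 2 ≤
      (1 / 2) * (50 / 57) ^ 3 * (5 / 2 - 3 / 2 * z ^ 2) := by
    rw [hyz]
    nlinarith [sq_nonneg (z ^ 2 - 1), sq_nonneg z]
  have hy3 : 0 < y ^ 3 := by positivity
  have e : y ^ 3 = (57 / 50) ^ 3 * z ^ 3 := by rw [hyz]; ring
  have hz3 : 0 < z ^ 3 := by positivity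
  calc ((2 * (3 / 10 : ℝ) + -6 / 25 + 43 / 100) / 2 - 3 / 2 * (43 / 100) * (y ^ 2 - 1) ^ 2)
        * y ^ 3
      ≤ (1 / 2) * (50 / 57) ^ 3 * (5 / 2 - 3 / 2 * z ^ 2) * y ^ 3 :=
        mul_le_mul_of_nonneg_right q hy3.le
    _ = 1 / 4 * (5 * z ^ 3 - 3 * z ^ 5) := by rw [e]; ring
    _ ≤ 1 / 2 := by linarith

theorem strictMono_WA_S : StrictMonoOn (WA (3 / 10) (-6 / 25) (43 / 100)) (Icc 0 1) :=
  strictMono_WA (by norm_num) (by norm_num)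

/-! ### The explicit family -/

/-- `C = (1-t²)/(1+t²)`. -/
noncomputable def Cf (t : ℝ) : ℝ := (1 - t ^ 2) / (1 + t ^ 2)

/-- `S = 2t/(1+t²)`. -/
noncomputable def Sf (t : ℝ) : ℝ := 2 * t / (1 + t ^ 2)

/-- `κ(t/x)`, `κ(X) = a + b/(1 + p X + q X²)`. -/
noncomputable def kapR (a b p q x t : ℝ) : ℝ :=
  a + b * (x ^ 2 / (x ^ 2 + p * (x * t) + q * t ^ 2))

/-- `K = w S (1-t²) κ(t/x)`. -/
noncomputable def Kf (a b p q w x t : ℝ) : ℝ := w * Sf t * (1 - t ^ 2) * kapR a b p q x t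

/-- `β/W = S θ(t)`, `θ = 1 - η (1-t)²`. -/
noncomputable def btf (η t : ℝ) : ℝ := Sf t * (1 - η * (1 - t) ^ 2)

lemma kapR_eq {a b p q x t : ℝ} (hx : 0 < x) :
    kapR a b p q x t = a + b / (1 + p * (t / x) + q * (t / x) ^ 2) := by
  unfold kapR
  have hx' := hx.ne'
  have : x ^ 2 + p * (x * t) + q * t ^ 2 = x ^ 2 * (1 + p * (t / x) + q * (t / x) ^ 2) := by
    field_simp
  rw [this, div_mul_eq_div_div, div_self (by positivity)]
  ring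

lemma Sf_nonneg {t : ℝ} (h0 : 0 ≤ t) : 0 ≤ Sf t := by unfold Sf; positivity

lemma kapR_nonneg {a b p q x t : ℝ} (ha : 0 ≤ a) (hb : 0 ≤ b) (hp : 0 ≤ p) (hq : 0 ≤ q)
    (hx : 0 ≤ x) (ht : 0 ≤ t) : 0 ≤ kapR a b p q x t := by
  unfold kapR; positivity

lemma kapR_le {a b p q x t : ℝ} (hb : 0 ≤ b) (hp : 0 ≤ p) (hq : 0 ≤ q)
    (hx : 0 ≤ x) (ht : 0 ≤ t) : kapR a b p q x t ≤ a + b := by
  unfold kapR
  have : x ^ 2 / (x ^ 2 + p * (x * t) + q * t ^ 2) ≤ 1 := by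
    apply div_le_one_of_le₀
    · have : 0 ≤ p * (x * t) + q * t ^ 2 := by positivity
      linarith
    · positivity
  nlinarith

lemma kapR_mono {a b p q x x' t : ℝ} (hb : 0 ≤ b) (hp : 0 ≤ p) (hq : 0 ≤ q)
    (hx : 0 ≤ x) (hxx : x ≤ x') (ht : 0 ≤ t) : kapR a b p q x t ≤ kapR a b p q x' t := by
  rcases hx.eq_or_lt with h | h
  · subst h
    unfold kapR
    have : 0 ≤ b * (x' ^ 2 / (x' ^ 2 + p * (x' * t) + q * t ^ 2)) := by positivity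
    simpa using this
  · unfold kapR
    have hx' : 0 < x' := by linarith
    have h1 : 0 < x ^ 2 + p * (x * t) + q * t ^ 2 := by positivity
    have h2 : 0 < x' ^ 2 + p * (x' * t) + q * t ^ 2 := by positivity
    have : x ^ 2 / (x ^ 2 + p * (x * t) + q * t ^ 2) ≤
        x' ^ 2 / (x' ^ 2 + p * (x' * t) + q * t ^ 2) := by
      rw [div_le_div_iff₀ h1 h2]
      have k1 : 0 ≤ p * t * (x * x') * (x' - x) := by
        have : 0 ≤ x' - x := by linarith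
        positivity
      have k2 : 0 ≤ q * t ^ 2 * (x' ^ 2 - x ^ 2) := by
        have : x ^ 2 ≤ x' ^ 2 := pow_le_pow_left₀ h.le hxx 2
        exact mul_nonneg (by positivity) (by linarith)
      nlinarith
    have := mul_le_mul_of_nonneg_left this hb
    linarith

/-- monotonicity and upper bound of `K`: `0 ≤ Klo ≤ K ≤ Khi ≤ C`. -/
theorem Kf_bounds {a b p q : ℝ} (ha : 0 ≤ a) (hb : 0 ≤ b) (hp : 0 ≤ p) (hq : 0 ≤ q)
    {wa w wb ca c cb : ℝ} (hwa : 0 ≤ wa) (h1 : wa ≤ w) (h2 : w ≤ wb) (hca : 0 ≤ ca)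
    (h3 : ca ≤ c) (h4 : c ≤ cb) (hC : 2 * wb * (a + b) ≤ 1) {t : ℝ} (ht0 : 0 ≤ t) (ht1 : t ≤ 1) :
    0 ≤ Kf a b p q wa ca t ∧ Kf a b p q wa ca t ≤ Kf a b p q w c t ∧
      Kf a b p q w c t ≤ Kf a b p q wb cb t ∧ Kf a b p q wb cb t ≤ Cf t := by
  have hs := Sf_nonneg ht0
  have ht2 : 0 ≤ 1 - t ^ 2 := by nlinarith
  have k0 := kapR_nonneg ha hb hp hq hca ht0
  have k1 := kapR_mono (a := a) hb hp hq hca h3 ht0
  have k2 := kapR_mono (a := a) hb hp hq (hca.trans h3) h4 ht0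
  have k3 := kapR_le (a := a) hb hp hq ((hca.trans h3).trans h4) ht0
  have hst : 0 ≤ Sf t * (1 - t ^ 2) := mul_nonneg hs ht2
  have hw : 0 ≤ w := hwa.trans h1
  have hwb : 0 ≤ wb := hw.trans h2
  have e : ∀ w x, Kf a b p q w x t = (Sf t * (1 - t ^ 2)) * (w * kapR a b p q x t) := by
    intro w x; unfold Kf; ring
  refine ⟨?_, ?_, ?_, ?_⟩
  · rw [e]; exact mul_nonneg hst (mul_nonneg hwa k0)
  · rw [e, e]
    exact mul_le_mul_of_nonneg_left (mul_le_mul h1 k1 k0 hw) hst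
  · rw [e, e]
    exact mul_le_mul_of_nonneg_left (mul_le_mul h2 k2 (k0.trans k1) hwb) hst
  · have h5 : wb * kapR a b p q cb t ≤ 1 / 2 := by
      have := mul_le_mul_of_nonneg_left k3 hwb
      linarith
    have h6 : 2 * t * (wb * kapR a b p q cb t) ≤ 1 := by
      have h7 : 0 ≤ wb * kapR a b p q cb t := mul_nonneg hwb ((k0.trans k1).trans k2)
      nlinarith
    unfold Kf Cf Sf
    have e2 : wb * (2 * t / (1 + t ^ 2)) * (1 - t ^ 2) * kapR a b p q cb t =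
        (2 * t * (wb * kapR a b p q cb t)) * (1 - t ^ 2) / (1 + t ^ 2) := by
      ring
    rw [e2]
    apply div_le_div_of_nonneg_right _ (by positivity)
    nlinarith

/-- rational bounds of `W(c)` -/
lemma WA_le_of {A0 A1 A2 c z : ℝ} (hz : 0 ≤ z) (hc : 1 + c ≤ z ^ 2) :
    WA A0 A1 A2 c ≤ 2 * (z - 1) + (2 * A0 + A1) / 4 * c ^ 2 + A2 * (c ^ 2 / 4) * (1 - c ^ 2 / 2) := by
  unfold WA
  have := Real.sqrt_le_iff.mpr ⟨hz, hc⟩
  linarith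

lemma le_WA_of {A0 A1 A2 c z : ℝ} (hc : z ^ 2 ≤ 1 + c) :
    2 * (z - 1) + (2 * A0 + A1) / 4 * c ^ 2 + A2 * (c ^ 2 / 4) * (1 - c ^ 2 / 2) ≤
      WA A0 A1 A2 c := by
  unfold WA
  have := Real.le_sqrt_of_sq_le hc
  linarith

/-- The pointwise inequality (PI) of regime S on `(0, c₁]`, all `t`. -/
def PIS (a b p q η c₁ : ℝ) : Prop :=
  ∀ c, 0 < c → c ≤ c₁ → ∀ t, 0 ≤ t → t ≤ 1 →
    CertG (Real.sqrt (1 - c ^ 2)) (FA (3 / 10) (-6 / 25) (43 / 100))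
      (1 + Kf a b p q (WA (3 / 10) (-6 / 25) (43 / 100) c) c t)
      (Cf t - Kf a b p q (WA (3 / 10) (-6 / 25) (43 / 100) c) c t)
      (WA (3 / 10) (-6 / 25) (43 / 100) c * btf η t)
      (-(WA (3 / 10) (-6 / 25) (43 / 100) c * btf η t)) 0 0 0

/-- The four corners of (SI) for all pairs: the target of the (SI) verification on `[ca, cb]`,
`wa ≤ W(ca)`, `W(cb) ≤ wb` rational. -/
def SIS (a b p q η : ℝ) (B Q : ℝ → ℝ) (wa ca wb cb : ℝ) : Prop :=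
  ∀ n0 n1 : ℝ, 0 ≤ n1 → n1 < n0 → n0 + n1 ≤ 1 → ∃ t t' : ℝ, 0 ≤ t ∧ t ≤ 1 ∧
    0 ≤ t' ∧ t' ≤ 1 ∧ Corners B Q Cf (btf η) (Kf a b p q wa ca) (Kf a b p q wb cb) t t' n0 n1

/-- FIN (Jensen form) at `c₁`. -/
def FINS (B Q : ℝ → ℝ) (c₁ : ℝ) : Prop :=
  ∀ n, 0 ≤ n → n ≤ 1 → 0 ≤ c₁ - 1 + ph (2 * n - 1) →
    WA (3 / 10) (-6 / 25) (43 / 100) (c₁ - 1 + ph (2 * n - 1)) ≤
      WA (3 / 10) (-6 / 25) (43 / 100) c₁ * (B n + B (1 - n) + 2 * Q n)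

/-- conditions on the potentials -/
structure PotOK (B Q : ℝ → ℝ) : Prop where
  B0 : B 0 = 0
  B1 : B 1 = 0
  Q0 : Q 0 = 0
  Qs : ∀ n, Q (1 - n) = Q n
  Qn : ∀ n, 0 ≤ n → n ≤ 1 → 0 ≤ Q n

/-- **Regime S** on `(ca, cb]` from (PI), the corners of (SI) and FIN. -/
theorem bound_S_family {a b p q η c₁ ca cb wa wb : ℝ} (ha : 0 ≤ a) (hb : 0 ≤ b) (hp : 0 ≤ p)
    (hq : 0 ≤ q) (hPI : PIS a b p q η c₁) (hca : 0 ≤ ca) (hcb : cb ≤ c₁) (hc₁ : c₁ ≤ 1)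
    (hwa0 : 0 ≤ wa) (hwa : wa ≤ WA (3 / 10) (-6 / 25) (43 / 100) ca)
    (hwb : WA (3 / 10) (-6 / 25) (43 / 100) cb ≤ wb) (hC : 2 * wb * (a + b) ≤ 1)
    {B Q : ℝ → ℝ} (hP : PotOK B Q) (hSI : SIS a b p q η B Q wa ca wb cb) (hF : FINS B Q c₁)
    (c : ℝ) (h1 : ca < c) (h2 : c ≤ cb) : Bound (Real.sqrt (1 - c ^ 2)) := by
  refine bound_S (K := fun c t => Kf a b p q (WA (3 / 10) (-6 / 25) (43 / 100) c) c t)
    hca hcb hc₁ concave_FA_S concave_WA_S (by norm_num) (by norm_num) hP.B0 hP.B1 hP.Q0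
    hP.Qs hP.Qn ?_ ?_ hSI hF c h1 h2
  · intro c hc hc' t ht0 ht1
    exact hPI c (by linarith) (by linarith) t ht0 ht1
  · intro c hc hc' t ht0 ht1
    have m := (strictMono_WA (A0 := 3 / 10) (A1 := -6 / 25) (A2 := 43 / 100) (by norm_num)
      (by norm_num)).monotoneOn
    have m1 := m ⟨hca, by linarith⟩ ⟨by linarith, by linarith⟩ hc.le
    have m2 := m ⟨by linarith, by linarith⟩ ⟨by linarith, by linarith⟩ hc'
    exact Kf_bounds ha hb hp hq hwa0 (hwa.trans m1) (m2.trans hwb) hca hc.le hc' hC ht0 ht1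

end Crest.Agent.R307.GenS
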