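import Crest.Agent.R307.GenS

/-!
Row 307, S0471, regime S: the frozen potentials (helper139, note 7058), FIN and the final
reduction of regime S to (PI) and (SI).

`n` = mean of `q`, `m = 1 - 2n`, `v = 4n(1-n)`:
`B(n) = v [b0 + b1 m + b2 m² + b3 m³ + b4 m⁴ + e (w/(1-n+w) - w/(1/2+w))]`,
`Q(n) = v [(1/2-b0) + q1 m² + q2 m⁴ + q3 m⁶ + q4 m⁸ + f (w2/(n(1-n)+w2) - w2/(1/4+w2))]`.
-/

set_option autoImplicit false

open Crest.CubeNoise Set

namespace Crest.Agent.R307.GenS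

open Crest.Agent.R307 Crest.Agent.R307.Ode Crest.Agent.R307.TwoSet Crest.Agent.R307.GenInd
  Crest.Agent.R307.Flow Crest.Agent.R307.GenFin Crest.Agent.R307.GenProd

noncomputable def BP (b0 b1 b2 b3 b4 e w n : ℝ) : ℝ :=
  4 * n * (1 - n) * (b0 + b1 * (1 - 2 * n) + b2 * (1 - 2 * n) ^ 2 + b3 * (1 - 2 * n) ^ 3 +
    b4 * (1 - 2 * n) ^ 4 + e * (w / (1 - n + w) - w / (1 / 2 + w)))

noncomputable def QP (b0 q1 q2 q3 q4 f w2 n : ℝ) : ℝ :=
  4 * n * (1 - n) * ((1 / 2 - b0) + q1 * (1 - 2 * n) ^ 2 + q2 * (1 - 2 * n) ^ 4 +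
    q3 * (1 - 2 * n) ^ 6 + q4 * (1 - 2 * n) ^ 8 +
    f * (w2 / (n * (1 - n) + w2) - w2 / (1 / 4 + w2)))

/-- `S1`, `(0, 1/5]` -/
noncomputable def B1 : ℝ → ℝ :=
  BP (239 / 1000) (7 / 1000) (140 / 1000) (29 / 1000) (67 / 1000) (123 / 1000) (1 / 50)
noncomputable def Q1 : ℝ → ℝ :=
  QP (239 / 1000) (-98 / 1000) (7 / 1000) (-56 / 1000) (69 / 1000) (89 / 1000) (1 / 160)

/-- `S2`, `[1/5, 3/10]` -/
noncomputable def B2 : ℝ → ℝ :=
  BP (146 / 1000) (-28 / 1000) (132 / 1000) (-108 / 1000) (-114 / 1000) (235 / 1000) (1 / 50)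
noncomputable def Q2 : ℝ → ℝ :=
  QP (146 / 1000) (-85 / 1000) (147 / 1000) (-92 / 1000) (91 / 1000) (-129 / 1000) (1 / 80)

/-- `S3`, `[3/10, 7/20]` -/
noncomputable def B3 : ℝ → ℝ :=
  BP (119 / 1000) (-27 / 1000) (136 / 1000) (-115 / 1000) (-88 / 1000) (219 / 1000) (1 / 100)
noncomputable def Q3 : ℝ → ℝ :=
  QP (119 / 1000) (-80 / 1000) (173 / 1000) (-208 / 1000) (178 / 1000) (-112 / 1000) (1 / 160)

/-- `S4`, `[7/20, 2/5]` -/
noncomputable def B4 : ℝ → ℝ :=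
  BP (185 / 1000) (-9 / 1000) (194 / 1000) (24 / 1000) (-14 / 1000) (171 / 1000) (1 / 100)
noncomputable def Q4 : ℝ → ℝ :=
  QP (185 / 1000) (-135 / 1000) (196 / 1000) (-276 / 1000) (233 / 1000) (-46 / 1000) (1 / 160)

lemma QP_symm (b0 q1 q2 q3 q4 f w2 n : ℝ) :
    QP b0 q1 q2 q3 q4 f w2 (1 - n) = QP b0 q1 q2 q3 q4 f w2 n := by
  unfold QP
  have e1 : (1 - n) * (1 - (1 - n)) = n * (1 - n) := by ring
  rw [e1]
  ring

/-- the `f`-term, in `x = m²` -/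
lemma fterm {n w2 : ℝ} (h0 : 0 ≤ n) (h1 : n ≤ 1) (hw : 0 < w2) :
    w2 / (n * (1 - n) + w2) - w2 / (1 / 4 + w2) =
      (1 - 2 * n) ^ 2 * (w2 / (4 * ((n * (1 - n) + w2) * (1 / 4 + w2)))) := by
  have h2 : 0 ≤ n * (1 - n) := mul_nonneg h0 (by linarith)
  have h3 : 0 < n * (1 - n) + w2 := by linarith
  have h4 : 0 < 1 / 4 + w2 := by linarith
  field_simp
  ring

lemma fterm_bounds {n w2 : ℝ} (h0 : 0 ≤ n) (h1 : n ≤ 1) (hw : 0 < w2) :
    0 ≤ w2 / (n * (1 - n) + w2) - w2 / (1 / 4 + w2) ∧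
      w2 / (n * (1 - n) + w2) - w2 / (1 / 4 + w2) ≤ 1 := by
  have h2 : 0 ≤ n * (1 - n) := mul_nonneg h0 (by linarith)
  have h3 : 0 < n * (1 - n) + w2 := by linarith
  have h4 : 0 < 1 / 4 + w2 := by linarith
  constructor
  · rw [fterm h0 h1 hw]; positivity
  · have : w2 / (n * (1 - n) + w2) ≤ 1 := by
      rw [div_le_one h3]; linarith
    have : 0 ≤ w2 / (1 / 4 + w2) := by positivity
    linarith

/-- `v * fterm ≤ x * 4 w2 / (...)`: the `f`-term of `P` is small. -/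
lemma vfterm {n w2 : ℝ} (h0 : 0 ≤ n) (h1 : n ≤ 1) (hw : 0 < w2) :
    0 ≤ 4 * n * (1 - n) * (w2 / (n * (1 - n) + w2) - w2 / (1 / 4 + w2)) ∧
    4 * n * (1 - n) * (w2 / (n * (1 - n) + w2) - w2 / (1 / 4 + w2)) ≤
      (1 - 2 * n) ^ 2 * (4 * w2) := by
  have h2 : 0 ≤ n * (1 - n) := mul_nonneg h0 (by linarith)
  have h3 : 0 < n * (1 - n) + w2 := by linarith
  have h4 : 0 < 1 / 4 + w2 := by linarith
  have hb := (fterm_bounds h0 h1 hw).1
  refine ⟨mul_nonneg (by nlinarith) hb, ?_⟩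
  rw [fterm h0 h1 hw]
  have e : 4 * n * (1 - n) * ((1 - 2 * n) ^ 2 * (w2 / (4 * ((n * (1 - n) + w2) * (1 / 4 + w2))))) =
      (1 - 2 * n) ^ 2 * (w2 * ((n * (1 - n)) / (n * (1 - n) + w2)) / (1 / 4 + w2)) := by
    field_simp
  rw [e]
  apply mul_le_mul_of_nonneg_left _ (sq_nonneg _)
  rw [div_le_iff₀ h4]
  have h5 : (n * (1 - n)) / (n * (1 - n) + w2) ≤ 1 := by
    rw [div_le_one h3]; linarith
  nlinarith [mul_pos hw hw]

/-- the `e`-term of `B(n) + B(1-n)` is nonnegative. -/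
lemma eterm {n w : ℝ} (h0 : 0 ≤ n) (h1 : n ≤ 1) (hw : 0 < w) :
    0 ≤ (w / (1 - n + w) - w / (1 / 2 + w)) + (w / (n + w) - w / (1 / 2 + w)) := by
  have h3 : 0 < 1 - n + w := by linarith
  have h3' : 0 < n + w := by linarith
  have h4 : 0 < 1 / 2 + w := by linarith
  have e : (w / (1 - n + w) - w / (1 / 2 + w)) + (w / (n + w) - w / (1 / 2 + w)) =
      w * (1 - 2 * n) ^ 2 / (2 * ((1 - n + w) * (n + w) * (1 / 2 + w))) := by
    field_simp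
    ring
  rw [e]; positivity

/-- lower bound of `P(n) = B(n) + B(1-n) + 2 Q(n)`. -/
lemma P_lower {b0 b1 b2 b3 b4 e w q1 q2 q3 q4 f w2 n F : ℝ} (h0 : 0 ≤ n) (h1 : n ≤ 1)
    (hw : 0 < w) (hw2 : 0 < w2) (he : 0 ≤ e) (hF : 0 ≤ F) (hf : -F ≤ f) :
    4 * n * (1 - n) * (1 + 2 * (b2 + q1) * (1 - 2 * n) ^ 2 + 2 * (b4 + q2) * (1 - 2 * n) ^ 4 +
      2 * q3 * (1 - 2 * n) ^ 6 + 2 * q4 * (1 - 2 * n) ^ 8)
      - 8 * F * w2 * (1 - 2 * n) ^ 2 ≤
    BP b0 b1 b2 b3 b4 e w n + BP b0 b1 b2 b3 b4 e w (1 - n) + 2 * QP b0 q1 q2 q3 q4 f w2 n := by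
  have hv : 0 ≤ 4 * n * (1 - n) := by nlinarith
  have ve := mul_nonneg hv (mul_nonneg he (eterm h0 h1 hw))
  have vf := vfterm h0 h1 hw2
  have e1 : BP b0 b1 b2 b3 b4 e w n + BP b0 b1 b2 b3 b4 e w (1 - n) +
      2 * QP b0 q1 q2 q3 q4 f w2 n =
      4 * n * (1 - n) * (1 + 2 * (b2 + q1) * (1 - 2 * n) ^ 2 + 2 * (b4 + q2) * (1 - 2 * n) ^ 4 +
      2 * q3 * (1 - 2 * n) ^ 6 + 2 * q4 * (1 - 2 * n) ^ 8) +
      4 * n * (1 - n) * (e * ((w / (1 - n + w) - w / (1 / 2 + w)) +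
        (w / (n + w) - w / (1 / 2 + w)))) +
      2 * f * (4 * n * (1 - n) * (w2 / (n * (1 - n) + w2) - w2 / (1 / 4 + w2))) := by
    unfold BP QP
    have k : 1 - (1 - n) + w = n + w := by ring
    rw [k]
    ring
  rw [e1]
  set T := 4 * n * (1 - n) * (w2 / (n * (1 - n) + w2) - w2 / (1 / 4 + w2)) with hT
  have h5 : -(F * T) ≤ f * T := by nlinarith [vf.1]
  have h6 : F * T ≤ F * ((1 - 2 * n) ^ 2 * (4 * w2)) := mul_le_mul_of_nonneg_left vf.2 hF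
  linarith

lemma Q_nonneg {b0 q1 q2 q3 q4 f w2 F : ℝ} (hw2 : 0 < w2) (hF : 0 ≤ F) (hf : -F ≤ f)
    (H : ∀ x : ℝ, 0 ≤ x → x ≤ 1 →
      0 ≤ (1 / 2 - b0) + q1 * x + q2 * x ^ 2 + q3 * x ^ 3 + q4 * x ^ 4 - F) :
    ∀ n, 0 ≤ n → n ≤ 1 → 0 ≤ QP b0 q1 q2 q3 q4 f w2 n := by
  intro n h0 h1
  unfold QP
  have hv : 0 ≤ 4 * n * (1 - n) := by nlinarith
  apply mul_nonneg hv
  have hx0 : 0 ≤ (1 - 2 * n) ^ 2 := sq_nonneg _
  have hx1 : (1 - 2 * n) ^ 2 ≤ 1 := by nlinarith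
  have h := H _ hx0 hx1
  have b := fterm_bounds h0 h1 hw2
  set T := w2 / (n * (1 - n) + w2) - w2 / (1 / 4 + w2) with hT
  have h5 : -(F * T) ≤ f * T := by nlinarith [b.1]
  have h6 : F * T ≤ F * 1 := mul_le_mul_of_nonneg_left b.2 hF
  have e1 : ((1 - 2 * n) ^ 2) ^ 2 = (1 - 2 * n) ^ 4 := by ring
  have e2 : ((1 - 2 * n) ^ 2) ^ 3 = (1 - 2 * n) ^ 6 := by ring
  have e3 : ((1 - 2 * n) ^ 2) ^ 4 = (1 - 2 * n) ^ 8 := by ring
  rw [e1, e2, e3] at h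
  linarith

/-- **FIN from a rate**: `W(c₁ - δ) ≤ W(c₁)(1 - r δ)`. -/
lemma rate_bound {W : ℝ → ℝ} (hW : ConcaveOn ℝ (Icc 0 1) W) {c₁ r δ : ℝ} (hc : c₁ < 1)
    (hr : (1 + r * (1 - c₁)) * W c₁ ≤ W 1) (hδ : 0 ≤ δ) (hδc : 0 ≤ c₁ - δ) :
    W (c₁ - δ) ≤ W c₁ * (1 - r * δ) := by
  have hL : 0 < 1 - c₁ + δ := by linarith
  have hl0 : 0 ≤ (1 - c₁) / (1 - c₁ + δ) := div_nonneg (by linarith) hL.le
  have hl1 : (1 - c₁) / (1 - c₁ + δ) ≤ 1 := by rw [div_le_one hL]; linarith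
  set l := (1 - c₁) / (1 - c₁ + δ) with hl
  have hlL : l * (1 - c₁ + δ) = 1 - c₁ := by rw [hl]; field_simp
  have e := hW.2 (show c₁ - δ ∈ Icc (0 : ℝ) 1 from ⟨hδc, by linarith⟩)
    (show (1 : ℝ) ∈ Icc (0 : ℝ) 1 from ⟨zero_le_one, le_rfl⟩) hl0
    (show (0 : ℝ) ≤ 1 - l by linarith) (by ring)
  simp only [smul_eq_mul] at e
  have k : l * (c₁ - δ) + (1 - l) * 1 = c₁ := by
    have : l * (c₁ - δ) + (1 - l) * 1 = 1 - l * (1 - c₁ + δ) := by ring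
    rw [this, hlL]; ring
  rw [k] at e
  -- `l W(c₁-δ) ≤ W c₁ - (1-l) W 1 ≤ W c₁ (1 - (1-l)(1+r(1-c₁)))`
  have e2 : l * W (c₁ - δ) ≤ W c₁ * (1 - (1 - l) * (1 + r * (1 - c₁))) := by
    have := mul_le_mul_of_nonneg_left hr (show (0 : ℝ) ≤ 1 - l by linarith)
    nlinarith
  have hlpos : 0 < l := div_pos (by linarith) hL
  have e3 : 1 - (1 - l) * (1 + r * (1 - c₁)) = l * (1 - r * δ) := by
    have h1 : (1 - l) * (1 - c₁) = l * δ := by
      have : l * δ = 1 - c₁ - l * (1 - c₁) := by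
        have h2 : l * (1 - c₁ + δ) = l * (1 - c₁) + l * δ := by ring
        rw [h2] at hlL; linarith
      rw [this]; ring
    have : 1 - (1 - l) * (1 + r * (1 - c₁)) = l - r * ((1 - l) * (1 - c₁)) := by ring
    rw [this, h1]; ring
  rw [e3] at e2
  have e4 : l * W (c₁ - δ) ≤ l * (W c₁ * (1 - r * δ)) := by linarith
  exact le_of_mul_le_mul_left e4 hlpos

/-- FIN from the rate and an inequality for `P`. -/
theorem fins_of_rate {B Q : ℝ → ℝ} {c₁ r : ℝ} (hc0 : 0 < c₁) (hc1 : c₁ < 1) (hr2 : 2 ≤ r)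
    (hr : (1 + r * (1 - c₁)) * WA (3 / 10) (-6 / 25) (43 / 100) c₁ ≤
      WA (3 / 10) (-6 / 25) (43 / 100) 1)
    (hP : ∀ n, 0 ≤ n → n ≤ 1 →
      4 * n * (1 - n) - (r / 2 - 1) * (1 - 2 * n) ^ 2 ≤ B n + B (1 - n) + 2 * Q n) :
    FINS B Q c₁ := by
  intro n h0 h1 hpos
  set φ := ph (2 * n - 1) with hφ
  have hφ0 : 0 ≤ φ := ph_nonneg _
  have hφ1 : φ ≤ 1 := ph_le_one _
  have hφ2 : φ ^ 2 = 1 - (1 - 2 * n) ^ 2 := by
    rw [hφ, ph_sq (by rw [abs_le]; constructor <;> linarith)]; ring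
  have a := rate_bound concave_WA_S hc1 hr (δ := 1 - φ) (by linarith) (by linarith)
  have e : c₁ - (1 - φ) = c₁ - 1 + φ := by ring
  rw [e] at a
  refine a.trans ?_
  have hW : 0 ≤ WA (3 / 10) (-6 / 25) (43 / 100) c₁ :=
    WA_nonneg (by norm_num) (by norm_num) hc0.le hc1.le
  apply mul_le_mul_of_nonneg_left _ hW
  refine le_trans ?_ (hP n h0 h1)
  have hv : 4 * n * (1 - n) = φ ^ 2 := by rw [hφ2]; ring
  have hx : (1 - 2 * n) ^ 2 = 1 - φ ^ 2 := by rw [hφ2]; ring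
  rw [hv, hx]
  -- `1 - r(1-φ) ≤ φ² - (r/2-1)(1-φ²)`, difference `(r/2)(1-φ)²`
  nlinarith [mul_nonneg (show (0 : ℝ) ≤ r / 2 by linarith) (sq_nonneg (1 - φ))]

/-- `P`-inequality for the explicit potentials -/
lemma hP_of {b0 b1 b2 b3 b4 e w q1 q2 q3 q4 f w2 F r : ℝ}
    (hw : 0 < w) (hw2 : 0 < w2) (he : 0 ≤ e) (hF : 0 ≤ F) (hf : -F ≤ f)
    (hr : 8 * F * w2 ≤ r / 2 - 1)
    (H : ∀ x : ℝ, 0 ≤ x → x ≤ 1 →
      0 ≤ 2 * (b2 + q1) + 2 * (b4 + q2) * x + 2 * q3 * x ^ 2 + 2 * q4 * x ^ 3) :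
    ∀ n, 0 ≤ n → n ≤ 1 →
      4 * n * (1 - n) - (r / 2 - 1) * (1 - 2 * n) ^ 2 ≤
        BP b0 b1 b2 b3 b4 e w n + BP b0 b1 b2 b3 b4 e w (1 - n) +
          2 * QP b0 q1 q2 q3 q4 f w2 n := by
  intro n h0 h1
  refine le_trans ?_ (P_lower h0 h1 hw hw2 he hF hf)
  have hv : 0 ≤ 4 * n * (1 - n) := by nlinarith
  have hx0 : 0 ≤ (1 - 2 * n) ^ 2 := sq_nonneg _
  have hx1 : (1 - 2 * n) ^ 2 ≤ 1 := by nlinarith
  have h := mul_nonneg (mul_nonneg hv hx0) (H _ hx0 hx1)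
  have h2 := mul_le_mul_of_nonneg_right hr hx0
  have e1 : 4 * n * (1 - n) * (1 + 2 * (b2 + q1) * (1 - 2 * n) ^ 2 +
      2 * (b4 + q2) * (1 - 2 * n) ^ 4 + 2 * q3 * (1 - 2 * n) ^ 6 + 2 * q4 * (1 - 2 * n) ^ 8) =
      4 * n * (1 - n) + 4 * n * (1 - n) * (1 - 2 * n) ^ 2 *
        (2 * (b2 + q1) + 2 * (b4 + q2) * (1 - 2 * n) ^ 2 + 2 * q3 * ((1 - 2 * n) ^ 2) ^ 2 +
          2 * q4 * ((1 - 2 * n) ^ 2) ^ 3) := by ring
  rw [e1]
  linarith

lemma potOK_of {b0 b1 b2 b3 b4 e w q1 q2 q3 q4 f w2 F : ℝ} (hw2 : 0 < w2) (hF : 0 ≤ F)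
    (hf : -F ≤ f)
    (H : ∀ x : ℝ, 0 ≤ x → x ≤ 1 →
      0 ≤ (1 / 2 - b0) + q1 * x + q2 * x ^ 2 + q3 * x ^ 3 + q4 * x ^ 4 - F) :
    PotOK (BP b0 b1 b2 b3 b4 e w) (QP b0 q1 q2 q3 q4 f w2) where
  B0 := by simp [BP]
  B1 := by simp [BP]
  Q0 := by simp [QP]
  Qs := QP_symm _ _ _ _ _ _ _
  Qn := Q_nonneg hw2 hF hf H

theorem potOK1 : PotOK B1 Q1 := by
  refine potOK_of (F := 0) (by norm_num) le_rfl (by norm_num) fun x h0 h1 => ?_
  nlinarith [mul_nonneg h0 (sub_nonneg.mpr h1), pow_nonneg h0 3, pow_nonneg h0 4,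
    mul_nonneg (sq_nonneg x) (sub_nonneg.mpr h1)]

theorem potOK2 : PotOK B2 Q2 := by
  refine potOK_of (F := 129 / 1000) (by norm_num) (by norm_num) (by norm_num)
    fun x h0 h1 => ?_
  nlinarith [mul_nonneg h0 (sub_nonneg.mpr h1), pow_nonneg h0 3, pow_nonneg h0 4,
    mul_nonneg (sq_nonneg x) (sub_nonneg.mpr h1)]

theorem potOK3 : PotOK B3 Q3 := by
  refine potOK_of (F := 112 / 1000) (by norm_num) (by norm_num) (by norm_num)
    fun x h0 h1 => ?_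
  nlinarith [mul_nonneg h0 (sub_nonneg.mpr h1), pow_nonneg h0 3, pow_nonneg h0 4,
    mul_nonneg (sq_nonneg x) (sub_nonneg.mpr h1)]

theorem potOK4 : PotOK B4 Q4 := by
  refine potOK_of (F := 46 / 1000) (by norm_num) (by norm_num) (by norm_num)
    fun x h0 h1 => ?_
  nlinarith [mul_nonneg h0 (sub_nonneg.mpr h1), pow_nonneg h0 3, pow_nonneg h0 4,
    mul_nonneg (sq_nonneg x) (sub_nonneg.mpr h1)]

/-- rational bounds of `W` -/
lemma WA_one_ge : (97 / 100 : ℝ) ≤ WA (3 / 10) (-6 / 25) (43 / 100) 1 := by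
  refine le_trans ?_ (le_WA_of (z := 1414 / 1000) (by norm_num))
  norm_num

lemma W2_le : WA (3 / 10) (-6 / 25) (43 / 100) (1 / 5) ≤ 1988 / 10000 := by
  refine le_trans (WA_le_of (z := 109545 / 100000) (by norm_num) (by norm_num)) ?_
  norm_num

lemma W2_ge : 1987 / 10000 ≤ WA (3 / 10) (-6 / 25) (43 / 100) (1 / 5) := by
  refine le_trans ?_ (le_WA_of (z := 1095444 / 1000000) (by norm_num))
  norm_num

lemma W3_le : WA (3 / 10) (-6 / 25) (43 / 100) (3 / 10) ≤ 2977 / 10000 := by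
  refine le_trans (WA_le_of (z := 1140176 / 1000000) (by norm_num) (by norm_num)) ?_
  norm_num

lemma W3_ge : 2976 / 10000 ≤ WA (3 / 10) (-6 / 25) (43 / 100) (3 / 10) := by
  refine le_trans ?_ (le_WA_of (z := 1140175 / 1000000) (by norm_num))
  norm_num

lemma W35_le : WA (3 / 10) (-6 / 25) (43 / 100) (7 / 20) ≤ 3472 / 10000 := by
  refine le_trans (WA_le_of (z := 11619 / 10000) (by norm_num) (by norm_num)) ?_
  norm_num

lemma W35_ge : 3471 / 10000 ≤ WA (3 / 10) (-6 / 25) (43 / 100) (7 / 20) := by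
  refine le_trans ?_ (le_WA_of (z := 116189 / 100000) (by norm_num))
  norm_num

lemma W4_le : WA (3 / 10) (-6 / 25) (43 / 100) (2 / 5) ≤ 3967 / 10000 := by
  refine le_trans (WA_le_of (z := 1183217 / 1000000) (by norm_num) (by norm_num)) ?_
  norm_num

theorem fins1 : FINS B1 Q1 (1 / 5) := by
  refine fins_of_rate (r := 4) (by norm_num) (by norm_num) (by norm_num) ?_ ?_
  · have := WA_one_ge
    have := W2_le
    linarith
  · refine hP_of (F := 0) (by norm_num) (by norm_num) (by norm_num) le_rfl (by norm_num)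
      (by norm_num) fun x h0 h1 => ?_
    nlinarith [mul_nonneg h0 (sub_nonneg.mpr h1), pow_nonneg h0 3]

theorem fins2 : FINS B2 Q2 (3 / 10) := by
  refine fins_of_rate (r := 3) (by norm_num) (by norm_num) (by norm_num) ?_ ?_
  · have := WA_one_ge
    have := W3_le
    linarith
  · refine hP_of (F := 129 / 1000) (by norm_num) (by norm_num) (by norm_num) (by norm_num)
      (by norm_num) (by norm_num) fun x h0 h1 => ?_
    nlinarith [mul_nonneg h0 (sub_nonneg.mpr h1), pow_nonneg h0 3,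
      mul_nonneg h0 (sq_nonneg (x - 1 / 2))]

theorem fins3 : FINS B3 Q3 (7 / 20) := by
  refine fins_of_rate (r := 13 / 5) (by norm_num) (by norm_num) (by norm_num) ?_ ?_
  · have := WA_one_ge
    have := W35_le
    linarith
  · refine hP_of (F := 112 / 1000) (by norm_num) (by norm_num) (by norm_num) (by norm_num)
      (by norm_num) (by norm_num) fun x h0 h1 => ?_
    nlinarith [mul_nonneg h0 (sub_nonneg.mpr h1), pow_nonneg h0 3,
      mul_nonneg h0 (sq_nonneg (x - 1 / 2))]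

theorem fins4 : FINS B4 Q4 (2 / 5) := by
  refine fins_of_rate (r := 23 / 10) (by norm_num) (by norm_num) (by norm_num) ?_ ?_
  · have := WA_one_ge
    have := W4_le
    linarith
  · refine hP_of (F := 46 / 1000) (by norm_num) (by norm_num) (by norm_num) (by norm_num)
      (by norm_num) (by norm_num) fun x h0 h1 => ?_
    nlinarith [mul_nonneg h0 (sub_nonneg.mpr h1), pow_nonneg h0 3,
      mul_nonneg h0 (sq_nonneg (x - 1 / 2))]

/-- The (SI) targets. -/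
def SI1 : Prop := SIS (13 / 50) (41 / 100) (6 / 5) (11 / 5) (1 / 100) B1 Q1 0 0 (1988 / 10000) (1 / 5)
def SI2 : Prop :=
  SIS (13 / 50) (41 / 100) (6 / 5) (11 / 5) (1 / 100) B2 Q2 (1987 / 10000) (1 / 5)
    (2977 / 10000) (3 / 10)
def SI3 : Prop :=
  SIS (13 / 50) (41 / 100) (6 / 5) (11 / 5) (1 / 100) B3 Q3 (2976 / 10000) (3 / 10)
    (3472 / 10000) (7 / 20)
def SI4 : Prop :=
  SIS (13 / 50) (41 / 100) (6 / 5) (11 / 5) (1 / 100) B4 Q4 (3471 / 10000) (7 / 20)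
    (3967 / 10000) (2 / 5)

/-- **Regime S**: `0 < c ≤ 2/5`. -/
theorem regimeS (hPI : PIS (13 / 50) (41 / 100) (6 / 5) (11 / 5) (1 / 100) (2 / 5))
    (h1 : SI1) (h2 : SI2) (h3 : SI3) (h4 : SI4) (c : ℝ) (hc0 : 0 < c) (hc : c ≤ 2 / 5) :
    Bound (Real.sqrt (1 - c ^ 2)) := by
  have hPI' : ∀ c₁, c₁ ≤ 2 / 5 → PIS (13 / 50) (41 / 100) (6 / 5) (11 / 5) (1 / 100) c₁ :=
    fun c₁ h c h1 h2 t ht0 ht1 => hPI c h1 (h2.trans h) t ht0 ht1
  rcases le_total c (1 / 5) with h | h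
  · exact bound_S_family (by norm_num) (by norm_num) (by norm_num) (by norm_num)
      (hPI' (1 / 5) (by norm_num)) le_rfl le_rfl (by norm_num) le_rfl
      (by rw [WA_zero]) W2_le (by norm_num) potOK1 h1 fins1 c hc0 h
  · rcases h.eq_or_lt with h' | h'
    · subst h'
      exact bound_S_family (by norm_num) (by norm_num) (by norm_num) (by norm_num)
        (hPI' (1 / 5) (by norm_num)) le_rfl le_rfl (by norm_num) le_rfl
        (by rw [WA_zero]) W2_le (by norm_num) potOK1 h1 fins1 _ hc0 le_rfl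
    · rcases le_or_gt c (3 / 10) with g | g
      · exact bound_S_family (by norm_num) (by norm_num) (by norm_num) (by norm_num)
          (hPI' (3 / 10) (by norm_num)) (by norm_num) le_rfl (by norm_num) (by norm_num)
          W2_ge W3_le (by norm_num) potOK2 h2 fins2 c h' g
      · rcases le_or_gt c (7 / 20) with k | k
        · exact bound_S_family (by norm_num) (by norm_num) (by norm_num) (by norm_num)
            (hPI' (7 / 20) (by norm_num)) (by norm_num) le_rfl (by norm_num) (by norm_num)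
            W3_ge W35_le (by norm_num) potOK3 h3 fins3 c g k
        · exact bound_S_family (by norm_num) (by norm_num) (by norm_num) (by norm_num)
            (hPI' (2 / 5) le_rfl) (by norm_num) le_rfl (by norm_num) (by norm_num)
            W35_ge W4_le (by norm_num) potOK4 h4 fins4 c k hc

end Crest.Agent.R307.GenS
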