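import Crest.Agent.R307.Split
import Crest.Agent.R307.Calc

/-!
Row 307 (S0472), task T9: bounds for `y = h(m) - E h(M)` (helper862).
-/

set_option autoImplicit false

open Set Crest.CubeNoise

namespace Crest.Agent.R307

namespace Ione

/-- the segment from `m` to `M` -/
theorem abs_seg_le {m M s : ℝ} (hm0 : 0 ≤ m) (hm1 : m < 1) (hM : |M| ≤ 1)
    (hs0 : 0 ≤ s) (hs1 : s ≤ 1) : |m + s * (M - m)| ≤ m + s * (1 - m) := by
  obtain ⟨h1, h2⟩ := abs_le.mp hM
  rw [abs_le]
  constructor
  · nlinarith [mul_nonneg hs0 (by linarith : (0:ℝ) ≤ M + 1),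
      mul_nonneg hm0 (by linarith : (0:ℝ) ≤ 1 - s)]
  · nlinarith [mul_nonneg hs0 (by linarith : (0:ℝ) ≤ 1 - M)]

theorem seg_lt_one {m s : ℝ} (hm1 : m < 1) (hs1 : s < 1) : m + s * (1 - m) < 1 := by
  nlinarith [mul_pos (by linarith : (0:ℝ) < 1 - s) (by linarith : (0:ℝ) < 1 - m)]

end Ione

open Ione in
/-- pointwise second order bound for `signEntropy` at `m ∈ [0,1)` -/
theorem signEntropy_tangent_sub_le {m M : ℝ} (hm0 : 0 ≤ m) (hm1 : m < 1) (hM : |M| ≤ 1) :
    signEntropy m - Real.artanh m * (M - m) - signEntropy M ≤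
      Real.log (2 / (1 + m)) / (1 - m) ^ 2 * (M - m) ^ 2 := by
  have hmm : 0 < 1 - m := by linarith
  set c : ℝ := (M - m) ^ 2 / (1 - m) ^ 2 with hc
  have hc0 : 0 ≤ c := by positivity
  have hc1 : c * (1 - m) ^ 2 = (M - m) ^ 2 := by rw [hc]; field_simp
  -- the function
  set f : ℝ → ℝ := fun s =>
    (signEntropy m - Real.artanh m * ((m + s * (M - m)) - m) - signEntropy (m + s * (M - m))) -
      c * (signEntropy m - Real.artanh m * ((m + s * (1 - m)) - m) -
        signEntropy (m + s * (1 - m))) with hf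
  set f' : ℝ → ℝ := fun s =>
    (M - m) * (Real.artanh (m + s * (M - m)) - Real.artanh m) -
      c * ((1 - m) * (Real.artanh (m + s * (1 - m)) - Real.artanh m)) with hf'
  have hx : ∀ s : ℝ, 0 ≤ s → s < 1 → |m + s * (M - m)| < 1 := fun s hs0 hs1 =>
    (abs_seg_le hm0 hm1 hM hs0 hs1.le).trans_lt (seg_lt_one hm1 hs1)
  have hy : ∀ s : ℝ, 0 ≤ s → s < 1 → |m + s * (1 - m)| < 1 := fun s hs0 hs1 => by
    have := abs_seg_le (s := s) hm0 hm1 (M := 1) (by simp) hs0 hs1.le
    exact this.trans_lt (seg_lt_one hm1 hs1)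
  have dlin : ∀ (u s : ℝ), HasDerivAt (fun s : ℝ => m + s * u) u s := fun u s => by
    have := ((hasDerivAt_id s).mul_const u).const_add m
    simpa using this
  have dA : ∀ (u s : ℝ), |m + s * u| < 1 → HasDerivAt (fun s : ℝ =>
      signEntropy m - Real.artanh m * ((m + s * u) - m) - signEntropy (m + s * u))
      (u * (Real.artanh (m + s * u) - Real.artanh m)) s := by
    intro u s hs
    have h1 := (hasDerivAt_signEntropy hs).comp s (dlin u s)
    have h2 := (((dlin u s).sub_const m).const_mul (Real.artanh m)).const_sub (signEntropy m)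
    have h3 := h2.sub h1
    refine h3.congr_deriv ?_
    ring
  have df : ∀ s : ℝ, 0 ≤ s → s < 1 → HasDerivAt f (f' s) s := by
    intro s hs0 hs1
    have h1 := dA (M - m) s (hx s hs0 hs1)
    have h2 := dA (1 - m) s (hy s hs0 hs1)
    exact h1.sub (h2.const_mul c)
  have dB : ∀ (u s : ℝ), |m + s * u| < 1 → HasDerivAt (fun s : ℝ =>
      u * (Real.artanh (m + s * u) - Real.artanh m))
      (u ^ 2 * (1 / (1 - (m + s * u) ^ 2))) s := by
    intro u s hs
    have h1 := (hasDerivAt_artanh hs).comp s (dlin u s)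
    have h3 := (h1.sub_const (Real.artanh m)).const_mul u
    refine h3.congr_deriv ?_
    ring
  have df' : ∀ s : ℝ, 0 ≤ s → s < 1 → HasDerivAt f'
      ((M - m) ^ 2 * (1 / (1 - (m + s * (M - m)) ^ 2)) -
        c * ((1 - m) ^ 2 * (1 / (1 - (m + s * (1 - m)) ^ 2)))) s := by
    intro s hs0 hs1
    have h1 := dB (M - m) s (hx s hs0 hs1)
    have h2 := dB (1 - m) s (hy s hs0 hs1)
    exact h1.sub (h2.const_mul c)
  have hneg' : ∀ s ∈ Ico (0 : ℝ) 1, f' s ≤ 0 := by
    have hanti : AntitoneOn f' (Ico 0 1) := by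
      refine antitoneOn_of_deriv_nonpos (convex_Ico 0 1) ?_ ?_ ?_
      · intro s hs
        exact (df' s hs.1 hs.2).continuousAt.continuousWithinAt
      · rw [interior_Ico]
        intro s hs
        exact (df' s hs.1.le hs.2).differentiableAt.differentiableWithinAt
      · rw [interior_Ico]
        intro s hs
        rw [(df' s hs.1.le hs.2).deriv, ← mul_assoc c, hc1, ← mul_sub]
        have hle := abs_seg_le hm0 hm1 hM hs.1.le hs.2.le
        have hlt := seg_lt_one (m := m) hm1 hs.2
        have hy0 : 0 ≤ m + s * (1 - m) := (abs_nonneg _).trans hle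
        have hsq : (m + s * (M - m)) ^ 2 ≤ (m + s * (1 - m)) ^ 2 := by
          rw [← sq_abs (m + s * (M - m))]
          exact pow_le_pow_left₀ (abs_nonneg _) hle 2
        have h1 : 0 < 1 - (m + s * (1 - m)) ^ 2 := by nlinarith
        have h2 : 1 / (1 - (m + s * (M - m)) ^ 2) ≤ 1 / (1 - (m + s * (1 - m)) ^ 2) :=
          one_div_le_one_div_of_le h1 (by linarith)
        exact mul_nonpos_of_nonneg_of_nonpos (sq_nonneg _) (by linarith)
    intro s hs
    have h := hanti (left_mem_Ico.mpr one_pos) hs hs.1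
    have h0 : f' 0 = 0 := by simp [hf']
    rwa [h0] at h
  have hantif : AntitoneOn f (Icc 0 1) := by
    refine antitoneOn_of_deriv_nonpos (convex_Icc 0 1) ?_ ?_ ?_
    · have c1 : Continuous f := by
        rw [hf]
        have := continuous_signEntropy
        fun_prop
      exact c1.continuousOn
    · rw [interior_Icc]
      intro s hs
      exact (df s hs.1.le hs.2).differentiableAt.differentiableWithinAt
    · rw [interior_Icc]
      intro s hs
      rw [(df s hs.1.le hs.2).deriv]
      exact hneg' s ⟨hs.1.le, hs.2⟩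
  have h := hantif (left_mem_Icc.mpr zero_le_one) (right_mem_Icc.mpr zero_le_one) zero_le_one
  have h0 : f 0 = 0 := by simp [hf]
  have e1 : signEntropy m - Real.artanh m * (1 - m) - signEntropy 1 = Real.log (2 / (1 + m)) := by
    have hma : |m| < 1 := abs_lt_one_of_mem hm0 hm1
    rw [signEntropy_eq_logs hma.le, artanh_eq_log_sub hma, signEntropy_one,
      Real.log_div two_ne_zero (by linarith)]
    ring
  have h1 : f 1 = (signEntropy m - Real.artanh m * (M - m) - signEntropy M) -
      c * Real.log (2 / (1 + m)) := by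
    rw [← e1, hf]
    simp only [one_mul, add_sub_cancel]
  rw [h0, h1] at h
  have e2 : Real.log (2 / (1 + m)) / (1 - m) ^ 2 * (M - m) ^ 2 = c * Real.log (2 / (1 + m)) := by
    rw [hc]; ring
  rw [e2]
  linarith

/-- cube version, general function `G` -/
theorem Ione_cube_general {n : ℕ} (G : (Fin n → Bool) → ℝ) (hG : ∀ x, |G x| < 1)
    {m V : ℝ} (hm : m = cubeAverage G) (hm0 : 0 ≤ m)
    (hV : V = cubeAverage (fun x => (G x) ^ 2) - m ^ 2) :
    0 ≤ signEntropy m - cubeAverage (fun x => signEntropy (G x)) ∧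
    signEntropy m - cubeAverage (fun x => signEntropy (G x)) ≤
      Real.log (2 / (1 + m)) / (1 - m) ^ 2 * V ∧
    signEntropy m - cubeAverage (fun x => signEntropy (G x)) ≤
      signEntropy m - (1 - m ^ 2) * Real.log 2 + V * Real.log 2 := by
  have hma : |m| < 1 := by rw [hm]; exact abs_cubeAverage_lt_one hG
  have hm1 : m < 1 := (abs_lt.mp hma).2
  set K : ℝ := Real.log (2 / (1 + m)) / (1 - m) ^ 2 with hK
  have hlin : ∀ a b c : ℝ, cubeAverage (fun x => a + b * G x + c * (G x) ^ 2) =
      a + b * m + c * cubeAverage (fun x => (G x) ^ 2) := by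
    intro a b c
    rw [cubeAverage_add (fun x => a + b * G x) (fun x => c * (G x) ^ 2),
      cubeAverage_add (fun _ => a) (fun x => b * G x), cubeAverage_const,
      cubeAverage_const_mul, cubeAverage_const_mul, ← hm]
  refine ⟨?_, ?_, ?_⟩
  · have h := cubeAverage_mono (g := fun x => signEntropy (G x))
      (h := fun x => (signEntropy m + Real.artanh m * m) + (-Real.artanh m) * G x +
        0 * (G x) ^ 2) (fun x => by
          have := signEntropy_le_tangent (hG x).le hma
          linarith)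
    rw [hlin] at h
    linarith
  · have h := cubeAverage_mono
      (g := fun x => (signEntropy m + Real.artanh m * m - K * m ^ 2) +
        (-Real.artanh m + 2 * K * m) * G x + (-K) * (G x) ^ 2)
      (h := fun x => signEntropy (G x)) (fun x => by
          have := signEntropy_tangent_sub_le hm0 hm1 (hG x).le
          rw [← hK] at this
          nlinarith)
    rw [hlin] at h
    rw [hV]
    nlinarith
  · have h := cubeAverage_mono
      (g := fun x => Real.log 2 + 0 * G x + (-Real.log 2) * (G x) ^ 2)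
      (h := fun x => signEntropy (G x)) (fun x => by
          have := le_signEntropy (hG x).le
          nlinarith)
    rw [hlin] at h
    rw [hV]
    nlinarith

/-- cube version in the notation of task T3: `m = (E g0 + E g1)/2`, `G = (g0+g1)/2`,
`V = E G^2 - m^2`. -/
theorem Ione_cube {n : ℕ} (g0 g1 : (Fin n → Bool) → ℝ) (h0 : ∀ x, |g0 x| < 1)
    (h1 : ∀ x, |g1 x| < 1) {m V : ℝ} (hm : m = (cubeAverage g0 + cubeAverage g1) / 2)
    (hm0 : 0 ≤ m) (hV : V = cubeAverage (fun x => ((g0 x + g1 x) / 2) ^ 2) - m ^ 2) :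
    0 ≤ signEntropy m - cubeAverage (fun x => signEntropy ((g0 x + g1 x) / 2)) ∧
    signEntropy m - cubeAverage (fun x => signEntropy ((g0 x + g1 x) / 2)) ≤
      Real.log (2 / (1 + m)) / (1 - m) ^ 2 * V ∧
    signEntropy m - cubeAverage (fun x => signEntropy ((g0 x + g1 x) / 2)) ≤
      signEntropy m - (1 - m ^ 2) * Real.log 2 + V * Real.log 2 := by
  refine Ione_cube_general (fun x => (g0 x + g1 x) / 2) (fun x => ?_) ?_ hm0 hV
  · have a0 := abs_lt.mp (h0 x)
    have a1 := abs_lt.mp (h1 x)
    rw [abs_lt]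
    constructor <;> linarith [a0.1, a0.2, a1.1, a1.2]
  · rw [hm]
    have : (fun x => (g0 x + g1 x) / 2) = fun x => (1 / 2 : ℝ) * (g0 x + g1 x) := by
      funext x; ring
    rw [this, cubeAverage_const_mul, cubeAverage_add]
    ring

end Crest.Agent.R307
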