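import Crest.Agent.R307.Split
import Crest.Agent.R307.SubDefs

/-!
Row 307 (S0472), task T8: supporting plane for `LL` (helper862).
-/

set_option autoImplicit false

open Set Crest.CubeNoise

namespace Crest.Agent.R307

namespace LSupp

theorem persp_aux {a b : ℝ} (ha : |a| < 1) (hb : |b| < 1) :
    |(a + b) / 2| < 1 ∧ |(a - b) / 2 / (1 + (a + b) / 2)| < 1 ∧
      |(a - b) / 2 / (1 - (a + b) / 2)| < 1 := by
  obtain ⟨a1, a2⟩ := abs_lt.mp ha
  obtain ⟨b1, b2⟩ := abs_lt.mp hb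
  have h1 : 0 < 1 + (a + b) / 2 := by linarith
  have h2 : 0 < 1 - (a + b) / 2 := by linarith
  refine ⟨?_, ?_, ?_⟩
  · rw [abs_lt]; constructor <;> linarith
  · rw [abs_lt, lt_div_iff₀ h1, div_lt_iff₀ h1]; constructor <;> linarith
  · rw [abs_lt, lt_div_iff₀ h2, div_lt_iff₀ h2]; constructor <;> linarith

theorem psi_logs {x : ℝ} (hx : |x| < 1) :
    psi x = ((1 + x) * Real.log (1 + x) + (1 - x) * Real.log (1 - x)) / 2 := by
  unfold psi
  rw [signEntropy_eq_logs hx.le]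
  ring

theorem logs_plus {a b : ℝ} (ha : |a| < 1) (hb : |b| < 1) :
    1 + (a - b) / 2 / (1 + (a + b) / 2) = (1 + a) / (1 + (a + b) / 2) ∧
    1 - (a - b) / 2 / (1 + (a + b) / 2) = (1 + b) / (1 + (a + b) / 2) := by
  obtain ⟨a1, a2⟩ := abs_lt.mp ha
  obtain ⟨b1, b2⟩ := abs_lt.mp hb
  have h1 : 0 < 1 + (a + b) / 2 := by linarith
  constructor
  · rw [eq_div_iff h1.ne', add_mul, div_mul_cancel₀ _ h1.ne']; ring
  · rw [eq_div_iff h1.ne', sub_mul, div_mul_cancel₀ _ h1.ne']; ring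

theorem logs_minus {a b : ℝ} (ha : |a| < 1) (hb : |b| < 1) :
    1 + (a - b) / 2 / (1 - (a + b) / 2) = (1 - b) / (1 - (a + b) / 2) ∧
    1 - (a - b) / 2 / (1 - (a + b) / 2) = (1 - a) / (1 - (a + b) / 2) := by
  obtain ⟨a1, a2⟩ := abs_lt.mp ha
  obtain ⟨b1, b2⟩ := abs_lt.mp hb
  have h1 : 0 < 1 - (a + b) / 2 := by linarith
  constructor
  · rw [eq_div_iff h1.ne', add_mul, div_mul_cancel₀ _ h1.ne']; ring
  · rw [eq_div_iff h1.ne', sub_mul, div_mul_cancel₀ _ h1.ne']; ring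

theorem kk_persp' {a b : ℝ} (ha : |a| < 1) (hb : |b| < 1) :
    kk a b = ((1 + (a + b) / 2) * ((a - b) / 2 / (1 + (a + b) / 2) *
        Real.artanh ((a - b) / 2 / (1 + (a + b) / 2))) +
      (1 - (a + b) / 2) * ((a - b) / 2 / (1 - (a + b) / 2) *
        Real.artanh ((a - b) / 2 / (1 - (a + b) / 2)))) / 2 := by
  obtain ⟨a1, a2⟩ := abs_lt.mp ha
  obtain ⟨b1, b2⟩ := abs_lt.mp hb
  have h1 : 0 < 1 + (a + b) / 2 := by linarith
  have h2 : 0 < 1 - (a + b) / 2 := by linarith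
  obtain ⟨_, hp, hm⟩ := persp_aux ha hb
  rw [artanh_eq_log_sub hp, artanh_eq_log_sub hm, (logs_plus ha hb).1, (logs_plus ha hb).2,
    (logs_minus ha hb).1, (logs_minus ha hb).2,
    Real.log_div (by linarith) h1.ne', Real.log_div (by linarith) h1.ne',
    Real.log_div (by linarith) h2.ne', Real.log_div (by linarith) h2.ne',
    ← mul_assoc, ← mul_assoc, mul_div_cancel₀ _ h1.ne', mul_div_cancel₀ _ h2.ne']
  unfold kk
  rw [artanh_eq_log_sub ha, artanh_eq_log_sub hb]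
  ring

theorem io_persp' {a b : ℝ} (ha : |a| < 1) (hb : |b| < 1) :
    io a b = ((1 + (a + b) / 2) * psi ((a - b) / 2 / (1 + (a + b) / 2)) +
      (1 - (a + b) / 2) * psi ((a - b) / 2 / (1 - (a + b) / 2))) / 2 := by
  obtain ⟨a1, a2⟩ := abs_lt.mp ha
  obtain ⟨b1, b2⟩ := abs_lt.mp hb
  have h1 : 0 < 1 + (a + b) / 2 := by linarith
  have h2 : 0 < 1 - (a + b) / 2 := by linarith
  obtain ⟨hM, hp, hm⟩ := persp_aux ha hb
  rw [psi_logs hp, psi_logs hm, (logs_plus ha hb).1, (logs_plus ha hb).2,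
    (logs_minus ha hb).1, (logs_minus ha hb).2,
    Real.log_div (by linarith) h1.ne', Real.log_div (by linarith) h1.ne',
    Real.log_div (by linarith) h2.ne', Real.log_div (by linarith) h2.ne']
  have key : ∀ P u v X Y : ℝ, P ≠ 0 → P * ((u / P * X + v / P * Y) / 2) = (u * X + v * Y) / 2 := by
    intro P u v X Y hP
    field_simp
  rw [key _ _ _ _ _ h1.ne', key _ _ _ _ _ h2.ne']
  unfold io
  rw [signEntropy_eq_logs hM.le, signEntropy_eq_logs ha.le, signEntropy_eq_logs hb.le]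
  ring

/-- the function `sF - lam psi` -/
noncomputable def chi (lam x : ℝ) : ℝ := sF x - lam * psi x

theorem LL_persp' {a b : ℝ} (ha : |a| < 1) (hb : |b| < 1) (lam : ℝ) :
    LL a b - lam * io a b =
      ((1 + (a + b) / 2) * chi lam ((a - b) / 2 / (1 + (a + b) / 2)) +
      (1 - (a + b) / 2) * chi lam ((a - b) / 2 / (1 - (a + b) / 2))) / 2 := by
  unfold LL chi sF
  rw [kk_persp' ha hb, io_persp' ha hb]
  ring

theorem sF_neg {x : ℝ} (hx : |x| < 1) : sF (-x) = sF x := by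
  unfold sF
  rw [artanh_neg' hx, psi_neg]
  ring

theorem sF_abs {x : ℝ} (hx : |x| < 1) : sF |x| = sF x := by
  rcases abs_choice x with h | h <;> rw [h]
  exact sF_neg hx

theorem psi_abs (x : ℝ) : psi |x| = psi x := by
  rcases abs_choice x with h | h <;> rw [h]
  exact psi_neg x

/-- tangent inequality for `S` in the parameter -/
theorem sF_tangent {t x : ℝ} (h0 : 0 ≤ t) (h1 : t < 1) (hx : |x| < 1) :
    sF t + (kappa t - 2) * (psi x - psi t) ≤ sF x := by
  have h := F_tangent_le h0 h1 (abs_nonneg x) hx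
  rw [← sF_abs hx, ← psi_abs x]
  unfold sF
  linarith

/-- `chi` is minimal at `ε` for `lam = kappa ε - 2` -/
theorem chi_min {ε x : ℝ} (h0 : 0 ≤ ε) (h1 : ε < 1) (hx : |x| < 1) :
    chi (kappa ε - 2) ε ≤ chi (kappa ε - 2) x := by
  have h := sF_tangent h0 h1 hx
  unfold chi
  linarith

theorem chi_support {ε x0 x : ℝ} (h0 : 0 ≤ ε) (hle : ε ≤ x0) (h1 : x0 < 1) (hx : |x| < 1) :
    chi (kappa ε - 2) x0 + (kappa x0 - kappa ε) * Real.artanh x0 * (x - x0) ≤
      chi (kappa ε - 2) x := by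
  have hx0 : 0 ≤ x0 := h0.trans hle
  have h := sF_tangent hx0 h1 hx
  have hk : kappa ε ≤ kappa x0 :=
    strictMonoOn_kappa.monotoneOn ⟨h0, hle.trans_lt h1⟩ ⟨hx0, h1⟩ hle
  have hp : Real.artanh x0 * (x - x0) ≤ psi x - psi x0 := by
    have := signEntropy_le_tangent hx.le (abs_lt_one_of_mem hx0 h1)
    unfold psi
    linarith
  have h2 := mul_le_mul_of_nonneg_left hp (by linarith : 0 ≤ kappa x0 - kappa ε)
  unfold chi
  nlinarith

end LSupp

open LSupp in
/-- supporting plane of `LL - lam io` at `(m+δ, m-δ)`, `lam = kappa (δ/(1+m)) - 2`. -/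
theorem LL_support {m δ : ℝ} (hm0 : 0 ≤ m) (hm1 : m < 1) (hδ0 : 0 ≤ δ) (hδ : δ < 1 - m) :
    ∃ c0 c1 c2 : ℝ,
      (∀ a b : ℝ, |a| < 1 → |b| < 1 →
        c0 + c1 * ((a + b) / 2) + c2 * ((a - b) / 2) ≤
          LL a b - (kappa (δ / (1 + m)) - 2) * io a b) ∧
      c0 + c1 * m + c2 * δ =
        LL (m + δ) (m - δ) - (kappa (δ / (1 + m)) - 2) * io (m + δ) (m - δ) := by
  set ε : ℝ := δ / (1 + m) with hε
  set x0 : ℝ := δ / (1 - m) with hx0
  have hp : 0 < 1 + m := by linarith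
  have hq : 0 < 1 - m := by linarith
  have hε0 : 0 ≤ ε := by positivity
  have hεx : ε ≤ x0 := by
    rw [hε, hx0]
    exact div_le_div_of_nonneg_left hδ0 hq (by linarith)
  have hx1 : x0 < 1 := by rw [hx0, div_lt_one hq]; exact hδ
  have hε1 : ε < 1 := hεx.trans_lt hx1
  set lam : ℝ := kappa ε - 2 with hlam
  set s : ℝ := (kappa x0 - kappa ε) * Real.artanh x0 with hs
  refine ⟨(chi lam ε + chi lam x0 - s * x0) / 2, (chi lam ε - chi lam x0 + s * x0) / 2, s / 2,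
    ?_, ?_⟩
  · intro a b ha hb
    obtain ⟨hM, hxp, hxm⟩ := persp_aux ha hb
    rw [LL_persp' ha hb lam]
    set M : ℝ := (a + b) / 2
    set d : ℝ := (a - b) / 2
    obtain ⟨hM1, hM2⟩ := abs_lt.mp hM
    have h1 : 0 < 1 + M := by linarith
    have h2 : 0 < 1 - M := by linarith
    have e1 := mul_le_mul_of_nonneg_left (chi_min hε0 hε1 hxp) h1.le
    have e2 := mul_le_mul_of_nonneg_left (chi_support hε0 hεx hx1 hxm) h2.le
    rw [← hlam, ← hs] at e2
    rw [← hlam] at e1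
    have e3 : (1 - M) * (s * (d / (1 - M) - x0)) = s * (d - (1 - M) * x0) := by
      field_simp
    nlinarith
  · have hA : |m + δ| < 1 := by rw [abs_lt]; constructor <;> linarith
    have hB : |m - δ| < 1 := by rw [abs_lt]; constructor <;> linarith
    rw [LL_persp' hA hB lam]
    have e1 : (m + δ + (m - δ)) / 2 = m := by ring
    have e2 : (m + δ - (m - δ)) / 2 = δ := by ring
    rw [e1, e2, ← hε, ← hx0]
    have e3 : (1 - m) * x0 = δ := by rw [hx0]; field_simp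
    linear_combination (-s / 2) * e3

/-- cube version of `LL_support` -/
theorem LL_cube_support {n : ℕ} (g0 g1 : (Fin n → Bool) → ℝ) (h0 : ∀ x, |g0 x| < 1)
    (h1 : ∀ x, |g1 x| < 1) {m0 m1 m δ : ℝ} (hm0 : m0 = cubeAverage g0) (hm1 : m1 = cubeAverage g1)
    (hm : m = (m0 + m1) / 2) (hδ : δ = (m0 - m1) / 2) (hmn : 0 ≤ m) (hδn : 0 ≤ δ) :
    LL m0 m1 + (kappa (δ / (1 + m)) - 2) *
        (cubeAverage (fun x => io (g0 x) (g1 x)) - io m0 m1) ≤
      cubeAverage (fun x => LL (g0 x) (g1 x)) := by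
  have a0 : |m0| < 1 := by rw [hm0]; exact abs_cubeAverage_lt_one h0
  have a1 : |m1| < 1 := by rw [hm1]; exact abs_cubeAverage_lt_one h1
  obtain ⟨a01, a02⟩ := abs_lt.mp a0
  obtain ⟨a11, a12⟩ := abs_lt.mp a1
  obtain ⟨c0, c1, c2, hsup, heq⟩ := LL_support (m := m) (δ := δ) hmn (by linarith) hδn (by linarith)
  have e0 : m + δ = m0 := by rw [hm, hδ]; ring
  have e1 : m - δ = m1 := by rw [hm, hδ]; ring
  rw [e0, e1] at heq
  have h := cubeAverage_mono
    (g := fun x => c0 + (c1 * ((g0 x + g1 x) / 2) + c2 * ((g0 x - g1 x) / 2)))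
    (h := fun x => LL (g0 x) (g1 x) + (-(kappa (δ / (1 + m)) - 2)) * io (g0 x) (g1 x))
    (fun x => by
      have := hsup (g0 x) (g1 x) (h0 x) (h1 x)
      linarith)
  have hl : cubeAverage (fun x => c0 + (c1 * ((g0 x + g1 x) / 2) + c2 * ((g0 x - g1 x) / 2))) =
      c0 + c1 * m + c2 * δ := by
    have e : (fun x => c0 + (c1 * ((g0 x + g1 x) / 2) + c2 * ((g0 x - g1 x) / 2))) =
        fun x => c0 + ((c1 + c2) / 2 * g0 x + (c1 - c2) / 2 * g1 x) := by
      funext x; ring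
    rw [e, cubeAverage_add (fun _ => c0) (fun x => (c1 + c2) / 2 * g0 x + (c1 - c2) / 2 * g1 x),
      cubeAverage_add (fun x => (c1 + c2) / 2 * g0 x) (fun x => (c1 - c2) / 2 * g1 x),
      cubeAverage_const, cubeAverage_const_mul, cubeAverage_const_mul, ← hm0, ← hm1, hm, hδ]
    ring
  rw [hl, cubeAverage_add (fun x => LL (g0 x) (g1 x)), cubeAverage_const_mul, heq] at h
  linarith

end Crest.Agent.R307
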