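import Crest.Agent.R307.SubDefs

/-!
Row 307 (S0472), task T10: region split (Q1) (helper208).
`SS (signEntropy m - A) ≤ PP (1 - m^2) A` for `0 < A ≤ (7/20)(1 - m^2)`.
-/

set_option autoImplicit false

open Set Crest.CubeNoise

namespace Crest.Agent.R307.Q1

open Crest.Agent.R307

/-! ### log bounds -/

lemma log2_lo : (0.6931471803 : ℝ) < Real.log 2 := Real.log_two_gt_d9
lemma log2_hi : Real.log 2 < (0.6931471808 : ℝ) := Real.log_two_lt_d9

lemma log3_bounds : (1.0986122 : ℝ) < Real.log 3 ∧ Real.log 3 < 1.0986124 := by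
  have h := Real.abs_log_sub_add_sum_range_le (x := 1 / 9) (by norm_num) 8
  have e : Real.log (1 - 1 / 9) = 3 * Real.log 2 - 2 * Real.log 3 := by
    rw [show (1 : ℝ) - 1 / 9 = 2 ^ 3 / 3 ^ 2 by norm_num,
      Real.log_div (by norm_num) (by norm_num), Real.log_pow, Real.log_pow]
    norm_num
  rw [e] at h
  norm_num [Finset.sum_range_succ] at h
  obtain ⟨h1, h2⟩ := abs_le.1 h
  have := log2_lo
  have := log2_hi
  constructor <;> linarith

lemma log5_bounds : (1.6094378 : ℝ) < Real.log 5 ∧ Real.log 5 < 1.6094380 := by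
  have h := Real.abs_log_sub_add_sum_range_le (x := 3 / 128) (by norm_num) 5
  have e : Real.log (1 - 3 / 128) = 3 * Real.log 5 - 7 * Real.log 2 := by
    rw [show (1 : ℝ) - 3 / 128 = 5 ^ 3 / 2 ^ 7 by norm_num,
      Real.log_div (by norm_num) (by norm_num), Real.log_pow, Real.log_pow]
    norm_num
  rw [e] at h
  norm_num [Finset.sum_range_succ] at h
  obtain ⟨h1, h2⟩ := abs_le.1 h
  have := log2_lo
  have := log2_hi
  constructor <;> linarith

lemma log7_bounds : (1.9459100 : ℝ) < Real.log 7 ∧ Real.log 7 < 1.9459103 := by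
  have h := Real.abs_log_sub_add_sum_range_le (x := 1 / 50) (by norm_num) 5
  have e : Real.log (1 - 1 / 50) = 2 * Real.log 7 - Real.log 2 - 2 * Real.log 5 := by
    rw [show (1 : ℝ) - 1 / 50 = 7 ^ 2 / (2 * 5 ^ 2) by norm_num,
      Real.log_div (by norm_num) (by norm_num), Real.log_mul (by norm_num) (by norm_num),
      Real.log_pow, Real.log_pow]
    push_cast
    ring
  rw [e] at h
  norm_num [Finset.sum_range_succ] at h
  obtain ⟨h1, h2⟩ := abs_le.1 h
  have := log2_lo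
  have := log2_hi
  obtain ⟨h3, h4⟩ := log5_bounds
  constructor <;> linarith

/-! ### `SS` -/

lemma hinv_spec {I : ℝ} (h0 : 0 ≤ I) (h1 : I < Real.log 2) :
    ∃ r : ℝ, 0 ≤ r ∧ r < 1 ∧ psi r = I ∧ SS I = sF r := by
  obtain ⟨r, hr0, hr1, hr⟩ := exists_psi_eq h0 h1
  exact ⟨r, hr0, hr1, hr, by rw [← hr, SS_psi hr0 hr1]⟩

/-- tangent lines of `SS` stay below -/
lemma SS_tangent {t I : ℝ} (h0 : 0 ≤ t) (h1 : t < 1) (hI : I < Real.log 2) :
    sF t + (kappa t - 2) * (I - psi t) ≤ SS I := by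
  rcases lt_or_ge I 0 with h | h
  · rw [SS_of_neg h]
    have e := F_tangent_le h0 h1 le_rfl one_pos
    rw [psi_zero, zero_mul] at e
    have hk := two_le_kappa h0 h1
    unfold sF
    nlinarith
  · obtain ⟨r, hr0, hr1, hr, hS⟩ := hinv_spec h hI
    have e := F_tangent_le h0 h1 hr0 hr1
    rw [hS, ← hr]
    unfold sF
    linarith

lemma SS_nonneg {I : ℝ} (hI : I < Real.log 2) : 0 ≤ SS I := by
  have := SS_tangent (t := 0) le_rfl one_pos hI
  rw [sF_zero, kappa_zero] at this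
  linarith

lemma SS_convexOn : ConvexOn ℝ (Iio (Real.log 2)) SS := by
  refine ⟨convex_Iio _, fun x hx y hy a b ha hb hab => ?_⟩
  simp only [smul_eq_mul]
  have hx' : x < Real.log 2 := hx
  have hy' : y < Real.log 2 := hy
  have hz : a * x + b * y < Real.log 2 := by
    have hmem := (convex_Iio (Real.log 2)) hx hy ha hb hab
    simpa using hmem
  rcases lt_or_ge (a * x + b * y) 0 with h | h
  · rw [SS_of_neg h]
    exact add_nonneg (mul_nonneg ha (SS_nonneg hx')) (mul_nonneg hb (SS_nonneg hy'))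
  · obtain ⟨r, hr0, hr1, hr, hS⟩ := hinv_spec h hz
    have e1 := SS_tangent hr0 hr1 hx'
    have e2 := SS_tangent hr0 hr1 hy'
    rw [hS]
    have e3 : sF r = a * (sF r + (kappa r - 2) * (x - psi r))
        + b * (sF r + (kappa r - 2) * (y - psi r)) := by
      have hb' : b = 1 - a := by linarith
      subst hb'
      linear_combination (kappa r - 2) * hr
    rw [e3]
    exact add_le_add (mul_le_mul_of_nonneg_left e1 ha) (mul_le_mul_of_nonneg_left e2 hb)

lemma SS_mono {x y : ℝ} (hxy : x ≤ y) (hy : y < Real.log 2) : SS x ≤ SS y := by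
  rcases lt_or_ge x 0 with h | h
  · rw [SS_of_neg h]; exact SS_nonneg hy
  · obtain ⟨r, hr0, hr1, hr, hS⟩ := hinv_spec h (lt_of_le_of_lt hxy hy)
    have e1 := SS_tangent hr0 hr1 hy
    have hk := two_le_kappa hr0 hr1
    rw [hS]
    rw [hr] at e1
    nlinarith

/-- chords stay above -/
lemma SS_le_line {y1 y2 y c σ : ℝ} (h1 : y1 ≤ y) (h2 : y ≤ y2) (h3 : y2 < Real.log 2)
    (e1 : SS y1 ≤ c + σ * y1) (e2 : SS y2 ≤ c + σ * y2) : SS y ≤ c + σ * y := by
  rcases eq_or_lt_of_le (h1.trans h2) with h | h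
  · have : y = y1 := le_antisymm (by linarith) h1
    rw [this]; exact e1
  · have hd : 0 < y2 - y1 := by linarith
    have hm1 : y1 ∈ Iio (Real.log 2) := by
      have : y1 < Real.log 2 := by linarith
      exact this
    have hm2 : y2 ∈ Iio (Real.log 2) := h3
    have ha : 0 ≤ (y2 - y) / (y2 - y1) := div_nonneg (by linarith) hd.le
    have hb : 0 ≤ (y - y1) / (y2 - y1) := div_nonneg (by linarith) hd.le
    have hab : (y2 - y) / (y2 - y1) + (y - y1) / (y2 - y1) = 1 := by field_simp; ring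
    have hc := SS_convexOn.2 hm1 hm2 ha hb hab
    simp only [smul_eq_mul] at hc
    have ey : (y2 - y) / (y2 - y1) * y1 + (y - y1) / (y2 - y1) * y2 = y := by
      field_simp; ring
    rw [ey] at hc
    refine hc.trans ?_
    calc (y2 - y) / (y2 - y1) * SS y1 + (y - y1) / (y2 - y1) * SS y2
        ≤ (y2 - y) / (y2 - y1) * (c + σ * y1) + (y - y1) / (y2 - y1) * (c + σ * y2) :=
          add_le_add (mul_le_mul_of_nonneg_left e1 ha) (mul_le_mul_of_nonneg_left e2 hb)
      _ = c * ((y2 - y) / (y2 - y1) + (y - y1) / (y2 - y1))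
          + σ * ((y2 - y) / (y2 - y1) * y1 + (y - y1) / (y2 - y1) * y2) := by ring
      _ = c + σ * y := by rw [hab, ey]; ring

/-! ### reduction to `A = (7/20) w` -/

/-- the reduction, using only the convexity of `SS` -/
lemma reduce {X1 X Y1 Y w : ℝ} (hX : X1 < X) (hY : Y1 < Y) (hXY : X ≤ Y)
    (hXY1 : X1 ≤ Y1) (hYl : Y < Real.log 2) (hlen : X - X1 = w * (Y - Y1))
    (h : SS X1 ≤ w * SS Y1) : SS X ≤ w * SS Y := by
  have hm : ∀ {z : ℝ}, z ≤ Y → z ∈ Iio (Real.log 2) := fun hz => lt_of_le_of_lt hz hYl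
  have s1 := SS_convexOn.secant_mono (a := X1) (x := X) (y := Y) (hm (by linarith)) (hm hXY)
    (hm le_rfl) hX.ne' (by linarith : X1 < Y).ne' hXY
  have s2 := SS_convexOn.secant_mono (a := Y) (x := X1) (y := Y1) (hm le_rfl) (hm (by linarith))
    (hm hY.le) (by linarith : X1 < Y).ne hY.ne hXY1
  have e1 : (SS X1 - SS Y) / (X1 - Y) = (SS Y - SS X1) / (Y - X1) := by
    rw [← neg_sub (SS Y), ← neg_sub Y, neg_div_neg_eq]
  have e2 : (SS Y1 - SS Y) / (Y1 - Y) = (SS Y - SS Y1) / (Y - Y1) := by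
    rw [← neg_sub (SS Y), ← neg_sub Y, neg_div_neg_eq]
  rw [e1, e2] at s2
  have s3 := s1.trans s2
  have hd1 : 0 < X - X1 := by linarith
  have hd2 : 0 < Y - Y1 := by linarith
  rw [div_le_div_iff₀ hd1 hd2, hlen] at s3
  have s4 : SS X - SS X1 ≤ w * (SS Y - SS Y1) := by
    have : (SS X - SS X1) * (Y - Y1) ≤ (w * (SS Y - SS Y1)) * (Y - Y1) := by linarith
    exact le_of_mul_le_mul_right this hd2
  linarith

/-! ### series bound for `psi` -/

lemma artanh_ge_poly {x : ℝ} (h0 : 0 ≤ x) (h1 : x < 1) :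
    x + x ^ 3 / 3 + x ^ 5 / 5 + x ^ 7 / 7 ≤ Real.artanh x := by
  have hmono : MonotoneOn (fun x => Real.artanh x - (x + x ^ 3 / 3 + x ^ 5 / 5 + x ^ 7 / 7))
      (Ico 0 1) := by
    have hd : ∀ x : ℝ, 0 ≤ x → x < 1 →
        HasDerivAt (fun x => Real.artanh x - (x + x ^ 3 / 3 + x ^ 5 / 5 + x ^ 7 / 7))
          (1 / (1 - x ^ 2) - (1 + x ^ 2 + x ^ 4 + x ^ 6)) x := by
      intro x hx0 hx1
      have d1 : HasDerivAt (fun x : ℝ => x + x ^ 3 / 3 + x ^ 5 / 5 + x ^ 7 / 7)
          (1 + x ^ 2 + x ^ 4 + x ^ 6) x := by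
        refine ((((hasDerivAt_id x).add ((hasDerivAt_pow 3 x).div_const 3)).add
          ((hasDerivAt_pow 5 x).div_const 5)).add ((hasDerivAt_pow 7 x).div_const 7)).congr_deriv ?_
        push_cast
        ring
      exact (hasDerivAt_artanh (abs_lt_one_of_mem hx0 hx1)).sub d1
    refine monotoneOn_of_deriv_nonneg (convex_Ico 0 1) ?_ ?_ ?_
    · intro x hx
      exact (hd x hx.1 hx.2).continuousAt.continuousWithinAt
    · rw [interior_Ico]
      intro x hx
      exact (hd x hx.1.le hx.2).differentiableAt.differentiableWithinAt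
    · rw [interior_Ico]
      intro x hx
      rw [(hd x hx.1.le hx.2).deriv, sub_nonneg]
      have h3 := one_sub_sq_pos hx.1.le hx.2
      rw [le_div_iff₀ h3]
      have : (1 + x ^ 2 + x ^ 4 + x ^ 6) * (1 - x ^ 2) = 1 - x ^ 8 := by ring
      rw [this]
      have : 0 ≤ x ^ 8 := by positivity
      linarith
  have := hmono (left_mem_Ico.mpr one_pos) ⟨h0, h1⟩ h0
  simp at this
  linarith

lemma psi_ge_poly {x : ℝ} (h0 : 0 ≤ x) (h1 : x < 1) :
    x ^ 2 / 2 + x ^ 4 / 12 + x ^ 6 / 30 + x ^ 8 / 56 ≤ psi x := by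
  have hmono : MonotoneOn (fun x => psi x - (x ^ 2 / 2 + x ^ 4 / 12 + x ^ 6 / 30 + x ^ 8 / 56))
      (Ico 0 1) := by
    have hd : ∀ x : ℝ, 0 ≤ x → x < 1 →
        HasDerivAt (fun x => psi x - (x ^ 2 / 2 + x ^ 4 / 12 + x ^ 6 / 30 + x ^ 8 / 56))
          (Real.artanh x - (x + x ^ 3 / 3 + x ^ 5 / 5 + x ^ 7 / 7)) x := by
      intro x hx0 hx1
      have d1 : HasDerivAt (fun x : ℝ => x ^ 2 / 2 + x ^ 4 / 12 + x ^ 6 / 30 + x ^ 8 / 56)
          (x + x ^ 3 / 3 + x ^ 5 / 5 + x ^ 7 / 7) x := by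
        refine (((((hasDerivAt_pow 2 x).div_const 2)).add ((hasDerivAt_pow 4 x).div_const 12)).add
          ((hasDerivAt_pow 6 x).div_const 30)).add
          ((hasDerivAt_pow 8 x).div_const 56) |>.congr_deriv ?_
        push_cast
        ring
      exact (hasDerivAt_psi (abs_lt_one_of_mem hx0 hx1)).sub d1
    refine monotoneOn_of_deriv_nonneg (convex_Ico 0 1) ?_ ?_ ?_
    · intro x hx
      exact (hd x hx.1 hx.2).continuousAt.continuousWithinAt
    · rw [interior_Ico]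
      intro x hx
      exact (hd x hx.1.le hx.2).differentiableAt.differentiableWithinAt
    · rw [interior_Ico]
      intro x hx
      rw [(hd x hx.1.le hx.2).deriv, sub_nonneg]
      exact artanh_ge_poly hx.1.le hx.2
  have := hmono (left_mem_Ico.mpr one_pos) ⟨h0, h1⟩ h0
  simp [psi_zero] at this
  linarith

/-! ### values at rational points -/

lemma psi_formula {r : ℝ} (hr : |r| ≤ 1) :
    psi r = ((1 + r) * Real.log (1 + r) + (1 - r) * Real.log (1 - r)) / 2 := by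
  unfold psi; rw [signEntropy_eq_logs hr]; ring

lemma sF_formula {r : ℝ} (hr : |r| < 1) :
    sF r = r * ((Real.log (1 + r) - Real.log (1 - r)) / 2) - 2 * psi r := by
  unfold sF; rw [artanh_eq_log_sub hr]

lemma log_ratio (a b : ℝ) (ha : 0 < a) (hb : 0 < b) :
    Real.log (a / b) = Real.log a - Real.log b := Real.log_div ha.ne' hb.ne'

/-- `r = 7/9` -/
lemma psi79 : psi (7 / 9) = 11 / 3 * Real.log 2 - 2 * Real.log 3 := by
  rw [psi_formula (by norm_num [abs_of_pos])]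
  rw [show (1 : ℝ) + 7 / 9 = 2 ^ 4 / 3 ^ 2 by norm_num, show (1 : ℝ) - 7 / 9 = 2 / 3 ^ 2 by norm_num,
    Real.log_div (by norm_num) (by norm_num), Real.log_div (by norm_num) (by norm_num),
    Real.log_pow, Real.log_pow]
  push_cast; ring

lemma artanh79 : Real.artanh (7 / 9) = 3 / 2 * Real.log 2 := by
  rw [artanh_eq_log_sub (by norm_num [abs_of_pos])]
  rw [show (1 : ℝ) + 7 / 9 = 2 ^ 4 / 3 ^ 2 by norm_num, show (1 : ℝ) - 7 / 9 = 2 / 3 ^ 2 by norm_num,
    Real.log_div (by norm_num) (by norm_num), Real.log_div (by norm_num) (by norm_num),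
    Real.log_pow, Real.log_pow]
  push_cast; ring

lemma psi34 : psi (3 / 4) = 7 / 8 * Real.log 7 - 2 * Real.log 2 := by
  rw [psi_formula (by norm_num [abs_of_pos])]
  rw [show (1 : ℝ) + 3 / 4 = 7 / 2 ^ 2 by norm_num, show (1 : ℝ) - 3 / 4 = 1 / 2 ^ 2 by norm_num,
    Real.log_div (by norm_num) (by norm_num), Real.log_div (by norm_num) (by norm_num),
    Real.log_pow, Real.log_one]
  push_cast; ring

lemma sF34 : sF (3 / 4) = 4 * Real.log 2 - 11 / 8 * Real.log 7 := by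
  rw [sF_formula (by norm_num [abs_of_pos]), psi34]
  rw [show (1 : ℝ) + 3 / 4 = 7 / 2 ^ 2 by norm_num, show (1 : ℝ) - 3 / 4 = 1 / 2 ^ 2 by norm_num,
    Real.log_div (by norm_num) (by norm_num), Real.log_div (by norm_num) (by norm_num),
    Real.log_pow, Real.log_one]
  push_cast; ring

lemma psi23 : psi (2 / 3) = 5 / 6 * Real.log 5 - Real.log 3 := by
  rw [psi_formula (by norm_num [abs_of_pos])]
  rw [show (1 : ℝ) + 2 / 3 = 5 / 3 by norm_num, show (1 : ℝ) - 2 / 3 = 1 / 3 by norm_num,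
    Real.log_div (by norm_num) (by norm_num), Real.log_div (by norm_num) (by norm_num),
    Real.log_one]
  ring

lemma sF23 : sF (2 / 3) = 2 * Real.log 3 - 4 / 3 * Real.log 5 := by
  rw [sF_formula (by norm_num [abs_of_pos]), psi23]
  rw [show (1 : ℝ) + 2 / 3 = 5 / 3 by norm_num, show (1 : ℝ) - 2 / 3 = 1 / 3 by norm_num,
    Real.log_div (by norm_num) (by norm_num), Real.log_div (by norm_num) (by norm_num),
    Real.log_one]
  ring

lemma psi12 : psi (1 / 2) = 3 / 4 * Real.log 3 - Real.log 2 := by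
  rw [psi_formula (by norm_num [abs_of_pos])]
  rw [show (1 : ℝ) + 1 / 2 = 3 / 2 by norm_num, show (1 : ℝ) - 1 / 2 = 1 / 2 by norm_num,
    Real.log_div (by norm_num) (by norm_num), Real.log_div (by norm_num) (by norm_num),
    Real.log_one]
  ring

lemma sF12 : sF (1 / 2) = 2 * Real.log 2 - 5 / 4 * Real.log 3 := by
  rw [sF_formula (by norm_num [abs_of_pos]), psi12]
  rw [show (1 : ℝ) + 1 / 2 = 3 / 2 by norm_num, show (1 : ℝ) - 1 / 2 = 1 / 2 by norm_num,
    Real.log_div (by norm_num) (by norm_num), Real.log_div (by norm_num) (by norm_num),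
    Real.log_one]
  ring

lemma psi13 : psi (1 / 3) = 5 / 3 * Real.log 2 - Real.log 3 := by
  rw [psi_formula (by norm_num [abs_of_pos])]
  rw [show (1 : ℝ) + 1 / 3 = 2 ^ 2 / 3 by norm_num, show (1 : ℝ) - 1 / 3 = 2 / 3 by norm_num,
    Real.log_div (by norm_num) (by norm_num), Real.log_div (by norm_num) (by norm_num),
    Real.log_pow]
  push_cast; ring

lemma sF13 : sF (1 / 3) = 2 * Real.log 3 - 19 / 6 * Real.log 2 := by
  rw [sF_formula (by norm_num [abs_of_pos]), psi13]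
  rw [show (1 : ℝ) + 1 / 3 = 2 ^ 2 / 3 by norm_num, show (1 : ℝ) - 1 / 3 = 2 / 3 by norm_num,
    Real.log_div (by norm_num) (by norm_num), Real.log_div (by norm_num) (by norm_num),
    Real.log_pow]
  push_cast; ring

/-- lower bound for `SS (log 2 - 7/20)` -/
lemma Sstar_lo : (0.1189 : ℝ) ≤ SS (Real.log 2 - 7 / 20) := by
  have h2 := log2_lo
  have h2' := log2_hi
  obtain ⟨h3, h3'⟩ := log3_bounds
  have ht := SS_tangent (t := 7 / 9) (I := Real.log 2 - 7 / 20) (by norm_num) (by norm_num)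
    (by linarith)
  have hk : kappa (7 / 9) = 1 + 21 / 16 / Real.log 2 := by
    rw [kappa_of_pos (by norm_num), artanh79]
    field_simp
    ring
  have hs : sF (7 / 9) = 4 * Real.log 3 - 37 / 6 * Real.log 2 := by
    unfold sF; rw [psi79, artanh79]; ring
  rw [hk, hs, psi79] at ht
  have hl : (0 : ℝ) < Real.log 2 := by linarith
  have hk2 : 21 / 16 / Real.log 2 ≤ (1.9 : ℝ) := by
    rw [div_le_iff₀ hl]; linarith
  have hk3 : (1 : ℝ) ≤ 21 / 16 / Real.log 2 := by
    rw [le_div_iff₀ hl]; linarith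
  have hu : -(0.00117 : ℝ) ≤ Real.log 2 - 7 / 20 - (11 / 3 * Real.log 2 - 2 * Real.log 3) := by
    linarith
  have hu2 : Real.log 2 - 7 / 20 - (11 / 3 * Real.log 2 - 2 * Real.log 3) ≤ 0 := by
    linarith
  nlinarith

/-! ### the one-variable inequality -/

/-- upper bound for the argument -/
lemma arg_le {m : ℝ} (h0 : 0 ≤ m) (h1 : m < 1) :
    signEntropy m - 7 / 20 * (1 - m ^ 2)
      ≤ Real.log 2 - 7 / 20 - (3 / 20 * m ^ 2 + (m ^ 2) ^ 2 / 12 + (m ^ 2) ^ 3 / 30
        + (m ^ 2) ^ 4 / 56) := by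
  have h := psi_ge_poly h0 h1
  unfold psi at h
  nlinarith

/-- chord 1 -/
lemma case1 {x y : ℝ} (hx0 : 0 ≤ x)
    (hy1 : psi (3 / 4) ≤ y) (hy : y ≤ Real.log 2 - 7 / 20 - 3 / 20 * x) :
    SS y ≤ (1 - x) * SS (Real.log 2 - 7 / 20) := by
  have h2 := log2_lo
  have h2' := log2_hi
  obtain ⟨h7, h7'⟩ := log7_bounds
  set S := SS (Real.log 2 - 7 / 20) with hS
  have hSlo : (0.1189 : ℝ) ≤ S := Sstar_lo
  set a := Real.log 2 - 7 / 20 with ha
  set y1 := psi (3 / 4) with hy1d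
  have hy1v : y1 = 7 / 8 * Real.log 7 - 2 * Real.log 2 := psi34
  have hS1 : SS y1 = sF (3 / 4) := SS_psi (by norm_num) (by norm_num)
  have hδ : 0 < a - y1 := by rw [ha, hy1v]; linarith
  -- the line through the two points
  set σ := (S - SS y1) / (a - y1) with hσ
  have hline : SS y ≤ (S - σ * a) + σ * y := by
    refine SS_le_line (y1 := y1) (y2 := a) hy1 (by linarith) (by rw [ha]; linarith) ?_ ?_
    · have : σ * (a - y1) = S - SS y1 := by rw [hσ]; field_simp
      linarith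
    · rw [← hS]; linarith
  have hkey : S ≤ σ * (3 / 20) := by
    rw [hσ, div_mul_eq_mul_div, le_div_iff₀ hδ, hS1, sF34, hy1v, ha]
    nlinarith
  have hσ0 : 0 ≤ σ := by nlinarith
  nlinarith [mul_le_mul_of_nonneg_left hy hσ0, mul_le_mul_of_nonneg_right hkey hx0]

/-- chord 2 -/
lemma case2 {x y : ℝ} (hx0 : 0 ≤ x) (hx1 : x ≤ 1)
    (hy1 : psi (2 / 3) ≤ y) (hy2 : y ≤ psi (3 / 4))
    (hy : y ≤ Real.log 2 - 7 / 20 - (3 / 20 * x + x ^ 2 / 12 + x ^ 3 / 30 + x ^ 4 / 56)) :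
    SS y ≤ (1 - x) * SS (Real.log 2 - 7 / 20) := by
  have h2 := log2_lo
  have h2' := log2_hi
  obtain ⟨h3, h3'⟩ := log3_bounds
  obtain ⟨h5, h5'⟩ := log5_bounds
  obtain ⟨h7, h7'⟩ := log7_bounds
  have hSlo := Sstar_lo
  have hline : SS y ≤ -0.0987 + 0.6187 * y := by
    refine SS_le_line hy1 hy2 (by rw [psi34]; linarith) ?_ ?_
    · rw [SS_psi (by norm_num) (by norm_num), sF23, psi23]; linarith
    · rw [SS_psi (by norm_num) (by norm_num), sF34, psi34]; linarith
  have hx3 : 0 ≤ x ^ 3 := by positivity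
  have hx4 : 0 ≤ x ^ 4 := by positivity
  have hpoly : -0.0987 + 0.6187 * y ≤ (1 - x) * 0.1189 := by
    nlinarith [sq_nonneg (x - 0.25)]
  have := mul_le_mul_of_nonneg_left hSlo (by linarith : 0 ≤ 1 - x)
  linarith

/-- chord 3 -/
lemma case3 {x y : ℝ} (hx0 : 0 ≤ x) (hx1 : x ≤ 1)
    (hy1 : psi (1 / 2) ≤ y) (hy2 : y ≤ psi (2 / 3))
    (hy : y ≤ Real.log 2 - 7 / 20 - (3 / 20 * x + x ^ 2 / 12 + x ^ 3 / 30 + x ^ 4 / 56)) :
    SS y ≤ (1 - x) * SS (Real.log 2 - 7 / 20) := by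
  have h2 := log2_lo
  have h2' := log2_hi
  obtain ⟨h3, h3'⟩ := log3_bounds
  obtain ⟨h5, h5'⟩ := log5_bounds
  have hSlo := Sstar_lo
  have hline : SS y ≤ -0.03177 + 0.3425 * y := by
    refine SS_le_line hy1 hy2 (by rw [psi23]; linarith) ?_ ?_
    · rw [SS_psi (by norm_num) (by norm_num), sF12, psi12]; linarith
    · rw [SS_psi (by norm_num) (by norm_num), sF23, psi23]; linarith
  have hx3 : 1.5552 * x - 0.746496 ≤ x ^ 3 := by
    nlinarith [mul_nonneg (by linarith : (0:ℝ) ≤ x + 1.44) (sq_nonneg (x - 0.72))]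
  have hx4 : 1.492992 * x - 0.80621568 ≤ x ^ 4 := by
    nlinarith [sq_nonneg (x ^ 2 - 0.5184), sq_nonneg (x - 0.72)]
  have hx2 : 1.44 * x - 0.5184 ≤ x ^ 2 := by nlinarith [sq_nonneg (x - 0.72)]
  have hpoly : -0.03177 + 0.3425 * y ≤ (1 - x) * 0.1189 := by
    nlinarith
  have := mul_le_mul_of_nonneg_left hSlo (by linarith : 0 ≤ 1 - x)
  linarith

/-- chord 4 -/
lemma case4 {x y : ℝ} (hx0 : 0 ≤ x) (hx1 : x ≤ 0.94)
    (hy1 : psi (1 / 3) ≤ y) (hy2 : y ≤ psi (1 / 2))
    (hy : y ≤ Real.log 2 - 7 / 20 - (3 / 20 * x + x ^ 2 / 12 + x ^ 3 / 30 + x ^ 4 / 56)) :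
    SS y ≤ (1 - x) * SS (Real.log 2 - 7 / 20) := by
  have h2 := log2_lo
  have h2' := log2_hi
  obtain ⟨h3, h3'⟩ := log3_bounds
  have hSlo := Sstar_lo
  have hline : SS y ≤ -0.005963 + 0.1452 * y := by
    refine SS_le_line hy1 hy2 (by rw [psi12]; linarith) ?_ ?_
    · rw [SS_psi (by norm_num) (by norm_num), sF13, psi13]; linarith
    · rw [SS_psi (by norm_num) (by norm_num), sF12, psi12]; linarith
  have hx2 : 1.88 * x - 0.8836 ≤ x ^ 2 := by nlinarith [sq_nonneg (x - 0.94)]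
  have hx3 : 2.6508 * x - 1.661168 ≤ x ^ 3 := by
    nlinarith [mul_nonneg (by linarith : (0:ℝ) ≤ x + 1.88) (sq_nonneg (x - 0.94))]
  have hx4 : 3.322336 * x - 2.34224688 ≤ x ^ 4 := by
    nlinarith [sq_nonneg (x ^ 2 - 0.8836), sq_nonneg (x - 0.94)]
  have hpoly : -0.005963 + 0.1452 * y ≤ (1 - x) * 0.1189 := by
    nlinarith
  have := mul_le_mul_of_nonneg_left hSlo (by linarith : 0 ≤ 1 - x)
  linarith

/-- below `psi (1/3)` -/
lemma case5 {x y : ℝ} (hx1 : x ≤ 0.94) (hy2 : y ≤ psi (1 / 3)) :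
    SS y ≤ (1 - x) * SS (Real.log 2 - 7 / 20) := by
  have h2 := log2_lo
  have h2' := log2_hi
  obtain ⟨h3, h3'⟩ := log3_bounds
  have hSlo := Sstar_lo
  have h1 := SS_mono hy2 (by rw [psi13]; linarith)
  rw [SS_psi (by norm_num) (by norm_num), sF13] at h1
  nlinarith

/-- `SS y ≤ y^2` for `y ≤ psi (1/2)` -/
lemma SS_le_sq {y : ℝ} (h0 : 0 ≤ y) (hy : y ≤ psi (1 / 2)) : SS y ≤ y ^ 2 := by
  have h2 := log2_lo
  have h2' := log2_hi
  obtain ⟨h3, h3'⟩ := log3_bounds
  obtain ⟨r, hr0, hr1, hr, hS⟩ := hinv_spec h0 (lt_of_le_of_lt hy (by rw [psi12]; linarith))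
  have hr2 : r ≤ 1 / 2 := by
    by_contra hcon
    have := strictMonoOn_psi ⟨by norm_num, by norm_num⟩ ⟨hr0, hr1.le⟩ (not_le.1 hcon)
    linarith
  have hpsi : r ^ 2 / 2 ≤ psi r := by
    have := psi_ge_poly hr0 hr1
    have h4 : 0 ≤ r ^ 4 := by positivity
    have h6 : 0 ≤ r ^ 6 := by positivity
    have h8 : 0 ≤ r ^ 8 := by positivity
    linarith
  have hsF : sF r ≤ r ^ 4 / 4 := by
    have hmono : MonotoneOn (fun x => x ^ 4 / 4 - sF x) (Icc 0 (1 / 2)) := by
      have hd : ∀ x : ℝ, 0 ≤ x → x < 1 →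
          HasDerivAt (fun x => x ^ 4 / 4 - sF x) (x ^ 3 - (x / (1 - x ^ 2) - Real.artanh x)) x := by
        intro x hx0 hx1
        have hx := abs_lt_one_of_mem hx0 hx1
        have d1 : HasDerivAt sF (x / (1 - x ^ 2) - Real.artanh x) x := by
          refine (((hasDerivAt_id x).mul (hasDerivAt_artanh hx)).sub
            ((hasDerivAt_psi hx).const_mul 2)).congr_deriv ?_
          simp only [id]
          ring
        refine (((hasDerivAt_pow 4 x).div_const 4).sub d1).congr_deriv ?_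
        push_cast
        ring
      refine monotoneOn_of_deriv_nonneg (convex_Icc _ _) ?_ ?_ ?_
      · intro x hx
        exact (hd x hx.1 (by linarith [hx.2])).continuousAt.continuousWithinAt
      · rw [interior_Icc]
        intro x hx
        exact (hd x hx.1.le (by linarith [hx.2])).differentiableAt.differentiableWithinAt
      · rw [interior_Icc]
        intro x hx
        have hx1 : x < 1 := by linarith [hx.2]
        rw [(hd x hx.1.le hx1).deriv]
        have h3 := one_sub_sq_pos hx.1.le hx1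
        have ha := artanh_ge_poly hx.1.le hx1
        have h5 : 0 ≤ x ^ 5 := by have := hx.1; positivity
        have h7 : 0 ≤ x ^ 7 := by have := hx.1; positivity
        have hq : x / (1 - x ^ 2) ≤ x + 4 / 3 * x ^ 3 := by
          rw [div_le_iff₀ h3]
          have hx2 : x ^ 2 ≤ 1 / 4 := by nlinarith [hx.1, hx.2]
          have hx3 : 0 ≤ x ^ 3 := by have := hx.1; positivity
          nlinarith [mul_le_mul_of_nonneg_left hx2 hx3]
        linarith
    have := hmono ⟨le_rfl, by norm_num⟩ ⟨hr0, hr2⟩ hr0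
    simp [sF_zero] at this
    linarith
  rw [hS]
  have h5 : (r ^ 2 / 2) ^ 2 ≤ y ^ 2 := by
    rw [← hr]
    exact pow_le_pow_left₀ (by positivity) hpsi 2
  nlinarith

/-! ### `m` close to `1` -/

lemma h_le {m : ℝ} (h0 : -1 < m) (h1 : m < 1) :
    signEntropy m ≤ (1 - m) / 2 * (1 - Real.log ((1 - m) / 2)) := by
  unfold signEntropy
  rw [← Real.binEntropy_one_sub, show 1 - (1 + m) / 2 = (1 - m) / 2 by ring]
  set p := (1 - m) / 2 with hp
  have hp0 : 0 < p := by rw [hp]; linarith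
  have hp1 : 0 < 1 - p := by rw [hp]; linarith
  rw [Real.binEntropy_eq_negMulLog_add_negMulLog_one_sub]
  unfold Real.negMulLog
  have h := Real.one_sub_inv_le_log_of_pos hp1
  have h2 := mul_le_mul_of_nonneg_left h hp1.le
  rw [mul_sub, mul_inv_cancel₀ hp1.ne'] at h2
  linarith

lemma key_small {p : ℝ} (hp0 : 0 < p) (hp : p ≤ 1 / 64) :
    p * (1 - Real.log p) ≤ (1 + 6 * Real.log 2) / 64 ∧
    (p * (1 - Real.log p)) ^ 2 ≤ p * ((1 + 6 * Real.log 2) ^ 2 / 64) ∧
    0 ≤ p * (1 - Real.log p) := by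
  have h2 := log2_lo
  set q := Real.sqrt (64 * p) with hq
  have hq0 : 0 < q := Real.sqrt_pos.2 (by linarith)
  have hq2 : q ^ 2 = 64 * p := Real.sq_sqrt (by linarith)
  have hq1 : q ≤ 1 := by
    by_contra hcon
    have := not_le.1 hcon
    nlinarith
  have hlog : Real.log p = 2 * Real.log q - 6 * Real.log 2 := by
    have e1 : Real.log (q ^ 2) = Real.log 64 + Real.log p := by
      rw [hq2, Real.log_mul (by norm_num) hp0.ne']
    rw [Real.log_pow, show (64 : ℝ) = 2 ^ 6 by norm_num, Real.log_pow] at e1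
    push_cast at e1
    linarith
  have hql := Real.one_sub_inv_le_log_of_pos hq0
  have hql2 := mul_le_mul_of_nonneg_left hql hq0.le
  rw [mul_sub, mul_inv_cancel₀ hq0.ne'] at hql2
  have hlq : Real.log q ≤ 0 := Real.log_nonpos hq0.le hq1
  have hA : q * (1 - Real.log p) ≤ 1 + 6 * Real.log 2 := by
    rw [hlog]; nlinarith
  have hA0 : 0 ≤ q * (1 - Real.log p) := by
    rw [hlog]
    apply mul_nonneg hq0.le
    linarith
  have hpe : p * (1 - Real.log p) = q / 64 * (q * (1 - Real.log p)) := by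
    have : p = q ^ 2 / 64 := by linarith
    rw [show q / 64 * (q * (1 - Real.log p)) = q ^ 2 / 64 * (1 - Real.log p) by ring, ← this]
  refine ⟨?_, ?_, ?_⟩
  · rw [hpe]
    calc q / 64 * (q * (1 - Real.log p)) ≤ 1 / 64 * (1 + 6 * Real.log 2) :=
          mul_le_mul (by linarith) hA hA0 (by norm_num)
      _ = _ := by ring
  · rw [hpe, mul_pow]
    have h3 : (q * (1 - Real.log p)) ^ 2 ≤ (1 + 6 * Real.log 2) ^ 2 :=
      pow_le_pow_left₀ hA0 hA 2
    have h4 : (q / 64) ^ 2 = p / 64 := by rw [div_pow, hq2]; ring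
    rw [h4]
    calc p / 64 * (q * (1 - Real.log p)) ^ 2 ≤ p / 64 * (1 + 6 * Real.log 2) ^ 2 :=
          mul_le_mul_of_nonneg_left h3 (by positivity)
      _ = _ := by ring
  · rw [hpe]; positivity

lemma case6 {m : ℝ} (h0 : 31 / 32 ≤ m) (h1 : m < 1) :
    SS (signEntropy m - 7 / 20 * (1 - m ^ 2)) ≤ (1 - m ^ 2) * SS (Real.log 2 - 7 / 20) := by
  have h2 := log2_lo
  have h2' := log2_hi
  obtain ⟨h3, h3'⟩ := log3_bounds
  have hSlo := Sstar_lo
  set y := signEntropy m - 7 / 20 * (1 - m ^ 2) with hy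
  have hw : 0 < 1 - m ^ 2 := by nlinarith
  rcases lt_or_ge y 0 with hy0 | hy0
  · rw [SS_of_neg hy0]
    exact mul_nonneg hw.le (by linarith)
  · have hle := h_le (by linarith : -1 < m) h1
    set p := (1 - m) / 2 with hp
    have hp0 : 0 < p := by rw [hp]; linarith
    have hp1 : p ≤ 1 / 64 := by rw [hp]; linarith
    obtain ⟨k1, k2, k3⟩ := key_small hp0 hp1
    have hyY : y ≤ p * (1 - Real.log p) := by rw [hy]; linarith
    have hy12 : y ≤ psi (1 / 2) := by
      rw [psi12]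
      have : (1 + 6 * Real.log 2) / 64 ≤ (0.09 : ℝ) := by linarith
      linarith
    have hsq := SS_le_sq hy0 hy12
    have hy2 : y ^ 2 ≤ (p * (1 - Real.log p)) ^ 2 := pow_le_pow_left₀ hy0 hyY 2
    have hc : (1 + 6 * Real.log 2) ^ 2 / 64 ≤ (0.42 : ℝ) := by
      have : (1 + 6 * Real.log 2) ^ 2 ≤ (5.16 : ℝ) ^ 2 :=
        pow_le_pow_left₀ (by linarith) (by linarith) 2
      linarith
    have hw2 : 1 - m ^ 2 = 4 * p * (1 - p) := by rw [hp]; ring
    have hf : p * ((1 + 6 * Real.log 2) ^ 2 / 64) ≤ p * 0.42 :=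
      mul_le_mul_of_nonneg_left hc hp0.le
    have hg : p * 0.42 ≤ (1 - m ^ 2) * 0.1189 := by
      rw [hw2]
      nlinarith
    have hh := mul_le_mul_of_nonneg_left hSlo hw.le
    linarith

/-- the one-variable inequality -/
theorem one_var {m : ℝ} (hm : |m| < 1) :
    SS (signEntropy m - 7 / 20 * (1 - m ^ 2)) ≤ (1 - m ^ 2) * SS (Real.log 2 - 7 / 20) := by
  -- reduce to `0 ≤ m`
  suffices H : ∀ m : ℝ, 0 ≤ m → m < 1 →
      SS (signEntropy m - 7 / 20 * (1 - m ^ 2)) ≤ (1 - m ^ 2) * SS (Real.log 2 - 7 / 20) by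
    have := H |m| (abs_nonneg m) hm
    rwa [signEntropy_abs, sq_abs] at this
  intro m h0 h1
  rcases le_or_gt (31 / 32) m with hc | hc
  · exact case6 hc h1
  · have hx0 : 0 ≤ m ^ 2 := sq_nonneg m
    have hx1 : m ^ 2 ≤ 0.94 := by nlinarith
    have harg := arg_le h0 h1
    set y := signEntropy m - 7 / 20 * (1 - m ^ 2) with hy
    have hx2 : 0 ≤ (m ^ 2) ^ 2 / 12 + (m ^ 2) ^ 3 / 30 + (m ^ 2) ^ 4 / 56 := by positivity
    rcases le_total (psi (3 / 4)) y with c1 | c1
    · exact case1 hx0 c1 (by linarith)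
    rcases le_total (psi (2 / 3)) y with c2 | c2
    · exact case2 hx0 (by linarith) c2 c1 harg
    rcases le_total (psi (1 / 2)) y with c3 | c3
    · exact case3 hx0 (by linarith) c3 c2 harg
    rcases le_total (psi (1 / 3)) y with c4 | c4
    · exact case4 hx0 hx1 c4 c3 harg
    · exact case5 hx1 c4

end Crest.Agent.R307.Q1

namespace Crest.Agent.R307

open Q1 in
/-- T10: region split (Q1) -/
theorem SS_le_PP {m A : ℝ} (hm : |m| < 1) (hA0 : 0 < A) (hA : A ≤ 7 / 20 * (1 - m ^ 2)) :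
    SS (signEntropy m - A) ≤ PP (1 - m ^ 2) A := by
  have hm2 : m ^ 2 < 1 := (sq_lt_one_iff_abs_lt_one m).mpr hm
  have hw : 0 < 1 - m ^ 2 := by linarith
  have h1v := one_var hm
  unfold PP
  set w := 1 - m ^ 2 with hwd
  set a := A / w with ha
  have hAw : A = a * w := by rw [ha]; field_simp
  have ha0 : 0 < a := by rw [ha]; positivity
  have ha1 : a ≤ 7 / 20 := by rw [ha, div_le_iff₀ hw]; exact hA
  have hpsi : m ^ 2 / 2 ≤ psi m := by
    have h := psi_ge_poly (abs_nonneg m) hm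
    have e : psi |m| = psi m := by unfold psi; rw [signEntropy_abs]
    rw [e, sq_abs] at h
    have h4 : 0 ≤ |m| ^ 4 := by positivity
    have h6 : 0 ≤ |m| ^ 6 := by positivity
    have h8 : 0 ≤ |m| ^ 8 := by positivity
    linarith
  unfold psi at hpsi
  rcases eq_or_lt_of_le ha1 with h | h
  · rw [hAw, h]; exact h1v
  · rw [hAw]
    have hmw : m ^ 2 = 1 - w := by rw [hwd]; ring
    have hsq : 0 ≤ m ^ 2 := sq_nonneg m
    refine reduce (X1 := signEntropy m - 7 / 20 * w) (Y1 := Real.log 2 - 7 / 20) ?_ ?_ ?_ ?_ ?_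
      ?_ h1v
    · nlinarith
    · linarith
    · nlinarith
    · nlinarith
    · linarith
    · ring

end Crest.Agent.R307
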