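import Crest.Agent.R307.Final72
import Crest.Agent.R307.Local
import Crest.Agent.R307.LSupp
import Crest.Agent.R307.Ione
import Crest.Agent.R307.Corner
import Crest.Agent.R307.Qone
import Crest.Agent.R307.GGmain

/-!
Row 307 (S0472), T12: the landed modules in the form of `Final72.lean`.
-/

set_option autoImplicit false

open Crest.CubeNoise Set

namespace Crest.Agent.R307

theorem localStmt : LocalStmt := by
  intro n g0 g1 h0 h1 m δ w V hm hδ hw hV
  have hV' : V = VV g0 g1 := by
    unfold VV; rw [hV, hm]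
  subst hV'
  subst hw hδ hm
  exact ⟨VV_nonneg g0 g1, abs_delta_lt h0 h1, local_bound h0 h1⟩

theorem lSuppStmt : LSuppStmt := by
  intro n g0 g1 h0 h1 m δ hm hδ hm0 hδ0
  exact LL_cube_support g0 g1 h0 h1 rfl rfl hm hδ hm0 hδ0

theorem ioneStmt : IoneStmt := by
  intro n g0 g1 h0 h1 m w V y hm hw hm0 hV hy
  have h := Ione_cube g0 g1 h0 h1 hm hm0 hV
  rw [← hy, ← hw] at h
  exact h

theorem cornerStmt : CornerStmt := by
  intro n g0 g1 h0 h1 m δ V hm hδ hm0 hδ0 hV
  subst hm hδ hV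
  exact Corner.corner_cube h0 h1 hm0 hδ0

theorem qoneStmt : QoneStmt := fun _ _ hm hA0 hA => SS_le_PP hm hA0 hA

theorem ggStmt : GGStmt := fun n g hg t h0 h1 => GG_le_production n g hg t h0 h1

/-- S0472 from T11 alone. -/
theorem s0472_of_FF (H11 : FFStmt) (n : ℕ) (g : (Fin n → Bool) → ℝ)
    (hg : ∀ x, |g x| < 1) :
    (∀ r : ℝ, 0 ≤ r → r < 1 → Real.log 2 - signEntropy r = information g →
        r * Real.artanh r ≤ production g) ∧
    (surplusArg g < 0 → 2 * information g ≤ production g) ∧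
    (∀ s : ℝ, 0 ≤ s → s < 1 → Real.log 2 - signEntropy s = surplusArg g →
        2 * information g + (1 - cubeAverage g ^ 2) * (s * Real.artanh s - 2 * surplusArg g)
          ≤ production g) :=
  s0472_of_interface ggStmt qoneStmt localStmt cornerStmt lSuppStmt ioneStmt H11 n g hg

/-- S0470 from T11 alone. -/
theorem s0470_of_FF (H11 : FFStmt) (n : ℕ) (u : (Fin n → Bool) → ℝ)
    (hu : ∀ x, |u x| ≤ 1) (ρ : ℝ) (hρ : |ρ| ≤ 1) (r : ℝ) (hr : 0 ≤ r) (hr1 : r ≤ 1)
    (hI : information u = Real.log 2 - signEntropy r) :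
    information (noise ρ u) ≤ Real.log 2 - signEntropy (|ρ| * r) :=
  s0470_of_interface ggStmt qoneStmt localStmt cornerStmt lSuppStmt ioneStmt H11
    n u hu ρ hρ r hr hr1 hI

end Crest.Agent.R307
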