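import Mathlib

/-!
Row 307 (S0472), task T11 (helper437): a small verified interval-arithmetic evaluator for polynomial
expressions in two real variables and one real parameter, to be run by `decide +kernel`.
-/

set_option autoImplicit false

namespace Crest.Agent.R307.IChk

/-- scale of the fixed-point intervals -/
abbrev SC : ℤ := 1073741824

/-- intervals `[lo / SC, hi / SC]` -/
structure Iv where
  lo : ℤ
  hi : ℤ

/-- membership of a real in a fixed-point interval -/
def Iv.mem (v : ℝ) (I : Iv) : Prop := (I.lo : ℝ) ≤ v * (SC : ℝ) ∧ v * (SC : ℝ) ≤ (I.hi : ℝ)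

def Iv.add (I J : Iv) : Iv := ⟨I.lo + J.lo, I.hi + J.hi⟩
def Iv.sub (I J : Iv) : Iv := ⟨I.lo - J.hi, I.hi - J.lo⟩
/-- general product -/
def Iv.mulG (I J : Iv) : Iv :=
  ⟨(min (min (I.lo * J.lo) (I.lo * J.hi)) (min (I.hi * J.lo) (I.hi * J.hi))) / SC,
   -((-(max (max (I.lo * J.lo) (I.lo * J.hi)) (max (I.hi * J.lo) (I.hi * J.hi)))) / SC)⟩

/-- product, with a fast path for nonnegative intervals -/
def Iv.mul : Iv → Iv → Iv
  | ⟨.ofNat a, .ofNat b⟩, ⟨.ofNat c, .ofNat d⟩ =>
      ⟨.ofNat (a * c / 1073741824), .ofNat ((b * d + 1073741823) / 1073741824)⟩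
  | I, J => Iv.mulG I J

/-- the interval of the rational number `n / d` -/
def Iv.const (n : ℤ) (d : ℕ) : Iv := ⟨n * SC / (d : ℤ), -((-(n * SC)) / (d : ℤ))⟩

/-- expressions -/
inductive Ex where
  | c (n : ℤ) (d : ℕ)
  | x
  | y
  | p
  | r
  | add (a b : Ex)
  | sub (a b : Ex)
  | mul (a b : Ex)

/-- real value -/
noncomputable def Ex.val (x y p r : ℝ) : Ex → ℝ
  | .c n d => (n : ℝ) / (d : ℝ)
  | .x => x
  | .y => y
  | .p => p
  | .r => r
  | .add a b => a.val x y p r + b.val x y p r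
  | .sub a b => a.val x y p r - b.val x y p r
  | .mul a b => a.val x y p r * b.val x y p r

/-- interval value -/
def Ex.iv (X Y P R : Iv) : Ex → Iv
  | .c n d => Iv.const n d
  | .x => X
  | .y => Y
  | .p => P
  | .r => R
  | .add a b => (a.iv X Y P R).add (b.iv X Y P R)
  | .sub a b => (a.iv X Y P R).sub (b.iv X Y P R)
  | .mul a b => (a.iv X Y P R).mul (b.iv X Y P R)

/-- all constants of the expression have nonzero denominators -/
def Ex.ok : Ex → Bool
  | .c _ d => decide (d ≠ 0)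
  | .x => true
  | .y => true
  | .p => true
  | .r => true
  | .add a b => a.ok && b.ok
  | .sub a b => a.ok && b.ok
  | .mul a b => a.ok && b.ok

theorem SC_pos : (0 : ℝ) < (SC : ℝ) := by norm_num

theorem floor_div_le (a : ℤ) {d : ℤ} (hd : 0 < d) : ((a / d : ℤ) : ℝ) ≤ (a : ℝ) / (d : ℝ) := by
  have h : (a / d) * d ≤ a := Int.ediv_mul_le a hd.ne'
  have hd' : (0 : ℝ) < (d : ℝ) := by exact_mod_cast hd
  rw [le_div_iff₀ hd']
  exact_mod_cast h

theorem le_neg_floor_div (a : ℤ) {d : ℤ} (hd : 0 < d) :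
    (a : ℝ) / (d : ℝ) ≤ ((-((-a) / d) : ℤ) : ℝ) := by
  have h := floor_div_le (-a) hd
  push_cast at h ⊢
  rw [neg_div] at h
  linarith

theorem mem_add {u v : ℝ} {I J : Iv} (hu : I.mem u) (hv : J.mem v) : (I.add J).mem (u + v) := by
  obtain ⟨h1, h2⟩ := hu
  obtain ⟨h3, h4⟩ := hv
  refine ⟨?_, ?_⟩ <;> simp only [Iv.add, Int.cast_add, add_mul] <;> linarith

theorem mem_sub {u v : ℝ} {I J : Iv} (hu : I.mem u) (hv : J.mem v) : (I.sub J).mem (u - v) := by
  obtain ⟨h1, h2⟩ := hu
  obtain ⟨h3, h4⟩ := hv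
  refine ⟨?_, ?_⟩ <;> simp only [Iv.sub, Int.cast_sub, sub_mul] <;> linarith

theorem mul_bounds {a b c d u v : ℝ} (h1 : a ≤ u) (h2 : u ≤ b) (h3 : c ≤ v) (h4 : v ≤ d) :
    min (min (a * c) (a * d)) (min (b * c) (b * d)) ≤ u * v ∧
      u * v ≤ max (max (a * c) (a * d)) (max (b * c) (b * d)) := by
  constructor
  · rcases le_total 0 v with hv | hv
    · have e1 : a * v ≤ u * v := mul_le_mul_of_nonneg_right h1 hv
      refine le_trans ?_ e1
      rcases le_total 0 a with ha | ha
      · exact (min_le_left _ _).trans ((min_le_left _ _).trans (mul_le_mul_of_nonneg_left h3 ha))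
      · exact (min_le_left _ _).trans ((min_le_right _ _).trans (mul_le_mul_of_nonpos_left h4 ha))
    · have e1 : b * v ≤ u * v := mul_le_mul_of_nonpos_right h2 hv
      refine le_trans ?_ e1
      rcases le_total 0 b with hb | hb
      · exact (min_le_right _ _).trans ((min_le_left _ _).trans (mul_le_mul_of_nonneg_left h3 hb))
      · exact (min_le_right _ _).trans ((min_le_right _ _).trans (mul_le_mul_of_nonpos_left h4 hb))
  · rcases le_total 0 v with hv | hv
    · have e1 : u * v ≤ b * v := mul_le_mul_of_nonneg_right h2 hv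
      refine le_trans e1 ?_
      rcases le_total 0 b with hb | hb
      · exact (mul_le_mul_of_nonneg_left h4 hb).trans ((le_max_right _ _).trans (le_max_right _ _))
      · exact (mul_le_mul_of_nonpos_left h3 hb).trans ((le_max_left _ _).trans (le_max_right _ _))
    · have e1 : u * v ≤ a * v := mul_le_mul_of_nonpos_right h1 hv
      refine le_trans e1 ?_
      rcases le_total 0 a with ha | ha
      · exact (mul_le_mul_of_nonneg_left h4 ha).trans ((le_max_right _ _).trans (le_max_left _ _))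
      · exact (mul_le_mul_of_nonpos_left h3 ha).trans ((le_max_left _ _).trans (le_max_left _ _))

theorem mem_mulG {u v : ℝ} {I J : Iv} (hu : I.mem u) (hv : J.mem v) : (I.mulG J).mem (u * v) := by
  obtain ⟨h1, h2⟩ := hu
  obtain ⟨h3, h4⟩ := hv
  have hb := mul_bounds h1 h2 h3 h4
  have e : u * v * (SC : ℝ) = (u * (SC : ℝ)) * (v * (SC : ℝ)) / (SC : ℝ) := by
    field_simp
  constructor
  · rw [e]
    refine (floor_div_le _ (by norm_num)).trans ?_
    have := hb.1
    push_cast at this ⊢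
    gcongr
  · rw [e]
    refine le_trans ?_ (le_neg_floor_div _ (by norm_num))
    have := hb.2
    push_cast at this ⊢
    gcongr

theorem mem_mul {u v : ℝ} {I J : Iv} (hu : I.mem u) (hv : J.mem v) : (I.mul J).mem (u * v) := by
  rcases I with ⟨a | a, b | b⟩ <;> rcases J with ⟨c | c, d | d⟩ <;>
    first
    | exact mem_mulG hu hv
    | skip
  obtain ⟨h1, h2⟩ := hu
  obtain ⟨h3, h4⟩ := hv
  simp only [Int.ofNat_eq_natCast, Int.cast_natCast] at h1 h2 h3 h4
  have e : u * v * (SC : ℝ) = (u * (SC : ℝ)) * (v * (SC : ℝ)) / (SC : ℝ) := by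
    field_simp
  have ha : (0 : ℝ) ≤ (a : ℝ) := Nat.cast_nonneg a
  have hc : (0 : ℝ) ≤ (c : ℝ) := Nat.cast_nonneg c
  have hS : ((1073741824 : ℕ) : ℝ) = (SC : ℝ) := by norm_num
  simp only [Iv.mul, Iv.mem, Int.ofNat_eq_natCast, Int.cast_natCast]
  constructor
  · rw [e]
    refine (Nat.cast_div_le).trans ?_
    rw [hS, Nat.cast_mul]
    exact div_le_div_of_nonneg_right (mul_le_mul h1 h3 hc (ha.trans h1)) SC_pos.le
  · rw [e]
    have h5 : b * d ≤ (b * d + 1073741823) / 1073741824 * 1073741824 := by omega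
    have h6 : (b : ℝ) * (d : ℝ) ≤ (((b * d + 1073741823) / 1073741824 : ℕ) : ℝ) * (SC : ℝ) := by
      rw [← hS]
      exact_mod_cast h5
    rw [div_le_iff₀ SC_pos]
    refine le_trans ?_ h6
    have hu0 : 0 ≤ u * (SC : ℝ) := ha.trans h1
    exact mul_le_mul h2 h4 (hc.trans h3) (hu0.trans h2)

theorem mem_const (n : ℤ) {d : ℕ} (hd : d ≠ 0) : (Iv.const n d).mem ((n : ℝ) / (d : ℝ)) := by
  have hd' : (0 : ℤ) < (d : ℤ) := by positivity
  have e : (n : ℝ) / (d : ℝ) * (SC : ℝ) = ((n * SC : ℤ) : ℝ) / ((d : ℤ) : ℝ) := by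
    push_cast; ring
  constructor
  · rw [e]; exact floor_div_le _ hd'
  · rw [e]; exact le_neg_floor_div _ hd'

theorem Ex.mem_iv {x y p r : ℝ} {X Y P R : Iv} (hx : X.mem x) (hy : Y.mem y) (hp : P.mem p)
    (hr : R.mem r) : ∀ e : Ex, e.ok = true → (e.iv X Y P R).mem (e.val x y p r)
  | .c n d, h => by
      simp only [Ex.ok, ne_eq, decide_not, Bool.not_eq_eq_eq_not, Bool.not_true,
        decide_eq_false_iff_not] at h
      exact mem_const n h
  | .x, _ => hx
  | .y, _ => hy
  | .p, _ => hp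
  | .r, _ => hr
  | .add a b, h => by
      simp only [Ex.ok, Bool.and_eq_true] at h
      exact mem_add (Ex.mem_iv hx hy hp hr a h.1) (Ex.mem_iv hx hy hp hr b h.2)
  | .sub a b, h => by
      simp only [Ex.ok, Bool.and_eq_true] at h
      exact mem_sub (Ex.mem_iv hx hy hp hr a h.1) (Ex.mem_iv hx hy hp hr b h.2)
  | .mul a b, h => by
      simp only [Ex.ok, Bool.and_eq_true] at h
      exact mem_mul (Ex.mem_iv hx hy hp hr a h.1) (Ex.mem_iv hx hy hp hr b h.2)


/-- all expressions of a clause are certified positive on the box -/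
def clauseOk (X Y P R : Iv) : List Ex → Bool
  | [] => true
  | e :: es => decide (0 < (e.iv X Y P R).lo) && clauseOk X Y P R es

/-- some clause is certified on the box -/
def boxOk (X Y P R : Iv) : List (List Ex) → Bool
  | [] => false
  | c :: cs => clauseOk X Y P R c || boxOk X Y P R cs

/-- bisection checker -/
def chk (P R : Iv) (cls : List (List Ex)) : ℕ → Bool → Iv → Iv → Bool
  | 0, _, X, Y => boxOk X Y P R cls
  | n + 1, true, X, Y => boxOk X Y P R cls ||
      (chk P R cls n false ⟨X.lo, (X.lo + X.hi) / 2⟩ Y &&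
        chk P R cls n false ⟨(X.lo + X.hi) / 2, X.hi⟩ Y)
  | n + 1, false, X, Y => boxOk X Y P R cls ||
      (chk P R cls n true X ⟨Y.lo, (Y.lo + Y.hi) / 2⟩ &&
        chk P R cls n true X ⟨(Y.lo + Y.hi) / 2, Y.hi⟩)

theorem pos_of_lo {v : ℝ} {I : Iv} (h : I.mem v) (h0 : 0 < I.lo) : 0 < v := by
  have h1 : (0 : ℝ) < (I.lo : ℝ) := by exact_mod_cast h0
  have h2 := lt_of_lt_of_le h1 h.1
  exact pos_of_mul_pos_left h2 SC_pos.le

theorem clauseOk_sound {x y p r : ℝ} {X Y P R : Iv} (hx : X.mem x) (hy : Y.mem y) (hp : P.mem p)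
    (hr : R.mem r) :
    ∀ cl : List Ex, (∀ e ∈ cl, e.ok = true) → clauseOk X Y P R cl = true →
      ∀ e ∈ cl, 0 < e.val x y p r
  | [], _, _ => by simp
  | e :: es, hok, h => by
      simp only [clauseOk, Bool.and_eq_true, decide_eq_true_eq] at h
      intro e' he'
      rcases List.mem_cons.mp he' with rfl | he'
      · exact pos_of_lo (Ex.mem_iv hx hy hp hr _ (hok _ (by simp))) h.1
      · exact clauseOk_sound hx hy hp hr es (fun e'' h'' => hok e'' (by simp [h''])) h.2 e' he'

theorem boxOk_sound {x y p r : ℝ} {X Y P R : Iv} (hx : X.mem x) (hy : Y.mem y) (hp : P.mem p)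
    (hr : R.mem r) :
    ∀ cls : List (List Ex), (∀ cl ∈ cls, ∀ e ∈ cl, e.ok = true) → boxOk X Y P R cls = true →
      ∃ cl ∈ cls, ∀ e ∈ cl, 0 < e.val x y p r
  | [], _, h => by simp [boxOk] at h
  | c :: cs, hok, h => by
      simp only [boxOk, Bool.or_eq_true] at h
      rcases h with h | h
      · exact ⟨c, by simp, clauseOk_sound hx hy hp hr c (hok c (by simp)) h⟩
      · obtain ⟨cl, h1, h2⟩ := boxOk_sound hx hy hp hr cs (fun cl h' => hok cl (by simp [h'])) h
        exact ⟨cl, by simp [h1], h2⟩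

theorem mem_split {v : ℝ} {I : Iv} (h : I.mem v) (k : ℤ) :
    Iv.mem v ⟨I.lo, k⟩ ∨ Iv.mem v ⟨k, I.hi⟩ := by
  rcases le_total (v * (SC : ℝ)) (k : ℝ) with hk | hk
  · exact Or.inl ⟨h.1, hk⟩
  · exact Or.inr ⟨hk, h.2⟩

theorem chk_sound {x y p r : ℝ} {P R : Iv} (hp : P.mem p) (hr : R.mem r) (cls : List (List Ex))
    (hok : ∀ cl ∈ cls, ∀ e ∈ cl, e.ok = true) :
    ∀ (n : ℕ) (b : Bool) (X Y : Iv), chk P R cls n b X Y = true → X.mem x → Y.mem y →
      ∃ cl ∈ cls, ∀ e ∈ cl, 0 < e.val x y p r := by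
  intro n
  induction n with
  | zero =>
    intro b X Y h hx hy
    exact boxOk_sound hx hy hp hr cls hok h
  | succ n ih =>
    intro b X Y h hx hy
    cases b with
    | true =>
      simp only [chk, Bool.or_eq_true, Bool.and_eq_true] at h
      rcases h with h | h
      · exact boxOk_sound hx hy hp hr cls hok h
      · rcases mem_split hx ((X.lo + X.hi) / 2) with h' | h'
        · exact ih _ _ _ h.1 h' hy
        · exact ih _ _ _ h.2 h' hy
    | false =>
      simp only [chk, Bool.or_eq_true, Bool.and_eq_true] at h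
      rcases h with h | h
      · exact boxOk_sound hx hy hp hr cls hok h
      · rcases mem_split hy ((Y.lo + Y.hi) / 2) with h' | h'
        · exact ih _ _ _ h.1 hx h'
        · exact ih _ _ _ h.2 hx h'

instance : Add Ex := ⟨Ex.add⟩
instance : Sub Ex := ⟨Ex.sub⟩
instance : Mul Ex := ⟨Ex.mul⟩

end Crest.Agent.R307.IChk
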