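import Crest.Agent.R307.Split

/-!
Row 307: joint convexity of `kk` and the cube Jensen inequality (task 304, helper780).
-/

set_option autoImplicit false

open Crest.CubeNoise

namespace Crest.Agent.R307

theorem artanh_eq_log_sub {x : ℝ} (hx : |x| < 1) :
    Real.artanh x = (Real.log (1 + x) - Real.log (1 - x)) / 2 := by
  obtain ⟨h1, h2⟩ := abs_lt.mp hx
  rw [Real.artanh_eq_half_log ⟨h1.le, h2.le⟩, Real.log_div (by linarith) (by linarith)]
  ring

/-- tangent form of the log-sum inequality -/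
theorem log_sum_tangent {x y X Y : ℝ} (hx : 0 < x) (hy : 0 < y) (hX : 0 < X) (hY : 0 < Y) :
    x * (Real.log X - Real.log Y) + x - y * X / Y ≤ x * (Real.log x - Real.log y) := by
  have h := Real.add_one_le_exp (Real.log (y * X / (x * Y)))
  rw [Real.exp_log (by positivity)] at h
  rw [Real.log_div (by positivity) (by positivity), Real.log_mul hy.ne' hX.ne',
    Real.log_mul hx.ne' hY.ne'] at h
  have h2 : x * (y * X / (x * Y)) = y * X / Y := by field_simp
  have h3 := mul_le_mul_of_nonneg_left h hx.le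
  rw [h2] at h3
  nlinarith

theorem kk_eq_logs {a b : ℝ} (ha : |a| < 1) (hb : |b| < 1) :
    kk a b = ((1 + a) * (Real.log (1 + a) - Real.log (1 + b)) +
      (1 + b) * (Real.log (1 + b) - Real.log (1 + a)) +
      (1 - a) * (Real.log (1 - a) - Real.log (1 - b)) +
      (1 - b) * (Real.log (1 - b) - Real.log (1 - a))) / 8 := by
  unfold kk
  rw [artanh_eq_log_sub ha, artanh_eq_log_sub hb]
  ring

/-- supporting planes of `kk` -/
theorem kk_support {A B : ℝ} (hA : |A| < 1) (hB : |B| < 1) :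
    ∃ P Q : ℝ, ∀ a b : ℝ, |a| < 1 → |b| < 1 → kk A B + P * (a - A) + Q * (b - B) ≤ kk a b := by
  obtain ⟨hA1, hA2⟩ := abs_lt.mp hA
  obtain ⟨hB1, hB2⟩ := abs_lt.mp hB
  have pA1 : 0 < 1 + A := by linarith
  have pA2 : 0 < 1 - A := by linarith
  have pB1 : 0 < 1 + B := by linarith
  have pB2 : 0 < 1 - B := by linarith
  refine ⟨((Real.log (1 + A) - Real.log (1 + B)) - (1 + B) / (1 + A)
      - (Real.log (1 - A) - Real.log (1 - B)) + (1 - B) / (1 - A)) / 8,
    ((Real.log (1 + B) - Real.log (1 + A)) - (1 + A) / (1 + B)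
      - (Real.log (1 - B) - Real.log (1 - A)) + (1 - A) / (1 - B)) / 8, fun a b ha hb => ?_⟩
  obtain ⟨ha1, ha2⟩ := abs_lt.mp ha
  obtain ⟨hb1, hb2⟩ := abs_lt.mp hb
  have pa1 : 0 < 1 + a := by linarith
  have pa2 : 0 < 1 - a := by linarith
  have pb1 : 0 < 1 + b := by linarith
  have pb2 : 0 < 1 - b := by linarith
  have t1 := log_sum_tangent pa1 pb1 pA1 pB1
  have t2 := log_sum_tangent pb1 pa1 pB1 pA1
  have t3 := log_sum_tangent pa2 pb2 pA2 pB2
  have t4 := log_sum_tangent pb2 pa2 pB2 pA2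
  rw [kk_eq_logs ha hb, kk_eq_logs hA hB]
  have e1 : (1 + B) / (1 + A) * (1 + A) = 1 + B := by field_simp
  have e2 : (1 - B) / (1 - A) * (1 - A) = 1 - B := by field_simp
  have e3 : (1 + A) / (1 + B) * (1 + B) = 1 + A := by field_simp
  have e4 : (1 - A) / (1 - B) * (1 - B) = 1 - A := by field_simp
  have f1 : (1 + b) * (1 + A) / (1 + B) = (1 + b) * ((1 + A) / (1 + B)) := by ring
  have f2 : (1 + a) * (1 + B) / (1 + A) = (1 + a) * ((1 + B) / (1 + A)) := by ring
  have f3 : (1 - b) * (1 - A) / (1 - B) = (1 - b) * ((1 - A) / (1 - B)) := by ring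
  have f4 : (1 - a) * (1 - B) / (1 - A) = (1 - a) * ((1 - B) / (1 - A)) := by ring
  rw [f1] at t1
  rw [f2] at t2
  rw [f3] at t3
  rw [f4] at t4
  set u1 := (1 + B) / (1 + A)
  set u2 := (1 - B) / (1 - A)
  set u3 := (1 + A) / (1 + B)
  set u4 := (1 - A) / (1 - B)
  linear_combination t1 / 8 + t2 / 8 + t3 / 8 + t4 / 8 + e1 / 8 + e2 / 8 + e3 / 8 + e4 / 8

/-- Jensen's inequality for `kk`, arbitrary finite weights -/
theorem kk_jensen {ι : Type*} (s : Finset ι) (w a b : ι → ℝ) (hw : ∀ i ∈ s, 0 ≤ w i)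
    (hw1 : ∑ i ∈ s, w i = 1) (ha : ∀ i ∈ s, |a i| < 1) (hb : ∀ i ∈ s, |b i| < 1) :
    kk (∑ i ∈ s, w i * a i) (∑ i ∈ s, w i * b i) ≤ ∑ i ∈ s, w i * kk (a i) (b i) := by
  have key : ∀ c : ι → ℝ, (∀ i ∈ s, |c i| < 1) → |∑ i ∈ s, w i * c i| < 1 := by
    intro c hc
    refine lt_of_le_of_lt (Finset.abs_sum_le_sum_abs _ _) ?_
    have h1 : ∃ i ∈ s, 0 < w i := by
      by_contra hcon
      push Not at hcon
      have : ∑ i ∈ s, w i ≤ 0 := Finset.sum_nonpos hcon
      linarith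
    obtain ⟨i, hi, hwi⟩ := h1
    rw [← hw1]
    refine Finset.sum_lt_sum (fun j hj => ?_) ⟨i, hi, ?_⟩
    · rw [abs_mul, abs_of_nonneg (hw j hj)]
      nlinarith [hw j hj, hc j hj, abs_nonneg (c j)]
    · rw [abs_mul, abs_of_nonneg hwi.le]
      nlinarith [hc i hi, abs_nonneg (c i)]
  obtain ⟨P, Q, h⟩ := kk_support (key a ha) (key b hb)
  set A := ∑ i ∈ s, w i * a i
  set B := ∑ i ∈ s, w i * b i
  have h2 : ∑ i ∈ s, w i * (kk A B + P * (a i - A) + Q * (b i - B)) ≤
      ∑ i ∈ s, w i * kk (a i) (b i) :=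
    Finset.sum_le_sum fun i hi => mul_le_mul_of_nonneg_left (h _ _ (ha i hi) (hb i hi)) (hw i hi)
  refine le_trans (le_of_eq ?_) h2
  have e : ∀ i, w i * (kk A B + P * (a i - A) + Q * (b i - B)) =
      w i * (kk A B - P * A - Q * B) + P * (w i * a i) + Q * (w i * b i) := fun i => by ring
  simp_rw [e]
  rw [Finset.sum_add_distrib, Finset.sum_add_distrib, ← Finset.sum_mul, ← Finset.mul_sum,
    ← Finset.mul_sum, hw1]
  ring

/-- Jensen's inequality for `kk` on the cube -/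
theorem kk_cube_jensen {n : ℕ} {g0 g1 : (Fin n → Bool) → ℝ} (h0 : ∀ x, |g0 x| < 1)
    (h1 : ∀ x, |g1 x| < 1) :
    kk (cubeAverage g0) (cubeAverage g1) ≤ cubeAverage (fun x => kk (g0 x) (g1 x)) := by
  have h := kk_jensen (Finset.univ : Finset (Fin n → Bool)) (fun _ => 1 / 2 ^ n) g0 g1
    (fun _ _ => by positivity) (by simp) (fun x _ => h0 x) (fun x _ => h1 x)
  have e : ∀ c : (Fin n → Bool) → ℝ, ∑ x, 1 / 2 ^ n * c x = cubeAverage c := by
    intro c
    unfold cubeAverage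
    rw [← Finset.mul_sum]
    ring
  rw [e, e, e] at h
  exact h

/-- a supporting-plane version on the cube: any function lying above its tangent planes satisfies
Jensen's inequality on the cube. -/
theorem cube_jensen_of_support {n : ℕ} (K : ℝ → ℝ → ℝ)
    (hK : ∀ A B : ℝ, |A| < 1 → |B| < 1 → ∃ P Q : ℝ, ∀ a b : ℝ, |a| < 1 → |b| < 1 →
      K A B + P * (a - A) + Q * (b - B) ≤ K a b)
    {g0 g1 : (Fin n → Bool) → ℝ} (h0 : ∀ x, |g0 x| < 1) (h1 : ∀ x, |g1 x| < 1) :
    K (cubeAverage g0) (cubeAverage g1) ≤ cubeAverage (fun x => K (g0 x) (g1 x)) := by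
  obtain ⟨P, Q, h⟩ := hK _ _ (abs_cubeAverage_lt_one h0) (abs_cubeAverage_lt_one h1)
  refine le_trans (le_of_eq ?_) (cubeAverage_mono fun x => h _ _ (h0 x) (h1 x))
  have e : (fun x => K (cubeAverage g0) (cubeAverage g1) + P * (g0 x - cubeAverage g0) +
      Q * (g1 x - cubeAverage g1)) = fun x => ((K (cubeAverage g0) (cubeAverage g1)
        - P * cubeAverage g0 - Q * cubeAverage g1) + P * g0 x) + Q * g1 x := by
    funext x; ring
  rw [e, cubeAverage_add (fun x => (K (cubeAverage g0) (cubeAverage g1)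
        - P * cubeAverage g0 - Q * cubeAverage g1) + P * g0 x) (fun x => Q * g1 x),
    cubeAverage_add (fun _ => (K (cubeAverage g0) (cubeAverage g1)
        - P * cubeAverage g0 - Q * cubeAverage g1)) (fun x => P * g0 x),
    cubeAverage_const_mul, cubeAverage_const_mul, cubeAverage_const]
  ring

end Crest.Agent.R307
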