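import Crest.Agent.R307.MStep

/-!
Row 307, S0471, regime M, one-sided: restriction of steps to sub-intervals and union of bounds
(helper371).
-/

set_option autoImplicit false

namespace Crest.Agent.R307.MStep

open Crest.Agent.KB Crest.Agent.R307.Conic Crest.Agent.R307.GenInt Crest.Agent.R307.GenM
  Crest.Agent.R307.Final71 Crest.Agent.R307.GenInd

theorem _root_.Crest.Agent.R307.GenInt.CertI.mono {A0 A1 A2 ca cb ca' cb' p1 q1 bt l m : ℝ}
    (h : CertI A0 A1 A2 ca cb p1 q1 bt l m) (ha : ca ≤ ca') (hb : cb' ≤ cb) :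
    CertI A0 A1 A2 ca' cb' p1 q1 bt l m := fun c h1 h2 => h c (ha.trans h1) (h2.trans hb)

theorem _root_.Crest.Agent.R307.GenM.HasStep.mono {A0 A1 A2 ca cb ca' cb' : ℝ} {B d : ℝ → ℝ} {n0 n1 : ℝ}
    (h : HasStep A0 A1 A2 ca cb B d n0 n1) (ha : ca ≤ ca') (hb : cb' ≤ cb) :
    HasStep A0 A1 A2 ca' cb' B d n0 n1 := by
  obtain ⟨p1, q1, bt, l, m, hp, hq, hC, hi⟩ := h
  exact ⟨p1, q1, bt, l, m, hp, hq, CertI.mono hC ha hb, hi⟩


/-! ### arbitrary resolution -/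

theorem step1_soundG {p : List ℤ} {s md ld : ℤ} {fs : List FD} {w : ℕ} {Xl M : List ℕ} {tr : Tr} {sc : ℕ}
    (h : run 2 w (sc + 1) Xl M (stepCls1 p s md ld fs) tr [(0, 2 ^ sc), (0, 2 ^ (sc + 1))] = true)
    {m r : ℝ} (hm0 : 0 ≤ m) (hm1 : m ≤ 1 / 2) (hr0 : 0 ≤ r) (hr1 : r ≤ 1) :
    StepOK p s md ld fs (m * (1 + r)) (m * (1 - r)) m (2 * m * r) := by
  have hb : InBox 2 (sc + 1) [(0, 2 ^ sc), (0, 2 ^ (sc + 1))] (vec2 m r) := by
    have hp : (0 : ℝ) < 2 ^ sc := by positivity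
    have e2 : (2 : ℝ) ^ (sc + 1) = 2 * 2 ^ sc := by rw [pow_succ]; ring
    apply inBox_vec2 <;> push_cast <;> rw [e2] <;> nlinarith
  have e0 : RE.v (vec2 m r) RE.x0 = m := by rw [RE.v_x0]; rfl
  have e1 : RE.v (vec2 m r) RE.x1 = r := by rw [RE.v_x1]; rfl
  have := step_of_clause (run_sound _ _ _ _ _ _ _ _ h _ hb)
  simp only [RE.v_add, RE.v_sub, RE.v_mul, RE.v_num, e0, e1, num_real] at this
  push_cast at this
  exact this

theorem step2_soundG {p : List ℤ} {s md ld : ℤ} {fs : List FD} {w : ℕ} {Xl M : List ℕ} {tr : Tr} {sc : ℕ}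
    (h : run 2 w (sc + 1) Xl M (stepCls2 p s md ld fs) tr [(0, 2 ^ sc), (0, 2 ^ (sc + 1))] = true)
    {m r : ℝ} (hm0 : 0 ≤ m) (hm1 : m ≤ 1 / 2) (hr0 : 0 ≤ r) (hr1 : r ≤ 1) :
    StepOK p s md ld fs (1 - m * (1 - r)) (1 - m * (1 + r)) (1 - m) (2 * m * r) := by
  have hb : InBox 2 (sc + 1) [(0, 2 ^ sc), (0, 2 ^ (sc + 1))] (vec2 m r) := by
    have hp : (0 : ℝ) < 2 ^ sc := by positivity
    have e2 : (2 : ℝ) ^ (sc + 1) = 2 * 2 ^ sc := by rw [pow_succ]; ring
    apply inBox_vec2 <;> push_cast <;> rw [e2] <;> nlinarith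
  have e0 : RE.v (vec2 m r) RE.x0 = m := by rw [RE.v_x0]; rfl
  have e1 : RE.v (vec2 m r) RE.x1 = r := by rw [RE.v_x1]; rfl
  have := step_of_clause (run_sound _ _ _ _ _ _ _ _ h _ hb)
  simp only [RE.v_add, RE.v_sub, RE.v_mul, RE.v_num, e0, e1, num_real] at this
  push_cast at this
  exact this

/-- the two charts cover all pairs -/
theorem step_allG {p : List ℤ} {s md ld : ℤ} {fs : List FD} {w w' : ℕ} {Xl M Xl' M' : List ℕ}
    {tr tr' : Tr} {sc : ℕ}
    (h1 : run 2 w (sc + 1) Xl M (stepCls1 p s md ld fs) tr [(0, 2 ^ sc), (0, 2 ^ (sc + 1))] = true)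
    (h2 : run 2 w' (sc + 1) Xl' M' (stepCls2 p s md ld fs) tr' [(0, 2 ^ sc), (0, 2 ^ (sc + 1))] = true)
    {n0 n1 : ℝ} (a1 : 0 ≤ n1) (a2 : n1 ≤ n0) (a3 : n0 ≤ 1) :
    StepOK p s md ld fs n0 n1 ((n0 + n1) / 2) (n0 - n1) := by
  rcases le_total ((n0 + n1) / 2) (1 / 2) with h | h
  · set m := (n0 + n1) / 2 with hm
    rcases (show 0 ≤ m by rw [hm]; linarith).eq_or_lt with h0 | h0
    · have e0 : n0 = 0 := by linarith
      have e1 : n1 = 0 := by linarith
      have := step1_soundG h1 (m := 0) (r := 0) le_rfl (by norm_num) le_rfl zero_le_one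
      rw [← h0, e0, e1]
      simpa using this
    · have hr0 : 0 ≤ (n0 - n1) / (2 * m) := div_nonneg (by linarith) (by linarith)
      have hr1 : (n0 - n1) / (2 * m) ≤ 1 := by
        rw [div_le_one (by linarith)]; rw [hm]; linarith
      have := step1_soundG h1 h0.le h hr0 hr1
      have e : m * ((n0 - n1) / (2 * m)) = (n0 - n1) / 2 := by field_simp
      have e1 : m * (1 + (n0 - n1) / (2 * m)) = n0 := by rw [mul_add, e, hm]; ring
      have e2 : m * (1 - (n0 - n1) / (2 * m)) = n1 := by rw [mul_sub, e, hm]; ring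
      have e3 : 2 * m * ((n0 - n1) / (2 * m)) = n0 - n1 := by rw [mul_assoc, e]; ring
      rw [e1, e2, e3] at this
      exact this
  · set m := 1 - (n0 + n1) / 2 with hm
    have hmid : (n0 + n1) / 2 = 1 - m := by rw [hm]; ring
    rw [hmid]
    rcases (show 0 ≤ m by rw [hm]; linarith).eq_or_lt with h0 | h0
    · have e0 : n0 = 1 := by linarith
      have e1 : n1 = 1 := by linarith
      have := step2_soundG h2 (m := 0) (r := 0) le_rfl (by norm_num) le_rfl zero_le_one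
      rw [← h0, e0, e1]
      simpa using this
    · have hr0 : 0 ≤ (n0 - n1) / (2 * m) := div_nonneg (by linarith) (by linarith)
      have hr1 : (n0 - n1) / (2 * m) ≤ 1 := by
        rw [div_le_one (by linarith)]; rw [hm]; linarith
      have := step2_soundG h2 h0.le (by linarith) hr0 hr1
      have e : m * ((n0 - n1) / (2 * m)) = (n0 - n1) / 2 := by field_simp
      have e1 : 1 - m * (1 - (n0 - n1) / (2 * m)) = n0 := by rw [mul_sub, e, hm]; ring
      have e2 : 1 - m * (1 + (n0 - n1) / (2 * m)) = n1 := by rw [mul_add, e, hm]; ring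
      have e3 : 2 * m * ((n0 - n1) / (2 * m)) = n0 - n1 := by rw [mul_assoc, e]; ring
      rw [e1, e2, e3] at this
      exact this

/-- **The step for all pairs.** -/
theorem hasStepG {A0 A1 A2 ca cb : ℝ} {p : List ℤ} {s md ld : ℤ} {fs : List FD} {w w' : ℕ}
    {Xl M Xl' M' : List ℕ} {tr tr' : Tr} {sc : ℕ}
    (h1 : run 2 w (sc + 1) Xl M (stepCls1 p s md ld fs) tr [(0, 2 ^ sc), (0, 2 ^ (sc + 1))] = true)
    (h2 : run 2 w' (sc + 1) Xl' M' (stepCls2 p s md ld fs) tr' [(0, 2 ^ sc), (0, 2 ^ (sc + 1))] = true)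
    (hu : ConcaveOn ℝ (Set.Icc 0 1) (FA A0 A1 A2))
    (hok : ∀ f ∈ fs, f.ok = true) (hF : ∀ f ∈ fs, FamI A0 A1 A2 ca cb f.fam)
    (hd : CertI A0 A1 A2 ca cb 1 0 1 (cst md) (cst ld)) {sr : ℝ} (hs : sr = cst s)
    {B : ℝ → ℝ} (hB : ∀ n, B n = BF p n)
    (n0 n1 : ℝ) (a1 : 0 ≤ n1) (a2 : n1 < n0) (a3 : n0 ≤ 1) :
    HasStep A0 A1 A2 ca cb B (dP sr) n0 n1 := by
  have hB' : B = fun n => BF p n := funext hB
  subst hB'
  have hdp : ∀ n : ℝ, dP sr n = dpF (cst s) n := by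
    intro n
    rw [hs]
    simp only [dP, dpF, num_real, cst_real]
    push_cast
    ring
  rcases step_allG h1 h2 a1 a2.le a3 with h | h | ⟨f, hf, h⟩
  · refine HasStep.of_cert (certI_one hu) zero_le_one zero_le_one ?_
    linarith
  · refine HasStep.of_cert hd zero_le_one le_rfl ?_
    rw [hdp, hdp]
    linarith
  · refine HasStep.of_fam (FD.ok_real (hok f hf)) (hF f hf) ?_
    have eA : f.fam.Ah (BF p n0) (BF p n1) n0 n1 (dP sr n0) (dP sr n1) =
        AF (cst f.k1) (cst f.e1) (BF p n0) (BF p n1) (n0 - n1) := by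
      simp only [Fam.Ah, FD.fam, AF]; ring
    have eB : f.fam.Bh (BF p n0) (BF p n1) n0 n1 (dP sr n0) (dP sr n1) =
        BhF (cst f.k2) (cst f.e2) (cst f.m2) (cst f.l2) (BF p n0) (BF p n1) (n0 - n1)
          (dpF (cst s) n0) (dpF (cst s) n1) := by
      simp only [Fam.Bh, FD.fam, BhF, hdp]
    rw [eA, eB]
    exact h

end Crest.Agent.R307.MStep
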