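import Crest.Agent.R307.MO02
import Crest.Agent.R307.MSub

/-!
Row 307 (S0471), regime M, one-sided: the step and the bound on one c-interval (generated,
helper371).
-/

set_option autoImplicit false

namespace Crest.Agent.R307.MO02

open Crest.Agent.KB Crest.Agent.R307.MStep Crest.Agent.R307.GenInt Crest.Agent.R307.GenM
  Crest.Agent.R307.Conic Crest.Agent.R307.Final71

/-- the polynomial `p` of the potential, over `100000` -/
def pp : List ℤ := [-72278, 53454, -17788, 50915, -96981, -31220, 152381, 80148, -148476]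

/-- the families -/
def fs : List FD := [⟨28380, (-38583), 99450, (-1945), 0, 184⟩, ⟨28601, (-40350), 78517, 19856, 6772, 37594⟩]

set_option maxRecDepth 100000 in
theorem step1 : run 2 413 6 [23, 23] [64, 128] (stepCls1 pp 81474 3798 44700 fs)
    (.node 0 (.node 1 (.node 0 (.leaf 3) (.leaf 3)) (.leaf 3)) (.node 1 (.leaf 3) (.node 0 (.node 1 (.leaf 3) (.node 0 (.leaf 3) (.node 1 (.leaf 3) (.leaf 1)))) (.node 1 (.leaf 3) (.node 0 (.node 1 (.leaf 3) (.leaf 1)) (.leaf 1)))))) [(0, 32), (0, 64)] = true := by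
  decide +kernel

set_option maxRecDepth 100000 in
theorem step2 : run 2 429 6 [23, 23] [64, 128] (stepCls2 pp 81474 3798 44700 fs)
    (.node 0 (.node 1 (.leaf 3) (.node 0 (.leaf 3) (.leaf 5))) (.node 1 (.leaf 3) (.node 0 (.leaf 5) (.node 1 (.leaf 5) (.node 0 (.node 1 (.leaf 5) (.node 0 (.leaf 5) (.leaf 4))) (.node 1 (.node 0 (.leaf 5) (.leaf 4)) (.node 0 (.leaf 4) (.leaf 1)))))))) [(0, 32), (0, 64)] = true := by
  decide +kernel

/-- interval data -/
def D0 : IData where
  za := 1189 / 1000
  zb := 299 / 250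
  A0 := 143 / 500
  A1 := -2421 / 10000
  A2 := 461 / 1000
  s := 40737 / 50000
  bl := [0, 536439 / 200000, -3825631 / 400000, 1225079 / 40000, -29690687 / 400000, 50298837 / 400000, -58864369 / 400000, 23571203 / 200000, -25286119 / 400000, 8666803 / 400000, -214173 / 50000, 37119 / 100000]
  br := [0, 34031 / 40000, 61309 / 400000, -1091387 / 200000, 9150919 / 400000, -21391841 / 400000, 31274547 / 400000, -14844387 / 200000, 3659107 / 80000, -7063843 / 400000, 24267 / 6250, -37119 / 100000]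
  fin := [(1, 1)]
  tan := [33 / 32, 67 / 64, 17 / 16, 69 / 64, 35 / 32, 71 / 64, 9 / 8, 73 / 64, 75 / 64, 77 / 64, 81 / 64, 85 / 64, 89 / 64, 14143 / 10000]

theorem D0_ok : D0.ok = true := by decide +kernel

lemma D0_B (n : ℝ) : D0.B n = BF pp n := by
  rcases le_total n (1 / 2) with h | h
  · rw [IData.B, Bpw_left h]
    simp only [D0, pp, BF, hornF, num_real, cst_real, qev]
    push_cast
    ring
  · rw [IData.B, Bpw_right (by rw [qev_one, qev_one]; norm_num [D0, qsum]) h]
    simp only [D0, pp, BF, hornF, num_real, cst_real, qev]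
    push_cast
    ring

lemma hu : ConcaveOn ℝ (Set.Icc 0 1) (GenInd.FA (143 / 500) (-2421 / 10000) (461 / 1000)) :=
  concave_FA_num (by norm_num)

lemma hF : ∀ f ∈ fs, FamI (143 / 500) (-2421 / 10000) (461 / 1000) ((1189 / 1000) ^ 2 - 1) ((299 / 250) ^ 2 - 1) f.fam := by
  intro f hf
  simp only [fs, List.mem_cons, List.not_mem_nil, or_false] at hf
  rcases hf with rfl | rfl
  · have h := fam1
    have e : FD.fam ⟨28380, (-38583), 99450, (-1945), 0, 184⟩ = ⟨(1419 / 5000), (-38583 / 100000), (1989 / 2000), (-389 / 20000), 0, (0), 0, (23 / 12500)⟩ := by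
      simp only [FD.fam, cst_real]
      norm_num
    rw [e]
    exact h
  · have h := fam2
    have e : FD.fam ⟨28601, (-40350), 78517, 19856, 6772, 37594⟩ = ⟨(28601 / 100000), (-807 / 2000), (78517 / 100000), (1241 / 6250), 0, (1693 / 25000), 0, (18797 / 50000)⟩ := by
      simp only [FD.fam, cst_real]
      norm_num
    rw [e]
    exact h

lemma hd : CertI (143 / 500) (-2421 / 10000) (461 / 1000) ((1189 / 1000) ^ 2 - 1) ((299 / 250) ^ 2 - 1) 1 0 1 (cst 3798) (cst 44700) := by
  have h := dict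
  have e1 : (cst 3798 : ℝ) = (1899 / 50000) := by rw [cst_real]; norm_num
  have e2 : (cst 44700 : ℝ) = (447 / 1000) := by rw [cst_real]; norm_num
  rw [e1, e2]
  exact h

lemma bound0 : BoundOn ((1189 / 1000) ^ 2 - 1) ((299 / 250) ^ 2 - 1) := by
  have hstep := hasStep step1 step2 hu (by decide) hF hd
    (sr := ((D0.s : ℚ) : ℝ)) (by norm_num [D0, cst_real]) (B := D0.B) D0_B
  have h := D0.boundOn D0_ok (fun n0 n1 a1 a2 a3 => by
    have := (hstep n0 n1 a1 a2 a3).mono (ca' := (1189 / 1000) ^ 2 - 1) (cb' := (299 / 250) ^ 2 - 1) (by norm_num) (by norm_num)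
    convert this using 2 <;> norm_num [D0])
  convert h using 2 <;> norm_num [D0]

/-- **The bound on the interval.** -/
theorem bound : BoundOn ((1189 / 1000) ^ 2 - 1) ((299 / 250) ^ 2 - 1) :=
  bound0

end Crest.Agent.R307.MO02
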