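import Crest.Agent.R307.MO03
import Crest.Agent.R307.MSub

/-!
Row 307 (S0471), regime M, one-sided: the step and the bound on one c-interval (generated,
helper371).
-/

set_option autoImplicit false
set_option Elab.async false

namespace Crest.Agent.R307.MO03

open Crest.Agent.KB Crest.Agent.R307.MStep Crest.Agent.R307.GenInt Crest.Agent.R307.GenM
  Crest.Agent.R307.Conic Crest.Agent.R307.Final71

/-- the polynomial `p` of the potential, over `100000` -/
def pp : List ℤ := [-71439, 56757, -23276, 45632, -66170, -22884, 80373, 73690, -97184]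

/-- the families -/
def fs : List FD := [⟨27537, (-38110), 80538, 18015, 0, 39278⟩, ⟨29705, (-39546), 98725, (-1007), 0, 940⟩]

set_option maxRecDepth 100000 in
theorem step1 : run 2 500 8 [23, 23] [256, 512] (stepCls1 pp 79348 4038 45929 fs)
    (.node 0 (.node 1 (.node 0 (.leaf 5) (.leaf 5)) (.leaf 5)) (.node 1 (.leaf 5) (.node 0 (.leaf 5) (.node 1 (.leaf 5) (.node 0 (.node 1 (.leaf 5) (.leaf 1)) (.leaf 1)))))) [(0, 2 ^ 7), (0, 2 ^ 8)] = true := by
  decide +kernel

set_option maxRecDepth 100000 in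
theorem step2 : run 2 516 8 [23, 23] [256, 512] (stepCls2 pp 79348 4038 45929 fs)
    (.node 0 (.node 1 (.leaf 5) (.leaf 3)) (.node 1 (.leaf 5) (.node 0 (.leaf 3) (.node 1 (.leaf 3) (.node 0 (.leaf 3) (.node 1 (.node 0 (.leaf 3) (.node 1 (.leaf 3) (.leaf 1))) (.node 0 (.leaf 2) (.leaf 1)))))))) [(0, 2 ^ 7), (0, 2 ^ 8)] = true := by
  decide +kernel

/-- interval data -/
def D0 : IData where
  za := 299 / 250
  zb := 603 / 500
  A0 := 13 / 50
  A1 := -413 / 2500
  A2 := 4077 / 10000
  s := 19837 / 25000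
  bl := [0, 530891 / 200000, -3595731 / 400000, 2679569 / 100000, -12183329 / 200000, 39134167 / 400000, -8769873 / 80000, 33895419 / 400000, -17656823 / 400000, 5904463 / 400000, -571357 / 200000, 3037 / 12500]
  br := [0, 175499 / 200000, -103691 / 400000, -254831 / 100000, 151859 / 12500, -11988503 / 400000, 18170677 / 400000, -17755003 / 400000, 11217871 / 400000, -4430663 / 400000, 497667 / 200000, -3037 / 12500]
  fin := [(1, 1)]
  tan := [33 / 32, 17 / 16, 35 / 32, 9 / 8, 37 / 32, 19 / 16, 5 / 4, 21 / 16, 11 / 8, 14143 / 10000]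

theorem D0_ok : D0.ok = true := by decide +kernel

lemma D0_B (n : ℝ) : D0.B n = BF pp n := by
  rcases le_total n (1 / 2) with h | h
  · rw [IData.B, Bpw_left h]
    simp only [D0, pp, BF, hornF, num_real, cst_real, qev]
    push_cast
    ring
  · rw [IData.B, Bpw_right (by rw [qev_one, qev_one]; norm_num [D0, qsum]) h]
    simp only [D0, pp, BF, hornF, num_real, cst_real, qev]
    push_cast
    ring

lemma hu : ConcaveOn ℝ (Set.Icc 0 1) (GenInd.FA (13 / 50) (-413 / 2500) (4077 / 10000)) :=
  concave_FA_num (by norm_num)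

lemma hF : ∀ f ∈ fs, FamI (13 / 50) (-413 / 2500) (4077 / 10000) ((299 / 250) ^ 2 - 1) ((603 / 500) ^ 2 - 1) f.fam := by
  intro f hf
  simp only [fs, List.mem_cons, List.not_mem_nil, or_false] at hf
  rcases hf with rfl | rfl
  · have h := fam1
    have e : FD.fam ⟨27537, (-38110), 80538, 18015, 0, 39278⟩ = ⟨(27537 / 100000), (-3811 / 10000), (40269 / 50000), (3603 / 20000), 0, (0), 0, (19639 / 50000)⟩ := by
      simp only [FD.fam, cst_real]
      norm_num
    rw [e]
    exact h
  · have h := fam2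
    have e : FD.fam ⟨29705, (-39546), 98725, (-1007), 0, 940⟩ = ⟨(5941 / 20000), (-19773 / 50000), (3949 / 4000), (-1007 / 100000), 0, (0), 0, (47 / 5000)⟩ := by
      simp only [FD.fam, cst_real]
      norm_num
    rw [e]
    exact h

lemma hd : CertI (13 / 50) (-413 / 2500) (4077 / 10000) ((299 / 250) ^ 2 - 1) ((603 / 500) ^ 2 - 1) 1 0 1 (cst 4038) (cst 45929) := by
  have h := dict
  have e1 : (cst 4038 : ℝ) = (2019 / 50000) := by rw [cst_real]; norm_num
  have e2 : (cst 45929 : ℝ) = (45929 / 100000) := by rw [cst_real]; norm_num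
  rw [e1, e2]
  exact h

lemma bound0 : BoundOn ((299 / 250) ^ 2 - 1) ((603 / 500) ^ 2 - 1) := by
  have hstep := hasStepG (sc := 7) step1 step2 hu (by decide) hF hd
    (sr := ((D0.s : ℚ) : ℝ)) (by norm_num [D0, cst_real]) (B := D0.B) D0_B
  have h := D0.boundOn D0_ok (fun n0 n1 a1 a2 a3 => by
    have := (hstep n0 n1 a1 a2 a3).mono (ca' := (299 / 250) ^ 2 - 1) (cb' := (603 / 500) ^ 2 - 1) (by norm_num) (by norm_num)
    convert this using 2 <;> norm_num [D0])
  convert h using 2 <;> norm_num [D0]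

/-- **The bound on the interval.** -/
theorem bound : BoundOn ((299 / 250) ^ 2 - 1) ((603 / 500) ^ 2 - 1) :=
  bound0

end Crest.Agent.R307.MO03
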