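import Crest.Agent.R307.MO04
import Crest.Agent.R307.MSub

/-!
Row 307 (S0471), regime M, one-sided: the step and the bound on one c-interval (generated,
helper371).
-/

set_option autoImplicit false

namespace Crest.Agent.R307.MO04

open Crest.Agent.KB Crest.Agent.R307.MStep Crest.Agent.R307.GenInt Crest.Agent.R307.GenM
  Crest.Agent.R307.Conic Crest.Agent.R307.Final71

/-- the polynomial `p` of the potential, over `100000` -/
def pp : List ℤ := [-71636, 58441, -26886, 53791, -48061, -42462, 35917, 91798, -67557]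

/-- the families -/
def fs : List FD := [⟨25967, (-42033), 81238, 15629, 0, 33721⟩, ⟨31236, (-41294), 97836, 13, 0, 3948⟩]

set_option maxRecDepth 100000 in
theorem step1 : run 2 411 6 [23, 23] [64, 128] (stepCls1 pp 76620 4045 47360 fs)
    (.node 0 (.node 1 (.node 0 (.leaf 5) (.leaf 5)) (.leaf 5)) (.node 1 (.leaf 5) (.node 0 (.leaf 5) (.node 1 (.leaf 5) (.node 0 (.node 1 (.leaf 5) (.leaf 1)) (.leaf 1)))))) [(0, 32), (0, 64)] = true := by
  decide +kernel

set_option maxRecDepth 100000 in
theorem step2 : run 2 427 6 [23, 23] [64, 128] (stepCls2 pp 76620 4045 47360 fs)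
    (.node 0 (.node 1 (.leaf 5) (.leaf 3)) (.node 1 (.leaf 5) (.node 0 (.leaf 3) (.node 1 (.leaf 3) (.node 0 (.leaf 3) (.node 1 (.leaf 3) (.node 0 (.node 1 (.leaf 3) (.node 0 (.leaf 2) (.leaf 1))) (.leaf 1)))))))) [(0, 32), (0, 64)] = true := by
  decide +kernel

/-- interval data -/
def D0 : IData where
  za := 603 / 500
  zb := 121 / 100
  A0 := 119 / 400
  A1 := -99 / 400
  A2 := 927 / 2000
  s := 3831 / 5000
  bl := [0, 539791 / 200000, -3661493 / 400000, 10668179 / 400000, -11708633 / 200000, 36108027 / 400000, -38721917 / 400000, 7148601 / 100000, -14212289 / 400000, 4530141 / 400000, -33397 / 16000, 67557 / 400000]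
  br := [0, 36669 / 40000, -12331 / 16000, 213541 / 400000, 47601 / 25000, -3723919 / 400000, 7492811 / 400000, -2177761 / 100000, 6218989 / 400000, -2694181 / 400000, 651329 / 400000, -67557 / 400000]
  fin := [(1, 1)]
  tan := [129 / 128, 65 / 64, 131 / 128, 33 / 32, 133 / 128, 267 / 256, 67 / 64, 269 / 256, 135 / 128, 271 / 256, 17 / 16, 273 / 256, 137 / 128, 275 / 256, 69 / 64, 139 / 128, 35 / 32, 141 / 128, 71 / 64, 143 / 128, 145 / 128, 147 / 128, 151 / 128, 159 / 128, 167 / 128, 175 / 128, 14143 / 10000]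

theorem D0_ok : D0.ok = true := by decide +kernel

lemma D0_B (n : ℝ) : D0.B n = BF pp n := by
  rcases le_total n (1 / 2) with h | h
  · rw [IData.B, Bpw_left h]
    simp only [D0, pp, BF, hornF, num_real, cst_real, qev]
    push_cast
    ring
  · rw [IData.B, Bpw_right (by rw [qev_one, qev_one]; norm_num [D0, qsum]) h]
    simp only [D0, pp, BF, hornF, num_real, cst_real, qev]
    push_cast
    ring

/-- interval data -/
def D1 : IData where
  za := 121 / 100
  zb := 607 / 500
  A0 := 119 / 400
  A1 := -99 / 400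
  A2 := 927 / 2000
  s := 3831 / 5000
  bl := [0, 539791 / 200000, -3661493 / 400000, 10668179 / 400000, -11708633 / 200000, 36108027 / 400000, -38721917 / 400000, 7148601 / 100000, -14212289 / 400000, 4530141 / 400000, -33397 / 16000, 67557 / 400000]
  br := [0, 36669 / 40000, -12331 / 16000, 213541 / 400000, 47601 / 25000, -3723919 / 400000, 7492811 / 400000, -2177761 / 100000, 6218989 / 400000, -2694181 / 400000, 651329 / 400000, -67557 / 400000]
  fin := [(1, 1)]
  tan := [65 / 64, 131 / 128, 33 / 32, 133 / 128, 67 / 64, 135 / 128, 17 / 16, 137 / 128, 69 / 64, 139 / 128, 35 / 32, 71 / 64, 9 / 8, 73 / 64, 75 / 64, 79 / 64, 83 / 64, 87 / 64, 14143 / 10000]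

theorem D1_ok : D1.ok = true := by decide +kernel

lemma D1_B (n : ℝ) : D1.B n = BF pp n := by
  rcases le_total n (1 / 2) with h | h
  · rw [IData.B, Bpw_left h]
    simp only [D1, pp, BF, hornF, num_real, cst_real, qev]
    push_cast
    ring
  · rw [IData.B, Bpw_right (by rw [qev_one, qev_one]; norm_num [D1, qsum]) h]
    simp only [D1, pp, BF, hornF, num_real, cst_real, qev]
    push_cast
    ring

/-- interval data -/
def D2 : IData where
  za := 607 / 500
  zb := 609 / 500
  A0 := 119 / 400
  A1 := -99 / 400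
  A2 := 927 / 2000
  s := 3831 / 5000
  bl := [0, 539791 / 200000, -3661493 / 400000, 10668179 / 400000, -11708633 / 200000, 36108027 / 400000, -38721917 / 400000, 7148601 / 100000, -14212289 / 400000, 4530141 / 400000, -33397 / 16000, 67557 / 400000]
  br := [0, 36669 / 40000, -12331 / 16000, 213541 / 400000, 47601 / 25000, -3723919 / 400000, 7492811 / 400000, -2177761 / 100000, 6218989 / 400000, -2694181 / 400000, 651329 / 400000, -67557 / 400000]
  fin := [(1, 1)]
  tan := [65 / 64, 33 / 32, 67 / 64, 135 / 128, 17 / 16, 69 / 64, 35 / 32, 71 / 64, 9 / 8, 37 / 32, 19 / 16, 5 / 4, 21 / 16, 11 / 8, 14143 / 10000]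

theorem D2_ok : D2.ok = true := by decide +kernel

lemma D2_B (n : ℝ) : D2.B n = BF pp n := by
  rcases le_total n (1 / 2) with h | h
  · rw [IData.B, Bpw_left h]
    simp only [D2, pp, BF, hornF, num_real, cst_real, qev]
    push_cast
    ring
  · rw [IData.B, Bpw_right (by rw [qev_one, qev_one]; norm_num [D2, qsum]) h]
    simp only [D2, pp, BF, hornF, num_real, cst_real, qev]
    push_cast
    ring

lemma hu : ConcaveOn ℝ (Set.Icc 0 1) (GenInd.FA (119 / 400) (-99 / 400) (927 / 2000)) :=
  concave_FA_num (by norm_num)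

lemma hF : ∀ f ∈ fs, FamI (119 / 400) (-99 / 400) (927 / 2000) ((603 / 500) ^ 2 - 1) ((609 / 500) ^ 2 - 1) f.fam := by
  intro f hf
  simp only [fs, List.mem_cons, List.not_mem_nil, or_false] at hf
  rcases hf with rfl | rfl
  · have h := fam1
    have e : FD.fam ⟨25967, (-42033), 81238, 15629, 0, 33721⟩ = ⟨(25967 / 100000), (-42033 / 100000), (40619 / 50000), (15629 / 100000), 0, (0), 0, (33721 / 100000)⟩ := by
      simp only [FD.fam, cst_real]
      norm_num
    rw [e]
    exact h
  · have h := fam2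
    have e : FD.fam ⟨31236, (-41294), 97836, 13, 0, 3948⟩ = ⟨(7809 / 25000), (-20647 / 50000), (24459 / 25000), (13 / 100000), 0, (0), 0, (987 / 25000)⟩ := by
      simp only [FD.fam, cst_real]
      norm_num
    rw [e]
    exact h

lemma hd : CertI (119 / 400) (-99 / 400) (927 / 2000) ((603 / 500) ^ 2 - 1) ((609 / 500) ^ 2 - 1) 1 0 1 (cst 4045) (cst 47360) := by
  have h := dict
  have e1 : (cst 4045 : ℝ) = (809 / 20000) := by rw [cst_real]; norm_num
  have e2 : (cst 47360 : ℝ) = (296 / 625) := by rw [cst_real]; norm_num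
  rw [e1, e2]
  exact h

lemma bound0 : BoundOn ((603 / 500) ^ 2 - 1) ((121 / 100) ^ 2 - 1) := by
  have hstep := hasStep step1 step2 hu (by decide) hF hd
    (sr := ((D0.s : ℚ) : ℝ)) (by norm_num [D0, cst_real]) (B := D0.B) D0_B
  have h := D0.boundOn D0_ok (fun n0 n1 a1 a2 a3 => by
    have := (hstep n0 n1 a1 a2 a3).mono (ca' := (603 / 500) ^ 2 - 1) (cb' := (121 / 100) ^ 2 - 1) (by norm_num) (by norm_num)
    convert this using 2 <;> norm_num [D0])
  convert h using 2 <;> norm_num [D0]

lemma bound1 : BoundOn ((121 / 100) ^ 2 - 1) ((607 / 500) ^ 2 - 1) := by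
  have hstep := hasStep step1 step2 hu (by decide) hF hd
    (sr := ((D1.s : ℚ) : ℝ)) (by norm_num [D1, cst_real]) (B := D1.B) D1_B
  have h := D1.boundOn D1_ok (fun n0 n1 a1 a2 a3 => by
    have := (hstep n0 n1 a1 a2 a3).mono (ca' := (121 / 100) ^ 2 - 1) (cb' := (607 / 500) ^ 2 - 1) (by norm_num) (by norm_num)
    convert this using 2 <;> norm_num [D1])
  convert h using 2 <;> norm_num [D1]

lemma bound2 : BoundOn ((607 / 500) ^ 2 - 1) ((609 / 500) ^ 2 - 1) := by
  have hstep := hasStep step1 step2 hu (by decide) hF hd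
    (sr := ((D2.s : ℚ) : ℝ)) (by norm_num [D2, cst_real]) (B := D2.B) D2_B
  have h := D2.boundOn D2_ok (fun n0 n1 a1 a2 a3 => by
    have := (hstep n0 n1 a1 a2 a3).mono (ca' := (607 / 500) ^ 2 - 1) (cb' := (609 / 500) ^ 2 - 1) (by norm_num) (by norm_num)
    convert this using 2 <;> norm_num [D2])
  convert h using 2 <;> norm_num [D2]

/-- **The bound on the interval.** -/
theorem bound : BoundOn ((603 / 500) ^ 2 - 1) ((609 / 500) ^ 2 - 1) :=
  ((bound0).append bound1).append bound2

end Crest.Agent.R307.MO04
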