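import Crest.Agent.R307.MO05
import Crest.Agent.R307.MSub

/-!
Row 307 (S0471), regime M, one-sided: the step and the bound on one c-interval (generated,
helper371).
-/

set_option autoImplicit false

namespace Crest.Agent.R307.MO05

open Crest.Agent.KB Crest.Agent.R307.MStep Crest.Agent.R307.GenInt Crest.Agent.R307.GenM
  Crest.Agent.R307.Conic Crest.Agent.R307.Final71

/-- the polynomial `p` of the potential, over `100000` -/
def pp : List ℤ := [-72316, 61165, -37131, 38254, -25645, 227, -5402, 54662, -36620]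

/-- the families -/
def fs : List FD := [⟨32455, (-36792), 85112, 14419, 0, 43750⟩, ⟨32498, (-44920), 91022, 6180, 0, 29507⟩]

set_option maxRecDepth 100000 in
theorem step1 : run 2 409 6 [23, 23] [64, 128] (stepCls1 pp 73185 5421 46574 fs)
    (.node 0 (.node 1 (.leaf 5) (.leaf 3)) (.node 1 (.leaf 5) (.node 0 (.leaf 3) (.node 1 (.leaf 3) (.node 0 (.node 1 (.leaf 3) (.leaf 1)) (.leaf 1)))))) [(0, 32), (0, 64)] = true := by
  decide +kernel

set_option maxRecDepth 100000 in
theorem step2 : run 2 426 6 [23, 23] [64, 128] (stepCls2 pp 73185 5421 46574 fs)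
    (.node 0 (.leaf 3) (.node 1 (.leaf 5) (.node 0 (.leaf 5) (.node 1 (.leaf 5) (.node 0 (.leaf 5) (.node 1 (.leaf 3) (.node 0 (.leaf 2) (.leaf 1)))))))) [(0, 32), (0, 64)] = true := by
  decide +kernel

/-- interval data -/
def D0 : IData where
  za := 609 / 500
  zb := 2443 / 2000
  A0 := 437 / 1250
  A1 := -819 / 2500
  A2 := 4257 / 10000
  s := 14637 / 20000
  bl := [0, 265711 / 100000, -1659043 / 200000, 4320901 / 200000, -17178953 / 400000, 24376187 / 400000, -3053837 / 50000, 3420991 / 80000, -8166693 / 400000, 1264751 / 200000, -228741 / 200000, 1831 / 20000]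
  br := [0, 88597 / 100000, -123273 / 200000, 42363 / 200000, 655181 / 400000, -493387 / 80000, 2222481 / 200000, -971407 / 80000, 3355983 / 400000, -718131 / 200000, 174079 / 200000, -1831 / 20000]
  fin := [(1 / 2, 677 / 1024), (1, 1)]
  tan := [65 / 64, 33 / 32, 67 / 64, 17 / 16, 69 / 64, 35 / 32, 71 / 64, 9 / 8, 37 / 32, 19 / 16, 5 / 4, 21 / 16, 11 / 8, 14143 / 10000]

theorem D0_ok : D0.ok = true := by decide +kernel

lemma D0_B (n : ℝ) : D0.B n = BF pp n := by
  rcases le_total n (1 / 2) with h | h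
  · rw [IData.B, Bpw_left h]
    simp only [D0, pp, BF, hornF, num_real, cst_real, qev]
    push_cast
    ring
  · rw [IData.B, Bpw_right (by rw [qev_one, qev_one]; norm_num [D0, qsum]) h]
    simp only [D0, pp, BF, hornF, num_real, cst_real, qev]
    push_cast
    ring

/-- interval data -/
def D1 : IData where
  za := 2443 / 2000
  zb := 49 / 40
  A0 := 437 / 1250
  A1 := -819 / 2500
  A2 := 4257 / 10000
  s := 14637 / 20000
  bl := [0, 265711 / 100000, -1659043 / 200000, 4320901 / 200000, -17178953 / 400000, 24376187 / 400000, -3053837 / 50000, 3420991 / 80000, -8166693 / 400000, 1264751 / 200000, -228741 / 200000, 1831 / 20000]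
  br := [0, 88597 / 100000, -123273 / 200000, 42363 / 200000, 655181 / 400000, -493387 / 80000, 2222481 / 200000, -971407 / 80000, 3355983 / 400000, -718131 / 200000, 174079 / 200000, -1831 / 20000]
  fin := [(1 / 2, 677 / 1024), (1, 1)]
  tan := [65 / 64, 33 / 32, 67 / 64, 17 / 16, 69 / 64, 35 / 32, 71 / 64, 73 / 64, 75 / 64, 79 / 64, 83 / 64, 87 / 64, 14143 / 10000]

theorem D1_ok : D1.ok = true := by decide +kernel

lemma D1_B (n : ℝ) : D1.B n = BF pp n := by
  rcases le_total n (1 / 2) with h | h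
  · rw [IData.B, Bpw_left h]
    simp only [D1, pp, BF, hornF, num_real, cst_real, qev]
    push_cast
    ring
  · rw [IData.B, Bpw_right (by rw [qev_one, qev_one]; norm_num [D1, qsum]) h]
    simp only [D1, pp, BF, hornF, num_real, cst_real, qev]
    push_cast
    ring

/-- interval data -/
def D2 : IData where
  za := 49 / 40
  zb := 2457 / 2000
  A0 := 437 / 1250
  A1 := -819 / 2500
  A2 := 4257 / 10000
  s := 14637 / 20000
  bl := [0, 265711 / 100000, -1659043 / 200000, 4320901 / 200000, -17178953 / 400000, 24376187 / 400000, -3053837 / 50000, 3420991 / 80000, -8166693 / 400000, 1264751 / 200000, -228741 / 200000, 1831 / 20000]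
  br := [0, 88597 / 100000, -123273 / 200000, 42363 / 200000, 655181 / 400000, -493387 / 80000, 2222481 / 200000, -971407 / 80000, 3355983 / 400000, -718131 / 200000, 174079 / 200000, -1831 / 20000]
  fin := [(1 / 2, 677 / 1024), (1, 1)]
  tan := [33 / 32, 67 / 64, 17 / 16, 69 / 64, 35 / 32, 9 / 8, 37 / 32, 39 / 32, 41 / 32, 43 / 32, 45 / 32, 14143 / 10000]

theorem D2_ok : D2.ok = true := by decide +kernel

lemma D2_B (n : ℝ) : D2.B n = BF pp n := by
  rcases le_total n (1 / 2) with h | h
  · rw [IData.B, Bpw_left h]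
    simp only [D2, pp, BF, hornF, num_real, cst_real, qev]
    push_cast
    ring
  · rw [IData.B, Bpw_right (by rw [qev_one, qev_one]; norm_num [D2, qsum]) h]
    simp only [D2, pp, BF, hornF, num_real, cst_real, qev]
    push_cast
    ring

/-- interval data -/
def D3 : IData where
  za := 2457 / 2000
  zb := 154 / 125
  A0 := 437 / 1250
  A1 := -819 / 2500
  A2 := 4257 / 10000
  s := 14637 / 20000
  bl := [0, 265711 / 100000, -1659043 / 200000, 4320901 / 200000, -17178953 / 400000, 24376187 / 400000, -3053837 / 50000, 3420991 / 80000, -8166693 / 400000, 1264751 / 200000, -228741 / 200000, 1831 / 20000]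
  br := [0, 88597 / 100000, -123273 / 200000, 42363 / 200000, 655181 / 400000, -493387 / 80000, 2222481 / 200000, -971407 / 80000, 3355983 / 400000, -718131 / 200000, 174079 / 200000, -1831 / 20000]
  fin := [(1 / 2, 677 / 1024), (1, 1)]
  tan := [33 / 32, 67 / 64, 17 / 16, 69 / 64, 71 / 64, 73 / 64, 77 / 64, 81 / 64, 85 / 64, 89 / 64, 14143 / 10000]

theorem D3_ok : D3.ok = true := by decide +kernel

lemma D3_B (n : ℝ) : D3.B n = BF pp n := by
  rcases le_total n (1 / 2) with h | h
  · rw [IData.B, Bpw_left h]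
    simp only [D3, pp, BF, hornF, num_real, cst_real, qev]
    push_cast
    ring
  · rw [IData.B, Bpw_right (by rw [qev_one, qev_one]; norm_num [D3, qsum]) h]
    simp only [D3, pp, BF, hornF, num_real, cst_real, qev]
    push_cast
    ring

lemma hu : ConcaveOn ℝ (Set.Icc 0 1) (GenInd.FA (437 / 1250) (-819 / 2500) (4257 / 10000)) :=
  concave_FA_num (by norm_num)

lemma hF : ∀ f ∈ fs, FamI (437 / 1250) (-819 / 2500) (4257 / 10000) ((609 / 500) ^ 2 - 1) ((154 / 125) ^ 2 - 1) f.fam := by
  intro f hf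
  simp only [fs, List.mem_cons, List.not_mem_nil, or_false] at hf
  rcases hf with rfl | rfl
  · have h := fam1
    have e : FD.fam ⟨32455, (-36792), 85112, 14419, 0, 43750⟩ = ⟨(6491 / 20000), (-4599 / 12500), (10639 / 12500), (14419 / 100000), 0, (0), 0, (7 / 16)⟩ := by
      simp only [FD.fam, cst_real]
      norm_num
    rw [e]
    exact h
  · have h := fam2
    have e : FD.fam ⟨32498, (-44920), 91022, 6180, 0, 29507⟩ = ⟨(16249 / 50000), (-1123 / 2500), (45511 / 50000), (309 / 5000), 0, (0), 0, (29507 / 100000)⟩ := by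
      simp only [FD.fam, cst_real]
      norm_num
    rw [e]
    exact h

lemma hd : CertI (437 / 1250) (-819 / 2500) (4257 / 10000) ((609 / 500) ^ 2 - 1) ((154 / 125) ^ 2 - 1) 1 0 1 (cst 5421) (cst 46574) := by
  have h := dict
  have e1 : (cst 5421 : ℝ) = (5421 / 100000) := by rw [cst_real]; norm_num
  have e2 : (cst 46574 : ℝ) = (23287 / 50000) := by rw [cst_real]; norm_num
  rw [e1, e2]
  exact h

lemma bound0 : BoundOn ((609 / 500) ^ 2 - 1) ((2443 / 2000) ^ 2 - 1) := by
  have hstep := hasStep step1 step2 hu (by decide) hF hd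
    (sr := ((D0.s : ℚ) : ℝ)) (by norm_num [D0, cst_real]) (B := D0.B) D0_B
  have h := D0.boundOn D0_ok (fun n0 n1 a1 a2 a3 => by
    have := (hstep n0 n1 a1 a2 a3).mono (ca' := (609 / 500) ^ 2 - 1) (cb' := (2443 / 2000) ^ 2 - 1) (by norm_num) (by norm_num)
    convert this using 2 <;> norm_num [D0])
  convert h using 2 <;> norm_num [D0]

lemma bound1 : BoundOn ((2443 / 2000) ^ 2 - 1) ((49 / 40) ^ 2 - 1) := by
  have hstep := hasStep step1 step2 hu (by decide) hF hd
    (sr := ((D1.s : ℚ) : ℝ)) (by norm_num [D1, cst_real]) (B := D1.B) D1_B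
  have h := D1.boundOn D1_ok (fun n0 n1 a1 a2 a3 => by
    have := (hstep n0 n1 a1 a2 a3).mono (ca' := (2443 / 2000) ^ 2 - 1) (cb' := (49 / 40) ^ 2 - 1) (by norm_num) (by norm_num)
    convert this using 2 <;> norm_num [D1])
  convert h using 2 <;> norm_num [D1]

lemma bound2 : BoundOn ((49 / 40) ^ 2 - 1) ((2457 / 2000) ^ 2 - 1) := by
  have hstep := hasStep step1 step2 hu (by decide) hF hd
    (sr := ((D2.s : ℚ) : ℝ)) (by norm_num [D2, cst_real]) (B := D2.B) D2_B
  have h := D2.boundOn D2_ok (fun n0 n1 a1 a2 a3 => by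
    have := (hstep n0 n1 a1 a2 a3).mono (ca' := (49 / 40) ^ 2 - 1) (cb' := (2457 / 2000) ^ 2 - 1) (by norm_num) (by norm_num)
    convert this using 2 <;> norm_num [D2])
  convert h using 2 <;> norm_num [D2]

lemma bound3 : BoundOn ((2457 / 2000) ^ 2 - 1) ((154 / 125) ^ 2 - 1) := by
  have hstep := hasStep step1 step2 hu (by decide) hF hd
    (sr := ((D3.s : ℚ) : ℝ)) (by norm_num [D3, cst_real]) (B := D3.B) D3_B
  have h := D3.boundOn D3_ok (fun n0 n1 a1 a2 a3 => by
    have := (hstep n0 n1 a1 a2 a3).mono (ca' := (2457 / 2000) ^ 2 - 1) (cb' := (154 / 125) ^ 2 - 1) (by norm_num) (by norm_num)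
    convert this using 2 <;> norm_num [D3])
  convert h using 2 <;> norm_num [D3]

/-- **The bound on the interval.** -/
theorem bound : BoundOn ((609 / 500) ^ 2 - 1) ((154 / 125) ^ 2 - 1) :=
  (((bound0).append bound1).append bound2).append bound3

end Crest.Agent.R307.MO05
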