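import Crest.Agent.R307.MO06
import Crest.Agent.R307.MSub

/-!
Row 307 (S0471), regime M, one-sided: the step and the bound on one c-interval (generated,
helper371).
-/

set_option autoImplicit false

namespace Crest.Agent.R307.MO06

open Crest.Agent.KB Crest.Agent.R307.MStep Crest.Agent.R307.GenInt Crest.Agent.R307.GenM
  Crest.Agent.R307.Conic Crest.Agent.R307.Final71

/-- the polynomial `p` of the potential, over `100000` -/
def pp : List ℤ := [-76311, 63396, -40459, 39106, -19918, 3819, -25225, 56326, -24048]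

/-- the families -/
def fs : List FD := [⟨33399, (-44578), 88722, 9212, 0, 31694⟩, ⟨35041, (-41252), 93110, 6183, 0, 23015⟩]

set_option maxRecDepth 100000 in
theorem step1 : run 2 409 6 [23, 23] [64, 128] (stepCls1 pp 68918 5132 49255 fs)
    (.node 0 (.node 1 (.node 0 (.leaf 5) (.leaf 5)) (.leaf 5)) (.node 1 (.leaf 5) (.node 0 (.leaf 5) (.node 1 (.leaf 5) (.node 0 (.leaf 5) (.leaf 1)))))) [(0, 32), (0, 64)] = true := by
  decide +kernel

set_option maxRecDepth 100000 in
theorem step2 : run 2 425 6 [23, 23] [64, 128] (stepCls2 pp 68918 5132 49255 fs)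
    (.node 0 (.leaf 3) (.node 1 (.leaf 3) (.node 0 (.leaf 3) (.node 1 (.leaf 3) (.node 0 (.leaf 3) (.node 1 (.leaf 3) (.leaf 1))))))) [(0, 32), (0, 64)] = true := by
  decide +kernel

/-- interval data -/
def D0 : IData where
  za := 154 / 125
  zb := 309 / 250
  A0 := 3377 / 10000
  A1 := -3001 / 10000
  A2 := 4439 / 10000
  s := 34459 / 50000
  bl := [0, 8572 / 3125, -1721327 / 200000, 8743933 / 400000, -16707667 / 400000, 11316527 / 200000, -10782723 / 200000, 14311969 / 400000, -1615169 / 100000, 1887077 / 400000, -160427 / 200000, 1503 / 25000]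
  br := [0, 88343 / 100000, -38699 / 50000, 499323 / 400000, -705463 / 400000, 29791 / 40000, 97293 / 50000, -1633841 / 400000, 29927 / 8000, -760557 / 400000, 104101 / 200000, -1503 / 25000]
  fin := [(1 / 2, 677 / 1024), (1, 1)]
  tan := [129 / 128, 65 / 64, 131 / 128, 33 / 32, 133 / 128, 67 / 64, 135 / 128, 17 / 16, 137 / 128, 69 / 64, 139 / 128, 35 / 32, 71 / 64, 9 / 8, 37 / 32, 19 / 16, 5 / 4, 21 / 16, 11 / 8, 14143 / 10000]

theorem D0_ok : D0.ok = true := by decide +kernel

lemma D0_B (n : ℝ) : D0.B n = BF pp n := by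
  rcases le_total n (1 / 2) with h | h
  · rw [IData.B, Bpw_left h]
    simp only [D0, pp, BF, hornF, num_real, cst_real, qev]
    push_cast
    ring
  · rw [IData.B, Bpw_right (by rw [qev_one, qev_one]; norm_num [D0, qsum]) h]
    simp only [D0, pp, BF, hornF, num_real, cst_real, qev]
    push_cast
    ring

/-- interval data -/
def D1 : IData where
  za := 309 / 250
  zb := 31 / 25
  A0 := 3377 / 10000
  A1 := -3001 / 10000
  A2 := 4439 / 10000
  s := 34459 / 50000
  bl := [0, 8572 / 3125, -1721327 / 200000, 8743933 / 400000, -16707667 / 400000, 11316527 / 200000, -10782723 / 200000, 14311969 / 400000, -1615169 / 100000, 1887077 / 400000, -160427 / 200000, 1503 / 25000]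
  br := [0, 88343 / 100000, -38699 / 50000, 499323 / 400000, -705463 / 400000, 29791 / 40000, 97293 / 50000, -1633841 / 400000, 29927 / 8000, -760557 / 400000, 104101 / 200000, -1503 / 25000]
  fin := [(1 / 2, 677 / 1024), (1, 1)]
  tan := [65 / 64, 131 / 128, 33 / 32, 133 / 128, 67 / 64, 135 / 128, 17 / 16, 69 / 64, 35 / 32, 71 / 64, 73 / 64, 75 / 64, 79 / 64, 83 / 64, 87 / 64, 14143 / 10000]

theorem D1_ok : D1.ok = true := by decide +kernel

lemma D1_B (n : ℝ) : D1.B n = BF pp n := by
  rcases le_total n (1 / 2) with h | h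
  · rw [IData.B, Bpw_left h]
    simp only [D1, pp, BF, hornF, num_real, cst_real, qev]
    push_cast
    ring
  · rw [IData.B, Bpw_right (by rw [qev_one, qev_one]; norm_num [D1, qsum]) h]
    simp only [D1, pp, BF, hornF, num_real, cst_real, qev]
    push_cast
    ring

/-- interval data -/
def D2 : IData where
  za := 31 / 25
  zb := 311 / 250
  A0 := 3377 / 10000
  A1 := -3001 / 10000
  A2 := 4439 / 10000
  s := 34459 / 50000
  bl := [0, 8572 / 3125, -1721327 / 200000, 8743933 / 400000, -16707667 / 400000, 11316527 / 200000, -10782723 / 200000, 14311969 / 400000, -1615169 / 100000, 1887077 / 400000, -160427 / 200000, 1503 / 25000]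
  br := [0, 88343 / 100000, -38699 / 50000, 499323 / 400000, -705463 / 400000, 29791 / 40000, 97293 / 50000, -1633841 / 400000, 29927 / 8000, -760557 / 400000, 104101 / 200000, -1503 / 25000]
  fin := [(1 / 2, 677 / 1024), (1, 1)]
  tan := [65 / 64, 33 / 32, 67 / 64, 17 / 16, 69 / 64, 35 / 32, 9 / 8, 37 / 32, 39 / 32, 41 / 32, 43 / 32, 45 / 32, 14143 / 10000]

theorem D2_ok : D2.ok = true := by decide +kernel

lemma D2_B (n : ℝ) : D2.B n = BF pp n := by
  rcases le_total n (1 / 2) with h | h
  · rw [IData.B, Bpw_left h]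
    simp only [D2, pp, BF, hornF, num_real, cst_real, qev]
    push_cast
    ring
  · rw [IData.B, Bpw_right (by rw [qev_one, qev_one]; norm_num [D2, qsum]) h]
    simp only [D2, pp, BF, hornF, num_real, cst_real, qev]
    push_cast
    ring

/-- interval data -/
def D3 : IData where
  za := 311 / 250
  zb := 156 / 125
  A0 := 3377 / 10000
  A1 := -3001 / 10000
  A2 := 4439 / 10000
  s := 34459 / 50000
  bl := [0, 8572 / 3125, -1721327 / 200000, 8743933 / 400000, -16707667 / 400000, 11316527 / 200000, -10782723 / 200000, 14311969 / 400000, -1615169 / 100000, 1887077 / 400000, -160427 / 200000, 1503 / 25000]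
  br := [0, 88343 / 100000, -38699 / 50000, 499323 / 400000, -705463 / 400000, 29791 / 40000, 97293 / 50000, -1633841 / 400000, 29927 / 8000, -760557 / 400000, 104101 / 200000, -1503 / 25000]
  fin := [(1 / 2, 677 / 1024), (1, 1)]
  tan := [65 / 64, 33 / 32, 67 / 64, 17 / 16, 69 / 64, 71 / 64, 73 / 64, 77 / 64, 81 / 64, 85 / 64, 89 / 64, 14143 / 10000]

theorem D3_ok : D3.ok = true := by decide +kernel

lemma D3_B (n : ℝ) : D3.B n = BF pp n := by
  rcases le_total n (1 / 2) with h | h
  · rw [IData.B, Bpw_left h]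
    simp only [D3, pp, BF, hornF, num_real, cst_real, qev]
    push_cast
    ring
  · rw [IData.B, Bpw_right (by rw [qev_one, qev_one]; norm_num [D3, qsum]) h]
    simp only [D3, pp, BF, hornF, num_real, cst_real, qev]
    push_cast
    ring

lemma hu : ConcaveOn ℝ (Set.Icc 0 1) (GenInd.FA (3377 / 10000) (-3001 / 10000) (4439 / 10000)) :=
  concave_FA_num (by norm_num)

lemma hF : ∀ f ∈ fs, FamI (3377 / 10000) (-3001 / 10000) (4439 / 10000) ((154 / 125) ^ 2 - 1) ((156 / 125) ^ 2 - 1) f.fam := by
  intro f hf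
  simp only [fs, List.mem_cons, List.not_mem_nil, or_false] at hf
  rcases hf with rfl | rfl
  · have h := fam1
    have e : FD.fam ⟨33399, (-44578), 88722, 9212, 0, 31694⟩ = ⟨(33399 / 100000), (-22289 / 50000), (44361 / 50000), (2303 / 25000), 0, (0), 0, (15847 / 50000)⟩ := by
      simp only [FD.fam, cst_real]
      norm_num
    rw [e]
    exact h
  · have h := fam2
    have e : FD.fam ⟨35041, (-41252), 93110, 6183, 0, 23015⟩ = ⟨(35041 / 100000), (-10313 / 25000), (9311 / 10000), (6183 / 100000), 0, (0), 0, (4603 / 20000)⟩ := by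
      simp only [FD.fam, cst_real]
      norm_num
    rw [e]
    exact h

lemma hd : CertI (3377 / 10000) (-3001 / 10000) (4439 / 10000) ((154 / 125) ^ 2 - 1) ((156 / 125) ^ 2 - 1) 1 0 1 (cst 5132) (cst 49255) := by
  have h := dict
  have e1 : (cst 5132 : ℝ) = (1283 / 25000) := by rw [cst_real]; norm_num
  have e2 : (cst 49255 : ℝ) = (9851 / 20000) := by rw [cst_real]; norm_num
  rw [e1, e2]
  exact h

lemma bound0 : BoundOn ((154 / 125) ^ 2 - 1) ((309 / 250) ^ 2 - 1) := by
  have hstep := hasStep step1 step2 hu (by decide) hF hd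
    (sr := ((D0.s : ℚ) : ℝ)) (by norm_num [D0, cst_real]) (B := D0.B) D0_B
  have h := D0.boundOn D0_ok (fun n0 n1 a1 a2 a3 => by
    have := (hstep n0 n1 a1 a2 a3).mono (ca' := (154 / 125) ^ 2 - 1) (cb' := (309 / 250) ^ 2 - 1) (by norm_num) (by norm_num)
    convert this using 2 <;> norm_num [D0])
  convert h using 2 <;> norm_num [D0]

lemma bound1 : BoundOn ((309 / 250) ^ 2 - 1) ((31 / 25) ^ 2 - 1) := by
  have hstep := hasStep step1 step2 hu (by decide) hF hd
    (sr := ((D1.s : ℚ) : ℝ)) (by norm_num [D1, cst_real]) (B := D1.B) D1_B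
  have h := D1.boundOn D1_ok (fun n0 n1 a1 a2 a3 => by
    have := (hstep n0 n1 a1 a2 a3).mono (ca' := (309 / 250) ^ 2 - 1) (cb' := (31 / 25) ^ 2 - 1) (by norm_num) (by norm_num)
    convert this using 2 <;> norm_num [D1])
  convert h using 2 <;> norm_num [D1]

lemma bound2 : BoundOn ((31 / 25) ^ 2 - 1) ((311 / 250) ^ 2 - 1) := by
  have hstep := hasStep step1 step2 hu (by decide) hF hd
    (sr := ((D2.s : ℚ) : ℝ)) (by norm_num [D2, cst_real]) (B := D2.B) D2_B
  have h := D2.boundOn D2_ok (fun n0 n1 a1 a2 a3 => by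
    have := (hstep n0 n1 a1 a2 a3).mono (ca' := (31 / 25) ^ 2 - 1) (cb' := (311 / 250) ^ 2 - 1) (by norm_num) (by norm_num)
    convert this using 2 <;> norm_num [D2])
  convert h using 2 <;> norm_num [D2]

lemma bound3 : BoundOn ((311 / 250) ^ 2 - 1) ((156 / 125) ^ 2 - 1) := by
  have hstep := hasStep step1 step2 hu (by decide) hF hd
    (sr := ((D3.s : ℚ) : ℝ)) (by norm_num [D3, cst_real]) (B := D3.B) D3_B
  have h := D3.boundOn D3_ok (fun n0 n1 a1 a2 a3 => by
    have := (hstep n0 n1 a1 a2 a3).mono (ca' := (311 / 250) ^ 2 - 1) (cb' := (156 / 125) ^ 2 - 1) (by norm_num) (by norm_num)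
    convert this using 2 <;> norm_num [D3])
  convert h using 2 <;> norm_num [D3]

/-- **The bound on the interval.** -/
theorem bound : BoundOn ((154 / 125) ^ 2 - 1) ((156 / 125) ^ 2 - 1) :=
  (((bound0).append bound1).append bound2).append bound3

end Crest.Agent.R307.MO06
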