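import Crest.Agent.R307.MO07
import Crest.Agent.R307.MSub

/-!
Row 307 (S0471), regime M, one-sided: the step and the bound on one c-interval (generated,
helper371).
-/

set_option autoImplicit false

namespace Crest.Agent.R307.MO07

open Crest.Agent.KB Crest.Agent.R307.MStep Crest.Agent.R307.GenInt Crest.Agent.R307.GenM
  Crest.Agent.R307.Conic Crest.Agent.R307.Final71

/-- the polynomial `p` of the potential, over `100000` -/
def pp : List ℤ := [-84869, 69370, -46428, 42358, -25342, 11066, -27270, 50561, -21996]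

/-- the families -/
def fs : List FD := [⟨38889, (-38889), 86056, 12396, 13387, 44649⟩, ⟨39034, (-40231), 86376, 13384, 10827, 45608⟩]

set_option maxRecDepth 100000 in
theorem step1 : run 2 409 6 [23, 23] [64, 128] (stepCls1 pp 59895 0 44348 fs)
    (.node 0 (.leaf 3) (.node 1 (.leaf 3) (.node 0 (.leaf 3) (.node 1 (.leaf 3) (.node 0 (.node 1 (.leaf 3) (.leaf 2)) (.node 1 (.leaf 3) (.node 0 (.leaf 2) (.leaf 1)))))))) [(0, 32), (0, 64)] = true := by
  decide +kernel

set_option maxRecDepth 100000 in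
theorem step2 : run 2 424 6 [23, 23] [64, 128] (stepCls2 pp 59895 0 44348 fs)
    (.node 0 (.leaf 5) (.node 1 (.leaf 5) (.node 0 (.leaf 5) (.node 1 (.leaf 5) (.node 0 (.leaf 5) (.node 1 (.leaf 5) (.node 0 (.leaf 4) (.node 1 (.leaf 4) (.leaf 1))))))))) [(0, 32), (0, 64)] = true := by
  decide +kernel

/-- interval data -/
def D0 : IData where
  za := 158 / 125
  zb := 507 / 400
  A0 := 789 / 2000
  A1 := -1687 / 5000
  A2 := 42 / 125
  s := 11979 / 20000
  bl := [0, 28963 / 10000, -1808403 / 200000, 1768733 / 80000, -8155353 / 200000, 10762339 / 200000, -10067457 / 200000, 1649747 / 50000, -1478139 / 100000, 215083 / 50000, -292517 / 400000, 5499 / 100000]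
  br := [0, 3349 / 4000, -15383 / 25000, 335311 / 400000, -194199 / 200000, -8987 / 40000, 104843 / 40000, -211907 / 50000, 45033 / 12500, -177361 / 100000, 38279 / 80000, -5499 / 100000]
  fin := [(21845 / 65536, 283 / 512), (1, 1)]
  tan := [129 / 128, 65 / 64, 131 / 128, 263 / 256, 33 / 32, 265 / 256, 133 / 128, 267 / 256, 67 / 64, 269 / 256, 135 / 128, 271 / 256, 17 / 16, 273 / 256, 137 / 128, 275 / 256, 69 / 64, 277 / 256, 139 / 128, 279 / 256, 281 / 256, 283 / 256, 285 / 256, 287 / 256, 291 / 256, 295 / 256, 303 / 256, 311 / 256, 327 / 256, 343 / 256, 359 / 256, 14143 / 10000]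

theorem D0_ok : D0.ok = true := by decide +kernel

lemma D0_B (n : ℝ) : D0.B n = BF pp n := by
  rcases le_total n (1 / 2) with h | h
  · rw [IData.B, Bpw_left h]
    simp only [D0, pp, BF, hornF, num_real, cst_real, qev]
    push_cast
    ring
  · rw [IData.B, Bpw_right (by rw [qev_one, qev_one]; norm_num [D0, qsum]) h]
    simp only [D0, pp, BF, hornF, num_real, cst_real, qev]
    push_cast
    ring

/-- interval data -/
def D1 : IData where
  za := 507 / 400
  zb := 1271 / 1000
  A0 := 789 / 2000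
  A1 := -1687 / 5000
  A2 := 42 / 125
  s := 11979 / 20000
  bl := [0, 28963 / 10000, -1808403 / 200000, 1768733 / 80000, -8155353 / 200000, 10762339 / 200000, -10067457 / 200000, 1649747 / 50000, -1478139 / 100000, 215083 / 50000, -292517 / 400000, 5499 / 100000]
  br := [0, 3349 / 4000, -15383 / 25000, 335311 / 400000, -194199 / 200000, -8987 / 40000, 104843 / 40000, -211907 / 50000, 45033 / 12500, -177361 / 100000, 38279 / 80000, -5499 / 100000]
  fin := [(21845 / 65536, 283 / 512), (1, 1)]
  tan := [129 / 128, 65 / 64, 131 / 128, 33 / 32, 133 / 128, 67 / 64, 135 / 128, 17 / 16, 137 / 128, 69 / 64, 139 / 128, 35 / 32, 141 / 128, 143 / 128, 145 / 128, 147 / 128, 151 / 128, 159 / 128, 167 / 128, 175 / 128, 14143 / 10000]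

theorem D1_ok : D1.ok = true := by decide +kernel

lemma D1_B (n : ℝ) : D1.B n = BF pp n := by
  rcases le_total n (1 / 2) with h | h
  · rw [IData.B, Bpw_left h]
    simp only [D1, pp, BF, hornF, num_real, cst_real, qev]
    push_cast
    ring
  · rw [IData.B, Bpw_right (by rw [qev_one, qev_one]; norm_num [D1, qsum]) h]
    simp only [D1, pp, BF, hornF, num_real, cst_real, qev]
    push_cast
    ring

/-- interval data -/
def D2 : IData where
  za := 1271 / 1000
  zb := 2549 / 2000
  A0 := 789 / 2000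
  A1 := -1687 / 5000
  A2 := 42 / 125
  s := 11979 / 20000
  bl := [0, 28963 / 10000, -1808403 / 200000, 1768733 / 80000, -8155353 / 200000, 10762339 / 200000, -10067457 / 200000, 1649747 / 50000, -1478139 / 100000, 215083 / 50000, -292517 / 400000, 5499 / 100000]
  br := [0, 3349 / 4000, -15383 / 25000, 335311 / 400000, -194199 / 200000, -8987 / 40000, 104843 / 40000, -211907 / 50000, 45033 / 12500, -177361 / 100000, 38279 / 80000, -5499 / 100000]
  fin := [(21845 / 65536, 283 / 512), (1, 1)]
  tan := [65 / 64, 33 / 32, 133 / 128, 67 / 64, 135 / 128, 17 / 16, 137 / 128, 139 / 128, 141 / 128, 143 / 128, 145 / 128, 149 / 128, 153 / 128, 161 / 128, 169 / 128, 177 / 128, 14143 / 10000]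

theorem D2_ok : D2.ok = true := by decide +kernel

lemma D2_B (n : ℝ) : D2.B n = BF pp n := by
  rcases le_total n (1 / 2) with h | h
  · rw [IData.B, Bpw_left h]
    simp only [D2, pp, BF, hornF, num_real, cst_real, qev]
    push_cast
    ring
  · rw [IData.B, Bpw_right (by rw [qev_one, qev_one]; norm_num [D2, qsum]) h]
    simp only [D2, pp, BF, hornF, num_real, cst_real, qev]
    push_cast
    ring

/-- interval data -/
def D3 : IData where
  za := 2549 / 2000
  zb := 639 / 500
  A0 := 789 / 2000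
  A1 := -1687 / 5000
  A2 := 42 / 125
  s := 11979 / 20000
  bl := [0, 28963 / 10000, -1808403 / 200000, 1768733 / 80000, -8155353 / 200000, 10762339 / 200000, -10067457 / 200000, 1649747 / 50000, -1478139 / 100000, 215083 / 50000, -292517 / 400000, 5499 / 100000]
  br := [0, 3349 / 4000, -15383 / 25000, 335311 / 400000, -194199 / 200000, -8987 / 40000, 104843 / 40000, -211907 / 50000, 45033 / 12500, -177361 / 100000, 38279 / 80000, -5499 / 100000]
  fin := [(21845 / 65536, 283 / 512), (1, 1)]
  tan := [65 / 64, 33 / 32, 67 / 64, 17 / 16, 69 / 64, 35 / 32, 71 / 64, 73 / 64, 75 / 64, 79 / 64, 83 / 64, 87 / 64, 14143 / 10000]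

theorem D3_ok : D3.ok = true := by decide +kernel

lemma D3_B (n : ℝ) : D3.B n = BF pp n := by
  rcases le_total n (1 / 2) with h | h
  · rw [IData.B, Bpw_left h]
    simp only [D3, pp, BF, hornF, num_real, cst_real, qev]
    push_cast
    ring
  · rw [IData.B, Bpw_right (by rw [qev_one, qev_one]; norm_num [D3, qsum]) h]
    simp only [D3, pp, BF, hornF, num_real, cst_real, qev]
    push_cast
    ring

lemma hu : ConcaveOn ℝ (Set.Icc 0 1) (GenInd.FA (789 / 2000) (-1687 / 5000) (42 / 125)) :=
  concave_FA_num (by norm_num)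

lemma hF : ∀ f ∈ fs, FamI (789 / 2000) (-1687 / 5000) (42 / 125) ((158 / 125) ^ 2 - 1) ((639 / 500) ^ 2 - 1) f.fam := by
  intro f hf
  simp only [fs, List.mem_cons, List.not_mem_nil, or_false] at hf
  rcases hf with rfl | rfl
  · have h := fam1
    have e : FD.fam ⟨38889, (-38889), 86056, 12396, 13387, 44649⟩ = ⟨(38889 / 100000), (-38889 / 100000), (10757 / 12500), (3099 / 25000), 0, (13387 / 100000), 0, (44649 / 100000)⟩ := by
      simp only [FD.fam, cst_real]
      norm_num
    rw [e]
    exact h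
  · have h := fam2
    have e : FD.fam ⟨39034, (-40231), 86376, 13384, 10827, 45608⟩ = ⟨(19517 / 50000), (-40231 / 100000), (10797 / 12500), (1673 / 12500), 0, (10827 / 100000), 0, (5701 / 12500)⟩ := by
      simp only [FD.fam, cst_real]
      norm_num
    rw [e]
    exact h

lemma hd : CertI (789 / 2000) (-1687 / 5000) (42 / 125) ((158 / 125) ^ 2 - 1) ((639 / 500) ^ 2 - 1) 1 0 1 (cst 0) (cst 44348) := by
  have h := dict
  have e1 : (cst 0 : ℝ) = (0) := by rw [cst_real]; norm_num
  have e2 : (cst 44348 : ℝ) = (11087 / 25000) := by rw [cst_real]; norm_num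
  rw [e1, e2]
  exact h

lemma bound0 : BoundOn ((158 / 125) ^ 2 - 1) ((507 / 400) ^ 2 - 1) := by
  have hstep := hasStep step1 step2 hu (by decide) hF hd
    (sr := ((D0.s : ℚ) : ℝ)) (by norm_num [D0, cst_real]) (B := D0.B) D0_B
  have h := D0.boundOn D0_ok (fun n0 n1 a1 a2 a3 => by
    have := (hstep n0 n1 a1 a2 a3).mono (ca' := (158 / 125) ^ 2 - 1) (cb' := (507 / 400) ^ 2 - 1) (by norm_num) (by norm_num)
    convert this using 2 <;> norm_num [D0])
  convert h using 2 <;> norm_num [D0]

lemma bound1 : BoundOn ((507 / 400) ^ 2 - 1) ((1271 / 1000) ^ 2 - 1) := by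
  have hstep := hasStep step1 step2 hu (by decide) hF hd
    (sr := ((D1.s : ℚ) : ℝ)) (by norm_num [D1, cst_real]) (B := D1.B) D1_B
  have h := D1.boundOn D1_ok (fun n0 n1 a1 a2 a3 => by
    have := (hstep n0 n1 a1 a2 a3).mono (ca' := (507 / 400) ^ 2 - 1) (cb' := (1271 / 1000) ^ 2 - 1) (by norm_num) (by norm_num)
    convert this using 2 <;> norm_num [D1])
  convert h using 2 <;> norm_num [D1]

lemma bound2 : BoundOn ((1271 / 1000) ^ 2 - 1) ((2549 / 2000) ^ 2 - 1) := by
  have hstep := hasStep step1 step2 hu (by decide) hF hd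
    (sr := ((D2.s : ℚ) : ℝ)) (by norm_num [D2, cst_real]) (B := D2.B) D2_B
  have h := D2.boundOn D2_ok (fun n0 n1 a1 a2 a3 => by
    have := (hstep n0 n1 a1 a2 a3).mono (ca' := (1271 / 1000) ^ 2 - 1) (cb' := (2549 / 2000) ^ 2 - 1) (by norm_num) (by norm_num)
    convert this using 2 <;> norm_num [D2])
  convert h using 2 <;> norm_num [D2]

lemma bound3 : BoundOn ((2549 / 2000) ^ 2 - 1) ((639 / 500) ^ 2 - 1) := by
  have hstep := hasStep step1 step2 hu (by decide) hF hd
    (sr := ((D3.s : ℚ) : ℝ)) (by norm_num [D3, cst_real]) (B := D3.B) D3_B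
  have h := D3.boundOn D3_ok (fun n0 n1 a1 a2 a3 => by
    have := (hstep n0 n1 a1 a2 a3).mono (ca' := (2549 / 2000) ^ 2 - 1) (cb' := (639 / 500) ^ 2 - 1) (by norm_num) (by norm_num)
    convert this using 2 <;> norm_num [D3])
  convert h using 2 <;> norm_num [D3]

/-- **The bound on the interval.** -/
theorem bound : BoundOn ((158 / 125) ^ 2 - 1) ((639 / 500) ^ 2 - 1) :=
  (((bound0).append bound1).append bound2).append bound3

end Crest.Agent.R307.MO07
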