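import Crest.Agent.R307.MO08
import Crest.Agent.R307.MSub

/-!
Row 307 (S0471), regime M, one-sided: the step and the bound on one c-interval (generated,
helper371).
-/

set_option autoImplicit false

namespace Crest.Agent.R307.MO08

open Crest.Agent.KB Crest.Agent.R307.MStep Crest.Agent.R307.GenInt Crest.Agent.R307.GenM
  Crest.Agent.R307.Conic Crest.Agent.R307.Final71

/-- the polynomial `p` of the potential, over `100000` -/
def pp : List ℤ := [-88983, 72148, -49572, 44798, -27551, 11357, -28722, 55108, -25682]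

/-- the families -/
def fs : List FD := [⟨40955, (-40955), 85055, 9075, 21877, 45553⟩, ⟨41256, (-44807), 85680, 13007, 20391, 43889⟩]

set_option maxRecDepth 100000 in
theorem step1 : run 2 409 6 [23, 23] [64, 128] (stepCls1 pp 56579 0 46201 fs)
    (.node 0 (.leaf 3) (.node 1 (.leaf 3) (.node 0 (.leaf 3) (.node 1 (.leaf 5) (.node 0 (.node 1 (.leaf 5) (.leaf 4)) (.node 1 (.leaf 4) (.node 0 (.leaf 4) (.leaf 1)))))))) [(0, 32), (0, 64)] = true := by
  decide +kernel

set_option maxRecDepth 100000 in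
theorem step2 : run 2 425 6 [23, 23] [64, 128] (stepCls2 pp 56579 0 46201 fs)
    (.node 0 (.leaf 5) (.node 1 (.leaf 5) (.node 0 (.leaf 5) (.node 1 (.leaf 5) (.node 0 (.leaf 5) (.node 1 (.leaf 5) (.node 0 (.node 1 (.leaf 5) (.node 0 (.leaf 5) (.leaf 1))) (.node 1 (.leaf 4) (.leaf 1))))))))) [(0, 32), (0, 64)] = true := by
  decide +kernel

/-- interval data -/
def D0 : IData where
  za := 639 / 500
  zb := 161 / 125
  A0 := 491 / 1250
  A1 := -813 / 2500
  A2 := 1427 / 5000
  s := 56579 / 100000
  bl := [0, 603921 / 200000, -3884201 / 400000, 193053 / 8000, -3593259 / 80000, 149271 / 2500, -1124667 / 20000, 14846281 / 400000, -6700999 / 400000, 196663 / 40000, -33761 / 40000, 12841 / 200000]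
  br := [0, 162901 / 200000, -212597 / 400000, 114799 / 200000, -22371 / 80000, -151937 / 100000, 865577 / 200000, -2320377 / 400000, 1828781 / 400000, -86447 / 40000, 113697 / 200000, -12841 / 200000]
  fin := [(21845 / 65536, 283 / 512), (1, 1)]
  tan := [33 / 32, 17 / 16, 69 / 64, 35 / 32, 9 / 8, 37 / 32, 19 / 16, 5 / 4, 21 / 16, 11 / 8, 14143 / 10000]

theorem D0_ok : D0.ok = true := by decide +kernel

lemma D0_B (n : ℝ) : D0.B n = BF pp n := by
  rcases le_total n (1 / 2) with h | h
  · rw [IData.B, Bpw_left h]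
    simp only [D0, pp, BF, hornF, num_real, cst_real, qev]
    push_cast
    ring
  · rw [IData.B, Bpw_right (by rw [qev_one, qev_one]; norm_num [D0, qsum]) h]
    simp only [D0, pp, BF, hornF, num_real, cst_real, qev]
    push_cast
    ring

lemma hu : ConcaveOn ℝ (Set.Icc 0 1) (GenInd.FA (491 / 1250) (-813 / 2500) (1427 / 5000)) :=
  concave_FA_num (by norm_num)

lemma hF : ∀ f ∈ fs, FamI (491 / 1250) (-813 / 2500) (1427 / 5000) ((639 / 500) ^ 2 - 1) ((161 / 125) ^ 2 - 1) f.fam := by
  intro f hf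
  simp only [fs, List.mem_cons, List.not_mem_nil, or_false] at hf
  rcases hf with rfl | rfl
  · have h := fam1
    have e : FD.fam ⟨40955, (-40955), 85055, 9075, 21877, 45553⟩ = ⟨(8191 / 20000), (-8191 / 20000), (17011 / 20000), (363 / 4000), 0, (21877 / 100000), 0, (45553 / 100000)⟩ := by
      simp only [FD.fam, cst_real]
      norm_num
    rw [e]
    exact h
  · have h := fam2
    have e : FD.fam ⟨41256, (-44807), 85680, 13007, 20391, 43889⟩ = ⟨(5157 / 12500), (-44807 / 100000), (1071 / 1250), (13007 / 100000), 0, (20391 / 100000), 0, (43889 / 100000)⟩ := by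
      simp only [FD.fam, cst_real]
      norm_num
    rw [e]
    exact h

lemma hd : CertI (491 / 1250) (-813 / 2500) (1427 / 5000) ((639 / 500) ^ 2 - 1) ((161 / 125) ^ 2 - 1) 1 0 1 (cst 0) (cst 46201) := by
  have h := dict
  have e1 : (cst 0 : ℝ) = (0) := by rw [cst_real]; norm_num
  have e2 : (cst 46201 : ℝ) = (46201 / 100000) := by rw [cst_real]; norm_num
  rw [e1, e2]
  exact h

lemma bound0 : BoundOn ((639 / 500) ^ 2 - 1) ((161 / 125) ^ 2 - 1) := by
  have hstep := hasStep step1 step2 hu (by decide) hF hd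
    (sr := ((D0.s : ℚ) : ℝ)) (by norm_num [D0, cst_real]) (B := D0.B) D0_B
  have h := D0.boundOn D0_ok (fun n0 n1 a1 a2 a3 => by
    have := (hstep n0 n1 a1 a2 a3).mono (ca' := (639 / 500) ^ 2 - 1) (cb' := (161 / 125) ^ 2 - 1) (by norm_num) (by norm_num)
    convert this using 2 <;> norm_num [D0])
  convert h using 2 <;> norm_num [D0]

/-- **The bound on the interval.** -/
theorem bound : BoundOn ((639 / 500) ^ 2 - 1) ((161 / 125) ^ 2 - 1) :=
  bound0

end Crest.Agent.R307.MO08
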