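import Crest.Agent.R307.MO09
import Crest.Agent.R307.MSub

/-!
Row 307 (S0471), regime M, one-sided: the step and the bound on one c-interval (generated,
helper371).
-/

set_option autoImplicit false

namespace Crest.Agent.R307.MO09

open Crest.Agent.KB Crest.Agent.R307.MStep Crest.Agent.R307.GenInt Crest.Agent.R307.GenM
  Crest.Agent.R307.Conic Crest.Agent.R307.Final71

/-- the polynomial `p` of the potential, over `100000` -/
def pp : List ℤ := [-93814, 75296, -52857, 46280, -29748, 16396, -33840, 55617, -25350]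

/-- the families -/
def fs : List FD := [⟨43626, (-43626), 83365, 6054, 30210, 48020⟩, ⟨44534, (-48299), 85103, 13118, 24553, 43174⟩]

set_option maxRecDepth 100000 in
theorem step1 : run 2 409 6 [23, 23] [64, 128] (stepCls1 pp 49467 12860 45637 fs)
    (.node 0 (.node 1 (.node 0 (.leaf 3) (.leaf 3)) (.leaf 5)) (.node 1 (.node 0 (.leaf 5) (.node 1 (.leaf 3) (.leaf 5))) (.node 0 (.leaf 5) (.node 1 (.leaf 5) (.node 0 (.node 1 (.leaf 5) (.leaf 4)) (.node 1 (.leaf 5) (.leaf 1))))))) [(0, 32), (0, 64)] = true := by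
  decide +kernel

set_option maxRecDepth 100000 in
theorem step2 : run 2 425 6 [23, 23] [64, 128] (stepCls2 pp 49467 12860 45637 fs)
    (.node 0 (.node 1 (.leaf 3) (.leaf 5)) (.node 1 (.node 0 (.leaf 3) (.node 1 (.leaf 3) (.leaf 5))) (.node 0 (.leaf 5) (.node 1 (.leaf 5) (.node 0 (.leaf 5) (.node 1 (.leaf 5) (.leaf 1))))))) [(0, 32), (0, 64)] = true := by
  decide +kernel

/-- interval data -/
def D0 : IData where
  za := 162 / 125
  zb := 13 / 10
  A0 := 262 / 625
  A1 := -1741 / 5000
  A2 := 693 / 2500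
  s := 49467 / 100000
  bl := [0, 314599 / 100000, -1029889 / 100000, 2043229 / 80000, -18818941 / 400000, 24717029 / 400000, -11503741 / 200000, 375683 / 10000, -420169 / 25000, 195891 / 40000, -334467 / 400000, 507 / 8000]
  br := [0, 7899 / 10000, -91859 / 200000, 166671 / 400000, -3811 / 400000, -144041 / 80000, 35699 / 8000, -288347 / 50000, 56113 / 12500, -84657 / 40000, 223233 / 400000, -507 / 8000]
  fin := [(1 / 4, 31 / 64), (5 / 8, 847 / 1024), (1, 1)]
  tan := [129 / 128, 65 / 64, 131 / 128, 33 / 32, 265 / 256, 133 / 128, 267 / 256, 67 / 64, 269 / 256, 135 / 128, 271 / 256, 17 / 16, 273 / 256, 137 / 128, 275 / 256, 69 / 64, 277 / 256, 139 / 128, 279 / 256, 281 / 256, 283 / 256, 285 / 256, 287 / 256, 291 / 256, 295 / 256, 303 / 256, 311 / 256, 327 / 256, 343 / 256, 359 / 256, 14143 / 10000]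

theorem D0_ok : D0.ok = true := by decide +kernel

lemma D0_B (n : ℝ) : D0.B n = BF pp n := by
  rcases le_total n (1 / 2) with h | h
  · rw [IData.B, Bpw_left h]
    simp only [D0, pp, BF, hornF, num_real, cst_real, qev]
    push_cast
    ring
  · rw [IData.B, Bpw_right (by rw [qev_one, qev_one]; norm_num [D0, qsum]) h]
    simp only [D0, pp, BF, hornF, num_real, cst_real, qev]
    push_cast
    ring

/-- interval data -/
def D1 : IData where
  za := 13 / 10
  zb := 163 / 125
  A0 := 262 / 625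
  A1 := -1741 / 5000
  A2 := 693 / 2500
  s := 49467 / 100000
  bl := [0, 314599 / 100000, -1029889 / 100000, 2043229 / 80000, -18818941 / 400000, 24717029 / 400000, -11503741 / 200000, 375683 / 10000, -420169 / 25000, 195891 / 40000, -334467 / 400000, 507 / 8000]
  br := [0, 7899 / 10000, -91859 / 200000, 166671 / 400000, -3811 / 400000, -144041 / 80000, 35699 / 8000, -288347 / 50000, 56113 / 12500, -84657 / 40000, 223233 / 400000, -507 / 8000]
  fin := [(1 / 4, 31 / 64), (5 / 8, 847 / 1024), (1, 1)]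
  tan := [65 / 64, 131 / 128, 33 / 32, 133 / 128, 67 / 64, 135 / 128, 17 / 16, 137 / 128, 69 / 64, 139 / 128, 35 / 32, 71 / 64, 9 / 8, 73 / 64, 75 / 64, 77 / 64, 81 / 64, 85 / 64, 89 / 64, 14143 / 10000]

theorem D1_ok : D1.ok = true := by decide +kernel

lemma D1_B (n : ℝ) : D1.B n = BF pp n := by
  rcases le_total n (1 / 2) with h | h
  · rw [IData.B, Bpw_left h]
    simp only [D1, pp, BF, hornF, num_real, cst_real, qev]
    push_cast
    ring
  · rw [IData.B, Bpw_right (by rw [qev_one, qev_one]; norm_num [D1, qsum]) h]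
    simp only [D1, pp, BF, hornF, num_real, cst_real, qev]
    push_cast
    ring

/-- interval data -/
def D2 : IData where
  za := 163 / 125
  zb := 327 / 250
  A0 := 262 / 625
  A1 := -1741 / 5000
  A2 := 693 / 2500
  s := 49467 / 100000
  bl := [0, 314599 / 100000, -1029889 / 100000, 2043229 / 80000, -18818941 / 400000, 24717029 / 400000, -11503741 / 200000, 375683 / 10000, -420169 / 25000, 195891 / 40000, -334467 / 400000, 507 / 8000]
  br := [0, 7899 / 10000, -91859 / 200000, 166671 / 400000, -3811 / 400000, -144041 / 80000, 35699 / 8000, -288347 / 50000, 56113 / 12500, -84657 / 40000, 223233 / 400000, -507 / 8000]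
  fin := [(1 / 4, 31 / 64), (5 / 8, 847 / 1024), (1, 1)]
  tan := [65 / 64, 33 / 32, 67 / 64, 17 / 16, 69 / 64, 35 / 32, 71 / 64, 9 / 8, 37 / 32, 19 / 16, 5 / 4, 21 / 16, 11 / 8, 14143 / 10000]

theorem D2_ok : D2.ok = true := by decide +kernel

lemma D2_B (n : ℝ) : D2.B n = BF pp n := by
  rcases le_total n (1 / 2) with h | h
  · rw [IData.B, Bpw_left h]
    simp only [D2, pp, BF, hornF, num_real, cst_real, qev]
    push_cast
    ring
  · rw [IData.B, Bpw_right (by rw [qev_one, qev_one]; norm_num [D2, qsum]) h]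
    simp only [D2, pp, BF, hornF, num_real, cst_real, qev]
    push_cast
    ring

lemma hu : ConcaveOn ℝ (Set.Icc 0 1) (GenInd.FA (262 / 625) (-1741 / 5000) (693 / 2500)) :=
  concave_FA_num (by norm_num)

lemma hF : ∀ f ∈ fs, FamI (262 / 625) (-1741 / 5000) (693 / 2500) ((162 / 125) ^ 2 - 1) ((327 / 250) ^ 2 - 1) f.fam := by
  intro f hf
  simp only [fs, List.mem_cons, List.not_mem_nil, or_false] at hf
  rcases hf with rfl | rfl
  · have h := fam1
    have e : FD.fam ⟨43626, (-43626), 83365, 6054, 30210, 48020⟩ = ⟨(21813 / 50000), (-21813 / 50000), (16673 / 20000), (3027 / 50000), 0, (3021 / 10000), 0, (2401 / 5000)⟩ := by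
      simp only [FD.fam, cst_real]
      norm_num
    rw [e]
    exact h
  · have h := fam2
    have e : FD.fam ⟨44534, (-48299), 85103, 13118, 24553, 43174⟩ = ⟨(22267 / 50000), (-48299 / 100000), (85103 / 100000), (6559 / 50000), 0, (24553 / 100000), 0, (21587 / 50000)⟩ := by
      simp only [FD.fam, cst_real]
      norm_num
    rw [e]
    exact h

lemma hd : CertI (262 / 625) (-1741 / 5000) (693 / 2500) ((162 / 125) ^ 2 - 1) ((327 / 250) ^ 2 - 1) 1 0 1 (cst 12860) (cst 45637) := by
  have h := dict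
  have e1 : (cst 12860 : ℝ) = (643 / 5000) := by rw [cst_real]; norm_num
  have e2 : (cst 45637 : ℝ) = (45637 / 100000) := by rw [cst_real]; norm_num
  rw [e1, e2]
  exact h

lemma bound0 : BoundOn ((162 / 125) ^ 2 - 1) ((13 / 10) ^ 2 - 1) := by
  have hstep := hasStep step1 step2 hu (by decide) hF hd
    (sr := ((D0.s : ℚ) : ℝ)) (by norm_num [D0, cst_real]) (B := D0.B) D0_B
  have h := D0.boundOn D0_ok (fun n0 n1 a1 a2 a3 => by
    have := (hstep n0 n1 a1 a2 a3).mono (ca' := (162 / 125) ^ 2 - 1) (cb' := (13 / 10) ^ 2 - 1) (by norm_num) (by norm_num)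
    convert this using 2 <;> norm_num [D0])
  convert h using 2 <;> norm_num [D0]

lemma bound1 : BoundOn ((13 / 10) ^ 2 - 1) ((163 / 125) ^ 2 - 1) := by
  have hstep := hasStep step1 step2 hu (by decide) hF hd
    (sr := ((D1.s : ℚ) : ℝ)) (by norm_num [D1, cst_real]) (B := D1.B) D1_B
  have h := D1.boundOn D1_ok (fun n0 n1 a1 a2 a3 => by
    have := (hstep n0 n1 a1 a2 a3).mono (ca' := (13 / 10) ^ 2 - 1) (cb' := (163 / 125) ^ 2 - 1) (by norm_num) (by norm_num)
    convert this using 2 <;> norm_num [D1])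
  convert h using 2 <;> norm_num [D1]

lemma bound2 : BoundOn ((163 / 125) ^ 2 - 1) ((327 / 250) ^ 2 - 1) := by
  have hstep := hasStep step1 step2 hu (by decide) hF hd
    (sr := ((D2.s : ℚ) : ℝ)) (by norm_num [D2, cst_real]) (B := D2.B) D2_B
  have h := D2.boundOn D2_ok (fun n0 n1 a1 a2 a3 => by
    have := (hstep n0 n1 a1 a2 a3).mono (ca' := (163 / 125) ^ 2 - 1) (cb' := (327 / 250) ^ 2 - 1) (by norm_num) (by norm_num)
    convert this using 2 <;> norm_num [D2])
  convert h using 2 <;> norm_num [D2]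

/-- **The bound on the interval.** -/
theorem bound : BoundOn ((162 / 125) ^ 2 - 1) ((327 / 250) ^ 2 - 1) :=
  ((bound0).append bound1).append bound2

end Crest.Agent.R307.MO09
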