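import Crest.Agent.R307.MO10
import Crest.Agent.R307.MSub

/-!
Row 307 (S0471), regime M, one-sided: the step and the bound on one c-interval (generated,
helper371).
-/

set_option autoImplicit false

namespace Crest.Agent.R307.MO10

open Crest.Agent.KB Crest.Agent.R307.MStep Crest.Agent.R307.GenInt Crest.Agent.R307.GenM
  Crest.Agent.R307.Conic Crest.Agent.R307.Final71

/-- the polynomial `p` of the potential, over `100000` -/
def pp : List ℤ := [-97225, 77536, -55342, 46626, -29515, 23089, -43318, 53622, -20624]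

/-- the families -/
def fs : List FD := [⟨45708, (-45708), 83346, 4348, 33802, 48915⟩, ⟨47067, (-48892), 85826, 13077, 23433, 43784⟩]

set_option maxRecDepth 100000 in
theorem step1 : run 2 409 6 [23, 23] [64, 128] (stepCls1 pp 45275 14442 44640 fs)
    (.node 0 (.node 1 (.node 0 (.leaf 3) (.leaf 3)) (.leaf 5)) (.node 1 (.node 0 (.leaf 3) (.node 1 (.leaf 3) (.leaf 5))) (.node 0 (.leaf 5) (.node 1 (.leaf 5) (.node 0 (.node 1 (.leaf 5) (.node 0 (.node 1 (.leaf 5) (.leaf 1)) (.leaf 4))) (.node 1 (.leaf 5) (.leaf 1))))))) [(0, 32), (0, 64)] = true := by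
  decide +kernel

set_option maxRecDepth 100000 in
theorem step2 : run 2 425 6 [23, 23] [64, 128] (stepCls2 pp 45275 14442 44640 fs)
    (.node 0 (.node 1 (.leaf 3) (.leaf 5)) (.node 1 (.node 0 (.node 1 (.leaf 3) (.leaf 5)) (.node 1 (.leaf 3) (.leaf 5))) (.node 0 (.leaf 5) (.node 1 (.leaf 5) (.node 0 (.leaf 5) (.node 1 (.leaf 5) (.node 0 (.node 1 (.leaf 5) (.leaf 1)) (.leaf 1)))))))) [(0, 32), (0, 64)] = true := by
  decide +kernel

/-- interval data -/
def D0 : IData where
  za := 327 / 250
  zb := 1319 / 1000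
  A0 := 393 / 1000
  A1 := -3047 / 10000
  A2 := 483 / 2000
  s := 1811 / 4000
  bl := [0, 646897 / 200000, -852881 / 80000, 2611369 / 100000, -18818669 / 400000, 12033907 / 200000, -5441799 / 100000, 13799477 / 400000, -5989663 / 400000, 846617 / 200000, -140243 / 200000, 1289 / 25000]
  br := [0, 154849 / 200000, -34737 / 80000, 48217 / 100000, -195881 / 400000, -89789 / 200000, 90873 / 40000, -56749 / 16000, 1224749 / 400000, -310397 / 200000, 86621 / 200000, -1289 / 25000]
  fin := [(10923 / 65536, 409 / 1024), (1 / 2, 763 / 1024), (1, 1)]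
  tan := [33 / 32, 17 / 16, 35 / 32, 9 / 8, 37 / 32, 39 / 32, 41 / 32, 43 / 32, 45 / 32, 14143 / 10000]

theorem D0_ok : D0.ok = true := by decide +kernel

lemma D0_B (n : ℝ) : D0.B n = BF pp n := by
  rcases le_total n (1 / 2) with h | h
  · rw [IData.B, Bpw_left h]
    simp only [D0, pp, BF, hornF, num_real, cst_real, qev]
    push_cast
    ring
  · rw [IData.B, Bpw_right (by rw [qev_one, qev_one]; norm_num [D0, qsum]) h]
    simp only [D0, pp, BF, hornF, num_real, cst_real, qev]
    push_cast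
    ring

lemma hu : ConcaveOn ℝ (Set.Icc 0 1) (GenInd.FA (393 / 1000) (-3047 / 10000) (483 / 2000)) :=
  concave_FA_num (by norm_num)

lemma hF : ∀ f ∈ fs, FamI (393 / 1000) (-3047 / 10000) (483 / 2000) ((327 / 250) ^ 2 - 1) ((1319 / 1000) ^ 2 - 1) f.fam := by
  intro f hf
  simp only [fs, List.mem_cons, List.not_mem_nil, or_false] at hf
  rcases hf with rfl | rfl
  · have h := fam1
    have e : FD.fam ⟨45708, (-45708), 83346, 4348, 33802, 48915⟩ = ⟨(11427 / 25000), (-11427 / 25000), (41673 / 50000), (1087 / 25000), 0, (16901 / 50000), 0, (9783 / 20000)⟩ := by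
      simp only [FD.fam, cst_real]
      norm_num
    rw [e]
    exact h
  · have h := fam2
    have e : FD.fam ⟨47067, (-48892), 85826, 13077, 23433, 43784⟩ = ⟨(47067 / 100000), (-12223 / 25000), (42913 / 50000), (13077 / 100000), 0, (23433 / 100000), 0, (5473 / 12500)⟩ := by
      simp only [FD.fam, cst_real]
      norm_num
    rw [e]
    exact h

lemma hd : CertI (393 / 1000) (-3047 / 10000) (483 / 2000) ((327 / 250) ^ 2 - 1) ((1319 / 1000) ^ 2 - 1) 1 0 1 (cst 14442) (cst 44640) := by
  have h := dict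
  have e1 : (cst 14442 : ℝ) = (7221 / 50000) := by rw [cst_real]; norm_num
  have e2 : (cst 44640 : ℝ) = (279 / 625) := by rw [cst_real]; norm_num
  rw [e1, e2]
  exact h

lemma bound0 : BoundOn ((327 / 250) ^ 2 - 1) ((1319 / 1000) ^ 2 - 1) := by
  have hstep := hasStep step1 step2 hu (by decide) hF hd
    (sr := ((D0.s : ℚ) : ℝ)) (by norm_num [D0, cst_real]) (B := D0.B) D0_B
  have h := D0.boundOn D0_ok (fun n0 n1 a1 a2 a3 => by
    have := (hstep n0 n1 a1 a2 a3).mono (ca' := (327 / 250) ^ 2 - 1) (cb' := (1319 / 1000) ^ 2 - 1) (by norm_num) (by norm_num)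
    convert this using 2 <;> norm_num [D0])
  convert h using 2 <;> norm_num [D0]

/-- **The bound on the interval.** -/
theorem bound : BoundOn ((327 / 250) ^ 2 - 1) ((1319 / 1000) ^ 2 - 1) :=
  bound0

end Crest.Agent.R307.MO10
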