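import Crest.Agent.R307.MO11
import Crest.Agent.R307.MSub

/-!
Row 307 (S0471), regime M, one-sided: the step and the bound on one c-interval (generated,
helper371).
-/

set_option autoImplicit false

namespace Crest.Agent.R307.MO11

open Crest.Agent.KB Crest.Agent.R307.MStep Crest.Agent.R307.GenInt Crest.Agent.R307.GenM
  Crest.Agent.R307.Conic Crest.Agent.R307.Final71

/-- the polynomial `p` of the potential, over `100000` -/
def pp : List ℤ := [-100103, 79203, -57392, 49446, -29756, 16887, -46832, 73045, -32520]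

/-- the families -/
def fs : List FD := [⟨47475, (-47475), 83864, 2308, 35207, 49035⟩, ⟨48865, (-49565), 86322, 12535, 24104, 44876⟩]

set_option maxRecDepth 100000 in
theorem step1 : run 2 410 6 [23, 23] [64, 128] (stepCls1 pp 41287 15102 44550 fs)
    (.node 0 (.node 1 (.node 0 (.leaf 3) (.leaf 3)) (.leaf 5)) (.node 1 (.node 0 (.node 1 (.leaf 3) (.leaf 5)) (.node 1 (.leaf 3) (.leaf 5))) (.node 0 (.leaf 5) (.node 1 (.leaf 5) (.node 0 (.node 1 (.leaf 5) (.node 0 (.node 1 (.leaf 5) (.leaf 4)) (.leaf 4))) (.node 1 (.leaf 5) (.leaf 1))))))) [(0, 32), (0, 64)] = true := by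
  decide +kernel

set_option maxRecDepth 100000 in
theorem step2 : run 2 426 6 [23, 23] [64, 128] (stepCls2 pp 41287 15102 44550 fs)
    (.node 0 (.node 1 (.node 0 (.leaf 3) (.node 1 (.leaf 3) (.leaf 5))) (.leaf 5)) (.node 1 (.node 0 (.node 1 (.leaf 3) (.leaf 5)) (.node 1 (.leaf 3) (.leaf 5))) (.node 0 (.leaf 5) (.node 1 (.leaf 5) (.node 0 (.node 1 (.leaf 5) (.node 0 (.leaf 5) (.node 1 (.leaf 5) (.node 0 (.leaf 5) (.leaf 1))))) (.node 1 (.leaf 5) (.node 0 (.node 1 (.leaf 5) (.leaf 1)) (.leaf 1)))))))) [(0, 32), (0, 64)] = true := by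
  decide +kernel

/-- interval data -/
def D0 : IData where
  za := 1319 / 1000
  zb := 1329 / 1000
  A0 := 3891 / 10000
  A1 := -2957 / 10000
  A2 := 2407 / 10000
  s := 41287 / 100000
  bl := [0, 10706 / 3125, -2426027 / 200000, 12680179 / 400000, -6000491 / 100000, 15977219 / 200000, -29906501 / 400000, 4886473 / 100000, -349019 / 16000, 1266681 / 200000, -86153 / 80000, 813 / 10000]
  br := [0, 75989 / 100000, -38149 / 100000, 101341 / 400000, 1489 / 4000, -519373 / 200000, 2307331 / 400000, -145681 / 20000, 2263741 / 400000, -536231 / 200000, 11387 / 16000, -813 / 10000]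
  fin := [(10923 / 65536, 409 / 1024), (27307 / 65536, 723 / 1024), (23211 / 32768, 921 / 1024), (1, 1)]
  tan := [17 / 16, 35 / 32, 37 / 32, 39 / 32, 41 / 32, 43 / 32, 45 / 32, 14143 / 10000]

theorem D0_ok : D0.ok = true := by decide +kernel

lemma D0_B (n : ℝ) : D0.B n = BF pp n := by
  rcases le_total n (1 / 2) with h | h
  · rw [IData.B, Bpw_left h]
    simp only [D0, pp, BF, hornF, num_real, cst_real, qev]
    push_cast
    ring
  · rw [IData.B, Bpw_right (by rw [qev_one, qev_one]; norm_num [D0, qsum]) h]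
    simp only [D0, pp, BF, hornF, num_real, cst_real, qev]
    push_cast
    ring

lemma hu : ConcaveOn ℝ (Set.Icc 0 1) (GenInd.FA (3891 / 10000) (-2957 / 10000) (2407 / 10000)) :=
  concave_FA_num (by norm_num)

lemma hF : ∀ f ∈ fs, FamI (3891 / 10000) (-2957 / 10000) (2407 / 10000) ((1319 / 1000) ^ 2 - 1) ((1329 / 1000) ^ 2 - 1) f.fam := by
  intro f hf
  simp only [fs, List.mem_cons, List.not_mem_nil, or_false] at hf
  rcases hf with rfl | rfl
  · have h := fam1
    have e : FD.fam ⟨47475, (-47475), 83864, 2308, 35207, 49035⟩ = ⟨(1899 / 4000), (-1899 / 4000), (10483 / 12500), (577 / 25000), 0, (35207 / 100000), 0, (9807 / 20000)⟩ := by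
      simp only [FD.fam, cst_real]
      norm_num
    rw [e]
    exact h
  · have h := fam2
    have e : FD.fam ⟨48865, (-49565), 86322, 12535, 24104, 44876⟩ = ⟨(9773 / 20000), (-9913 / 20000), (43161 / 50000), (2507 / 20000), 0, (3013 / 12500), 0, (11219 / 25000)⟩ := by
      simp only [FD.fam, cst_real]
      norm_num
    rw [e]
    exact h

lemma hd : CertI (3891 / 10000) (-2957 / 10000) (2407 / 10000) ((1319 / 1000) ^ 2 - 1) ((1329 / 1000) ^ 2 - 1) 1 0 1 (cst 15102) (cst 44550) := by
  have h := dict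
  have e1 : (cst 15102 : ℝ) = (7551 / 50000) := by rw [cst_real]; norm_num
  have e2 : (cst 44550 : ℝ) = (891 / 2000) := by rw [cst_real]; norm_num
  rw [e1, e2]
  exact h

lemma bound0 : BoundOn ((1319 / 1000) ^ 2 - 1) ((1329 / 1000) ^ 2 - 1) := by
  have hstep := hasStep step1 step2 hu (by decide) hF hd
    (sr := ((D0.s : ℚ) : ℝ)) (by norm_num [D0, cst_real]) (B := D0.B) D0_B
  have h := D0.boundOn D0_ok (fun n0 n1 a1 a2 a3 => by
    have := (hstep n0 n1 a1 a2 a3).mono (ca' := (1319 / 1000) ^ 2 - 1) (cb' := (1329 / 1000) ^ 2 - 1) (by norm_num) (by norm_num)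
    convert this using 2 <;> norm_num [D0])
  convert h using 2 <;> norm_num [D0]

/-- **The bound on the interval.** -/
theorem bound : BoundOn ((1319 / 1000) ^ 2 - 1) ((1329 / 1000) ^ 2 - 1) :=
  bound0

end Crest.Agent.R307.MO11
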