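import Crest.Agent.R307.MO12
import Crest.Agent.R307.MSub

/-!
Row 307 (S0471), regime M, one-sided: the step and the bound on one c-interval (generated,
helper371).
-/

set_option autoImplicit false

namespace Crest.Agent.R307.MO12

open Crest.Agent.KB Crest.Agent.R307.MStep Crest.Agent.R307.GenInt Crest.Agent.R307.GenM
  Crest.Agent.R307.Conic Crest.Agent.R307.Final71

/-- the polynomial `p` of the potential, over `100000` -/
def pp : List ℤ := [-101673, 79702, -57436, 46952, -29455, 24351, -49163, 61384, -24673]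

/-- the families -/
def fs : List FD := [⟨50567, (-53245), 85953, 12616, 28897, 41683⟩, ⟨48717, (-48717), 82802, 3515, 39105, 52179⟩]

set_option maxRecDepth 100000 in
theorem step1 : run 2 409 6 [23, 23] [64, 128] (stepCls1 pp 37551 13766 43222 fs)
    (.node 0 (.leaf 3) (.node 1 (.node 0 (.node 1 (.leaf 5) (.leaf 3)) (.node 1 (.leaf 5) (.leaf 3))) (.node 0 (.leaf 3) (.node 1 (.leaf 3) (.node 0 (.node 1 (.leaf 3) (.node 0 (.node 1 (.leaf 3) (.leaf 2)) (.leaf 2))) (.node 1 (.leaf 3) (.node 0 (.leaf 2) (.leaf 1)))))))) [(0, 32), (0, 64)] = true := by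
  decide +kernel

set_option maxRecDepth 100000 in
theorem step2 : run 2 425 6 [23, 23] [64, 128] (stepCls2 pp 37551 13766 43222 fs)
    (.node 0 (.node 1 (.leaf 5) (.leaf 3)) (.node 1 (.node 0 (.node 1 (.leaf 5) (.node 0 (.node 1 (.leaf 5) (.leaf 3)) (.node 1 (.leaf 5) (.leaf 3)))) (.node 1 (.leaf 5) (.leaf 3))) (.node 0 (.leaf 3) (.node 1 (.leaf 3) (.node 0 (.node 1 (.leaf 3) (.node 0 (.leaf 3) (.node 1 (.leaf 3) (.node 0 (.leaf 3) (.node 1 (.leaf 3) (.leaf 1)))))) (.node 1 (.leaf 3) (.node 0 (.node 1 (.leaf 3) (.leaf 1)) (.node 1 (.node 0 (.leaf 2) (.leaf 1)) (.leaf 1))))))))) [(0, 32), (0, 64)] = true := by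
  decide +kernel

/-- interval data -/
def D0 : IData where
  za := 1329 / 1000
  zb := 333 / 250
  A0 := 817 / 2000
  A1 := -599 / 2000
  A2 := 11 / 50
  s := 37551 / 100000
  bl := [0, 674789 / 200000, -4618477 / 400000, 2909431 / 100000, -426961 / 8000, 5525861 / 80000, -25194447 / 400000, 8036919 / 200000, -3508351 / 200000, 399069 / 80000, -332787 / 400000, 24673 / 400000]
  br := [0, 149989 / 200000, -143861 / 400000, 5639 / 20000, 393 / 20000, -568253 / 400000, 1441813 / 400000, -967103 / 200000, 12236 / 3125, -153533 / 80000, 210019 / 400000, -24673 / 400000]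
  fin := [(1 / 8, 101 / 256), (19115 / 65536, 313 / 512), (35499 / 65536, 13 / 16), (25259 / 32768, 481 / 512), (1, 1)]
  tan := [65 / 64, 131 / 128, 33 / 32, 133 / 128, 67 / 64, 135 / 128, 17 / 16, 137 / 128, 69 / 64, 139 / 128, 35 / 32, 141 / 128, 71 / 64, 143 / 128, 9 / 8, 145 / 128, 147 / 128, 149 / 128, 153 / 128, 157 / 128, 165 / 128, 173 / 128, 181 / 128, 14143 / 10000]

theorem D0_ok : D0.ok = true := by decide +kernel

lemma D0_B (n : ℝ) : D0.B n = BF pp n := by
  rcases le_total n (1 / 2) with h | h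
  · rw [IData.B, Bpw_left h]
    simp only [D0, pp, BF, hornF, num_real, cst_real, qev]
    push_cast
    ring
  · rw [IData.B, Bpw_right (by rw [qev_one, qev_one]; norm_num [D0, qsum]) h]
    simp only [D0, pp, BF, hornF, num_real, cst_real, qev]
    push_cast
    ring

/-- interval data -/
def D1 : IData where
  za := 333 / 250
  zb := 267 / 200
  A0 := 817 / 2000
  A1 := -599 / 2000
  A2 := 11 / 50
  s := 37551 / 100000
  bl := [0, 674789 / 200000, -4618477 / 400000, 2909431 / 100000, -426961 / 8000, 5525861 / 80000, -25194447 / 400000, 8036919 / 200000, -3508351 / 200000, 399069 / 80000, -332787 / 400000, 24673 / 400000]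
  br := [0, 149989 / 200000, -143861 / 400000, 5639 / 20000, 393 / 20000, -568253 / 400000, 1441813 / 400000, -967103 / 200000, 12236 / 3125, -153533 / 80000, 210019 / 400000, -24673 / 400000]
  fin := [(1 / 8, 101 / 256), (19115 / 65536, 313 / 512), (35499 / 65536, 13 / 16), (25259 / 32768, 481 / 512), (1, 1)]
  tan := [65 / 64, 33 / 32, 133 / 128, 67 / 64, 135 / 128, 17 / 16, 137 / 128, 69 / 64, 139 / 128, 35 / 32, 141 / 128, 71 / 64, 9 / 8, 73 / 64, 37 / 32, 19 / 16, 39 / 32, 41 / 32, 43 / 32, 45 / 32, 14143 / 10000]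

theorem D1_ok : D1.ok = true := by decide +kernel

lemma D1_B (n : ℝ) : D1.B n = BF pp n := by
  rcases le_total n (1 / 2) with h | h
  · rw [IData.B, Bpw_left h]
    simp only [D1, pp, BF, hornF, num_real, cst_real, qev]
    push_cast
    ring
  · rw [IData.B, Bpw_right (by rw [qev_one, qev_one]; norm_num [D1, qsum]) h]
    simp only [D1, pp, BF, hornF, num_real, cst_real, qev]
    push_cast
    ring

/-- interval data -/
def D2 : IData where
  za := 267 / 200
  zb := 669 / 500
  A0 := 817 / 2000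
  A1 := -599 / 2000
  A2 := 11 / 50
  s := 37551 / 100000
  bl := [0, 674789 / 200000, -4618477 / 400000, 2909431 / 100000, -426961 / 8000, 5525861 / 80000, -25194447 / 400000, 8036919 / 200000, -3508351 / 200000, 399069 / 80000, -332787 / 400000, 24673 / 400000]
  br := [0, 149989 / 200000, -143861 / 400000, 5639 / 20000, 393 / 20000, -568253 / 400000, 1441813 / 400000, -967103 / 200000, 12236 / 3125, -153533 / 80000, 210019 / 400000, -24673 / 400000]
  fin := [(1 / 8, 101 / 256), (19115 / 65536, 313 / 512), (35499 / 65536, 13 / 16), (25259 / 32768, 481 / 512), (1, 1)]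
  tan := [65 / 64, 33 / 32, 67 / 64, 17 / 16, 69 / 64, 35 / 32, 71 / 64, 9 / 8, 73 / 64, 75 / 64, 77 / 64, 81 / 64, 85 / 64, 89 / 64, 14143 / 10000]

theorem D2_ok : D2.ok = true := by decide +kernel

lemma D2_B (n : ℝ) : D2.B n = BF pp n := by
  rcases le_total n (1 / 2) with h | h
  · rw [IData.B, Bpw_left h]
    simp only [D2, pp, BF, hornF, num_real, cst_real, qev]
    push_cast
    ring
  · rw [IData.B, Bpw_right (by rw [qev_one, qev_one]; norm_num [D2, qsum]) h]
    simp only [D2, pp, BF, hornF, num_real, cst_real, qev]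
    push_cast
    ring

lemma hu : ConcaveOn ℝ (Set.Icc 0 1) (GenInd.FA (817 / 2000) (-599 / 2000) (11 / 50)) :=
  concave_FA_num (by norm_num)

lemma hF : ∀ f ∈ fs, FamI (817 / 2000) (-599 / 2000) (11 / 50) ((1329 / 1000) ^ 2 - 1) ((669 / 500) ^ 2 - 1) f.fam := by
  intro f hf
  simp only [fs, List.mem_cons, List.not_mem_nil, or_false] at hf
  rcases hf with rfl | rfl
  · have h := fam1
    have e : FD.fam ⟨50567, (-53245), 85953, 12616, 28897, 41683⟩ = ⟨(50567 / 100000), (-10649 / 20000), (85953 / 100000), (1577 / 12500), 0, (28897 / 100000), 0, (41683 / 100000)⟩ := by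
      simp only [FD.fam, cst_real]
      norm_num
    rw [e]
    exact h
  · have h := fam2
    have e : FD.fam ⟨48717, (-48717), 82802, 3515, 39105, 52179⟩ = ⟨(48717 / 100000), (-48717 / 100000), (41401 / 50000), (703 / 20000), 0, (7821 / 20000), 0, (52179 / 100000)⟩ := by
      simp only [FD.fam, cst_real]
      norm_num
    rw [e]
    exact h

lemma hd : CertI (817 / 2000) (-599 / 2000) (11 / 50) ((1329 / 1000) ^ 2 - 1) ((669 / 500) ^ 2 - 1) 1 0 1 (cst 13766) (cst 43222) := by
  have h := dict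
  have e1 : (cst 13766 : ℝ) = (6883 / 50000) := by rw [cst_real]; norm_num
  have e2 : (cst 43222 : ℝ) = (21611 / 50000) := by rw [cst_real]; norm_num
  rw [e1, e2]
  exact h

lemma bound0 : BoundOn ((1329 / 1000) ^ 2 - 1) ((333 / 250) ^ 2 - 1) := by
  have hstep := hasStep step1 step2 hu (by decide) hF hd
    (sr := ((D0.s : ℚ) : ℝ)) (by norm_num [D0, cst_real]) (B := D0.B) D0_B
  have h := D0.boundOn D0_ok (fun n0 n1 a1 a2 a3 => by
    have := (hstep n0 n1 a1 a2 a3).mono (ca' := (1329 / 1000) ^ 2 - 1) (cb' := (333 / 250) ^ 2 - 1) (by norm_num) (by norm_num)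
    convert this using 2 <;> norm_num [D0])
  convert h using 2 <;> norm_num [D0]

lemma bound1 : BoundOn ((333 / 250) ^ 2 - 1) ((267 / 200) ^ 2 - 1) := by
  have hstep := hasStep step1 step2 hu (by decide) hF hd
    (sr := ((D1.s : ℚ) : ℝ)) (by norm_num [D1, cst_real]) (B := D1.B) D1_B
  have h := D1.boundOn D1_ok (fun n0 n1 a1 a2 a3 => by
    have := (hstep n0 n1 a1 a2 a3).mono (ca' := (333 / 250) ^ 2 - 1) (cb' := (267 / 200) ^ 2 - 1) (by norm_num) (by norm_num)
    convert this using 2 <;> norm_num [D1])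
  convert h using 2 <;> norm_num [D1]

lemma bound2 : BoundOn ((267 / 200) ^ 2 - 1) ((669 / 500) ^ 2 - 1) := by
  have hstep := hasStep step1 step2 hu (by decide) hF hd
    (sr := ((D2.s : ℚ) : ℝ)) (by norm_num [D2, cst_real]) (B := D2.B) D2_B
  have h := D2.boundOn D2_ok (fun n0 n1 a1 a2 a3 => by
    have := (hstep n0 n1 a1 a2 a3).mono (ca' := (267 / 200) ^ 2 - 1) (cb' := (669 / 500) ^ 2 - 1) (by norm_num) (by norm_num)
    convert this using 2 <;> norm_num [D2])
  convert h using 2 <;> norm_num [D2]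

/-- **The bound on the interval.** -/
theorem bound : BoundOn ((1329 / 1000) ^ 2 - 1) ((669 / 500) ^ 2 - 1) :=
  ((bound0).append bound1).append bound2

end Crest.Agent.R307.MO12
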