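import Crest.Agent.R307.MO13
import Crest.Agent.R307.MSub

/-!
Row 307 (S0471), regime M, one-sided: the step and the bound on one c-interval (generated,
helper371).
-/

set_option autoImplicit false

namespace Crest.Agent.R307.MO13

open Crest.Agent.KB Crest.Agent.R307.MStep Crest.Agent.R307.GenInt Crest.Agent.R307.GenM
  Crest.Agent.R307.Conic Crest.Agent.R307.Final71

/-- the polynomial `p` of the potential, over `100000` -/
def pp : List ℤ := [-80723, 66410, -43710, 41593, -21979, 3587, -26507, 61479, -28135]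

/-- the families -/
def fs : List FD := [⟨37097, (-37097), 90128, 9655, 3100, 34473⟩, ⟨37098, (-46935), 90130, 7690, 0, 37563⟩]

set_option maxRecDepth 100000 in
theorem step1 : run 2 409 6 [23, 23] [64, 128] (stepCls1 pp 64275 6333 49522 fs)
    (.node 0 (.node 1 (.node 0 (.leaf 3) (.leaf 3)) (.leaf 3)) (.node 1 (.leaf 3) (.node 0 (.leaf 3) (.node 1 (.leaf 3) (.node 0 (.node 1 (.leaf 3) (.leaf 1)) (.node 1 (.leaf 3) (.leaf 1))))))) [(0, 32), (0, 64)] = true := by
  decide +kernel

set_option maxRecDepth 100000 in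
theorem step2 : run 2 425 6 [23, 23] [64, 128] (stepCls2 pp 64275 6333 49522 fs)
    (.node 0 (.leaf 5) (.node 1 (.leaf 5) (.node 0 (.leaf 5) (.node 1 (.leaf 5) (.node 0 (.leaf 5) (.node 1 (.leaf 5) (.leaf 1))))))) [(0, 32), (0, 64)] = true := by
  decide +kernel

/-- interval data -/
def D0 : IData where
  za := 156 / 125
  zb := 313 / 250
  A0 := 228 / 625
  A1 := -807 / 2500
  A2 := 4103 / 10000
  s := 2571 / 4000
  bl := [0, 574123 / 200000, -3720239 / 400000, 4798141 / 200000, -9241327 / 200000, 25198677 / 400000, -12078771 / 200000, 8067879 / 200000, -3668143 / 200000, 2160587 / 400000, -92741 / 100000, 5627 / 80000]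
  br := [0, 34403 / 40000, -276083 / 400000, 7871 / 8000, -21173 / 20000, -241093 / 400000, 751151 / 200000, -230707 / 40000, 23987 / 5000, -931007 / 400000, 124003 / 200000, -5627 / 80000]
  fin := [(1 / 2, 799 / 1024), (1, 1)]
  tan := [257 / 256, 129 / 128, 259 / 256, 65 / 64, 261 / 256, 131 / 128, 263 / 256, 33 / 32, 265 / 256, 133 / 128, 267 / 256, 67 / 64, 269 / 256, 135 / 128, 271 / 256, 17 / 16, 273 / 256, 137 / 128, 69 / 64, 139 / 128, 35 / 32, 141 / 128, 143 / 128, 145 / 128, 149 / 128, 157 / 128, 165 / 128, 173 / 128, 181 / 128, 14143 / 10000]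

theorem D0_ok : D0.ok = true := by decide +kernel

lemma D0_B (n : ℝ) : D0.B n = BF pp n := by
  rcases le_total n (1 / 2) with h | h
  · rw [IData.B, Bpw_left h]
    simp only [D0, pp, BF, hornF, num_real, cst_real, qev]
    push_cast
    ring
  · rw [IData.B, Bpw_right (by rw [qev_one, qev_one]; norm_num [D0, qsum]) h]
    simp only [D0, pp, BF, hornF, num_real, cst_real, qev]
    push_cast
    ring

/-- interval data -/
def D1 : IData where
  za := 313 / 250
  zb := 157 / 125
  A0 := 228 / 625
  A1 := -807 / 2500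
  A2 := 4103 / 10000
  s := 2571 / 4000
  bl := [0, 574123 / 200000, -3720239 / 400000, 4798141 / 200000, -9241327 / 200000, 25198677 / 400000, -12078771 / 200000, 8067879 / 200000, -3668143 / 200000, 2160587 / 400000, -92741 / 100000, 5627 / 80000]
  br := [0, 34403 / 40000, -276083 / 400000, 7871 / 8000, -21173 / 20000, -241093 / 400000, 751151 / 200000, -230707 / 40000, 23987 / 5000, -931007 / 400000, 124003 / 200000, -5627 / 80000]
  fin := [(1 / 2, 799 / 1024), (1, 1)]
  tan := [129 / 128, 65 / 64, 131 / 128, 33 / 32, 133 / 128, 67 / 64, 135 / 128, 17 / 16, 137 / 128, 139 / 128, 141 / 128, 143 / 128, 147 / 128, 151 / 128, 159 / 128, 167 / 128, 175 / 128, 14143 / 10000]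

theorem D1_ok : D1.ok = true := by decide +kernel

lemma D1_B (n : ℝ) : D1.B n = BF pp n := by
  rcases le_total n (1 / 2) with h | h
  · rw [IData.B, Bpw_left h]
    simp only [D1, pp, BF, hornF, num_real, cst_real, qev]
    push_cast
    ring
  · rw [IData.B, Bpw_right (by rw [qev_one, qev_one]; norm_num [D1, qsum]) h]
    simp only [D1, pp, BF, hornF, num_real, cst_real, qev]
    push_cast
    ring

/-- interval data -/
def D2 : IData where
  za := 157 / 125
  zb := 63 / 50
  A0 := 228 / 625
  A1 := -807 / 2500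
  A2 := 4103 / 10000
  s := 2571 / 4000
  bl := [0, 574123 / 200000, -3720239 / 400000, 4798141 / 200000, -9241327 / 200000, 25198677 / 400000, -12078771 / 200000, 8067879 / 200000, -3668143 / 200000, 2160587 / 400000, -92741 / 100000, 5627 / 80000]
  br := [0, 34403 / 40000, -276083 / 400000, 7871 / 8000, -21173 / 20000, -241093 / 400000, 751151 / 200000, -230707 / 40000, 23987 / 5000, -931007 / 400000, 124003 / 200000, -5627 / 80000]
  fin := [(1 / 2, 799 / 1024), (1, 1)]
  tan := [65 / 64, 33 / 32, 67 / 64, 17 / 16, 69 / 64, 35 / 32, 9 / 8, 37 / 32, 39 / 32, 41 / 32, 43 / 32, 45 / 32, 14143 / 10000]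

theorem D2_ok : D2.ok = true := by decide +kernel

lemma D2_B (n : ℝ) : D2.B n = BF pp n := by
  rcases le_total n (1 / 2) with h | h
  · rw [IData.B, Bpw_left h]
    simp only [D2, pp, BF, hornF, num_real, cst_real, qev]
    push_cast
    ring
  · rw [IData.B, Bpw_right (by rw [qev_one, qev_one]; norm_num [D2, qsum]) h]
    simp only [D2, pp, BF, hornF, num_real, cst_real, qev]
    push_cast
    ring

/-- interval data -/
def D3 : IData where
  za := 63 / 50
  zb := 158 / 125
  A0 := 228 / 625
  A1 := -807 / 2500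
  A2 := 4103 / 10000
  s := 2571 / 4000
  bl := [0, 574123 / 200000, -3720239 / 400000, 4798141 / 200000, -9241327 / 200000, 25198677 / 400000, -12078771 / 200000, 8067879 / 200000, -3668143 / 200000, 2160587 / 400000, -92741 / 100000, 5627 / 80000]
  br := [0, 34403 / 40000, -276083 / 400000, 7871 / 8000, -21173 / 20000, -241093 / 400000, 751151 / 200000, -230707 / 40000, 23987 / 5000, -931007 / 400000, 124003 / 200000, -5627 / 80000]
  fin := [(1 / 2, 799 / 1024), (1, 1)]
  tan := [65 / 64, 33 / 32, 67 / 64, 17 / 16, 69 / 64, 71 / 64, 73 / 64, 77 / 64, 81 / 64, 85 / 64, 89 / 64, 14143 / 10000]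

theorem D3_ok : D3.ok = true := by decide +kernel

lemma D3_B (n : ℝ) : D3.B n = BF pp n := by
  rcases le_total n (1 / 2) with h | h
  · rw [IData.B, Bpw_left h]
    simp only [D3, pp, BF, hornF, num_real, cst_real, qev]
    push_cast
    ring
  · rw [IData.B, Bpw_right (by rw [qev_one, qev_one]; norm_num [D3, qsum]) h]
    simp only [D3, pp, BF, hornF, num_real, cst_real, qev]
    push_cast
    ring

lemma hu : ConcaveOn ℝ (Set.Icc 0 1) (GenInd.FA (228 / 625) (-807 / 2500) (4103 / 10000)) :=
  concave_FA_num (by norm_num)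

lemma hF : ∀ f ∈ fs, FamI (228 / 625) (-807 / 2500) (4103 / 10000) ((156 / 125) ^ 2 - 1) ((158 / 125) ^ 2 - 1) f.fam := by
  intro f hf
  simp only [fs, List.mem_cons, List.not_mem_nil, or_false] at hf
  rcases hf with rfl | rfl
  · have h := fam1
    have e : FD.fam ⟨37097, (-37097), 90128, 9655, 3100, 34473⟩ = ⟨(37097 / 100000), (-37097 / 100000), (5633 / 6250), (1931 / 20000), 0, (31 / 1000), 0, (34473 / 100000)⟩ := by
      simp only [FD.fam, cst_real]
      norm_num
    rw [e]
    exact h
  · have h := fam2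
    have e : FD.fam ⟨37098, (-46935), 90130, 7690, 0, 37563⟩ = ⟨(18549 / 50000), (-9387 / 20000), (9013 / 10000), (769 / 10000), 0, (0), 0, (37563 / 100000)⟩ := by
      simp only [FD.fam, cst_real]
      norm_num
    rw [e]
    exact h

lemma hd : CertI (228 / 625) (-807 / 2500) (4103 / 10000) ((156 / 125) ^ 2 - 1) ((158 / 125) ^ 2 - 1) 1 0 1 (cst 6333) (cst 49522) := by
  have h := dict
  have e1 : (cst 6333 : ℝ) = (6333 / 100000) := by rw [cst_real]; norm_num
  have e2 : (cst 49522 : ℝ) = (24761 / 50000) := by rw [cst_real]; norm_num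
  rw [e1, e2]
  exact h

lemma bound0 : BoundOn ((156 / 125) ^ 2 - 1) ((313 / 250) ^ 2 - 1) := by
  have hstep := hasStep step1 step2 hu (by decide) hF hd
    (sr := ((D0.s : ℚ) : ℝ)) (by norm_num [D0, cst_real]) (B := D0.B) D0_B
  have h := D0.boundOn D0_ok (fun n0 n1 a1 a2 a3 => by
    have := (hstep n0 n1 a1 a2 a3).mono (ca' := (156 / 125) ^ 2 - 1) (cb' := (313 / 250) ^ 2 - 1) (by norm_num) (by norm_num)
    convert this using 2 <;> norm_num [D0])
  convert h using 2 <;> norm_num [D0]

lemma bound1 : BoundOn ((313 / 250) ^ 2 - 1) ((157 / 125) ^ 2 - 1) := by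
  have hstep := hasStep step1 step2 hu (by decide) hF hd
    (sr := ((D1.s : ℚ) : ℝ)) (by norm_num [D1, cst_real]) (B := D1.B) D1_B
  have h := D1.boundOn D1_ok (fun n0 n1 a1 a2 a3 => by
    have := (hstep n0 n1 a1 a2 a3).mono (ca' := (313 / 250) ^ 2 - 1) (cb' := (157 / 125) ^ 2 - 1) (by norm_num) (by norm_num)
    convert this using 2 <;> norm_num [D1])
  convert h using 2 <;> norm_num [D1]

lemma bound2 : BoundOn ((157 / 125) ^ 2 - 1) ((63 / 50) ^ 2 - 1) := by
  have hstep := hasStep step1 step2 hu (by decide) hF hd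
    (sr := ((D2.s : ℚ) : ℝ)) (by norm_num [D2, cst_real]) (B := D2.B) D2_B
  have h := D2.boundOn D2_ok (fun n0 n1 a1 a2 a3 => by
    have := (hstep n0 n1 a1 a2 a3).mono (ca' := (157 / 125) ^ 2 - 1) (cb' := (63 / 50) ^ 2 - 1) (by norm_num) (by norm_num)
    convert this using 2 <;> norm_num [D2])
  convert h using 2 <;> norm_num [D2]

lemma bound3 : BoundOn ((63 / 50) ^ 2 - 1) ((158 / 125) ^ 2 - 1) := by
  have hstep := hasStep step1 step2 hu (by decide) hF hd
    (sr := ((D3.s : ℚ) : ℝ)) (by norm_num [D3, cst_real]) (B := D3.B) D3_B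
  have h := D3.boundOn D3_ok (fun n0 n1 a1 a2 a3 => by
    have := (hstep n0 n1 a1 a2 a3).mono (ca' := (63 / 50) ^ 2 - 1) (cb' := (158 / 125) ^ 2 - 1) (by norm_num) (by norm_num)
    convert this using 2 <;> norm_num [D3])
  convert h using 2 <;> norm_num [D3]

/-- **The bound on the interval.** -/
theorem bound : BoundOn ((156 / 125) ^ 2 - 1) ((158 / 125) ^ 2 - 1) :=
  (((bound0).append bound1).append bound2).append bound3

end Crest.Agent.R307.MO13
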