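import Crest.Agent.R307.MOa
import Crest.Agent.R307.MStep

/-!
Row 307 (S0471), regime M, one-sided: the step and the bound on one c-interval (generated,
helper371).
-/

set_option autoImplicit false

namespace Crest.Agent.R307.MOa

open Crest.Agent.KB Crest.Agent.R307.MStep Crest.Agent.R307.GenInt Crest.Agent.R307.GenM
  Crest.Agent.R307.Conic Crest.Agent.R307.Final71

/-- the polynomial `p` of the potential, over `100000` -/
def pp : List ℤ := [-91797, 73989, -51231, 47199, -31424, 9628, -25503, 60927, -31982]

/-- the families -/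
def fs : List FD := [⟨42374, (-42374), 84623, 2053, 20945, 51735⟩, ⟨43178, (-46695), 86231, 12419, 21268, 43287⟩]

set_option maxRecDepth 100000 in
theorem step1 : run 2 409 6 [23, 23] [64, 128] (stepCls1 pp 53812 12301 45689 fs)
    (.node 0 (.leaf 5) (.node 1 (.leaf 5) (.node 0 (.leaf 5) (.node 1 (.leaf 5) (.node 0 (.node 1 (.leaf 5) (.leaf 4)) (.node 1 (.leaf 5) (.leaf 1))))))) [(0, 32), (0, 64)] = true := by
  decide +kernel

set_option maxRecDepth 100000 in
theorem step2 : run 2 425 6 [23, 23] [64, 128] (stepCls2 pp 53812 12301 45689 fs)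
    (.node 0 (.leaf 5) (.node 1 (.leaf 5) (.node 0 (.leaf 5) (.node 1 (.leaf 5) (.node 0 (.leaf 5) (.node 1 (.leaf 5) (.leaf 1))))))) [(0, 32), (0, 64)] = true := by
  decide +kernel

/-- interval data -/
def D : IData where
  za := 161 / 125
  zb := 162 / 125
  A0 := 797 / 2000
  A1 := -3241 / 10000
  A2 := 2677 / 10000
  s := 13453 / 25000
  bl := [0, 1949 / 625, -2062767 / 200000, 10475741 / 400000, -19838071 / 400000, 6702441 / 100000, -6417191 / 100000, 3445517 / 80000, -1581827 / 80000, 2361801 / 400000, -412729 / 400000, 15991 / 200000]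
  br := [0, 79903 / 100000, -23223 / 50000, 118411 / 400000, 249881 / 400000, -174649 / 50000, 1438513 / 200000, -3425889 / 400000, 2528303 / 400000, -1143261 / 400000, 2327 / 3200, -15991 / 200000]
  fin := [(21845 / 65536, 283 / 512), (1, 1)]
  tan := [33 / 32, 17 / 16, 69 / 64, 35 / 32, 9 / 8, 37 / 32, 19 / 16, 5 / 4, 21 / 16, 11 / 8, 14143 / 10000]

theorem D_ok : D.ok = true := by decide +kernel

lemma D_B (n : ℝ) : D.B n = BF pp n := by
  rcases le_total n (1 / 2) with h | h
  · rw [IData.B, Bpw_left h]
    simp only [D, pp, BF, hornF, num_real, cst_real, qev]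
    push_cast
    ring
  · rw [IData.B, Bpw_right (by rw [qev_one, qev_one]; norm_num [D, qsum]) h]
    simp only [D, pp, BF, hornF, num_real, cst_real, qev]
    push_cast
    ring

/-- **The bound on the interval.** -/
theorem bound : BoundOn ((161 / 125) ^ 2 - 1) ((162 / 125) ^ 2 - 1) := by
  have hu : ConcaveOn ℝ (Set.Icc 0 1) (GenInd.FA (797 / 2000) (-3241 / 10000) (2677 / 10000)) :=
    concave_FA_num (by norm_num)
  have hF : ∀ f ∈ fs, FamI (797 / 2000) (-3241 / 10000) (2677 / 10000) ((161 / 125) ^ 2 - 1) ((162 / 125) ^ 2 - 1) f.fam := by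
    intro f hf
    simp only [fs, List.mem_cons, List.not_mem_nil, or_false] at hf
    rcases hf with rfl | rfl
    · have h := fam1
      have e : FD.fam ⟨42374, (-42374), 84623, 2053, 20945, 51735⟩ = ⟨(21187 / 50000), (-21187 / 50000), (84623 / 100000), (2053 / 100000), 0, (4189 / 20000), 0, (10347 / 20000)⟩ := by
        simp only [FD.fam, cst_real]
        norm_num
      rw [e]
      exact h
    · have h := fam2
      have e : FD.fam ⟨43178, (-46695), 86231, 12419, 21268, 43287⟩ = ⟨(21589 / 50000), (-9339 / 20000), (86231 / 100000), (12419 / 100000), 0, (5317 / 25000), 0, (43287 / 100000)⟩ := by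
        simp only [FD.fam, cst_real]
        norm_num
      rw [e]
      exact h
  have hd : CertI (797 / 2000) (-3241 / 10000) (2677 / 10000) ((161 / 125) ^ 2 - 1) ((162 / 125) ^ 2 - 1) 1 0 1 (cst 12301) (cst 45689) := by
    have h := dict
    have e1 : (cst 12301 : ℝ) = (12301 / 100000) := by rw [cst_real]; norm_num
    have e2 : (cst 45689 : ℝ) = (45689 / 100000) := by rw [cst_real]; norm_num
    rw [e1, e2]
    exact h
  have hstep := hasStep step1 step2 hu (by decide) hF hd
    (sr := ((D.s : ℚ) : ℝ)) (by norm_num [D, cst_real]) (B := D.B) D_B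
  have h := D.boundOn D_ok (fun n0 n1 a1 a2 a3 => by
    have := hstep n0 n1 a1 a2 a3
    convert this using 2 <;> norm_num [D])
  convert h using 2 <;> norm_num [D]

end Crest.Agent.R307.MOa
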