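import Crest.Agent.R307.MO01S
import Crest.Agent.R307.MO02S
import Crest.Agent.R307.MO03S
import Crest.Agent.R307.MO04S
import Crest.Agent.R307.MO05S
import Crest.Agent.R307.MO06S
import Crest.Agent.R307.MO13S
import Crest.Agent.R307.MO07S
import Crest.Agent.R307.MO08S
import Crest.Agent.R307.MOaS
import Crest.Agent.R307.MO09S
import Crest.Agent.R307.MO10S
import Crest.Agent.R307.MO11S
import Crest.Agent.R307.MO12S

/-!
Row 307 (S0471), regime M: `c ∈ [2/5, 79/100]` (helper371).
-/

set_option autoImplicit false

namespace Crest.Agent.R307.MAll

open Crest.Agent.R307.Final71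

/-- **Regime M.** -/
theorem bound_M : BoundOn (2 / 5) (79 / 100) := by
  have h := ((((((((((((MO01.bound.append MO02.bound).append MO03.bound).append
    MO04.bound).append MO05.bound).append MO06.bound).append MO13.bound).append
    MO07.bound).append MO08.bound).append MOa.bound).append MO09.bound).append
    MO10.bound).append MO11.bound).append MO12.bound
  exact h.mono (by norm_num) (by norm_num)

end Crest.Agent.R307.MAll
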