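import Crest.Agent.Tools.KB
import Crest.Agent.R307.GenIntFin

/-!
Row 307, S0471, regime M: generic checker for one `c`-interval (helper391).

`RE`: homogenised expressions of `KB` with degree bookkeeping and denominators `QQ^q`;
`PL`: polymorphic formulas, evaluated both in `RE` and in `ℝ`.
-/

set_option autoImplicit false

namespace Crest.Agent.R307.MI

open Crest.Agent.KB

/-- common denominator of the constants -/
def QQ : ℕ := 100000

/-- `+,-,*` and the constants `n / QQ` -/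
class PL (α : Type) extends Add α, Sub α, Mul α where
  cst : ℤ → α

export PL (cst)

noncomputable instance : PL ℝ where
  cst n := (n : ℝ) / (QQ : ℝ)

/-- homogeneous expression in (at most) three variables with a denominator `QQ ^ q` -/
structure RE where
  e : Ex
  d0 : ℕ
  d1 : ℕ
  d2 : ℕ
  q : ℕ

namespace RE

def padW (i k : ℕ) (e : Ex) : Ex :=
  match k with
  | 0 => e
  | k + 1 => .mul (.W i (k + 1)) e

def padQ (k : ℕ) (e : Ex) : Ex :=
  match k with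
  | 0 => e
  | k + 1 => .mul (.c (Int.ofNat (QQ ^ (k + 1)))) e

def pad (p : RE) (a b c q : ℕ) : Ex :=
  padQ (q - p.q) (padW 0 (a - p.d0) (padW 1 (b - p.d1) (padW 2 (c - p.d2) p.e)))

def add (p r : RE) : RE :=
  ⟨.add (p.pad (max p.d0 r.d0) (max p.d1 r.d1) (max p.d2 r.d2) (max p.q r.q))
    (r.pad (max p.d0 r.d0) (max p.d1 r.d1) (max p.d2 r.d2) (max p.q r.q)),
    max p.d0 r.d0, max p.d1 r.d1, max p.d2 r.d2, max p.q r.q⟩

def sub (p r : RE) : RE :=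
  ⟨.sub (p.pad (max p.d0 r.d0) (max p.d1 r.d1) (max p.d2 r.d2) (max p.q r.q))
    (r.pad (max p.d0 r.d0) (max p.d1 r.d1) (max p.d2 r.d2) (max p.q r.q)),
    max p.d0 r.d0, max p.d1 r.d1, max p.d2 r.d2, max p.q r.q⟩

def mul (p r : RE) : RE := ⟨.mul p.e r.e, p.d0 + r.d0, p.d1 + r.d1, p.d2 + r.d2, p.q + r.q⟩

def ofInt (n : ℤ) : RE := ⟨.c n, 0, 0, 0, 1⟩

def x0 : RE := ⟨.X 0 1, 1, 0, 0, 0⟩
def x1 : RE := ⟨.X 1 1, 0, 1, 0, 0⟩
def x2 : RE := ⟨.X 2 1, 0, 0, 1, 0⟩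

instance : PL RE where
  add := add
  sub := sub
  mul := mul
  cst := ofInt

/-- the real value -/
noncomputable def v (x : ℕ → ℝ) (p : RE) : ℝ := p.e.val x (fun _ => 1) / (QQ : ℝ) ^ p.q

lemma QQ_pos : (0 : ℝ) < (QQ : ℝ) := by norm_num [QQ]

lemma val_padW (x : ℕ → ℝ) (i k : ℕ) (e : Ex) :
    (padW i k e).val x (fun _ => 1) = e.val x (fun _ => 1) := by
  cases k <;> simp [padW, Ex.val]

lemma val_padQ (x : ℕ → ℝ) (k : ℕ) (e : Ex) :
    (padQ k e).val x (fun _ => 1) = (QQ : ℝ) ^ k * e.val x (fun _ => 1) := by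
  cases k <;> simp [padQ, Ex.val]

lemma val_pad (x : ℕ → ℝ) (p : RE) (a b c q : ℕ) :
    (p.pad a b c q).val x (fun _ => 1) = (QQ : ℝ) ^ (q - p.q) * p.e.val x (fun _ => 1) := by
  simp [pad, val_padQ, val_padW]

lemma pad_div (x : ℕ → ℝ) (p : RE) (a b c q : ℕ) (h : p.q ≤ q) :
    (p.pad a b c q).val x (fun _ => 1) / (QQ : ℝ) ^ q = p.v x := by
  have hQ := QQ_pos
  rw [val_pad, v, div_eq_div_iff (by positivity) (by positivity)]
  have : (QQ : ℝ) ^ q = (QQ : ℝ) ^ (q - p.q) * (QQ : ℝ) ^ p.q := by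
    rw [← pow_add, Nat.sub_add_cancel h]
  rw [this]; ring

theorem v_add (x : ℕ → ℝ) (p r : RE) : v x (p + r) = v x p + v x r := by
  have h1 := pad_div x p (max p.d0 r.d0) (max p.d1 r.d1) (max p.d2 r.d2) (max p.q r.q)
    (le_max_left _ _)
  have h2 := pad_div x r (max p.d0 r.d0) (max p.d1 r.d1) (max p.d2 r.d2) (max p.q r.q)
    (le_max_right _ _)
  rw [← h1, ← h2, ← add_div]
  rfl

theorem v_sub (x : ℕ → ℝ) (p r : RE) : v x (p - r) = v x p - v x r := by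
  have h1 := pad_div x p (max p.d0 r.d0) (max p.d1 r.d1) (max p.d2 r.d2) (max p.q r.q)
    (le_max_left _ _)
  have h2 := pad_div x r (max p.d0 r.d0) (max p.d1 r.d1) (max p.d2 r.d2) (max p.q r.q)
    (le_max_right _ _)
  rw [← h1, ← h2, ← sub_div]
  rfl

theorem v_mul (x : ℕ → ℝ) (p r : RE) : v x (p * r) = v x p * v x r := by
  have hQ := QQ_pos
  have : v x (p * r) = (p.e.val x (fun _ => 1) * r.e.val x (fun _ => 1)) /
      (QQ : ℝ) ^ (p.q + r.q) := rfl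
  rw [this, v, v, pow_add]
  field_simp

theorem v_cst (x : ℕ → ℝ) (n : ℤ) : v x (cst n : RE) = (cst n : ℝ) := by
  have : v x (cst n : RE) = (n : ℝ) / (QQ : ℝ) ^ 1 := rfl
  rw [this, pow_one]; rfl

theorem v_x0 (x : ℕ → ℝ) : v x x0 = x 0 := by simp [v, x0, Ex.val]
theorem v_x1 (x : ℕ → ℝ) : v x x1 = x 1 := by simp [v, x1, Ex.val]
theorem v_x2 (x : ℕ → ℝ) : v x x2 = x 2 := by simp [v, x2, Ex.val]

theorem nonneg_iff (x : ℕ → ℝ) (p : RE) : 0 ≤ p.e.val x (fun _ => 1) ↔ 0 ≤ p.v x := by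
  have hQ := QQ_pos
  rw [v]
  constructor
  · intro h; positivity
  · intro h
    have : p.e.val x (fun _ => 1) = p.e.val x (fun _ => 1) / (QQ : ℝ) ^ p.q * (QQ : ℝ) ^ p.q := by
      field_simp
    rw [this]; positivity

end RE

/-! ### polymorphic formulas -/

section formulas

variable {α : Type} [PL α]

/-- the integer `n` as a constant -/
def num (n : ℤ) : α := cst (n * QQ)

/-- `F(y²)/y` -/
def phF (A0 A1 A2 y : α) : α :=
  num 2 + y * ((A0 - num 2) + y * y * ((A1 - A0) + y * y * ((A2 - A1) - y * y * A2)))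

/-- `(F(y²) - F((ry)²)) / (y (1-r))` -/
def fdF (A0 A1 A2 y r : α) : α :=
  num 2 + (num 1 + r) * y * ((A0 - num 2) + y * y * ((A1 - A0) * (num 1 + r * r)
    + y * y * ((A2 - A1) * (num 1 + r * r + r * r * (r * r))
      - y * y * (A2 * ((num 1 + r * r) * (num 1 + r * r * (r * r)))))))

/-- `Corr / (c² (y²-(ry)²)²)` -/
def kapF (A0 A1 A2 c2 y r : α) : α :=
  cst 50000 * (A0 - A1) + cst 75000 * ((A1 - A2) * (y * y * (num 1 + r * r)))
    + y * y * (y * y) * (A2 * (num 1 + r * r + r * r * (r * r))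
      - cst 12500 * (A2 * c2 * ((num 1 - r * r) * (num 1 - r * r))))

/-- numerator of `D / (1-r)²` -/
def dnF (c2 g s r : α) : α := num 4 * g * s * c2 * ((num 1 + r) * ((num 1 + r) * (num 1 + r)))

/-- denominator of `D` -/
def ddF (c2 g s r : α) : α :=
  (num 1 + g) * (num 1 + g) * ((num 1 + r) * (num 1 + r)) *
    (c2 * ((num 1 - r * r) * (num 1 - r * r)) + (num 2 * r + s) * (num 2 * r + s))
    + num 2 * s * (c2 * ((num 1 - r * r) * (num 1 - r * r)))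

/-- `D' Dd` -/
def DelF (A0 A1 A2 c2 g s y r : α) : α :=
  num 2 * dnF c2 g s r + c2 * (y * (y * y)) * ((num 1 + r) * (num 1 + r)) *
    kapF A0 A1 A2 c2 y r * ddF c2 g s r

/-- `A'` -/
def ApF (A0 A1 A2 U k1 e1 y r : α) : α :=
  k1 * fdF A0 A1 A2 y r + e1 * U * (y * (num 1 + r))

/-- `B'` -/
def BpF (A0 A1 A2 U V k2 e2 m2 l2 y r : α) : α :=
  r * phF A0 A1 A2 (r * y)
    - (num 1 - r) * (k2 * fdF A0 A1 A2 y r + e2 * U * (y * (num 1 + r)))
    - V * l2 * (r * r * y * (num 1 - r * r * (y * y)))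
    - V * m2 * (y * (num 1 - y * y))

end formulas


/-! ### real side of the pointwise inequality -/

lemma num_real (n : ℤ) : (num n : ℝ) = (n : ℝ) := by
  have hQ := RE.QQ_pos
  show ((n * QQ : ℤ) : ℝ) / (QQ : ℝ) = n
  push_cast
  field_simp

lemma cst_real (n : ℤ) : (cst n : ℝ) = (n : ℝ) / 100000 := by
  show (n : ℝ) / ((QQ : ℕ) : ℝ) = _
  norm_num [QQ]

/-- the rational lower bound of `(√G + √G' - y0 - y1)/y0` is admissible -/
theorem D_adm {c2 g s r : ℝ} (hc2 : 0 < c2) (hg : 1 ≤ g) (hs : 0 ≤ s) (hr : 0 ≤ r) (hr1 : r ≤ 1) :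
    0 < ddF c2 g s r ∧ 0 ≤ dnF c2 g s r ∧
      (1 - r) ^ 2 * (dnF c2 g s r / ddF c2 g s r) *
        ((1 - r) ^ 2 * (dnF c2 g s r / ddF c2 g s r) + 2) *
        ((1 - r) ^ 2 * (dnF c2 g s r / ddF c2 g s r) + 2 * r) *
        ((1 - r) ^ 2 * (dnF c2 g s r / ddF c2 g s r) + 2 + 2 * r) ≤ c2 * (1 - r ^ 2) ^ 2 := by
  have ed : ddF c2 g s r = (1 + g) ^ 2 * (1 + r) ^ 2 * (c2 * (1 - r ^ 2) ^ 2 + (2 * r + s) ^ 2)
      + 2 * s * (c2 * (1 - r ^ 2) ^ 2) := by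
    simp only [ddF, num_real]; push_cast; ring
  have en : dnF c2 g s r = 4 * g * s * c2 * (1 + r) ^ 3 := by
    simp only [dnF, num_real]; push_cast; ring
  set a2 := c2 * (1 - r ^ 2) ^ 2 with ha2
  have ha0 : 0 ≤ a2 := by positivity
  set M := a2 + (2 * r + s) ^ 2 with hM
  have hM0 : 0 < M := by
    rcases hr1.eq_or_lt with h | h
    · have : 0 < 2 * r + s := by rw [h]; linarith
      have : 0 < (2 * r + s) ^ 2 := by positivity
      linarith
    · have h1 : 0 < 1 - r ^ 2 := by nlinarith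
      have : 0 < a2 := by rw [ha2]; positivity
      have := sq_nonneg (2 * r + s)
      linarith
  set u := 1 + r with hu
  have hu0 : 0 < u := by linarith
  have hdd : 0 < ddF c2 g s r := by rw [ed]; positivity
  have hdn : 0 ≤ dnF c2 g s r := by rw [en]; positivity
  refine ⟨hdd, hdn, ?_⟩
  set T := 2 * s * a2 / M with hT
  have hT0 : 0 ≤ T := by rw [hT]; positivity
  have hTM : T * M = 2 * s * a2 := by rw [hT]; field_simp
  -- T (T + 4 r) ≤ a2
  have hT1 : T * (T + 4 * r) ≤ a2 := by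
    have h1 : M ^ 2 * (T * (T + 4 * r)) ≤ M ^ 2 * a2 := by
      have e1 : M ^ 2 * (T * (T + 4 * r)) = (T * M) * (T * M) + 4 * r * (T * M) * M := by ring
      rw [e1, hTM]
      have e2 : M ^ 2 * a2 - (2 * s * a2 * (2 * s * a2) + 4 * r * (2 * s * a2) * M) =
          a2 * (a2 + (2 * r) ^ 2 - s ^ 2) ^ 2 := by
        rw [hM]; ring
      have h3 : 0 ≤ a2 * (a2 + (2 * r) ^ 2 - s ^ 2) ^ 2 := by positivity
      linarith
    exact le_of_mul_le_mul_left h1 (by positivity)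
  set X := (1 + g) ^ 2 * u ^ 2 + T with hX
  have hX0 : 0 < X := by
    have : 0 < (1 + g) ^ 2 * u ^ 2 := by positivity
    linarith
  set D := (1 - r) ^ 2 * (dnF c2 g s r / ddF c2 g s r) with hD
  have hD0 : 0 ≤ D := by rw [hD]; positivity
  have hDX : D * X = 2 * g * u * T := by
    have e1 : ddF c2 g s r = M * X := by
      rw [ed, hX]
      have : M * ((1 + g) ^ 2 * u ^ 2 + T) = (1 + g) ^ 2 * u ^ 2 * M + T * M := by ring
      rw [this, hTM]
    have e2 : (1 - r) ^ 2 * dnF c2 g s r = 2 * g * u * (T * M) := by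
      rw [en, hTM, ha2, hu]; ring
    have e3 : D = 2 * g * u * (T * M) / (M * X) := by
      rw [hD, e1, ← mul_div_assoc, e2]
    rw [e3]; field_simp
  -- D (D + 2u) ≤ T
  have hD1 : D * (D + 2 * u) ≤ T := by
    have h1 : X ^ 2 * (D * (D + 2 * u)) ≤ X ^ 2 * T := by
      have e1 : X ^ 2 * (D * (D + 2 * u)) = (D * X) * (D * X) + 2 * u * (D * X) * X := by ring
      rw [e1, hDX]
      have e2 : X ^ 2 * T - (2 * g * u * T * (2 * g * u * T) + 2 * u * (2 * g * u * T) * X) =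
          T * ((1 - g ^ 2) * u ^ 2 + T) ^ 2 := by
        rw [hX]; ring
      have h3 : 0 ≤ T * ((1 - g ^ 2) * u ^ 2 + T) ^ 2 := by positivity
      linarith
    exact le_of_mul_le_mul_left h1 (by positivity)
  have e5 : D * (D + 2) * (D + 2 * r) * (D + 2 + 2 * r) =
      (D * (D + 2 * u)) * (D * (D + 2 * u) + 4 * r) := by rw [hu]; ring
  have hp : 0 ≤ D * (D + 2 * u) := by positivity
  have h6 : (D * (D + 2 * u)) * (D * (D + 2 * u) + 4 * r) ≤ T * (T + 4 * r) :=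
    mul_le_mul hD1 (by linarith) (by positivity) hT0
  calc D * (D + 2) * (D + 2 * r) * (D + 2 + 2 * r) =
      (D * (D + 2 * u)) * (D * (D + 2 * u) + 4 * r) := e5
    _ ≤ T * (T + 4 * r) := h6
    _ ≤ a2 := hT1

section
variable {α : Type} [PL α]

/-- `(1-r)² D' Dd + 2 B' Dd` -/
def EF (A0 A1 A2 c2 g s U V k2 e2 m2 l2 y r : α) : α :=
  (num 1 - r) * (num 1 - r) * DelF A0 A1 A2 c2 g s y r
    + num 2 * (BpF A0 A1 A2 U V k2 e2 m2 l2 y r * ddF c2 g s r)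

/-- discriminant polynomial -/
def DiscF (A0 A1 A2 c2 g s U V k1 e1 k2 e2 m2 l2 y r : α) : α :=
  DelF A0 A1 A2 c2 g s y r * EF A0 A1 A2 c2 g s U V k2 e2 m2 l2 y r
    - ApF A0 A1 A2 U k1 e1 y r * ddF c2 g s r * (ApF A0 A1 A2 U k1 e1 y r * ddF c2 g s r)

/-- `((1-r) D' - A') Dd` -/
def Q1F (A0 A1 A2 c2 g s U k1 e1 y r : α) : α :=
  (num 1 - r) * DelF A0 A1 A2 c2 g s y r - ApF A0 A1 A2 U k1 e1 y r * ddF c2 g s r

/-- `((1-r)² D' + B' - (1-r) A') Dd` -/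
def Q2F (A0 A1 A2 c2 g s U V k1 e1 k2 e2 m2 l2 y r : α) : α :=
  (num 1 - r) * (num 1 - r) * DelF A0 A1 A2 c2 g s y r
    + BpF A0 A1 A2 U V k2 e2 m2 l2 y r * ddF c2 g s r
    - (num 1 - r) * (ApF A0 A1 A2 U k1 e1 y r * ddF c2 g s r)

end

open Crest.Agent.R307.Conic Crest.Agent.R307.GenPI Crest.Agent.R307.GenInt
  Crest.Agent.R307.GenInd

/-- the disjunction delivered by the checker -/
def PIok (A0 A1 A2 c2 g s U V k1 e1 k2 e2 m2 l2 y r : ℝ) : Prop :=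
  0 ≤ DelF A0 A1 A2 c2 g s y r ∧
  ((0 ≤ EF A0 A1 A2 c2 g s U V k2 e2 m2 l2 y r ∧
    0 ≤ DiscF A0 A1 A2 c2 g s U V k1 e1 k2 e2 m2 l2 y r) ∨
   (0 ≤ Q1F A0 A1 A2 c2 g s U k1 e1 y r ∧
    0 ≤ Q2F A0 A1 A2 c2 g s U V k1 e1 k2 e2 m2 l2 y r))

/-- one family with `m1 = l1 = 0` -/
noncomputable def mkFam (k1 k2 e1 e2 m2 l2 : ℝ) : Fam := ⟨k1, k2, e1, e2, 0, m2, 0, l2⟩

theorem polyPC_of_PIok {A0 A1 A2 c2 g s U V k1 e1 k2 e2 m2 l2 y r : ℝ} (hc2 : 0 < c2) (hg : 1 ≤ g)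
    (hs : 0 ≤ s) (hy : 0 < y) (hr : 0 ≤ r) (hr1 : r ≤ 1)
    (h : PIok A0 A1 A2 c2 g s U V k1 e1 k2 e2 m2 l2 y r) :
    ((mkFam k1 k2 e1 e2 m2 l2).scale U V).PolyPC A0 A1 A2 c2 y r := by
  obtain ⟨hdd, hdn, hD⟩ := D_adm hc2 hg hs hr hr1
  have hdd' := hdd.ne'
  set D := (1 - r) ^ 2 * (dnF c2 g s r / ddF c2 g s r) with hDdef
  have hD0 : 0 ≤ D := by rw [hDdef]; positivity
  refine ⟨D, hD0, hD, ?_⟩
  set D' := DelF A0 A1 A2 c2 g s y r / ddF c2 g s r with hD'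
  set A' := ApF A0 A1 A2 U k1 e1 y r with hA'
  set B' := BpF A0 A1 A2 U V k2 e2 m2 l2 y r with hB'
  have eD : 2 * (y * D) + Corr A0 A1 A2 c2 y (r * y) = y * ((1 - r) ^ 2 * D') := by
    have : DelF A0 A1 A2 c2 g s y r / ddF c2 g s r = 2 * (dnF c2 g s r / ddF c2 g s r) +
        c2 * y ^ 3 * (1 + r) ^ 2 * kapF A0 A1 A2 c2 y r := by
      rw [div_eq_iff hdd']
      have : (2 * (dnF c2 g s r / ddF c2 g s r) +
        c2 * y ^ 3 * (1 + r) ^ 2 * kapF A0 A1 A2 c2 y r) * ddF c2 g s r =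
        2 * dnF c2 g s r + c2 * y ^ 3 * (1 + r) ^ 2 * kapF A0 A1 A2 c2 y r * ddF c2 g s r := by
        field_simp
      rw [this]
      simp only [DelF, num_real]
      push_cast
      ring
    rw [hD', this, hDdef]
    simp only [kapF, num_real, cst_real, Corr]
    push_cast
    ring
  have eA : ((mkFam k1 k2 e1 e2 m2 l2).scale U V).Ah (FP A0 A1 A2 y) (FP A0 A1 A2 (r * y)) (y ^ 2)
      ((r * y) ^ 2) (y ^ 2 * (1 - y ^ 2)) ((r * y) ^ 2 * (1 - (r * y) ^ 2)) =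
      y * ((1 - r) * A') := by
    rw [hA']
    simp only [mkFam, Fam.scale, Fam.Ah, FP, ApF, fdF, num_real]
    push_cast
    ring
  have eB : ((mkFam k1 k2 e1 e2 m2 l2).scale U V).Bh (FP A0 A1 A2 y) (FP A0 A1 A2 (r * y)) (y ^ 2)
      ((r * y) ^ 2) (y ^ 2 * (1 - y ^ 2)) ((r * y) ^ 2 * (1 - (r * y) ^ 2)) = y * B' := by
    rw [hB']
    simp only [mkFam, Fam.scale, Fam.Bh, FP, BpF, fdF, phF, num_real]
    push_cast
    ring
  rw [eD, eA, eB]
  refine PC.smul ?_ hy.le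
  obtain ⟨h0, h⟩ := h
  have hD'0 : 0 ≤ D' := div_nonneg h0 hdd.le
  have eDel : DelF A0 A1 A2 c2 g s y r = D' * ddF c2 g s r := by rw [hD']; field_simp
  rcases h with ⟨h1, h2⟩ | ⟨h1, h2⟩
  · have q1 : EF A0 A1 A2 c2 g s U V k2 e2 m2 l2 y r =
        ((1 - r) ^ 2 * D' + 2 * B') * ddF c2 g s r := by
      simp only [EF, num_real]
      rw [eDel, ← hB']
      push_cast; ring
    have q2 : DiscF A0 A1 A2 c2 g s U V k1 e1 k2 e2 m2 l2 y r =
        (D' * ((1 - r) ^ 2 * D' + 2 * B') - A' ^ 2) * (ddF c2 g s r) ^ 2 := by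
      simp only [DiscF]
      rw [q1, eDel, ← hA']
      ring
    rw [q1] at h1
    rw [q2] at h2
    have h1' := nonneg_of_mul_nonneg_left h1 hdd
    have h2' := nonneg_of_mul_nonneg_left h2 (by positivity)
    exact PC_of_reduced hD'0 h1' (by linarith)
  · have q1 : Q1F A0 A1 A2 c2 g s U k1 e1 y r = ((1 - r) * D' - A') * ddF c2 g s r := by
      simp only [Q1F, num_real]
      rw [eDel, ← hA']
      push_cast; ring
    have q2 : Q2F A0 A1 A2 c2 g s U V k1 e1 k2 e2 m2 l2 y r =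
        ((1 - r) ^ 2 * D' + B' - (1 - r) * A') * ddF c2 g s r := by
      simp only [Q2F, num_real]
      rw [eDel, ← hA', ← hB']
      push_cast; ring
    rw [q1] at h1
    rw [q2] at h2
    have h1' := nonneg_of_mul_nonneg_left h1 hdd
    have h2' := nonneg_of_mul_nonneg_left h2 hdd
    have hr' : 0 ≤ 1 - r := by linarith
    refine ⟨by positivity, Or.inl ⟨?_, by linarith⟩⟩
    have := mul_nonneg hr' h1'
    nlinarith

end Crest.Agent.R307.MI
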