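import Crest.Agent.R307.MI

/-!
Row 307, S0471, regime M: generic checker for one `c`-interval, part 2: the kernel checks and
their real meaning (helper391).
-/

set_option autoImplicit false

namespace Crest.Agent.R307.MI

open Crest.Agent.KB Crest.Agent.R307.Conic Crest.Agent.R307.GenPI Crest.Agent.R307.GenInt
  Crest.Agent.R307.GenInd

theorem v_num (x : ℕ → ℝ) (n : ℤ) : RE.v x (num n : RE) = (num n : ℝ) := RE.v_cst x _

section formulas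

variable {α : Type} [PL α]

/-- `g(r) = 1 + (z-1)(1-r)^5` -/
def gF (z r : α) : α :=
  num 1 + (z - num 1) * ((num 1 - r) * ((num 1 - r) * (num 1 - r)) * ((num 1 - r) * (num 1 - r)))

/-- `s(r) = c + r² (s2 + s3 r + s4 r²)` -/
def sF (c s2 s3 s4 r : α) : α := c + r * r * (s2 + r * (s3 + r * s4))

/-- `c = z² - 1` -/
def cF (z : α) : α := z * z - num 1

/-- `W(z)` -/
def WF (A0 A1 A2 z : α) : α :=
  num 2 * (z - num 1) + cst 25000 * (num 2 * A0 + A1) * (cF z * cF z)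
    + cst 25000 * (A2 * (cF z * cF z)) * (num 1 - cst 50000 * (cF z * cF z))

/-- dictator certificate, multiplied by the denominator of `D` -/
def DictF (A0 A1 A2 z s2 s3 s4 v0 v1 md ld y r : α) : α :=
  num 2 * ((num 1 - r) * (num 1 - r) * dnF (cF z * cF z) (gF z r) (sF (cF z) s2 s3 s4 r) r)
    + (cF z * cF z * (y * (y * y)) * ((num 1 - r * r) * (num 1 - r * r)) *
          kapF A0 A1 A2 (cF z * cF z) y r
        + r * phF A0 A1 A2 (r * y)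
        - WF A0 A1 A2 z * (y * (num 1 - r * r))
        - (v0 + v1 * z) * ld * (r * r * y * (num 1 - r * r * (y * y)))
        - (v0 + v1 * z) * md * (y * (num 1 - y * y)))
      * ddF (cF z * cF z) (gF z r) (sF (cF z) s2 s3 s4 r) r

/-- Horner evaluation of a list of coefficients -/
def hornF : List ℤ → α → α
  | [], _ => num 0
  | [a], _ => cst a
  | a :: b :: l, z => cst a + z * hornF (b :: l) z

/-- the potential `B(n) = n(1-n)(2 + (2n-1) p(2n-1))` -/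
def BF (p : List ℤ) (n : α) : α :=
  n * (num 1 - n) * (num 2 + (num 2 * n - num 1) * hornF p (num 2 * n - num 1))

/-- refined Parseval `n(1-n)(1+κ(1-2n)²)` -/
def dpF (ka n : α) : α :=
  n * (num 1 - n) * (num 1 + ka * ((num 1 - num 2 * n) * (num 1 - num 2 * n)))

def AF (k1 e1 B0 B1 dn : α) : α := k1 * (B0 - B1) + e1 * dn

def BhF (k2 e2 m2 l2 B0 B1 dn d0 d1 : α) : α :=
  B1 - k2 * (B0 - B1) - e2 * dn - l2 * d1 - m2 * d0

def SQF (G A B : α) : α := A * A - G * (G + num 2 * B)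

/-- FIN, in `m = 2μ-1` -/
def FinF (p : List ℤ) (rr m : α) : α :=
  cst 25000 * (num 1 - m * m) * (num 4 + m * (hornF p m - hornF p (num 0 - m))) - num 1
    + rr * (m * m * (cst 50000 + m * m * (cst 12500 + m * m * cst 6250)))

/-- the tangent condition -/
def TanF (A0 A1 A2 y z : α) : α :=
  num 1 - z * ((y + z) * (y + z)) * (cst 25000 * (num 2 * A0 + A1 + A2)
    - cst 12500 * (A2 * ((y * y - num 1) * (y * y - num 1)
      + num 2 * ((y * y - num 1) * (z * z - num 1)) + num 3 * ((z * z - num 1) * (z * z - num 1)))))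

/-- `V(z) c² - W(z)` -/
def VWF (A0 A1 A2 v0 v1 z : α) : α := (v0 + v1 * z) * (cF z * cF z) - WF A0 A1 A2 z

end formulas

section hom

variable (x : ℕ → ℝ)

lemma v_dnF (c2 g s r : RE) : RE.v x (dnF c2 g s r) =
    dnF (RE.v x c2) (RE.v x g) (RE.v x s) (RE.v x r) := by
  simp only [dnF, RE.v_add, RE.v_mul, v_num]

lemma v_ddF (c2 g s r : RE) : RE.v x (ddF c2 g s r) =
    ddF (RE.v x c2) (RE.v x g) (RE.v x s) (RE.v x r) := by
  simp only [ddF, RE.v_add, RE.v_sub, RE.v_mul, v_num]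

lemma v_kapF (A0 A1 A2 c2 y r : RE) : RE.v x (kapF A0 A1 A2 c2 y r) =
    kapF (RE.v x A0) (RE.v x A1) (RE.v x A2) (RE.v x c2) (RE.v x y) (RE.v x r) := by
  simp only [kapF, RE.v_add, RE.v_sub, RE.v_mul, v_num, RE.v_cst]

lemma v_phF (A0 A1 A2 y : RE) : RE.v x (phF A0 A1 A2 y) =
    phF (RE.v x A0) (RE.v x A1) (RE.v x A2) (RE.v x y) := by
  simp only [phF, RE.v_add, RE.v_sub, RE.v_mul, v_num]

lemma v_fdF (A0 A1 A2 y r : RE) : RE.v x (fdF A0 A1 A2 y r) =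
    fdF (RE.v x A0) (RE.v x A1) (RE.v x A2) (RE.v x y) (RE.v x r) := by
  simp only [fdF, RE.v_add, RE.v_sub, RE.v_mul, v_num]

lemma v_DelF (A0 A1 A2 c2 g s y r : RE) : RE.v x (DelF A0 A1 A2 c2 g s y r) =
    DelF (RE.v x A0) (RE.v x A1) (RE.v x A2) (RE.v x c2) (RE.v x g) (RE.v x s) (RE.v x y)
      (RE.v x r) := by
  simp only [DelF, RE.v_add, RE.v_mul, v_num, v_dnF, v_ddF, v_kapF]

lemma v_ApF (A0 A1 A2 U k1 e1 y r : RE) : RE.v x (ApF A0 A1 A2 U k1 e1 y r) =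
    ApF (RE.v x A0) (RE.v x A1) (RE.v x A2) (RE.v x U) (RE.v x k1) (RE.v x e1) (RE.v x y)
      (RE.v x r) := by
  simp only [ApF, RE.v_add, RE.v_mul, v_num, v_fdF]

lemma v_BpF (A0 A1 A2 U V k2 e2 m2 l2 y r : RE) :
    RE.v x (BpF A0 A1 A2 U V k2 e2 m2 l2 y r) =
    BpF (RE.v x A0) (RE.v x A1) (RE.v x A2) (RE.v x U) (RE.v x V) (RE.v x k2) (RE.v x e2)
      (RE.v x m2) (RE.v x l2) (RE.v x y) (RE.v x r) := by
  simp only [BpF, RE.v_add, RE.v_sub, RE.v_mul, v_num, v_fdF, v_phF]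

lemma v_EF (A0 A1 A2 c2 g s U V k2 e2 m2 l2 y r : RE) :
    RE.v x (EF A0 A1 A2 c2 g s U V k2 e2 m2 l2 y r) =
    EF (RE.v x A0) (RE.v x A1) (RE.v x A2) (RE.v x c2) (RE.v x g) (RE.v x s) (RE.v x U)
      (RE.v x V) (RE.v x k2) (RE.v x e2) (RE.v x m2) (RE.v x l2) (RE.v x y) (RE.v x r) := by
  simp only [EF, RE.v_add, RE.v_sub, RE.v_mul, v_num, v_DelF, v_BpF, v_ddF]

lemma v_DiscF (A0 A1 A2 c2 g s U V k1 e1 k2 e2 m2 l2 y r : RE) :
    RE.v x (DiscF A0 A1 A2 c2 g s U V k1 e1 k2 e2 m2 l2 y r) =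
    DiscF (RE.v x A0) (RE.v x A1) (RE.v x A2) (RE.v x c2) (RE.v x g) (RE.v x s) (RE.v x U)
      (RE.v x V) (RE.v x k1) (RE.v x e1) (RE.v x k2) (RE.v x e2) (RE.v x m2) (RE.v x l2)
      (RE.v x y) (RE.v x r) := by
  simp only [DiscF, RE.v_sub, RE.v_mul, v_DelF, v_EF, v_ApF, v_ddF]

lemma v_Q1F (A0 A1 A2 c2 g s U k1 e1 y r : RE) :
    RE.v x (Q1F A0 A1 A2 c2 g s U k1 e1 y r) =
    Q1F (RE.v x A0) (RE.v x A1) (RE.v x A2) (RE.v x c2) (RE.v x g) (RE.v x s) (RE.v x U)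
      (RE.v x k1) (RE.v x e1) (RE.v x y) (RE.v x r) := by
  simp only [Q1F, RE.v_sub, RE.v_mul, v_num, v_DelF, v_ApF, v_ddF]

lemma v_Q2F (A0 A1 A2 c2 g s U V k1 e1 k2 e2 m2 l2 y r : RE) :
    RE.v x (Q2F A0 A1 A2 c2 g s U V k1 e1 k2 e2 m2 l2 y r) =
    Q2F (RE.v x A0) (RE.v x A1) (RE.v x A2) (RE.v x c2) (RE.v x g) (RE.v x s) (RE.v x U)
      (RE.v x V) (RE.v x k1) (RE.v x e1) (RE.v x k2) (RE.v x e2) (RE.v x m2) (RE.v x l2)
      (RE.v x y) (RE.v x r) := by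
  simp only [Q2F, RE.v_add, RE.v_sub, RE.v_mul, v_num, v_DelF, v_BpF, v_ApF, v_ddF]

lemma v_gF (z r : RE) : RE.v x (gF z r) = gF (RE.v x z) (RE.v x r) := by
  simp only [gF, RE.v_add, RE.v_sub, RE.v_mul, v_num]

lemma v_sF (c s2 s3 s4 r : RE) : RE.v x (sF c s2 s3 s4 r) =
    sF (RE.v x c) (RE.v x s2) (RE.v x s3) (RE.v x s4) (RE.v x r) := by
  simp only [sF, RE.v_add, RE.v_mul]

lemma v_cF (z : RE) : RE.v x (cF z) = cF (RE.v x z) := by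
  simp only [cF, RE.v_sub, RE.v_mul, v_num]

lemma v_WF (A0 A1 A2 z : RE) : RE.v x (WF A0 A1 A2 z) =
    WF (RE.v x A0) (RE.v x A1) (RE.v x A2) (RE.v x z) := by
  simp only [WF, RE.v_add, RE.v_sub, RE.v_mul, v_num, RE.v_cst, v_cF]

lemma v_DictF (A0 A1 A2 z s2 s3 s4 v0 v1 md ld y r : RE) :
    RE.v x (DictF A0 A1 A2 z s2 s3 s4 v0 v1 md ld y r) =
    DictF (RE.v x A0) (RE.v x A1) (RE.v x A2) (RE.v x z) (RE.v x s2) (RE.v x s3) (RE.v x s4)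
      (RE.v x v0) (RE.v x v1) (RE.v x md) (RE.v x ld) (RE.v x y) (RE.v x r) := by
  simp only [DictF, RE.v_add, RE.v_sub, RE.v_mul, v_num, v_cF, v_dnF, v_ddF, v_kapF, v_phF, v_gF,
    v_sF, v_WF]

lemma v_hornF (p : List ℤ) (z : RE) : RE.v x (hornF p z) = hornF p (RE.v x z) := by
  induction p with
  | nil => simp only [hornF, v_num]
  | cons a l ih =>
    cases l with
    | nil => simp only [hornF, RE.v_cst]
    | cons b l => simp only [hornF, RE.v_add, RE.v_mul, RE.v_cst, ih]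

lemma v_BF (p : List ℤ) (n : RE) : RE.v x (BF p n) = BF p (RE.v x n) := by
  simp only [BF, RE.v_add, RE.v_sub, RE.v_mul, v_num, v_hornF]

lemma v_dpF (ka n : RE) : RE.v x (dpF ka n) = dpF (RE.v x ka) (RE.v x n) := by
  simp only [dpF, RE.v_add, RE.v_sub, RE.v_mul, v_num]

lemma v_AF (k1 e1 B0 B1 dn : RE) : RE.v x (AF k1 e1 B0 B1 dn) =
    AF (RE.v x k1) (RE.v x e1) (RE.v x B0) (RE.v x B1) (RE.v x dn) := by
  simp only [AF, RE.v_add, RE.v_sub, RE.v_mul]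

lemma v_BhF (k2 e2 m2 l2 B0 B1 dn d0 d1 : RE) : RE.v x (BhF k2 e2 m2 l2 B0 B1 dn d0 d1) =
    BhF (RE.v x k2) (RE.v x e2) (RE.v x m2) (RE.v x l2) (RE.v x B0) (RE.v x B1) (RE.v x dn)
      (RE.v x d0) (RE.v x d1) := by
  simp only [BhF, RE.v_sub, RE.v_mul]

lemma v_SQF (G A B : RE) : RE.v x (SQF G A B) = SQF (RE.v x G) (RE.v x A) (RE.v x B) := by
  simp only [SQF, RE.v_add, RE.v_sub, RE.v_mul, v_num]

lemma v_FinF (p : List ℤ) (rr m : RE) : RE.v x (FinF p rr m) = FinF p (RE.v x rr) (RE.v x m) := by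
  simp only [FinF, RE.v_add, RE.v_sub, RE.v_mul, v_num, RE.v_cst, v_hornF]

lemma v_TanF (A0 A1 A2 y z : RE) : RE.v x (TanF A0 A1 A2 y z) =
    TanF (RE.v x A0) (RE.v x A1) (RE.v x A2) (RE.v x y) (RE.v x z) := by
  simp only [TanF, RE.v_add, RE.v_sub, RE.v_mul, v_num, RE.v_cst]

lemma v_VWF (A0 A1 A2 v0 v1 z : RE) : RE.v x (VWF A0 A1 A2 v0 v1 z) =
    VWF (RE.v x A0) (RE.v x A1) (RE.v x A2) (RE.v x v0) (RE.v x v1) (RE.v x z) := by
  simp only [VWF, RE.v_add, RE.v_sub, RE.v_mul, v_cF, v_WF]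

end hom

/-! ### clause lists -/

/-- pointwise check of one family at `z` -/
def piCls (a0 a1 a2 z s2 s3 s4 U V k1 e1 k2 e2 m2 l2 : ℤ) : List (List Ex) :=
  let A0 : RE := cst a0
  let A1 : RE := cst a1
  let A2 : RE := cst a2
  let c : RE := cF (cst z)
  let c2 : RE := c * c
  let y : RE := RE.x0
  let r : RE := RE.x1
  let g : RE := gF (cst z) r
  let s : RE := sF c (cst s2) (cst s3) (cst s4) r
  [[s.e, (DelF A0 A1 A2 c2 g s y r).e,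
    (EF A0 A1 A2 c2 g s (cst U) (cst V) (cst k2) (cst e2) (cst m2) (cst l2) y r).e,
    (DiscF A0 A1 A2 c2 g s (cst U) (cst V) (cst k1) (cst e1) (cst k2) (cst e2) (cst m2) (cst l2) y r).e],
   [s.e, (DelF A0 A1 A2 c2 g s y r).e,
    (Q1F A0 A1 A2 c2 g s (cst U) (cst k1) (cst e1) y r).e,
    (Q2F A0 A1 A2 c2 g s (cst U) (cst V) (cst k1) (cst e1) (cst k2) (cst e2) (cst m2) (cst l2) y r).e]]

/-- two variables -/
noncomputable def vec2 (a b : ℝ) : ℕ → ℝ := fun i => if i = 0 then a else b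

/-- three variables -/
noncomputable def vec3 (a b c : ℝ) : ℕ → ℝ := fun i => if i = 0 then a else if i = 1 then b else c

lemma inBox_vec2 {s : ℕ} {a0 b0 a1 b1 : ℤ} {x y : ℝ} (h1 : (a0 : ℝ) ≤ x * 2 ^ s)
    (h2 : x * 2 ^ s ≤ b0) (h3 : (a1 : ℝ) ≤ y * 2 ^ s) (h4 : y * 2 ^ s ≤ b1) :
    InBox 2 s [(a0, b0), (a1, b1)] (vec2 x y) := by
  intro i hi
  interval_cases i
  · exact ⟨h1, h2⟩
  · exact ⟨h3, h4⟩

lemma inBox_vec3 {s : ℕ} {a0 b0 a1 b1 a2 b2 : ℤ} {x y z : ℝ} (h1 : (a0 : ℝ) ≤ x * 2 ^ s)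
    (h2 : x * 2 ^ s ≤ b0) (h3 : (a1 : ℝ) ≤ y * 2 ^ s) (h4 : y * 2 ^ s ≤ b1)
    (h5 : (a2 : ℝ) ≤ z * 2 ^ s) (h6 : z * 2 ^ s ≤ b2) :
    InBox 3 s [(a0, b0), (a1, b1), (a2, b2)] (vec3 x y z) := by
  intro i hi
  interval_cases i
  · exact ⟨h1, h2⟩
  · exact ⟨h3, h4⟩
  · exact ⟨h5, h6⟩

lemma inBox_one {s : ℕ} {a0 b0 : ℤ} {x y : ℝ} (h1 : (a0 : ℝ) ≤ x * 2 ^ s)
    (h2 : x * 2 ^ s ≤ b0) : InBox 1 s [(a0, b0)] (vec2 x y) := by
  intro i hi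
  interval_cases i
  exact ⟨h1, h2⟩

theorem pi_sound {a0 a1 a2 z s2 s3 s4 U V k1 e1 k2 e2 m2 l2 : ℤ} {w sc : ℕ} {Xl M : List ℕ}
    {tr : Tr} (h : run 2 w sc Xl M (piCls a0 a1 a2 z s2 s3 s4 U V k1 e1 k2 e2 m2 l2) tr
      [(0, 2 ^ sc), (0, 2 ^ sc)] = true)
    {y r : ℝ} (hy0 : 0 ≤ y) (hy1 : y ≤ 1) (hr0 : 0 ≤ r) (hr1 : r ≤ 1) :
    0 ≤ sF (cF (cst z : ℝ)) (cst s2) (cst s3) (cst s4) r ∧
    PIok (cst a0) (cst a1) (cst a2) (cF (cst z : ℝ) * cF (cst z)) (gF (cst z) r)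
      (sF (cF (cst z)) (cst s2) (cst s3) (cst s4) r) (cst U) (cst V) (cst k1) (cst e1) (cst k2)
      (cst e2) (cst m2) (cst l2) y r := by
  have hp : (0 : ℝ) < 2 ^ sc := by positivity
  have hb : InBox 2 sc [(0, 2 ^ sc), (0, 2 ^ sc)] (vec2 y r) := by
    apply inBox_vec2 <;> push_cast
    · positivity
    · exact mul_le_of_le_one_left hp.le hy1
    · positivity
    · exact mul_le_of_le_one_left hp.le hr1
  have e0 : RE.v (vec2 y r) RE.x0 = y := by rw [RE.v_x0]; rfl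
  have e1' : RE.v (vec2 y r) RE.x1 = r := by rw [RE.v_x1]; rfl
  obtain ⟨cl, hcl, hall⟩ := run_sound _ _ _ _ _ _ _ _ h _ hb
  simp only [piCls, List.mem_cons, List.not_mem_nil, or_false] at hcl
  rcases hcl with rfl | rfl
  · simp only [List.forall_mem_cons, List.not_mem_nil, RE.nonneg_iff] at hall
    obtain ⟨p1, p2, p3, p4, -⟩ := hall
    rw [v_sF, v_cF] at p1
    rw [v_DelF, RE.v_mul, v_cF, v_gF, v_sF, v_cF] at p2
    rw [v_EF, RE.v_mul, v_cF, v_gF, v_sF, v_cF] at p3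
    rw [v_DiscF, RE.v_mul, v_cF, v_gF, v_sF, v_cF] at p4
    simp only [RE.v_cst, e0, e1'] at p1 p2 p3 p4
    exact ⟨p1, p2, Or.inl ⟨p3, p4⟩⟩
  · simp only [List.forall_mem_cons, List.not_mem_nil, RE.nonneg_iff] at hall
    obtain ⟨p1, p2, p3, p4, -⟩ := hall
    rw [v_sF, v_cF] at p1
    rw [v_DelF, RE.v_mul, v_cF, v_gF, v_sF, v_cF] at p2
    rw [v_Q1F, RE.v_mul, v_cF, v_gF, v_sF, v_cF] at p3
    rw [v_Q2F, RE.v_mul, v_cF, v_gF, v_sF, v_cF] at p4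
    simp only [RE.v_cst, e0, e1'] at p1 p2 p3 p4
    exact ⟨p1, p2, Or.inr ⟨p3, p4⟩⟩

end Crest.Agent.R307.MI
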