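import Crest.Agent.R307.MI2

/-!
Row 307, S0471, regime M: generic checker for one `c`-interval, part 3: step, dictator
certificate, final inequality (helper391).
-/

set_option autoImplicit false

namespace Crest.Agent.R307.MI

open Crest.Agent.KB Crest.Agent.R307.Conic Crest.Agent.R307.GenPI Crest.Agent.R307.GenInt
  Crest.Agent.R307.GenInd

/-- a conic family, integers over `QQ` -/
structure FD where
  k1 : ℤ
  k2 : ℤ
  e1 : ℤ
  e2 : ℤ
  m2 : ℤ
  l2 : ℤ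

/-- the real family -/
noncomputable def FD.fam (f : FD) : Fam :=
  mkFam (cst f.k1) (cst f.k2) (cst f.e1) (cst f.e2) (cst f.m2) (cst f.l2)

/-! ### the scalar step -/

/-- clauses of the step -/
def stepCls (p : List ℤ) (ka md ld : ℤ) (fs : List FD) (n0 n1 mid dn : RE) : List (List Ex) :=
  [(num 0 - (num 2 * BF p mid - BF p n0 - BF p n1)).e] ::
  [(BF p n0 + dn + cst md * dpF (cst ka) n0 + cst ld * dpF (cst ka) n1 - num 2 * BF p mid).e] ::
  fs.flatMap fun f =>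
    [[(AF (cst f.k1) (cst f.e1) (BF p n0) (BF p n1) dn -
        BhF (cst f.k2) (cst f.e2) (cst f.m2) (cst f.l2) (BF p n0) (BF p n1) dn (dpF (cst ka) n0)
          (dpF (cst ka) n1) -
        (num 2 * BF p mid - BF p n0 - BF p n1)).e],
     [(AF (cst f.k1) (cst f.e1) (BF p n0) (BF p n1) dn).e,
      (BhF (cst f.k2) (cst f.e2) (cst f.m2) (cst f.l2) (BF p n0) (BF p n1) dn (dpF (cst ka) n0)
          (dpF (cst ka) n1)).e,
      (SQF (num 2 * BF p mid - BF p n0 - BF p n1)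
        (AF (cst f.k1) (cst f.e1) (BF p n0) (BF p n1) dn)
        (BhF (cst f.k2) (cst f.e2) (cst f.m2) (cst f.l2) (BF p n0) (BF p n1) dn (dpF (cst ka) n0)
          (dpF (cst ka) n1))).e]]

/-- chart 1: `mid = m ≤ 1/2` -/
def stepCls1 (p : List ℤ) (ka md ld : ℤ) (fs : List FD) : List (List Ex) :=
  stepCls p ka md ld fs (RE.x0 * (num 1 + RE.x1)) (RE.x0 * (num 1 - RE.x1)) RE.x0
    (num 2 * RE.x0 * RE.x1)

/-- chart 2: `mid = 1 - m ≥ 1/2` -/
def stepCls2 (p : List ℤ) (ka md ld : ℤ) (fs : List FD) : List (List Ex) :=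
  stepCls p ka md ld fs (num 1 - RE.x0 * (num 1 - RE.x1)) (num 1 - RE.x0 * (num 1 + RE.x1))
    (num 1 - RE.x0) (num 2 * RE.x0 * RE.x1)

/-- real meaning -/
def StepOK (p : List ℤ) (ka md ld : ℤ) (fs : List FD) (n0 n1 mid dn : ℝ) : Prop :=
  2 * BF p mid - BF p n0 - BF p n1 ≤ 0 ∨
  2 * BF p mid ≤ BF p n0 + dn + cst md * dpF (cst ka) n0 + cst ld * dpF (cst ka) n1 ∨
  ∃ f ∈ fs, SC (2 * BF p mid - BF p n0 - BF p n1)
    (AF (cst f.k1) (cst f.e1) (BF p n0) (BF p n1) dn)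
    (BhF (cst f.k2) (cst f.e2) (cst f.m2) (cst f.l2) (BF p n0) (BF p n1) dn (dpF (cst ka) n0)
          (dpF (cst ka) n1))

theorem step_of_clause {p : List ℤ} {ka md ld : ℤ} {fs : List FD} {n0 n1 mid dn : RE} {x : ℕ → ℝ}
    (h : ∃ cl ∈ stepCls p ka md ld fs n0 n1 mid dn, ∀ e ∈ cl, 0 ≤ e.val x (fun _ => 1)) :
    StepOK p ka md ld fs (n0.v x) (n1.v x) (mid.v x) (dn.v x) := by
  obtain ⟨cl, hcl, hall⟩ := h
  simp only [stepCls, List.mem_cons, List.mem_flatMap] at hcl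
  rcases hcl with rfl | rfl | ⟨f, hf, hcl⟩
  · left
    have := hall _ (List.mem_singleton.mpr rfl)
    rw [RE.nonneg_iff] at this
    simp only [RE.v_sub, RE.v_mul, v_num, v_BF, num_real] at this
    push_cast at this
    linarith
  · right; left
    have := hall _ (List.mem_singleton.mpr rfl)
    rw [RE.nonneg_iff] at this
    simp only [RE.v_add, RE.v_sub, RE.v_mul, v_num, v_BF, v_dpF, RE.v_cst, num_real] at this
    push_cast at this
    linarith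
  · right; right
    refine ⟨f, hf, ?_⟩
    simp only [List.not_mem_nil, or_false] at hcl
    rcases hcl with rfl | rfl
    · have := hall _ (List.mem_singleton.mpr rfl)
      rw [RE.nonneg_iff] at this
      simp only [RE.v_sub, RE.v_mul, v_num, v_BF, v_dpF, v_AF, v_BhF, RE.v_cst, num_real] at this
      push_cast at this
      right; left
      linarith
    · simp only [List.forall_mem_cons, RE.nonneg_iff] at hall
      obtain ⟨p1, p2, p3, -⟩ := hall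
      simp only [RE.v_sub, RE.v_mul, v_num, v_BF, v_dpF, v_AF, v_BhF, v_SQF, RE.v_cst,
        num_real] at p1 p2 p3
      push_cast at p3
      right; right
      refine ⟨p1, p2, ?_⟩
      simp only [SQF, num_real] at p3
      push_cast at p3
      nlinarith [p3]

theorem step1_sound {p : List ℤ} {ka md ld : ℤ} {fs : List FD} {w sc : ℕ} {Xl M : List ℕ} {tr : Tr}
    (h : run 2 w (sc + 1) Xl M (stepCls1 p ka md ld fs) tr [(0, 2 ^ sc), (0, 2 ^ (sc + 1))] = true)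
    {m r : ℝ} (hm0 : 0 ≤ m) (hm1 : m ≤ 1 / 2) (hr0 : 0 ≤ r) (hr1 : r ≤ 1) :
    StepOK p ka md ld fs (m * (1 + r)) (m * (1 - r)) m (2 * m * r) := by
  have hp : (0 : ℝ) < 2 ^ sc := by positivity
  have hb : InBox 2 (sc + 1) [(0, 2 ^ sc), (0, 2 ^ (sc + 1))] (vec2 m r) := by
    apply inBox_vec2 <;> push_cast
    · positivity
    · rw [pow_succ]; nlinarith
    · positivity
    · exact mul_le_of_le_one_left (by positivity) hr1
  have e0 : RE.v (vec2 m r) RE.x0 = m := by rw [RE.v_x0]; rfl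
  have e1 : RE.v (vec2 m r) RE.x1 = r := by rw [RE.v_x1]; rfl
  have := step_of_clause (run_sound _ _ _ _ _ _ _ _ h _ hb)
  simp only [RE.v_add, RE.v_sub, RE.v_mul, v_num, e0, e1, num_real] at this
  push_cast at this
  exact this

theorem step2_sound {p : List ℤ} {ka md ld : ℤ} {fs : List FD} {w sc : ℕ} {Xl M : List ℕ} {tr : Tr}
    (h : run 2 w (sc + 1) Xl M (stepCls2 p ka md ld fs) tr [(0, 2 ^ sc), (0, 2 ^ (sc + 1))] = true)
    {m r : ℝ} (hm0 : 0 ≤ m) (hm1 : m ≤ 1 / 2) (hr0 : 0 ≤ r) (hr1 : r ≤ 1) :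
    StepOK p ka md ld fs (1 - m * (1 - r)) (1 - m * (1 + r)) (1 - m) (2 * m * r) := by
  have hp : (0 : ℝ) < 2 ^ sc := by positivity
  have hb : InBox 2 (sc + 1) [(0, 2 ^ sc), (0, 2 ^ (sc + 1))] (vec2 m r) := by
    apply inBox_vec2 <;> push_cast
    · positivity
    · rw [pow_succ]; nlinarith
    · positivity
    · exact mul_le_of_le_one_left (by positivity) hr1
  have e0 : RE.v (vec2 m r) RE.x0 = m := by rw [RE.v_x0]; rfl
  have e1 : RE.v (vec2 m r) RE.x1 = r := by rw [RE.v_x1]; rfl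
  have := step_of_clause (run_sound _ _ _ _ _ _ _ _ h _ hb)
  simp only [RE.v_add, RE.v_sub, RE.v_mul, v_num, e0, e1, num_real] at this
  push_cast at this
  exact this

theorem step_all {p : List ℤ} {ka md ld : ℤ} {fs : List FD} {w w' sc sc' : ℕ} {Xl M Xl' M' : List ℕ}
    {tr tr' : Tr}
    (h1 : run 2 w (sc + 1) Xl M (stepCls1 p ka md ld fs) tr [(0, 2 ^ sc), (0, 2 ^ (sc + 1))] = true)
    (h2 : run 2 w' (sc' + 1) Xl' M' (stepCls2 p ka md ld fs) tr'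
      [(0, 2 ^ sc'), (0, 2 ^ (sc' + 1))] = true)
    {n0 n1 : ℝ} (a1 : 0 ≤ n1) (a2 : n1 ≤ n0) (a3 : n0 ≤ 1) :
    StepOK p ka md ld fs n0 n1 ((n0 + n1) / 2) (n0 - n1) := by
  rcases le_total ((n0 + n1) / 2) (1 / 2) with h | h
  · set m := (n0 + n1) / 2 with hm
    rcases (show 0 ≤ m by rw [hm]; linarith).eq_or_lt with h0 | h0
    · have e0 : n0 = 0 := by linarith
      have e1 : n1 = 0 := by linarith
      have := step1_sound h1 (m := 0) (r := 0) le_rfl (by norm_num) le_rfl zero_le_one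
      rw [← h0, e0, e1]
      simpa using this
    · have hr0 : 0 ≤ (n0 - n1) / (2 * m) := div_nonneg (by linarith) (by linarith)
      have hr1 : (n0 - n1) / (2 * m) ≤ 1 := by
        rw [div_le_one (by linarith)]; rw [hm]; linarith
      have := step1_sound h1 h0.le h hr0 hr1
      have e : m * ((n0 - n1) / (2 * m)) = (n0 - n1) / 2 := by field_simp
      have e1 : m * (1 + (n0 - n1) / (2 * m)) = n0 := by rw [mul_add, e, hm]; ring
      have e2 : m * (1 - (n0 - n1) / (2 * m)) = n1 := by rw [mul_sub, e, hm]; ring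
      have e3 : 2 * m * ((n0 - n1) / (2 * m)) = n0 - n1 := by rw [mul_assoc, e]; ring
      rw [e1, e2, e3] at this
      exact this
  · set m := 1 - (n0 + n1) / 2 with hm
    have hmid : (n0 + n1) / 2 = 1 - m := by rw [hm]; ring
    rw [hmid]
    rcases (show 0 ≤ m by rw [hm]; linarith).eq_or_lt with h0 | h0
    · have e0 : n0 = 1 := by linarith
      have e1 : n1 = 1 := by linarith
      have := step2_sound h2 (m := 0) (r := 0) le_rfl (by norm_num) le_rfl zero_le_one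
      rw [← h0, e0, e1]
      simpa using this
    · have hr0 : 0 ≤ (n0 - n1) / (2 * m) := div_nonneg (by linarith) (by linarith)
      have hr1 : (n0 - n1) / (2 * m) ≤ 1 := by
        rw [div_le_one (by linarith)]; rw [hm]; linarith
      have := step2_sound h2 h0.le (by linarith) hr0 hr1
      have e : m * ((n0 - n1) / (2 * m)) = (n0 - n1) / 2 := by field_simp
      have e1 : 1 - m * (1 + (n0 - n1) / (2 * m)) = n1 := by rw [mul_add, e, hm]; ring
      have e2 : 1 - m * (1 - (n0 - n1) / (2 * m)) = n0 := by rw [mul_sub, e, hm]; ring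
      have e3 : 2 * m * ((n0 - n1) / (2 * m)) = n0 - n1 := by rw [mul_assoc, e]; ring
      rw [e1, e2, e3] at this
      exact this

/-! ### families on the interval -/

lemma cF_real (z : ℝ) : cF z * cF z = (z ^ 2 - 1) ^ 2 := by
  simp only [cF, num_real]; push_cast; ring

lemma gF_ge_one {z r : ℝ} (hz : 1 ≤ z) (hr : r ≤ 1) : 1 ≤ gF z r := by
  have : gF z r = 1 + (z - 1) * (1 - r) ^ 5 := by simp only [gF, num_real]; push_cast; ring
  rw [this]
  have h1 : 0 ≤ (1 - r) ^ 5 := pow_nonneg (by linarith) 5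
  have h2 : 0 ≤ (z - 1) * (1 - r) ^ 5 := mul_nonneg (by linarith) h1
  linarith

/-- sign conditions of one family, on the integers -/
def FD.ok (f : FD) : Bool :=
  decide (0 ≤ 100000 + f.k1) && decide (0 ≤ 100000 + f.k1 + f.k2) && decide (f.k1 ≤ 100000) &&
    decide (f.k1 + f.k2 ≤ 0) && decide (0 ≤ f.l2) && decide (0 ≤ f.e1) &&
    decide (0 ≤ f.e1 + f.e2) && decide (0 ≤ f.m2)

lemma FD.ok_real {f : FD} (h : f.ok = true) :
    f.fam.OK ∧ 0 ≤ f.fam.e1 ∧ 0 ≤ f.fam.e1 + f.fam.e2 := by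
  simp only [FD.ok, Bool.and_eq_true, decide_eq_true_eq] at h
  obtain ⟨⟨⟨⟨⟨⟨⟨h1, h2⟩, h3⟩, h4⟩, h5⟩, h6⟩, h7⟩, h8⟩ := h
  have r1 : (0 : ℝ) ≤ 100000 + (f.k1 : ℝ) := by exact_mod_cast h1
  have r2 : (0 : ℝ) ≤ 100000 + (f.k1 : ℝ) + (f.k2 : ℝ) := by exact_mod_cast h2
  have r3 : (f.k1 : ℝ) ≤ 100000 := by exact_mod_cast h3
  have r4 : (f.k1 : ℝ) + (f.k2 : ℝ) ≤ 0 := by exact_mod_cast h4
  have r5 : (0 : ℝ) ≤ (f.l2 : ℝ) := by exact_mod_cast h5
  have r6 : (0 : ℝ) ≤ (f.e1 : ℝ) := by exact_mod_cast h6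
  have r7 : (0 : ℝ) ≤ (f.e1 : ℝ) + (f.e2 : ℝ) := by exact_mod_cast h7
  have r8 : (0 : ℝ) ≤ (f.m2 : ℝ) := by exact_mod_cast h8
  refine ⟨⟨?_, ?_, ?_, ?_, ?_, ?_, ?_, ?_⟩, ?_, ?_⟩ <;>
    simp only [FD.fam, mkFam, cst_real] <;> linarith

theorem famI_of_checks {a0 a1 a2 za zb : ℤ} {z0 : ℝ} {sa2 sa3 sa4 sb2 sb3 sb4 Ua Ub Va Vb : ℤ}
    {f : FD} {w w' sc sc' : ℕ} {Xl M Xl' M' : List ℕ} {tr tr' : Tr}
    (ha : run 2 w sc Xl M (piCls a0 a1 a2 za sa2 sa3 sa4 Ua Va f.k1 f.e1 f.k2 f.e2 f.m2 f.l2) tr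
      [(0, 2 ^ sc), (0, 2 ^ sc)] = true)
    (hb : run 2 w' sc' Xl' M' (piCls a0 a1 a2 zb sb2 sb3 sb4 Ub Vb f.k1 f.e1 f.k2 f.e2 f.m2 f.l2) tr'
      [(0, 2 ^ sc'), (0, 2 ^ sc')] = true)
    (hf : f.ok = true) (hA2 : 0 ≤ (cst a2 : ℝ))
    (hza : 1 < (cst za : ℝ)) (hab : (cst za : ℝ) < cst zb) (hzb : (cst zb : ℝ) ^ 2 ≤ 2)
    (hz0 : 1 < z0)
    (hW : ∀ c, (cst za : ℝ) ^ 2 - 1 ≤ c → c ≤ (cst zb : ℝ) ^ 2 - 1 →
      0 ≤ Wf (cst a0) (cst a1) (cst a2) c)
    (hUa : Wtan (cst a0) (cst a1) (cst a2) z0 (((cst za : ℝ) ^ 2 - 1) ^ 2) ≤ cst Ua)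
    (hUb : Wtan (cst a0) (cst a1) (cst a2) z0 (((cst zb : ℝ) ^ 2 - 1) ^ 2) ≤ cst Ub)
    (hVa : Wz (cst a0) (cst a1) (cst a2) (cst za) ≤ ((cst za : ℝ) ^ 2 - 1) ^ 2 * cst Va)
    (hVb : Wz (cst a0) (cst a1) (cst a2) (cst zb) ≤ ((cst zb : ℝ) ^ 2 - 1) ^ 2 * cst Vb) :
    FamI (cst a0) (cst a1) (cst a2) ((cst za : ℝ) ^ 2 - 1) ((cst zb : ℝ) ^ 2 - 1) f.fam := by
  obtain ⟨hOK, h1, h2⟩ := FD.ok_real hf
  have hzb1 : 1 < (cst zb : ℝ) := hza.trans hab
  refine famI_of_PolyPC f.fam hOK h1 h2 hA2 hza hab hzb hz0 hW hUa hUb hVa hVb ?_ ?_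
  · intro y r hy0 hy1 hr0 hr1
    obtain ⟨hs, hPI⟩ := pi_sound ha hy0.le hy1 hr0 hr1
    rw [cF_real] at hPI
    have : 0 < ((cst za : ℝ) ^ 2 - 1) ^ 2 := by
      have : 0 < (cst za : ℝ) ^ 2 - 1 := by nlinarith
      positivity
    exact polyPC_of_PIok this (gF_ge_one hza.le hr1) hs hy0 hr0 hr1 hPI
  · intro y r hy0 hy1 hr0 hr1
    obtain ⟨hs, hPI⟩ := pi_sound hb hy0.le hy1 hr0 hr1
    rw [cF_real] at hPI
    have : 0 < ((cst zb : ℝ) ^ 2 - 1) ^ 2 := by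
      have : 0 < (cst zb : ℝ) ^ 2 - 1 := by nlinarith
      positivity
    exact polyPC_of_PIok this (gF_ge_one hzb1.le hr1) hs hy0 hr0 hr1 hPI

end Crest.Agent.R307.MI
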