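import Crest.Agent.R307.MI3
import Crest.Agent.R307.ParsevalP1
import Crest.Agent.R307.Final71

/-!
Row 307, S0471, regime M: generic checker for one `c`-interval, part 4: dictator certificate,
final inequality, tangent condition and the interval theorem (helper391).
-/

set_option autoImplicit false

open Crest.CubeNoise Set

namespace Crest.Agent.R307.MI

open Crest.Agent.KB Crest.Agent.R307.Conic Crest.Agent.R307.GenPI Crest.Agent.R307.GenInt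
  Crest.Agent.R307.GenInd Crest.Agent.R307.TwoSet Crest.Agent.R307.GenFin Crest.Agent.R307
  Crest.Agent.R307.Ode Crest.Agent.R307.Flow Crest.Agent.R307.ParsevalP1
  Crest.Agent.R307.Final71

/-! ### dictator certificate -/

theorem polyOK_of_D {A0 A1 A2 c2 K C beta L0 L1 y r D : ℝ} (hy : 0 ≤ y) (hr : 0 ≤ r) (hD : 0 ≤ D)
    (h : D * (D + 2) * (D + 2 * r) * (D + 2 + 2 * r) ≤ c2 * (1 - r ^ 2) ^ 2)
    (ht : tau A0 A1 A2 c2 K C beta L0 L1 y (r * y) ≤ y * D) :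
    PolyOK A0 A1 A2 c2 K C beta L0 L1 y (r * y) := by
  rcases le_total (tau A0 A1 A2 c2 K C beta L0 L1 y (r * y)) 0 with h0 | h0
  · exact Or.inl h0
  · refine Or.inr ⟨h0, ?_⟩
    set t := tau A0 A1 A2 c2 K C beta L0 L1 y (r * y)
    have hry : 0 ≤ r * y := mul_nonneg hr hy
    have g0 : 0 ≤ gg t y (r * y) := by unfold gg; positivity
    have g1 : gg t y (r * y) ≤ gg (y * D) y (r * y) := by
      unfold gg
      have hyD : 0 ≤ y * D := mul_nonneg hy hD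
      exact mul_le_mul ht (by linarith) (by positivity) hyD
    have g2 : gg t y (r * y) * (gg t y (r * y) + 4 * (y * (r * y))) ≤
        gg (y * D) y (r * y) * (gg (y * D) y (r * y) + 4 * (y * (r * y))) :=
      mul_le_mul g1 (by linarith) (by positivity) (by linarith)
    refine g2.trans ?_
    have e1 : gg (y * D) y (r * y) * (gg (y * D) y (r * y) + 4 * (y * (r * y))) =
        y ^ 4 * (D * (D + 2) * (D + 2 * r) * (D + 2 + 2 * r)) := by unfold gg; ring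
    have e2 : c2 * (y ^ 2 - (r * y) ^ 2) ^ 2 = y ^ 4 * (c2 * (1 - r ^ 2) ^ 2) := by ring
    rw [e1, e2]
    exact mul_le_mul_of_nonneg_left h (by positivity)

/-- clauses of the dictator certificate, variables `y, r, z` -/
def dictCls (a0 a1 a2 s2 s3 s4 v0 v1 md ld : ℤ) : List (List Ex) :=
  [[(sF (cF RE.x2) (cst s2) (cst s3) (cst s4) RE.x1).e,
    (DictF (cst a0) (cst a1) (cst a2) RE.x2 (cst s2) (cst s3) (cst s4) (cst v0) (cst v1) (cst md) (cst ld)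
      RE.x0 RE.x1).e]]

/-- clause for `V` -/
def vCls (a0 a1 a2 v0 v1 : ℤ) : List (List Ex) :=
  [[(VWF (cst a0) (cst a1) (cst a2) (cst v0) (cst v1) RE.x0).e]]

/-- `za ≤ z ≤ zb` gives the box bounds -/
lemma box_bounds {s : ℕ} {zl zh za zb : ℤ} (h1 : zl * 100000 ≤ za * 2 ^ s)
    (h2 : zb * 2 ^ s ≤ zh * 100000) {z : ℝ} (hz1 : (cst za : ℝ) ≤ z) (hz2 : z ≤ (cst zb : ℝ)) :
    (zl : ℝ) ≤ z * 2 ^ s ∧ z * 2 ^ s ≤ (zh : ℝ) := by
  have r1 : (zl : ℝ) * 100000 ≤ (za : ℝ) * 2 ^ s := by exact_mod_cast h1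
  have r2 : (zb : ℝ) * 2 ^ s ≤ (zh : ℝ) * 100000 := by exact_mod_cast h2
  rw [cst_real] at hz1 hz2
  have hp : (0 : ℝ) < 2 ^ s := by positivity
  have a1 := mul_le_mul_of_nonneg_right hz1 hp.le
  have a2 := mul_le_mul_of_nonneg_right hz2 hp.le
  constructor
  · have : (za : ℝ) / 100000 * 2 ^ s = (za : ℝ) * 2 ^ s / 100000 := by ring
    rw [this] at a1
    have : (zl : ℝ) ≤ (za : ℝ) * 2 ^ s / 100000 := by rw [le_div_iff₀ (by norm_num)]; exact r1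
    linarith
  · have : (zb : ℝ) / 100000 * 2 ^ s = (zb : ℝ) * 2 ^ s / 100000 := by ring
    rw [this] at a2
    have : (zb : ℝ) * 2 ^ s / 100000 ≤ (zh : ℝ) := by rw [div_le_iff₀ (by norm_num)]; exact r2
    linarith

theorem dict_sound {a0 a1 a2 s2 s3 s4 v0 v1 md ld zl zh : ℤ} {w s : ℕ} {Xl M : List ℕ} {tr : Tr}
    (h : run 3 w s Xl M (dictCls a0 a1 a2 s2 s3 s4 v0 v1 md ld) tr
      [(0, 2 ^ s), (0, 2 ^ s), (zl, zh)] = true)
    {y r z : ℝ} (hy0 : 0 ≤ y) (hy1 : y ≤ 1) (hr0 : 0 ≤ r) (hr1 : r ≤ 1)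
    (hz1 : (zl : ℝ) ≤ z * 2 ^ s) (hz2 : z * 2 ^ s ≤ (zh : ℝ)) :
    0 ≤ sF (cF z) (cst s2) (cst s3) (cst s4) r ∧
    0 ≤ DictF (cst a0 : ℝ) (cst a1) (cst a2) z (cst s2) (cst s3) (cst s4) (cst v0) (cst v1)
      (cst md) (cst ld) y r := by
  have hp : (0 : ℝ) < 2 ^ s := by positivity
  have hb : InBox 3 s [(0, 2 ^ s), (0, 2 ^ s), (zl, zh)] (vec3 y r z) := by
    refine inBox_vec3 ?_ ?_ ?_ ?_ hz1 hz2 <;> push_cast
    · positivity
    · exact mul_le_of_le_one_left hp.le hy1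
    · positivity
    · exact mul_le_of_le_one_left hp.le hr1
  have e0 : RE.v (vec3 y r z) RE.x0 = y := by rw [RE.v_x0]; rfl
  have e1 : RE.v (vec3 y r z) RE.x1 = r := by rw [RE.v_x1]; rfl
  have e2 : RE.v (vec3 y r z) RE.x2 = z := by rw [RE.v_x2]; rfl
  obtain ⟨cl, hcl, hall⟩ := run_sound _ _ _ _ _ _ _ _ h _ hb
  simp only [dictCls, List.mem_cons, List.not_mem_nil, or_false] at hcl
  subst hcl
  simp only [List.forall_mem_cons, List.not_mem_nil, RE.nonneg_iff] at hall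
  obtain ⟨p1, p2, -⟩ := hall
  rw [v_sF, v_cF] at p1
  rw [v_DictF] at p2
  simp only [RE.v_cst, e0, e1, e2] at p1 p2
  exact ⟨p1, p2⟩

theorem v_sound {a0 a1 a2 v0 v1 zl zh : ℤ} {w s : ℕ} {Xl M : List ℕ} {tr : Tr}
    (h : run 1 w s Xl M (vCls a0 a1 a2 v0 v1) tr [(zl, zh)] = true)
    {z : ℝ} (hz1 : (zl : ℝ) ≤ z * 2 ^ s) (hz2 : z * 2 ^ s ≤ (zh : ℝ)) :
    0 ≤ VWF (cst a0 : ℝ) (cst a1) (cst a2) (cst v0) (cst v1) z := by
  have hb : InBox 1 s [(zl, zh)] (vec2 z 0) := inBox_one hz1 hz2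
  have e0 : RE.v (vec2 z 0) RE.x0 = z := by rw [RE.v_x0]; rfl
  obtain ⟨cl, hcl, hall⟩ := run_sound _ _ _ _ _ _ _ _ h _ hb
  simp only [vCls, List.mem_cons, List.not_mem_nil, or_false] at hcl
  subst hcl
  simp only [List.forall_mem_cons, List.not_mem_nil, RE.nonneg_iff] at hall
  obtain ⟨p1, -⟩ := hall
  rw [v_VWF] at p1
  simp only [RE.v_cst, e0] at p1
  exact p1

lemma WF_real (A0 A1 A2 z : ℝ) : WF A0 A1 A2 z = Wz A0 A1 A2 z := by
  simp only [WF, cF, num_real, cst_real, Wz]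
  push_cast
  ring

theorem polyOK_of_dict {A0 A1 A2 z s2 s3 s4 v0 v1 md ld y0 y1 : ℝ} (hz : 1 < z)
    (h10 : 0 ≤ y1) (h01 : y1 ≤ y0)
    (h : ∀ r : ℝ, 0 ≤ r → r ≤ 1 → 0 ≤ sF (cF z) s2 s3 s4 r ∧
      0 ≤ DictF A0 A1 A2 z s2 s3 s4 v0 v1 md ld y0 r) :
    PolyOK A0 A1 A2 ((z ^ 2 - 1) ^ 2) 0 0 (Wz A0 A1 A2 z * 1) ((v0 + v1 * z) * md)
      ((v0 + v1 * z) * ld) y0 y1 := by
  rcases (h10.trans h01).eq_or_lt with hy | hy
  · have h1 : y1 = 0 := by linarith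
    left
    rw [h1, ← hy]
    simp [tau, FP, Corr]
  · set r := y1 / y0 with hr
    have hr0 : 0 ≤ r := div_nonneg h10 hy.le
    have hr1 : r ≤ 1 := (div_le_one hy).mpr h01
    have er : y1 = r * y0 := by rw [hr]; field_simp
    obtain ⟨hs, hd⟩ := h r hr0 hr1
    have hc : 0 < (z ^ 2 - 1) ^ 2 := by
      have : 0 < z ^ 2 - 1 := by nlinarith
      positivity
    obtain ⟨hdd, hdn, hD⟩ := D_adm hc (gF_ge_one hz.le hr1) hs hr0 hr1
    rw [er]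
    set g := gF z r with hg
    set s := sF (cF z) s2 s3 s4 r with hs'
    set D := (1 - r) ^ 2 * (dnF ((z ^ 2 - 1) ^ 2) g s r / ddF ((z ^ 2 - 1) ^ 2) g s r) with hDdef
    refine polyOK_of_D hy.le hr0 (by positivity) hD ?_
    have e0 : D * ddF ((z ^ 2 - 1) ^ 2) g s r = (1 - r) ^ 2 * dnF ((z ^ 2 - 1) ^ 2) g s r := by
      rw [hDdef]; field_simp
    have e1 : DictF A0 A1 A2 z s2 s3 s4 v0 v1 md ld y0 r =
        (2 * D + ((z ^ 2 - 1) ^ 2 * y0 ^ 3 * (1 - r ^ 2) ^ 2 * kapF A0 A1 A2 ((z ^ 2 - 1) ^ 2) y0 r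
          + r * phF A0 A1 A2 (r * y0) - Wz A0 A1 A2 z * (y0 * (1 - r ^ 2))
          - (v0 + v1 * z) * ld * (r ^ 2 * y0 * (1 - r ^ 2 * y0 ^ 2))
          - (v0 + v1 * z) * md * (y0 * (1 - y0 ^ 2)))) *
          ddF ((z ^ 2 - 1) ^ 2) g s r := by
      have a : 2 * D * ddF ((z ^ 2 - 1) ^ 2) g s r =
          2 * ((1 - r) ^ 2 * dnF ((z ^ 2 - 1) ^ 2) g s r) := by rw [← e0]; ring
      rw [add_mul, a]
      simp only [DictF, WF_real, cF_real]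
      rw [← hg, ← hs']
      simp only [num_real]
      push_cast
      ring
    rw [e1] at hd
    have hd' := nonneg_of_mul_nonneg_left hd hdd
    have hd2 := mul_nonneg hy.le hd'
    have e2 : y0 * (2 * D + ((z ^ 2 - 1) ^ 2 * y0 ^ 3 * (1 - r ^ 2) ^ 2 *
          kapF A0 A1 A2 ((z ^ 2 - 1) ^ 2) y0 r
          + r * phF A0 A1 A2 (r * y0) - Wz A0 A1 A2 z * (y0 * (1 - r ^ 2))
          - (v0 + v1 * z) * ld * (r ^ 2 * y0 * (1 - r ^ 2 * y0 ^ 2))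
          - (v0 + v1 * z) * md * (y0 * (1 - y0 ^ 2)))) =
        2 * (y0 * D - tau A0 A1 A2 ((z ^ 2 - 1) ^ 2) 0 0 (Wz A0 A1 A2 z * 1) ((v0 + v1 * z) * md)
      ((v0 + v1 * z) * ld) y0 (r * y0)) := by
      simp only [tau, kapF, phF, FP, Corr, num_real, cst_real]
      push_cast
      ring
    rw [e2] at hd2
    linarith

theorem dictI_of_checks {a0 a1 a2 za zb s2 s3 s4 v0 v1 md ld zl zh zl' zh' : ℤ} {w s w' s' : ℕ}
    {Xl M Xl' M' : List ℕ} {tr tr' : Tr}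
    (h : run 3 w s Xl M (dictCls a0 a1 a2 s2 s3 s4 v0 v1 md ld) tr
      [(0, 2 ^ s), (0, 2 ^ s), (zl, zh)] = true)
    (h' : run 1 w' s' Xl' M' (vCls a0 a1 a2 v0 v1) tr' [(zl', zh')] = true)
    (b1 : zl * 100000 ≤ za * 2 ^ s) (b2 : zb * 2 ^ s ≤ zh * 100000)
    (b3 : zl' * 100000 ≤ za * 2 ^ s') (b4 : zb * 2 ^ s' ≤ zh' * 100000)
    (hza : 1 < (cst za : ℝ)) (hab : (cst za : ℝ) < cst zb) (hzb : (cst zb : ℝ) ^ 2 ≤ 2)
    (hmd : 0 ≤ md) (hld : 0 ≤ ld)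
    (hW : ∀ c, (cst za : ℝ) ^ 2 - 1 ≤ c → c ≤ (cst zb : ℝ) ^ 2 - 1 →
      0 ≤ Wf (cst a0) (cst a1) (cst a2) c) :
    CertI (cst a0) (cst a1) (cst a2) ((cst za : ℝ) ^ 2 - 1) ((cst zb : ℝ) ^ 2 - 1) 1 0 1
      (cst md) (cst ld) := by
  have hld' : (0 : ℝ) ≤ cst ld := by
    rw [cst_real]
    have : (0 : ℝ) ≤ (ld : ℝ) := by exact_mod_cast hld
    positivity
  have hmd' : (0 : ℝ) ≤ cst md := by
    rw [cst_real]
    have : (0 : ℝ) ≤ (md : ℝ) := by exact_mod_cast hmd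
    positivity
  have := certI_of_poly_z (A0 := cst a0) (A1 := cst a1) (A2 := cst a2) (za := cst za)
    (zb := cst zb) (K := 0) (C := 0) (bt := 1) (l := cst md) (m := cst ld)
    (fun z => cst v0 + cst v1 * z) hza hab.le hzb hmd' hld' hW ?_ ?_
  · simpa using this
  · intro z hz1 hz2
    obtain ⟨c1, c2⟩ := box_bounds b3 b4 hz1 hz2
    have := v_sound h' c1 c2
    simp only [VWF, WF_real, cF_real] at this
    nlinarith
  · intro z hz1 hz2 y0 y1 h10 h01 h0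
    obtain ⟨c1, c2⟩ := box_bounds b1 b2 hz1 hz2
    exact polyOK_of_dict (hza.trans_le hz1) h10 h01
      (fun r hr0 hr1 => dict_sound h (h10.trans h01) h0 hr0 hr1 c1 c2)

/-! ### final inequality -/

/-- odd coefficients -/
def oddC : List ℤ → List ℤ
  | [] => []
  | [_] => []
  | _ :: b :: l => b :: oddC l

lemma hornF_cons (a : ℤ) (l : List ℤ) (x : ℝ) : hornF (a :: l) x = cst a + x * hornF l x := by
  cases l with
  | nil => simp only [hornF, num_real]; push_cast; ring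
  | cons b l => rfl

theorem hornF_odd (m : ℝ) : ∀ p : List ℤ,
    hornF p m - hornF p (-m) = 2 * m * hornF (oddC p) (m ^ 2)
  | [] => by simp only [oddC, hornF, num_real]; push_cast; ring
  | [a] => by simp only [oddC, hornF, num_real]; push_cast; ring
  | a :: b :: l => by
    have ih := hornF_odd m l
    have e : oddC (a :: b :: l) = b :: oddC l := rfl
    rw [e]
    simp only [hornF_cons]
    linear_combination m ^ 2 * ih

section
variable {α : Type} [PL α]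

/-- FIN in `t = √(1-m²)` -/
def FinT (q : List ℤ) (rr t : α) : α :=
  t * t * (num 1 + cst 50000 * ((num 1 - t * t) * hornF q (num 1 - t * t))) - num 1
    + rr * (num 1 - t)

/-- concavity -/
def ConcF (A0 A1 A2 y : α) : α :=
  cst 50000 - (num 2 * (A1 - A0) + y * y * (num 6 * (A2 - A1) - num 12 * A2 * (y * y))) *
    (y * (y * y))

end

lemma v_FinT (x : ℕ → ℝ) (q : List ℤ) (rr t : RE) :
    RE.v x (FinT q rr t) = FinT q (RE.v x rr) (RE.v x t) := by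
  simp only [FinT, RE.v_add, RE.v_sub, RE.v_mul, v_num, RE.v_cst, v_hornF]

lemma v_ConcF (x : ℕ → ℝ) (A0 A1 A2 y : RE) :
    RE.v x (ConcF A0 A1 A2 y) = ConcF (RE.v x A0) (RE.v x A1) (RE.v x A2) (RE.v x y) := by
  simp only [ConcF, RE.v_sub, RE.v_add, RE.v_mul, v_num, RE.v_cst]

/-- clause of FIN -/
def finCls (q : List ℤ) (rr : ℤ) : List (List Ex) := [[(FinT q (cst rr) RE.x0).e]]

/-- clause of concavity -/
def concCls (a0 a1 a2 : ℤ) : List (List Ex) := [[(ConcF (cst a0) (cst a1) (cst a2) RE.x0).e]]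

/-- clause of the tangent condition, variables `y`, `z` -/
def tanCls (a0 a1 a2 : ℤ) : List (List Ex) :=
  [[(TanF (cst a0) (cst a1) (cst a2) RE.x0 RE.x1).e]]

theorem fin_sound {p : List ℤ} {rr : ℤ} {w s : ℕ} {Xl M : List ℕ} {tr : Tr}
    (h : run 1 w s Xl M (finCls (oddC p) rr) tr [(0, 2 ^ s)] = true) :
    ∀ μ : ℝ, 0 ≤ μ → μ ≤ 1 → 1 - cst rr * (1 - ph (2 * μ - 1)) ≤ BF p μ + BF p (1 - μ) := by
  intro μ h0 h1
  set t := ph (2 * μ - 1) with ht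
  have hnn : 0 ≤ 1 - (2 * μ - 1) ^ 2 := by nlinarith
  have ht0 : 0 ≤ t := by rw [ht]; exact Real.sqrt_nonneg _
  have ht2 : t ^ 2 = 1 - (2 * μ - 1) ^ 2 := by rw [ht]; exact Real.sq_sqrt hnn
  have ht1 : t ≤ 1 := by nlinarith [sq_nonneg (2 * μ - 1)]
  have hp : (0 : ℝ) < 2 ^ s := by positivity
  have hb : InBox 1 s [(0, 2 ^ s)] (vec2 t 0) := by
    apply inBox_one <;> push_cast
    · positivity
    · exact mul_le_of_le_one_left hp.le ht1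
  have e0 : RE.v (vec2 t 0) RE.x0 = t := by rw [RE.v_x0]; rfl
  obtain ⟨cl, hcl, hall⟩ := run_sound _ _ _ _ _ _ _ _ h _ hb
  simp only [finCls, List.mem_cons, List.not_mem_nil, or_false] at hcl
  subst hcl
  simp only [List.forall_mem_cons, List.not_mem_nil, RE.nonneg_iff] at hall
  obtain ⟨p1, -⟩ := hall
  rw [v_FinT] at p1
  simp only [RE.v_cst, e0] at p1
  have e1 : (num 1 - t * t : ℝ) = (2 * μ - 1) ^ 2 := by
    rw [num_real]; push_cast; nlinarith [ht2]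
  have e2 := hornF_odd (2 * μ - 1) p
  have e3 : BF p μ + BF p (1 - μ) = t ^ 2 / 4 * (4 + (2 * μ - 1) *
      (hornF p (2 * μ - 1) - hornF p (-(2 * μ - 1)))) := by
    simp only [BF, num_real]
    push_cast
    have : 2 * (1 - μ) - 1 = -(2 * μ - 1) := by ring
    rw [this, ht2]
    ring
  rw [e3, e2]
  simp only [FinT] at p1
  rw [e1, cst_real, num_real] at p1
  push_cast at p1
  nlinarith [p1]

theorem conc_sound {a0 a1 a2 : ℤ} {w s : ℕ} {Xl M : List ℕ} {tr : Tr}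
    (h : run 1 w s Xl M (concCls a0 a1 a2) tr [(0, 2 ^ s)] = true) :
    ConcaveOn ℝ (Icc 0 1) (FA (cst a0) (cst a1) (cst a2)) := by
  refine concave_FA fun y hy hy1 => ?_
  have hp : (0 : ℝ) < 2 ^ s := by positivity
  have hb : InBox 1 s [(0, 2 ^ s)] (vec2 y 0) := by
    apply inBox_one <;> push_cast
    · positivity
    · exact mul_le_of_le_one_left hp.le hy1.le
  have e0 : RE.v (vec2 y 0) RE.x0 = y := by rw [RE.v_x0]; rfl
  obtain ⟨cl, hcl, hall⟩ := run_sound _ _ _ _ _ _ _ _ h _ hb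
  simp only [concCls, List.mem_cons, List.not_mem_nil, or_false] at hcl
  subst hcl
  simp only [List.forall_mem_cons, List.not_mem_nil, RE.nonneg_iff] at hall
  obtain ⟨p1, -⟩ := hall
  rw [v_ConcF] at p1
  simp only [RE.v_cst, e0] at p1
  simp only [ConcF, num_real] at p1
  rw [cst_real 50000] at p1
  push_cast at p1
  nlinarith [p1]

theorem tan_sound {a0 a1 a2 za zb zl zh : ℤ} {w s : ℕ} {Xl M : List ℕ} {tr : Tr} {yh : ℤ}
    (h : run 2 w s Xl M (tanCls a0 a1 a2) tr [(2 ^ s, yh), (zl, zh)] = true)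
    (hy : 2 * (2 ^ s) ^ 2 ≤ yh ^ 2) (hy' : 0 ≤ yh)
    (b1 : zl * 100000 ≤ za * 2 ^ s) (b2 : zb * 2 ^ s ≤ zh * 100000)
    (hza : 1 < (cst za : ℝ)) (hab : (cst za : ℝ) < cst zb) :
    ∀ c, (cst za : ℝ) ^ 2 - 1 ≤ c → c ≤ (cst zb : ℝ) ^ 2 - 1 →
      TanAt (cst a0) (cst a1) (cst a2) c := by
  intro c h1 h2
  set z := Real.sqrt (1 + c) with hz
  have hc0 : 0 ≤ 1 + c := by nlinarith
  have hz0 : 0 ≤ z := Real.sqrt_nonneg _
  have hcz : c = z ^ 2 - 1 := by rw [hz, Real.sq_sqrt hc0]; ring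
  have hz1 : (cst za : ℝ) ≤ z := (abs_le_of_sq_le_sq' (by linarith) hz0).2
  have hzb0 : (0 : ℝ) ≤ cst zb := by linarith
  have hz2 : z ≤ (cst zb : ℝ) := (abs_le_of_sq_le_sq' (by linarith) hzb0).2
  rw [hcz]
  refine tanAt_of_poly (hza.le.trans hz1) fun y hy1 hy2 => ?_
  obtain ⟨c1, c2⟩ := box_bounds b1 b2 hz1 hz2
  have hp : (0 : ℝ) < 2 ^ s := by positivity
  have hb : InBox 2 s [(2 ^ s, yh), (zl, zh)] (vec2 y z) := by
    refine inBox_vec2 ?_ ?_ c1 c2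
    · push_cast; exact le_mul_of_one_le_left hp.le hy1
    · have r : (2 : ℝ) * (2 ^ s) ^ 2 ≤ (yh : ℝ) ^ 2 := by exact_mod_cast hy
      have r' : (0 : ℝ) ≤ (yh : ℝ) := by exact_mod_cast hy'
      refine (abs_le_of_sq_le_sq' ?_ r').2
      calc (y * 2 ^ s) ^ 2 = y ^ 2 * (2 ^ s) ^ 2 := by ring
        _ ≤ 2 * (2 ^ s) ^ 2 := mul_le_mul_of_nonneg_right hy2 (by positivity)
        _ ≤ (yh : ℝ) ^ 2 := r
  have e0 : RE.v (vec2 y z) RE.x0 = y := by rw [RE.v_x0]; rfl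
  have e1 : RE.v (vec2 y z) RE.x1 = z := by rw [RE.v_x1]; rfl
  obtain ⟨cl, hcl, hall⟩ := run_sound _ _ _ _ _ _ _ _ h _ hb
  simp only [tanCls, List.mem_cons, List.not_mem_nil, or_false] at hcl
  subst hcl
  simp only [List.forall_mem_cons, List.not_mem_nil, RE.nonneg_iff] at hall
  obtain ⟨p1, -⟩ := hall
  rw [v_TanF] at p1
  simp only [RE.v_cst, e0, e1] at p1
  simp only [TanF, num_real, cst_real 25000, cst_real 12500] at p1
  push_cast at p1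
  nlinarith [p1]

/-! ### the interval theorem -/

theorem hI_of_step {a0 a1 a2 : ℤ} {ca cb : ℝ} {p : List ℤ} {ka md ld : ℤ} {fs : List FD}
    (hne : fs ≠ []) (hok : ∀ f ∈ fs, f.ok = true)
    (hfam : ∀ f ∈ fs, FamI (cst a0) (cst a1) (cst a2) ca cb f.fam)
    (hdict : CertI (cst a0) (cst a1) (cst a2) ca cb 1 0 1 (cst md) (cst ld)) {n0 n1 : ℝ}
    (h : StepOK p ka md ld fs n0 n1 ((n0 + n1) / 2) (n0 - n1)) :
    ∃ p1 q1 bt l m : ℝ,
      0 ≤ p1 ∧ 0 ≤ q1 ∧ CertI (cst a0) (cst a1) (cst a2) ca cb p1 q1 bt l m ∧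
      2 * BF p ((n0 + n1) / 2) ≤ p1 * BF p n0 + q1 * BF p n1 + bt * (n0 - n1) +
        l * dpF (cst ka) n0 + m * dpF (cst ka) n1 := by
  rcases h with h | h | ⟨f, hf, h⟩
  · obtain ⟨f, hf⟩ := List.exists_mem_of_ne_nil fs hne
    refine famI_step f.fam (FD.ok_real (hok f hf)).1 (hfam f hf) (fun x => BF p x)
      (fun x => dpF (cst ka) x) (Or.inl ?_)
    exact h
  · exact ⟨1, 0, 1, cst md, cst ld, zero_le_one, le_rfl, hdict, by linarith⟩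
  · refine famI_step f.fam (FD.ok_real (hok f hf)).1 (hfam f hf) (fun x => BF p x)
      (fun x => dpF (cst ka) x) ?_
    have e1 : f.fam.Ah (BF p n0) (BF p n1) n0 n1 (dpF (cst ka) n0) (dpF (cst ka) n1) =
        AF (cst f.k1) (cst f.e1) (BF p n0) (BF p n1) (n0 - n1) := by
      simp only [FD.fam, mkFam, Fam.Ah, AF]; ring
    have e2 : f.fam.Bh (BF p n0) (BF p n1) n0 n1 (dpF (cst ka) n0) (dpF (cst ka) n1) =
        BhF (cst f.k2) (cst f.e2) (cst f.m2) (cst f.l2) (BF p n0) (BF p n1) (n0 - n1)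
          (dpF (cst ka) n0) (dpF (cst ka) n1) := by
      simp only [FD.fam, mkFam, Fam.Bh, BhF]; ring
    rw [e1, e2]
    exact h

/-- the refined Parseval row on the interval -/
theorem hd_of_ka {ka : ℤ} {ca cb : ℝ} (hca : 0 < ca) (hcb : cb ≤ 1)
    (hka : (cst ka : ℝ) ≤ 7 / 10 * (1 - cb ^ 2)) :
    ∀ c, ca ≤ c → c ≤ cb → ∀ (n : ℕ) (f : (Fin n → Bool) → Bool),
      c ^ 2 * dpF (cst ka) (cubeAverage (TT (Real.sqrt (1 - c ^ 2)) f)) ≤
      cubeAverage (fun x => TT (Real.sqrt (1 - c ^ 2)) f x *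
        (1 - TT (Real.sqrt (1 - c ^ 2)) f x)) := by
  intro c h1 h2 n f
  have hc2 : c ^ 2 ≤ 1 := by nlinarith
  have hs : (Real.sqrt (1 - c ^ 2)) ^ 2 = 1 - c ^ 2 := Real.sq_sqrt (by linarith)
  have hρ : |Real.sqrt (1 - c ^ 2)| ≤ 1 := by
    rw [abs_of_nonneg (Real.sqrt_nonneg _)]
    exact Real.sqrt_le_one.mpr (by nlinarith [sq_nonneg c])
  have hle : cst ka * (10 / 7) ≤ (Real.sqrt (1 - c ^ 2)) ^ 2 := by
    rw [hs]
    have : c ^ 2 ≤ cb ^ 2 := by nlinarith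
    linarith
  have := row_P1_of_le (s := cst ka * (10 / 7)) hρ hle n f
  rw [hs] at this
  have e : ∀ ν : ℝ, dpF (cst ka) ν =
      ν * (1 - ν) * (1 + 7 / 10 * (cst ka * (10 / 7)) * (1 - 2 * ν) ^ 2) := by
    intro ν
    simp only [dpF, num_real]
    push_cast
    ring
  rw [e]
  have e2 : (1 : ℝ) - (1 - c ^ 2) = c ^ 2 := by ring
  rw [e2] at this
  exact this

lemma BF_zero (p : List ℤ) : BF p (0 : ℝ) = 0 := by simp [BF]

lemma BF_one (p : List ℤ) : BF p (1 : ℝ) = 0 := by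
  simp only [BF, num_real]; push_cast; ring

lemma wf_nonneg {a0 a1 a2 : ℤ} {ca cb : ℝ} (hA : 0 ≤ 2 * a0 + a1) (hA2 : 0 ≤ a2) (hca : 0 < ca)
    (hcb : cb ≤ 1) : ∀ c, ca ≤ c → c ≤ cb → 0 ≤ Wf (cst a0) (cst a1) (cst a2) c := by
  intro c h1 h2
  have r1 : (0 : ℝ) ≤ 2 * (a0 : ℝ) + (a1 : ℝ) := by exact_mod_cast hA
  have r2 : (0 : ℝ) ≤ (a2 : ℝ) := by exact_mod_cast hA2
  refine (Wf_pos ?_ ?_ (by linarith) (by linarith)).le
  · simp only [cst_real]; linarith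
  · simp only [cst_real]; linarith

/-- **Interval theorem.** -/
theorem boundOn_interval {a0 a1 a2 za zb ka md ld rr : ℤ} {p : List ℤ} {fs : List FD}
    (hza : 1 < (cst za : ℝ)) (hab : (cst za : ℝ) < cst zb) (hzb : (cst zb : ℝ) ^ 2 ≤ 2)
    (hA : 0 ≤ 2 * a0 + a1) (hA2 : 0 ≤ a2)
    (hne : fs ≠ []) (hok : ∀ f ∈ fs, f.ok = true)
    (hfam : ∀ f ∈ fs, FamI (cst a0) (cst a1) (cst a2) ((cst za : ℝ) ^ 2 - 1)
      ((cst zb : ℝ) ^ 2 - 1) f.fam)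
    (hdict : CertI (cst a0) (cst a1) (cst a2) ((cst za : ℝ) ^ 2 - 1) ((cst zb : ℝ) ^ 2 - 1)
      1 0 1 (cst md) (cst ld))
    (hstep : ∀ n0 n1 : ℝ, 0 ≤ n1 → n1 ≤ n0 → n0 ≤ 1 →
      StepOK p ka md ld fs n0 n1 ((n0 + n1) / 2) (n0 - n1))
    (hu : ConcaveOn ℝ (Icc 0 1) (FA (cst a0) (cst a1) (cst a2)))
    (hT : ∀ c, (cst za : ℝ) ^ 2 - 1 ≤ c → c ≤ (cst zb : ℝ) ^ 2 - 1 →
      TanAt (cst a0) (cst a1) (cst a2) c)
    (hr0 : 0 ≤ rr)
    (hr : (cst rr : ℝ) * Wz (cst a0) (cst a1) (cst a2) (cst zb) ≤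
      Wdz (cst a0) (cst a1) (cst a2) (cst zb))
    (hka : (cst ka : ℝ) ≤ 7 / 10 * (1 - ((cst zb : ℝ) ^ 2 - 1) ^ 2))
    (hfin : ∀ μ : ℝ, 0 ≤ μ → μ ≤ 1 → 1 - cst rr * (1 - ph (2 * μ - 1)) ≤ BF p μ + BF p (1 - μ)) :
    BoundOn ((cst za : ℝ) ^ 2 - 1) ((cst zb : ℝ) ^ 2 - 1) := by
  have hca : 0 < (cst za : ℝ) ^ 2 - 1 := by nlinarith
  have hcab : (cst za : ℝ) ^ 2 - 1 < (cst zb : ℝ) ^ 2 - 1 := by nlinarith
  have hcb : (cst zb : ℝ) ^ 2 - 1 ≤ 1 := by linarith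
  have hzb0 : (0 : ℝ) ≤ cst zb := by linarith
  have hW := wf_nonneg (a0 := a0) (a1 := a1) (a2 := a2) hA hA2 hca hcb
  have r1 : (0 : ℝ) ≤ 2 * (a0 : ℝ) + (a1 : ℝ) := by exact_mod_cast hA
  have r2 : (0 : ℝ) ≤ (a2 : ℝ) := by exact_mod_cast hA2
  have q1 : (0 : ℝ) ≤ 2 * (cst a0 : ℝ) + cst a1 := by simp only [cst_real]; linarith
  have q2 : (0 : ℝ) ≤ (cst a2 : ℝ) := by simp only [cst_real]; linarith
  have q3 : (0 : ℝ) ≤ (cst rr : ℝ) := by
    have : (0 : ℝ) ≤ (rr : ℝ) := by exact_mod_cast hr0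
    simp only [cst_real]; linarith
  refine BoundOn.of_msHyp hca.le hcb ?_
  refine mshyp_one_sided hu hca hcb hW hT ?_ q3 ?_ (fun x => dpF (cst ka) x)
    (hd_of_ka hca hcb hka) (fun x => BF p x) (BF_zero p).le (BF_one p).le
    (fun n0 n1 h1 h2 h3 => hI_of_step hne hok hfam hdict (hstep n0 n1 h1 h2 h3)) hfin
  · rw [Wd_eq_Wdz hzb0 rfl]
    unfold Wdz
    have h1 : 0 < 1 / (cst zb : ℝ) := one_div_pos.mpr (by linarith)
    have h2 : 0 ≤ (2 * (cst a0 : ℝ) + cst a1) / 2 * ((cst zb : ℝ) ^ 2 - 1) := by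
      apply mul_nonneg <;> linarith
    have h3 : 0 ≤ (cst a2 : ℝ) * (((cst zb : ℝ) ^ 2 - 1) / 2) * (1 - ((cst zb : ℝ) ^ 2 - 1) ^ 2) := by
      apply mul_nonneg
      · apply mul_nonneg q2; linarith
      · nlinarith
    linarith
  · rw [Wd_eq_Wdz hzb0 rfl, Wf_eq_Wz hzb0 rfl]
    exact hr

end Crest.Agent.R307.MI
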