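import Crest.Agent.R307.Flow

/-!
Row 307, S0471: `1 - √(1-m²) ≥ m²/2 + m⁴/8 + m⁶/16` (for FIN in regime M).
-/

set_option autoImplicit false

namespace Crest.Agent.R307.MIFin

open Crest.Agent.R307 Crest.Agent.R307.Flow

/-- polynomial lower bound of `1 - √(1-m²)` -/
theorem ph_poly {m : ℝ} (hm : m ^ 2 ≤ 1) :
    m ^ 2 / 2 + m ^ 4 / 8 + m ^ 6 / 16 ≤ 1 - ph m := by
  have hx0 : 0 ≤ m ^ 2 := sq_nonneg m
  set x := m ^ 2 with hx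
  have h4 : m ^ 4 = x ^ 2 := by rw [hx]; ring
  have h6 : m ^ 6 = x ^ 3 := by rw [hx]; ring
  rw [h4, h6]
  have h : ph m ≤ 1 - (x / 2 + x ^ 2 / 8 + x ^ 3 / 16) := by
    unfold ph
    have h0 : 0 ≤ 1 - (x / 2 + x ^ 2 / 8 + x ^ 3 / 16) := by nlinarith [mul_nonneg hx0 hx0]
    rw [Real.sqrt_le_left h0, ← hx]
    have key : (1 - (x / 2 + x ^ 2 / 8 + x ^ 3 / 16)) ^ 2 - (1 - x)
        = x ^ 4 * (5 / 64 + x / 64 + x ^ 2 / 256) := by ring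
    have : 0 ≤ x ^ 4 * (5 / 64 + x / 64 + x ^ 2 / 256) := by positivity
    linarith
  linarith

theorem ph_fin {mu : ℝ} (h0 : 0 ≤ mu) (h1 : mu ≤ 1) :
    (fun m : ℝ => m ^ 2 / 2 + m ^ 4 / 8 + m ^ 6 / 16) (2 * mu - 1) ≤ 1 - ph (2 * mu - 1) :=
  ph_poly (by nlinarith)

end Crest.Agent.R307.MIFin
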