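import Crest.Agent.R307.PIDict

/-!
Row 307 (S0471), regime M, pointwise certificates on one c-interval (generated, helper14).
-/

set_option autoImplicit false

namespace Crest.Agent.R307.MO01

open Crest.Agent.KB Crest.Agent.R307.PIConic Crest.Agent.R307.GenInt

def f1a : Dat :=
  { N := 20000000000, a0 := 5634000000, a1 := -3922000000, a2 := 8432000000, k1 := 4988000000, k2 := -6529600000, e1 := 6240625923, e2 := 1619803638, m2 := 0, l2 := 19613847960, cn := 159591461121, cd := 1000000000000, NR := 100000000, R := [18293597, -64300397, 114331134, 81581758, -854354348, 1855359201, -2011281413, 1117951817, -253596216], tn := 1, td := 1 }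

set_option maxRecDepth 100000 in
theorem f1a_D : run 2 406 4 [1, 43] [32, 32] [[f1a.Q1.e, f1a.Q2.e]]
    (.node 1 (.node 1 (.leaf 0) (.leaf 0)) (.node 1 (.node 1 (.leaf 0) (.leaf 0)) (.leaf 0))) [(0, 2 ^ 4), (0, 2 ^ 4)] = true := by
  decide +kernel

set_option maxRecDepth 100000 in
theorem f1a_P : run 2 791 11 [15, 21] [4096, 4096] [f1a.c1, f1a.c2, f1a.c3]
    (.node 0 (.leaf 1) (.node 1 (.node 0 (.node 1 (.node 0 (.leaf 1) (.leaf 1)) (.leaf 1)) (.node 1 (.node 0 (.leaf 1) (.node 1 (.node 0 (.leaf 1) (.node 1 (.node 0 (.leaf 1) (.leaf 0)) (.node 0 (.leaf 1) (.node 1 (.node 0 (.leaf 1) (.leaf 0)) (.node 0 (.leaf 1) (.node 1 (.leaf 0) (.node 0 (.leaf 1) (.leaf 0)))))))) (.leaf 1))) (.leaf 1))) (.node 0 (.leaf 1) (.node 1 (.leaf 1) (.node 0 (.leaf 1) (.node 1 (.leaf 1) (.node 0 (.leaf 1) (.node 1 (.leaf 1) (.node 0 (.leaf 1) (.node 1 (.node 0 (.leaf 1) (.node 1 (.leaf 1) (.leaf 0))) (.leaf 0))))))))))) [(0,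 2 ^ 11), (0, 2 ^ 11)] = true := by
  decide +kernel

theorem f1a_ok : f1a.OK :=
  ⟨_, _, _, _, _, _, _, _, _, _, by decide, f1a_D, f1a_P⟩

def f1b : Dat :=
  { N := 100000000000, a0 := 28170000000, a1 := -19610000000, a2 := 42160000000, k1 := 24940000000, k2 := -32648000000, e1 := 32312185689, e2 := 8386882434, m2 := 0, l2 := 94687269400, cn := 171165065841, cd := 1000000000000, NR := 100000000, R := [18893778, -62901611, 101681732, 117239502, -902611278, 1880494942, -2000616205, 1099702090, -247608148], tn := 1, td := 1 }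

set_option maxRecDepth 100000 in
theorem f1b_D : run 2 406 4 [1, 43] [32, 32] [[f1b.Q1.e, f1b.Q2.e]]
    (.node 1 (.node 1 (.leaf 0) (.leaf 0)) (.node 1 (.node 1 (.leaf 0) (.leaf 0)) (.leaf 0))) [(0, 2 ^ 4), (0, 2 ^ 4)] = true := by
  decide +kernel

set_option maxRecDepth 100000 in
theorem f1b_P : run 2 800 11 [15, 21] [4096, 4096] [f1b.c1, f1b.c2, f1b.c3]
    (.node 0 (.leaf 1) (.node 1 (.node 0 (.node 1 (.node 0 (.leaf 1) (.leaf 1)) (.leaf 1)) (.node 1 (.node 0 (.leaf 1) (.node 1 (.node 0 (.leaf 1) (.node 1 (.node 0 (.leaf 1) (.node 1 (.leaf 0) (.node 0 (.leaf 1) (.leaf 0)))) (.node 0 (.leaf 1) (.node 1 (.node 0 (.leaf 1) (.node 1 (.leaf 0) (.leaf 1))) (.leaf 1))))) (.leaf 1))) (.leaf 1))) (.node 0 (.leaf 1) (.node 1 (.leaf 1) (.node 0 (.leaf 1) (.node 1 (.leaf 1) (.node 0 (.leaf 1) (.node 1 (.leaf 1) (.node 0 (.leaf 1) (.node 1 (.node 0 (.leaf 1) (.leaf 0)) (.leaf 0))))))))))) [(0, 2 ^ 11), (0, 2 ^ 11)]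 = true := by
  decide +kernel

theorem f1b_ok : f1b.OK :=
  ⟨_, _, _, _, _, _, _, _, _, _, by decide, f1b_D, f1b_P⟩

def f2a : Dat :=
  { N := 20000000000, a0 := 5634000000, a1 := -3922000000, a2 := 8432000000, k1 := 5431200000, k2 := -7001000000, e1 := 7852822617, e2 := -59746206, m2 := 0, l2 := 666718920, cn := 159591461121, cd := 1000000000000, NR := 100000000, R := [18293597, -64300397, 114331134, 81581758, -854354348, 1855359201, -2011281413, 1117951817, -253596216], tn := 1, td := 1 }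

set_option maxRecDepth 100000 in
theorem f2a_D : run 2 406 4 [1, 43] [32, 32] [[f2a.Q1.e, f2a.Q2.e]]
    (.node 1 (.node 1 (.leaf 0) (.leaf 0)) (.node 1 (.node 1 (.leaf 0) (.leaf 0)) (.leaf 0))) [(0, 2 ^ 4), (0, 2 ^ 4)] = true := by
  decide +kernel

set_option maxRecDepth 100000 in
theorem f2a_P : run 2 791 11 [15, 21] [4096, 4096] [f2a.c1, f2a.c2, f2a.c3]
    (.node 0 (.node 1 (.node 0 (.leaf 1) (.leaf 1)) (.leaf 1)) (.node 1 (.node 0 (.leaf 1) (.node 1 (.node 0 (.leaf 1) (.node 1 (.node 0 (.leaf 1) (.node 1 (.node 0 (.leaf 1) (.node 1 (.node 0 (.leaf 1) (.node 1 (.node 0 (.leaf 1) (.node 1 (.leaf 0) (.leaf 1))) (.leaf 1))) (.leaf 1))) (.leaf 1))) (.leaf 1))) (.leaf 1))) (.node 0 (.leaf 1) (.node 1 (.leaf 1) (.leaf 1))))) [(0, 2 ^ 11), (0, 2 ^ 11)] = true := by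
  decide +kernel

theorem f2a_ok : f2a.OK :=
  ⟨_, _, _, _, _, _, _, _, _, _, by decide, f2a_D, f2a_P⟩

def f2b : Dat :=
  { N := 100000000000, a0 := 28170000000, a1 := -19610000000, a2 := 42160000000, k1 := 27156000000, k2 := -35005000000, e1 := 40659681531, e2 := -309348858, m2 := 0, l2 := 3218633800, cn := 171165065841, cd := 1000000000000, NR := 100000000, R := [18893778, -62901611, 101681732, 117239502, -902611278, 1880494942, -2000616205, 1099702090, -247608148], tn := 1, td := 1 }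

set_option maxRecDepth 100000 in
theorem f2b_D : run 2 406 4 [1, 43] [32, 32] [[f2b.Q1.e, f2b.Q2.e]]
    (.node 1 (.node 1 (.leaf 0) (.leaf 0)) (.node 1 (.node 1 (.leaf 0) (.leaf 0)) (.leaf 0))) [(0, 2 ^ 4), (0, 2 ^ 4)] = true := by
  decide +kernel

set_option maxRecDepth 100000 in
theorem f2b_P : run 2 800 11 [15, 21] [4096, 4096] [f2b.c1, f2b.c2, f2b.c3]
    (.node 0 (.leaf 1) (.node 1 (.node 0 (.node 1 (.node 0 (.leaf 1) (.leaf 1)) (.leaf 1)) (.node 1 (.node 0 (.leaf 1) (.node 1 (.node 0 (.leaf 1) (.node 1 (.node 0 (.leaf 1) (.node 1 (.node 0 (.leaf 1) (.node 1 (.node 0 (.leaf 1) (.node 1 (.node 0 (.leaf 1) (.node 1 (.node 0 (.leaf 1) (.node 1 (.node 0 (.leaf 1) (.leaf 0)) (.leaf 1))) (.leaf 1))) (.leaf 1))) (.leaf 1))) (.leaf 1))) (.leaf 1))) (.leaf 1))) (.leaf 1))) (.node 0 (.leaf 1) (.node 1 (.leaf 1) (.leaf 1))))) [(0, 2 ^ 11), (0, 2 ^ 11)] = true := by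
  decide +kernel

theorem f2b_ok : f2b.OK :=
  ⟨_, _, _, _, _, _, _, _, _, _, by decide, f2b_D, f2b_P⟩

lemma hW : ∀ c : ℝ, (1183 / 1000) ^ 2 - 1 ≤ c → c ≤ (1189 / 1000) ^ 2 - 1 → 0 ≤ Wf (2817 / 10000) (-1961 / 10000) (527 / 1250) c := by
  intro c h1 h2
  exact (Wf_pos (by norm_num) (by norm_num) (by norm_num at h1; linarith) (by norm_num at h2; linarith)).le

theorem fam1 : FamI (2817 / 10000) (-1961 / 10000) (527 / 1250) ((1183 / 1000) ^ 2 - 1) ((1189 / 1000) ^ 2 - 1)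
    ⟨(1247 / 5000), (-4081 / 12500), (78757 / 100000), (10221 / 50000), 0, (0), 0, (39509 / 100000)⟩ := by
  refine Dat.famI_of_ends f1a_ok f1b_ok (z0 := (593 / 500)) (Ua := (79239 / 200000)) (Ub := (410277 / 1000000)) (Va := (12411 / 5000)) (Vb := (11983 / 5000))
    (by norm_num) (by norm_num) (by norm_num) (by norm_num) (by norm_num) (by norm_num) (by norm_num)
    (by norm_num) (by norm_num) (by norm_num) (by norm_num) hW ?_ ?_ ?_ ?_
    ?_ ?_ ?_ ?_ ?_ ?_ ?_ ?_ ?_ ?_ ?_ ?_ ?_ ?_ ?_ ?_ ?_ ?_ ?_ ?_ ?_ ?_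
  all_goals norm_num [Wtan, Wz, Dat.A0, Dat.A1, Dat.A2, Dat.K1, Dat.K2, Dat.E1, Dat.E2, Dat.M2, Dat.L2,
    Dat.C2, Dat.T1, f1a, f1b]

theorem fam2 : FamI (2817 / 10000) (-1961 / 10000) (527 / 1250) ((1183 / 1000) ^ 2 - 1) ((1189 / 1000) ^ 2 - 1)
    ⟨(6789 / 25000), (-7001 / 20000), (99103 / 100000), (-377 / 50000), 0, (0), 0, (1343 / 100000)⟩ := by
  refine Dat.famI_of_ends f2a_ok f2b_ok (z0 := (593 / 500)) (Ua := (79239 / 200000)) (Ub := (410277 / 1000000)) (Va := (12411 / 5000)) (Vb := (11983 / 5000))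
    (by norm_num) (by norm_num) (by norm_num) (by norm_num) (by norm_num) (by norm_num) (by norm_num)
    (by norm_num) (by norm_num) (by norm_num) (by norm_num) hW ?_ ?_ ?_ ?_
    ?_ ?_ ?_ ?_ ?_ ?_ ?_ ?_ ?_ ?_ ?_ ?_ ?_ ?_ ?_ ?_ ?_ ?_ ?_ ?_ ?_ ?_
  all_goals norm_num [Wtan, Wz, Dat.A0, Dat.A1, Dat.A2, Dat.K1, Dat.K2, Dat.E1, Dat.E2, Dat.M2, Dat.L2,
    Dat.C2, Dat.T1, f2a, f2b]

def dz : DatZ :=
  { N := 1000000, a0 := 281700, a1 := -196100, a2 := 421600, l0 := 37600, l1 := 440000, v0 := 19349050, v1 := -14257551, NR := 100000000, R := [(-100000000, 100000000), (-300000000, 200000000), (1513034812, -1201569713), (4137621168, -3274030062), (-46809828984, 38400213236), (150106964562, -125606442352), (-244984421054, 210167586099), (210172085182, -188807002561), (-75240416568, 77879296610), (-7746532380, -2103497172), (9198513471, -5706557227)] }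

set_option maxRecDepth 100000 in
theorem dz_D : run 3 838 11 [1, 51, 9] [4096, 4096, 4872] [[dz.Rs.e, dz.Q2.e, dz.QV.e]]
    (.node 1 (.leaf 0) (.node 1 (.leaf 0) (.node 1 (.leaf 0) (.node 1 (.leaf 0) (.node 1 (.node 1 (.leaf 0) (.node 1 (.node 1 (.leaf 0) (.node 2 (.leaf 0) (.leaf 0))) (.node 1 (.node 2 (.leaf 0) (.leaf 0)) (.node 2 (.leaf 0) (.leaf 0))))) (.node 1 (.node 1 (.node 1 (.node 2 (.leaf 0) (.leaf 0)) (.node 2 (.leaf 0) (.leaf 0))) (.node 1 (.node 2 (.leaf 0) (.leaf 0)) (.leaf 0))) (.leaf 0))))))) [(0, 2 ^ 11), (0, 2 ^ 11), (2422, 2436)] = true := by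
  decide +kernel

set_option maxRecDepth 100000 in
theorem dz_P : run 3 429 11 [8, 14, 9] [4096, 4096, 4872] [[dz.G.e]]
    (.node 0 (.leaf 0) (.node 1 (.node 0 (.leaf 0) (.node 1 (.leaf 0) (.leaf 0))) (.leaf 0))) [(0, 2 ^ 11), (0, 2 ^ 11), (2422, 2436)] = true := by
  decide +kernel

theorem dict : CertI (2817 / 10000) (-1961 / 10000) (527 / 1250) ((1183 / 1000) ^ 2 - 1) ((1189 / 1000) ^ 2 - 1) 1 0 1 (47 / 1250) (11 / 25) := by
  refine DatZ.certI dz (by decide) dz_D dz_P ?_ ?_ ?_ ?_ ?_ (by norm_num) (by norm_num) (by norm_num)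
    (by norm_num) (by norm_num) (by norm_num) (by norm_num) (by norm_num) (by norm_num) hW
  all_goals norm_num [DatZ.A0, DatZ.A1, DatZ.A2, DatZ.L0, DatZ.L1, dz]

end Crest.Agent.R307.MO01
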