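import Crest.Agent.R307.MO01
import Crest.Agent.R307.MSub

/-!
Row 307 (S0471), regime M, one-sided: the step and the bound on one c-interval (generated,
helper371).
-/

set_option autoImplicit false
set_option Elab.async false

namespace Crest.Agent.R307.MO01

open Crest.Agent.KB Crest.Agent.R307.MStep Crest.Agent.R307.GenInt Crest.Agent.R307.GenM
  Crest.Agent.R307.Conic Crest.Agent.R307.Final71

/-- the polynomial `p` of the potential, over `100000` -/
def pp : List ℤ := [-71764, 49810, -24760, 52007, -46866, -17908, 72741, 59102, -103621]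

/-- the families -/
def fs : List FD := [⟨24940, (-32648), 78757, 20442, 0, 39509⟩, ⟨27156, (-35005), 99103, (-754), 0, 1343⟩]

set_option maxRecDepth 100000 in
theorem step1 : run 2 500 8 [23, 23] [256, 512] (stepCls1 pp 82883 3760 44000 fs)
    (.node 0 (.node 1 (.node 0 (.leaf 5) (.leaf 5)) (.leaf 5)) (.node 1 (.leaf 5) (.node 0 (.leaf 5) (.node 1 (.leaf 5) (.node 0 (.leaf 5) (.leaf 1)))))) [(0, 2 ^ 7), (0, 2 ^ 8)] = true := by
  decide +kernel

set_option maxRecDepth 100000 in
theorem step2 : run 2 516 8 [23, 23] [256, 512] (stepCls2 pp 82883 3760 44000 fs)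
    (.node 0 (.leaf 5) (.node 1 (.leaf 5) (.node 0 (.leaf 3) (.node 1 (.leaf 5) (.node 0 (.leaf 3) (.node 1 (.node 0 (.leaf 3) (.node 1 (.leaf 3) (.leaf 1))) (.node 0 (.leaf 2) (.leaf 1)))))))) [(0, 2 ^ 7), (0, 2 ^ 8)] = true := by
  decide +kernel

/-- interval data -/
def D0 : IData where
  za := 1183 / 1000
  zb := 593 / 500
  A0 := 2817 / 10000
  A1 := -1961 / 10000
  A2 := 527 / 1250
  s := 82883 / 100000
  bl := [0, 517281 / 200000, -694173 / 80000, 5232219 / 200000, -24116281 / 400000, 7828313 / 80000, -22110399 / 200000, 6888333 / 80000, -18092787 / 400000, 6113813 / 400000, -1198933 / 400000, 103621 / 400000]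
  br := [0, 168741 / 200000, 92779 / 400000, -1063027 / 200000, 1596357 / 80000, -17140297 / 400000, 184146 / 3125, -4297869 / 80000, 12927627 / 400000, -4931773 / 400000, 1080729 / 400000, -103621 / 400000]
  fin := [(1, 1)]
  tan := [65 / 64, 33 / 32, 67 / 64, 135 / 128, 17 / 16, 273 / 256, 137 / 128, 275 / 256, 69 / 64, 277 / 256, 139 / 128, 279 / 256, 35 / 32, 561 / 512, 281 / 256, 563 / 512, 141 / 128, 565 / 512, 283 / 256, 567 / 512, 71 / 64, 285 / 256, 143 / 128, 287 / 256, 9 / 8, 289 / 256, 145 / 128, 291 / 256, 293 / 256, 295 / 256, 297 / 256, 301 / 256, 305 / 256, 313 / 256, 321 / 256, 337 / 256, 353 / 256, 14143 / 10000]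

theorem D0_ok : D0.ok = true := by decide +kernel

lemma D0_B (n : ℝ) : D0.B n = BF pp n := by
  rcases le_total n (1 / 2) with h | h
  · rw [IData.B, Bpw_left h]
    simp only [D0, pp, BF, hornF, num_real, cst_real, qev]
    push_cast
    ring
  · rw [IData.B, Bpw_right (by rw [qev_one, qev_one]; norm_num [D0, qsum]) h]
    simp only [D0, pp, BF, hornF, num_real, cst_real, qev]
    push_cast
    ring

/-- interval data -/
def D1 : IData where
  za := 593 / 500
  zb := 1189 / 1000
  A0 := 2817 / 10000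
  A1 := -1961 / 10000
  A2 := 527 / 1250
  s := 82883 / 100000
  bl := [0, 517281 / 200000, -694173 / 80000, 5232219 / 200000, -24116281 / 400000, 7828313 / 80000, -22110399 / 200000, 6888333 / 80000, -18092787 / 400000, 6113813 / 400000, -1198933 / 400000, 103621 / 400000]
  br := [0, 168741 / 200000, 92779 / 400000, -1063027 / 200000, 1596357 / 80000, -17140297 / 400000, 184146 / 3125, -4297869 / 80000, 12927627 / 400000, -4931773 / 400000, 1080729 / 400000, -103621 / 400000]
  fin := [(1, 1)]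
  tan := [65 / 64, 33 / 32, 67 / 64, 135 / 128, 17 / 16, 137 / 128, 275 / 256, 69 / 64, 277 / 256, 139 / 128, 279 / 256, 35 / 32, 281 / 256, 141 / 128, 283 / 256, 71 / 64, 285 / 256, 143 / 128, 287 / 256, 9 / 8, 145 / 128, 73 / 64, 147 / 128, 37 / 32, 75 / 64, 19 / 16, 39 / 32, 5 / 4, 21 / 16, 11 / 8, 14143 / 10000]

theorem D1_ok : D1.ok = true := by decide +kernel

lemma D1_B (n : ℝ) : D1.B n = BF pp n := by
  rcases le_total n (1 / 2) with h | h
  · rw [IData.B, Bpw_left h]
    simp only [D1, pp, BF, hornF, num_real, cst_real, qev]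
    push_cast
    ring
  · rw [IData.B, Bpw_right (by rw [qev_one, qev_one]; norm_num [D1, qsum]) h]
    simp only [D1, pp, BF, hornF, num_real, cst_real, qev]
    push_cast
    ring

lemma hu : ConcaveOn ℝ (Set.Icc 0 1) (GenInd.FA (2817 / 10000) (-1961 / 10000) (527 / 1250)) :=
  concave_FA_num (by norm_num)

lemma hF : ∀ f ∈ fs, FamI (2817 / 10000) (-1961 / 10000) (527 / 1250) ((1183 / 1000) ^ 2 - 1) ((1189 / 1000) ^ 2 - 1) f.fam := by
  intro f hf
  simp only [fs, List.mem_cons, List.not_mem_nil, or_false] at hf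
  rcases hf with rfl | rfl
  · have h := fam1
    have e : FD.fam ⟨24940, (-32648), 78757, 20442, 0, 39509⟩ = ⟨(1247 / 5000), (-4081 / 12500), (78757 / 100000), (10221 / 50000), 0, (0), 0, (39509 / 100000)⟩ := by
      simp only [FD.fam, cst_real]
      norm_num
    rw [e]
    exact h
  · have h := fam2
    have e : FD.fam ⟨27156, (-35005), 99103, (-754), 0, 1343⟩ = ⟨(6789 / 25000), (-7001 / 20000), (99103 / 100000), (-377 / 50000), 0, (0), 0, (1343 / 100000)⟩ := by
      simp only [FD.fam, cst_real]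
      norm_num
    rw [e]
    exact h

lemma hd : CertI (2817 / 10000) (-1961 / 10000) (527 / 1250) ((1183 / 1000) ^ 2 - 1) ((1189 / 1000) ^ 2 - 1) 1 0 1 (cst 3760) (cst 44000) := by
  have h := dict
  have e1 : (cst 3760 : ℝ) = (47 / 1250) := by rw [cst_real]; norm_num
  have e2 : (cst 44000 : ℝ) = (11 / 25) := by rw [cst_real]; norm_num
  rw [e1, e2]
  exact h

lemma bound0 : BoundOn ((1183 / 1000) ^ 2 - 1) ((593 / 500) ^ 2 - 1) := by
  have hstep := hasStepG (sc := 7) step1 step2 hu (by decide) hF hd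
    (sr := ((D0.s : ℚ) : ℝ)) (by norm_num [D0, cst_real]) (B := D0.B) D0_B
  have h := D0.boundOn D0_ok (fun n0 n1 a1 a2 a3 => by
    have := (hstep n0 n1 a1 a2 a3).mono (ca' := (1183 / 1000) ^ 2 - 1) (cb' := (593 / 500) ^ 2 - 1) (by norm_num) (by norm_num)
    convert this using 2 <;> norm_num [D0])
  convert h using 2 <;> norm_num [D0]

lemma bound1 : BoundOn ((593 / 500) ^ 2 - 1) ((1189 / 1000) ^ 2 - 1) := by
  have hstep := hasStepG (sc := 7) step1 step2 hu (by decide) hF hd
    (sr := ((D1.s : ℚ) : ℝ)) (by norm_num [D1, cst_real]) (B := D1.B) D1_B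
  have h := D1.boundOn D1_ok (fun n0 n1 a1 a2 a3 => by
    have := (hstep n0 n1 a1 a2 a3).mono (ca' := (593 / 500) ^ 2 - 1) (cb' := (1189 / 1000) ^ 2 - 1) (by norm_num) (by norm_num)
    convert this using 2 <;> norm_num [D1])
  convert h using 2 <;> norm_num [D1]

/-- **The bound on the interval.** -/
theorem bound : BoundOn ((1183 / 1000) ^ 2 - 1) ((1189 / 1000) ^ 2 - 1) :=
  (bound0).append bound1

end Crest.Agent.R307.MO01
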