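import Crest.Agent.R307.PIDict

/-!
Row 307 (S0471), regime M, pointwise certificates on one c-interval (generated, helper14).
-/

set_option autoImplicit false

namespace Crest.Agent.R307.MO02

open Crest.Agent.KB Crest.Agent.R307.PIConic Crest.Agent.R307.GenInt

def f1a : Dat :=
  { N := 10000000000, a0 := 2860000000, a1 := -2421000000, a2 := 4610000000, k1 := 2838000000, k2 := -3858300000, e1 := 4079816910, e2 := -79791291, m2 := 0, l2 := 44091920, cn := 171165065841, cd := 1000000000000, NR := 100000000, R := [18893778, -62901611, 101681732, 117239502, -902611278, 1880494942, -2000616205, 1099702090, -247608148], tn := 1, td := 1 }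

set_option maxRecDepth 100000 in
theorem f1a_D : run 2 406 4 [1, 43] [32, 32] [[f1a.Q1.e, f1a.Q2.e]]
    (.node 1 (.node 1 (.leaf 0) (.leaf 0)) (.node 1 (.node 1 (.leaf 0) (.leaf 0)) (.leaf 0))) [(0, 2 ^ 4), (0, 2 ^ 4)] = true := by
  decide +kernel

set_option maxRecDepth 100000 in
theorem f1a_P : run 2 787 11 [15, 21] [4096, 4096] [f1a.c1, f1a.c2, f1a.c3]
    (.node 0 (.node 1 (.node 0 (.leaf 1) (.leaf 1)) (.leaf 1)) (.node 1 (.node 0 (.leaf 1) (.node 1 (.node 0 (.leaf 1) (.node 1 (.node 0 (.leaf 1) (.node 1 (.node 0 (.leaf 1) (.node 1 (.node 0 (.leaf 1) (.node 1 (.node 0 (.leaf 1) (.node 1 (.leaf 0) (.leaf 1))) (.leaf 1))) (.leaf 1))) (.leaf 1))) (.leaf 1))) (.leaf 1))) (.node 0 (.leaf 1) (.node 1 (.leaf 1) (.leaf 1))))) [(0, 2 ^ 11), (0, 2 ^ 11)] = true := by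
  decide +kernel

theorem f1a_ok : f1a.OK :=
  ⟨_, _, _, _, _, _, _, _, _, _, by decide, f1a_D, f1a_P⟩

def f1b : Dat :=
  { N := 1250000000, a0 := 357500000, a1 := -302625000, a2 := 576250000, k1 := 354750000, k2 := -482287500, e1 := 530486190, e2 := -10375019, m2 := 0, l2 := 5297130, cn := 723663801, cd := 3906250000, NR := 100000000, R := [19594147, -61302624, 88574482, 149295018, -932207424, 1867108943, -1948333443, 1058224060, -236325606], tn := 1, td := 1 }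

set_option maxRecDepth 100000 in
theorem f1b_D : run 2 397 4 [1, 43] [32, 32] [[f1b.Q1.e, f1b.Q2.e]]
    (.node 1 (.node 1 (.leaf 0) (.leaf 0)) (.node 1 (.node 1 (.leaf 0) (.leaf 0)) (.leaf 0))) [(0, 2 ^ 4), (0, 2 ^ 4)] = true := by
  decide +kernel

set_option maxRecDepth 100000 in
theorem f1b_P : run 2 743 11 [15, 21] [4096, 4096] [f1b.c1, f1b.c2, f1b.c3]
    (.node 0 (.leaf 1) (.node 1 (.node 0 (.node 1 (.node 0 (.leaf 1) (.leaf 1)) (.leaf 1)) (.node 1 (.node 0 (.leaf 1) (.node 1 (.node 0 (.leaf 1) (.node 1 (.node 0 (.leaf 1) (.node 1 (.node 0 (.leaf 1) (.node 1 (.node 0 (.leaf 1) (.node 1 (.node 0 (.leaf 1) (.node 1 (.node 0 (.leaf 1) (.node 1 (.node 0 (.leaf 1) (.leaf 0)) (.leaf 1))) (.leaf 1))) (.leaf 1))) (.leaf 1))) (.leaf 1))) (.leaf 1))) (.leaf 1))) (.leaf 1))) (.node 0 (.leaf 1) (.node 1 (.leaf 1) (.node 0 (.leaf 1) (.node 1 (.leaf 1) (.leaf 1))))))) [(0, 2 ^ 11), (0, 2 ^ 11)] = true := by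
  decide +kernel

theorem f1b_ok : f1b.OK :=
  ⟨_, _, _, _, _, _, _, _, _, _, by decide, f1b_D, f1b_P⟩

def f2a : Dat :=
  { N := 50000000000, a0 := 14300000000, a1 := -12105000000, a2 := 23050000000, k1 := 14300500000, k2 := -20175000000, e1 := 16105328523, e2 := 4072842864, m2 := 8113871800, l2 := 45043251100, cn := 171165065841, cd := 1000000000000, NR := 100000000, R := [18893778, -62901611, 101681732, 117239502, -902611278, 1880494942, -2000616205, 1099702090, -247608148], tn := 1, td := 1 }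

set_option maxRecDepth 100000 in
theorem f2a_D : run 2 406 4 [1, 43] [32, 32] [[f2a.Q1.e, f2a.Q2.e]]
    (.node 1 (.node 1 (.leaf 0) (.leaf 0)) (.node 1 (.node 1 (.leaf 0) (.leaf 0)) (.leaf 0))) [(0, 2 ^ 4), (0, 2 ^ 4)] = true := by
  decide +kernel

set_option maxRecDepth 100000 in
theorem f2a_P : run 2 796 11 [15, 21] [4096, 4096] [f2a.c1, f2a.c2, f2a.c3]
    (.node 0 (.node 1 (.node 0 (.leaf 1) (.leaf 1)) (.leaf 1)) (.node 1 (.node 0 (.leaf 1) (.node 1 (.node 0 (.leaf 1) (.node 1 (.node 0 (.leaf 1) (.node 1 (.node 0 (.leaf 1) (.leaf 0)) (.node 0 (.leaf 1) (.leaf 0)))) (.node 0 (.leaf 1) (.node 1 (.node 0 (.leaf 1) (.node 1 (.leaf 0) (.node 0 (.leaf 1) (.leaf 0)))) (.leaf 1))))) (.leaf 1))) (.node 0 (.leaf 1) (.node 1 (.leaf 1) (.node 0 (.leaf 1) (.node 1 (.leaf 1) (.node 0 (.leaf 1) (.node 1 (.leaf 1) (.node 0 (.leaf 1) (.node 1 (.node 0 (.leaf 1) (.leaf 0)) (.leaf 0))))))))))) [(0, 2 ^ 11), (0, 2 ^ 11)]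 = true := by
  decide +kernel

theorem f2a_ok : f2a.OK :=
  ⟨_, _, _, _, _, _, _, _, _, _, by decide, f2a_D, f2a_P⟩

def f2b : Dat :=
  { N := 12500000000, a0 := 3575000000, a1 := -3026250000, a2 := 5762500000, k1 := 3575125000, k2 := -5043750000, e1 := 4188253814, e2 := 1059158752, m2 := 1949574150, l2 := 10822842675, cn := 723663801, cd := 3906250000, NR := 100000000, R := [19594147, -61302624, 88574482, 149295018, -932207424, 1867108943, -1948333443, 1058224060, -236325606], tn := 1, td := 1 }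

set_option maxRecDepth 100000 in
theorem f2b_D : run 2 397 4 [1, 43] [32, 32] [[f2b.Q1.e, f2b.Q2.e]]
    (.node 1 (.node 1 (.leaf 0) (.leaf 0)) (.node 1 (.node 1 (.leaf 0) (.leaf 0)) (.leaf 0))) [(0, 2 ^ 4), (0, 2 ^ 4)] = true := by
  decide +kernel

set_option maxRecDepth 100000 in
theorem f2b_P : run 2 756 11 [15, 21] [4096, 4096] [f2b.c1, f2b.c2, f2b.c3]
    (.node 0 (.leaf 1) (.node 1 (.node 0 (.leaf 1) (.node 1 (.node 0 (.leaf 1) (.node 1 (.node 0 (.leaf 1) (.node 1 (.node 0 (.leaf 1) (.leaf 0)) (.node 0 (.leaf 1) (.leaf 0)))) (.node 0 (.leaf 1) (.node 1 (.node 0 (.leaf 1) (.node 1 (.node 0 (.leaf 1) (.leaf 0)) (.leaf 1))) (.leaf 1))))) (.leaf 1))) (.node 0 (.leaf 1) (.node 1 (.leaf 1) (.node 0 (.leaf 1) (.node 1 (.leaf 1) (.node 0 (.leaf 1) (.node 1 (.leaf 1) (.node 0 (.leaf 1) (.node 1 (.node 0 (.leaf 1) (.leaf 0)) (.leaf 0))))))))))) [(0, 2 ^ 11), (0, 2 ^ 11)] = true := by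
  decide +kernel

theorem f2b_ok : f2b.OK :=
  ⟨_, _, _, _, _, _, _, _, _, _, by decide, f2b_D, f2b_P⟩

lemma hW : ∀ c : ℝ, (1189 / 1000) ^ 2 - 1 ≤ c → c ≤ (299 / 250) ^ 2 - 1 → 0 ≤ Wf (143 / 500) (-2421 / 10000) (461 / 1000) c := by
  intro c h1 h2
  exact (Wf_pos (by norm_num) (by norm_num) (by norm_num at h1; linarith) (by norm_num at h2; linarith)).le

theorem fam1 : FamI (143 / 500) (-2421 / 10000) (461 / 1000) ((1189 / 1000) ^ 2 - 1) ((299 / 250) ^ 2 - 1)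
    ⟨(1419 / 5000), (-38583 / 100000), (1989 / 2000), (-389 / 20000), 0, (0), 0, (23 / 12500)⟩ := by
  refine Dat.famI_of_ends f1a_ok f1b_ok (z0 := (477 / 400)) (Ua := (205119 / 500000)) (Ub := (26671 / 62500)) (Va := (23963 / 10000)) (Vb := (23031 / 10000))
    (by norm_num) (by norm_num) (by norm_num) (by norm_num) (by norm_num) (by norm_num) (by norm_num)
    (by norm_num) (by norm_num) (by norm_num) (by norm_num) hW ?_ ?_ ?_ ?_
    ?_ ?_ ?_ ?_ ?_ ?_ ?_ ?_ ?_ ?_ ?_ ?_ ?_ ?_ ?_ ?_ ?_ ?_ ?_ ?_ ?_ ?_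
  all_goals norm_num [Wtan, Wz, Dat.A0, Dat.A1, Dat.A2, Dat.K1, Dat.K2, Dat.E1, Dat.E2, Dat.M2, Dat.L2,
    Dat.C2, Dat.T1, f1a, f1b]

theorem fam2 : FamI (143 / 500) (-2421 / 10000) (461 / 1000) ((1189 / 1000) ^ 2 - 1) ((299 / 250) ^ 2 - 1)
    ⟨(28601 / 100000), (-807 / 2000), (78517 / 100000), (1241 / 6250), 0, (1693 / 25000), 0, (18797 / 50000)⟩ := by
  refine Dat.famI_of_ends f2a_ok f2b_ok (z0 := (477 / 400)) (Ua := (205119 / 500000)) (Ub := (26671 / 62500)) (Va := (23963 / 10000)) (Vb := (23031 / 10000))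
    (by norm_num) (by norm_num) (by norm_num) (by norm_num) (by norm_num) (by norm_num) (by norm_num)
    (by norm_num) (by norm_num) (by norm_num) (by norm_num) hW ?_ ?_ ?_ ?_
    ?_ ?_ ?_ ?_ ?_ ?_ ?_ ?_ ?_ ?_ ?_ ?_ ?_ ?_ ?_ ?_ ?_ ?_ ?_ ?_ ?_ ?_
  all_goals norm_num [Wtan, Wz, Dat.A0, Dat.A1, Dat.A2, Dat.K1, Dat.K2, Dat.E1, Dat.E2, Dat.M2, Dat.L2,
    Dat.C2, Dat.T1, f2a, f2b]

def dz : DatZ :=
  { N := 1000000, a0 := 286000, a1 := -242100, a2 := 461000, l0 := 37980, l1 := 447000, v0 := 18212914, v1 := -13302471, NR := 100000000, R := [(-100000000, 100000000), (-300000000, 200000000), (1398374424, -1105133401), (3747574495, -2946042255), (-38552670359, 31456849710), (109530491804, -91486197074), (-141166226079, 122868429167), (53842373294, -57352043405), (64238086313, -39405506226), (-76037173544, 55320683816), (23343737834, -17600962622)] }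

set_option maxRecDepth 100000 in
theorem dz_D : run 3 839 11 [1, 51, 9] [4096, 4096, 4900] [[dz.Rs.e, dz.Q2.e, dz.QV.e]]
    (.node 1 (.leaf 0) (.node 1 (.leaf 0) (.node 1 (.leaf 0) (.node 1 (.leaf 0) (.node 1 (.node 1 (.leaf 0) (.node 1 (.node 1 (.node 2 (.leaf 0) (.leaf 0)) (.node 2 (.leaf 0) (.leaf 0))) (.node 1 (.node 2 (.leaf 0) (.leaf 0)) (.node 2 (.leaf 0) (.leaf 0))))) (.node 1 (.node 1 (.node 1 (.node 2 (.leaf 0) (.leaf 0)) (.node 2 (.leaf 0) (.leaf 0))) (.node 1 (.node 2 (.leaf 0) (.leaf 0)) (.leaf 0))) (.leaf 0))))))) [(0, 2 ^ 11), (0, 2 ^ 11), (2435, 2450)] = true := by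
  decide +kernel

set_option maxRecDepth 100000 in
theorem dz_P : run 3 429 11 [8, 14, 9] [4096, 4096, 4900] [[dz.G.e]]
    (.node 0 (.leaf 0) (.node 1 (.node 0 (.leaf 0) (.node 1 (.leaf 0) (.leaf 0))) (.leaf 0))) [(0, 2 ^ 11), (0, 2 ^ 11), (2435, 2450)] = true := by
  decide +kernel

theorem dict : CertI (143 / 500) (-2421 / 10000) (461 / 1000) ((1189 / 1000) ^ 2 - 1) ((299 / 250) ^ 2 - 1) 1 0 1 (1899 / 50000) (447 / 1000) := by
  refine DatZ.certI dz (by decide) dz_D dz_P ?_ ?_ ?_ ?_ ?_ (by norm_num) (by norm_num) (by norm_num)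
    (by norm_num) (by norm_num) (by norm_num) (by norm_num) (by norm_num) (by norm_num) hW
  all_goals norm_num [DatZ.A0, DatZ.A1, DatZ.A2, DatZ.L0, DatZ.L1, dz]

end Crest.Agent.R307.MO02
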