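import Crest.Agent.R307.PIDict

/-!
Row 307 (S0471), regime M, pointwise certificates on one c-interval (generated, helper14).
-/

set_option autoImplicit false

namespace Crest.Agent.R307.MO03

open Crest.Agent.KB Crest.Agent.R307.PIConic Crest.Agent.R307.GenInt

def f1a : Dat :=
  { N := 3125000000, a0 := 812500000, a1 := -516250000, a2 := 1274062500, k1 := 860531250, k2 := -1190937500, e1 := 1071477552, e2 := 239671560, m2 := 0, l2 := 2819669425, cn := 723663801, cd := 3906250000, NR := 100000000, R := [19594147, -61302624, 88574482, 149295018, -932207424, 1867108943, -1948333443, 1058224060, -236325606], tn := 1, td := 1 }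

set_option maxRecDepth 100000 in
theorem f1a_D : run 2 397 4 [1, 43] [32, 32] [[f1a.Q1.e, f1a.Q2.e]]
    (.node 1 (.node 1 (.leaf 0) (.leaf 0)) (.node 1 (.node 1 (.leaf 0) (.leaf 0)) (.leaf 0))) [(0, 2 ^ 4), (0, 2 ^ 4)] = true := by
  decide +kernel

set_option maxRecDepth 100000 in
theorem f1a_P : run 2 748 11 [15, 21] [4096, 4096] [f1a.c1, f1a.c2, f1a.c3]
    (.node 0 (.leaf 1) (.node 1 (.node 0 (.leaf 1) (.node 1 (.node 0 (.leaf 1) (.node 1 (.node 0 (.leaf 1) (.node 1 (.node 0 (.leaf 1) (.leaf 0)) (.node 0 (.leaf 1) (.node 1 (.node 0 (.leaf 1) (.leaf 0)) (.node 0 (.leaf 1) (.node 1 (.leaf 0) (.node 0 (.leaf 1) (.leaf 0)))))))) (.node 0 (.leaf 1) (.node 1 (.node 0 (.leaf 1) (.node 1 (.node 0 (.leaf 1) (.node 1 (.node 0 (.leaf 1) (.leaf 0)) (.leaf 1))) (.leaf 1))) (.leaf 1))))) (.leaf 1))) (.node 0 (.leaf 1) (.node 1 (.leaf 1) (.node 0 (.leaf 1) (.node 1 (.leaf 1) (.node 0 (.leaf 1) (.node 1 (.leaf 1)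 (.node 0 (.leaf 1) (.node 1 (.node 0 (.leaf 1) (.node 1 (.node 0 (.leaf 1) (.leaf 0)) (.leaf 0))) (.leaf 0))))))))))) [(0, 2 ^ 11), (0, 2 ^ 11)] = true := by
  decide +kernel

theorem f1a_ok : f1a.OK :=
  ⟨_, _, _, _, _, _, _, _, _, _, by decide, f1a_D, f1a_P⟩

def f1b : Dat :=
  { N := 100000000000, a0 := 26000000000, a1 := -16520000000, a2 := 40770000000, k1 := 27537000000, k2 := -38110000000, e1 := 36190314066, e2 := 8095166355, m2 := 0, l2 := 85437505600, cn := 12907004881, cd := 62500000000, NR := 100000000, R := [20594855, -59074986, 72603701, 179862270, -933564399, 1784751107, -1816357952, 970647488, -214302527], tn := 1, td := 1 }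

set_option maxRecDepth 100000 in
theorem f1b_D : run 2 401 4 [1, 43] [32, 32] [[f1b.Q1.e, f1b.Q2.e]]
    (.node 1 (.node 1 (.node 1 (.leaf 0) (.leaf 0)) (.leaf 0)) (.node 1 (.node 1 (.leaf 0) (.leaf 0)) (.leaf 0))) [(0, 2 ^ 4), (0, 2 ^ 4)] = true := by
  decide +kernel

set_option maxRecDepth 100000 in
theorem f1b_P : run 2 784 11 [15, 21] [4096, 4096] [f1b.c1, f1b.c2, f1b.c3]
    (.node 0 (.leaf 1) (.node 1 (.node 0 (.node 1 (.node 0 (.leaf 1) (.leaf 1)) (.leaf 1)) (.node 1 (.node 0 (.leaf 1) (.node 1 (.node 0 (.leaf 1) (.node 1 (.node 0 (.leaf 1) (.node 1 (.node 0 (.leaf 1) (.leaf 0)) (.node 0 (.leaf 1) (.leaf 0)))) (.leaf 1))) (.leaf 1))) (.leaf 1))) (.node 0 (.leaf 1) (.node 1 (.leaf 1) (.node 0 (.leaf 1) (.node 1 (.leaf 1) (.node 0 (.leaf 1) (.node 1 (.leaf 1) (.node 0 (.leaf 1) (.node 1 (.node 0 (.leaf 1) (.leaf 0)) (.leaf 0))))))))))) [(0, 2 ^ 11), (0, 2 ^ 11)] = true := by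
  decide +kernel

theorem f1b_ok : f1b.OK :=
  ⟨_, _, _, _, _, _, _, _, _, _, by decide, f1b_D, f1b_P⟩

def f2a : Dat :=
  { N := 1562500000, a0 := 406250000, a1 := -258125000, a2 := 637031250, k1 := 464140625, k2 := -617906250, e1 := 656718700, e2 := -6698564, m2 := 0, l2 := 33740125, cn := 723663801, cd := 3906250000, NR := 100000000, R := [19594147, -61302624, 88574482, 149295018, -932207424, 1867108943, -1948333443, 1058224060, -236325606], tn := 1, td := 1 }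

set_option maxRecDepth 100000 in
theorem f2a_D : run 2 397 4 [1, 43] [32, 32] [[f2a.Q1.e, f2a.Q2.e]]
    (.node 1 (.node 1 (.leaf 0) (.leaf 0)) (.node 1 (.node 1 (.leaf 0) (.leaf 0)) (.leaf 0))) [(0, 2 ^ 4), (0, 2 ^ 4)] = true := by
  decide +kernel

set_option maxRecDepth 100000 in
theorem f2a_P : run 2 744 11 [15, 21] [4096, 4096] [f2a.c1, f2a.c2, f2a.c3]
    (.node 0 (.node 1 (.node 0 (.leaf 1) (.leaf 1)) (.leaf 1)) (.node 1 (.node 0 (.leaf 1) (.node 1 (.node 0 (.leaf 1) (.node 1 (.node 0 (.leaf 1) (.node 1 (.node 0 (.leaf 1) (.node 1 (.node 0 (.leaf 1) (.node 1 (.node 0 (.leaf 1) (.leaf 0)) (.leaf 1))) (.leaf 1))) (.leaf 1))) (.leaf 1))) (.leaf 1))) (.node 0 (.leaf 1) (.node 1 (.leaf 1) (.leaf 1))))) [(0, 2 ^ 11), (0, 2 ^ 11)] = true := by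
  decide +kernel

theorem f2a_ok : f2a.OK :=
  ⟨_, _, _, _, _, _, _, _, _, _, by decide, f2a_D, f2a_P⟩

def f2b : Dat :=
  { N := 100000000000, a0 := 26000000000, a1 := -16520000000, a2 := 40770000000, k1 := 29705000000, k2 := -39546000000, e1 := 44362769825, e2 := -452502499, m2 := 0, l2 := 2044688000, cn := 12907004881, cd := 62500000000, NR := 100000000, R := [20594855, -59074986, 72603701, 179862270, -933564399, 1784751107, -1816357952, 970647488, -214302527], tn := 1, td := 1 }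

set_option maxRecDepth 100000 in
theorem f2b_D : run 2 401 4 [1, 43] [32, 32] [[f2b.Q1.e, f2b.Q2.e]]
    (.node 1 (.node 1 (.node 1 (.leaf 0) (.leaf 0)) (.leaf 0)) (.node 1 (.node 1 (.leaf 0) (.leaf 0)) (.leaf 0))) [(0, 2 ^ 4), (0, 2 ^ 4)] = true := by
  decide +kernel

set_option maxRecDepth 100000 in
theorem f2b_P : run 2 784 11 [15, 21] [4096, 4096] [f2b.c1, f2b.c2, f2b.c3]
    (.node 0 (.leaf 1) (.node 1 (.node 0 (.node 1 (.node 0 (.leaf 1) (.leaf 1)) (.leaf 1)) (.node 1 (.node 0 (.leaf 1) (.node 1 (.node 0 (.leaf 1) (.node 1 (.node 0 (.leaf 1) (.node 1 (.node 0 (.leaf 1) (.node 1 (.node 0 (.leaf 1) (.node 1 (.node 0 (.leaf 1) (.node 1 (.node 0 (.leaf 1) (.node 1 (.node 0 (.leaf 1) (.leaf 0)) (.leaf 1))) (.leaf 1))) (.leaf 1))) (.leaf 1))) (.leaf 1))) (.leaf 1))) (.leaf 1))) (.leaf 1))) (.node 0 (.leaf 1) (.node 1 (.leaf 1) (.leaf 1))))) [(0, 2 ^ 11), (0, 2 ^ 11)] = true := by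
  decide +kernel

theorem f2b_ok : f2b.OK :=
  ⟨_, _, _, _, _, _, _, _, _, _, by decide, f2b_D, f2b_P⟩

lemma hW : ∀ c : ℝ, (299 / 250) ^ 2 - 1 ≤ c → c ≤ (603 / 500) ^ 2 - 1 → 0 ≤ Wf (13 / 50) (-413 / 2500) (4077 / 10000) c := by
  intro c h1 h2
  exact (Wf_pos (by norm_num) (by norm_num) (by norm_num at h1; linarith) (by norm_num at h2; linarith)).le

theorem fam1 : FamI (13 / 50) (-413 / 2500) (4077 / 10000) ((299 / 250) ^ 2 - 1) ((603 / 500) ^ 2 - 1)
    ⟨(27537 / 100000), (-3811 / 10000), (40269 / 50000), (3603 / 20000), 0, (0), 0, (19639 / 50000)⟩ := by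
  refine Dat.famI_of_ends f1a_ok f1b_ok (z0 := (1201 / 1000)) (Ua := (6652 / 15625)) (Ub := (449357 / 1000000)) (Va := (5743 / 2500)) (Vb := (2719 / 1250))
    (by norm_num) (by norm_num) (by norm_num) (by norm_num) (by norm_num) (by norm_num) (by norm_num)
    (by norm_num) (by norm_num) (by norm_num) (by norm_num) hW ?_ ?_ ?_ ?_
    ?_ ?_ ?_ ?_ ?_ ?_ ?_ ?_ ?_ ?_ ?_ ?_ ?_ ?_ ?_ ?_ ?_ ?_ ?_ ?_ ?_ ?_
  all_goals norm_num [Wtan, Wz, Dat.A0, Dat.A1, Dat.A2, Dat.K1, Dat.K2, Dat.E1, Dat.E2, Dat.M2, Dat.L2,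
    Dat.C2, Dat.T1, f1a, f1b]

theorem fam2 : FamI (13 / 50) (-413 / 2500) (4077 / 10000) ((299 / 250) ^ 2 - 1) ((603 / 500) ^ 2 - 1)
    ⟨(5941 / 20000), (-19773 / 50000), (3949 / 4000), (-1007 / 100000), 0, (0), 0, (47 / 5000)⟩ := by
  refine Dat.famI_of_ends f2a_ok f2b_ok (z0 := (1201 / 1000)) (Ua := (6652 / 15625)) (Ub := (449357 / 1000000)) (Va := (5743 / 2500)) (Vb := (2719 / 1250))
    (by norm_num) (by norm_num) (by norm_num) (by norm_num) (by norm_num) (by norm_num) (by norm_num)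
    (by norm_num) (by norm_num) (by norm_num) (by norm_num) hW ?_ ?_ ?_ ?_
    ?_ ?_ ?_ ?_ ?_ ?_ ?_ ?_ ?_ ?_ ?_ ?_ ?_ ?_ ?_ ?_ ?_ ?_ ?_ ?_ ?_ ?_
  all_goals norm_num [Wtan, Wz, Dat.A0, Dat.A1, Dat.A2, Dat.K1, Dat.K2, Dat.E1, Dat.E2, Dat.M2, Dat.L2,
    Dat.C2, Dat.T1, f2a, f2b]

def dz : DatZ :=
  { N := 1000000, a0 := 260000, a1 := -165200, a2 := 407700, l0 := 40380, l1 := 459290, v0 := 16900870, v1 := -12210359, NR := 100000000, R := [(-100000000, 100000000), (-300000000, 200000000), (1269204336, -997176568), (3323117021, -2591149275), (-30169023855, 24447239100), (70626399818, -58958433895), (-46838033302, 44000862262), (-81313247440, 55650734197), (179510496413, -135783650452), (-130245369621, 100643453928), (34177735156, -26659094860)] }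

set_option maxRecDepth 100000 in
theorem dz_D : run 3 842 11 [1, 51, 9] [4096, 4096, 4940] [[dz.Rs.e, dz.Q2.e, dz.QV.e]]
    (.node 1 (.leaf 0) (.node 1 (.leaf 0) (.node 1 (.leaf 0) (.node 1 (.leaf 0) (.node 1 (.node 1 (.node 1 (.node 2 (.leaf 0) (.leaf 0)) (.node 2 (.leaf 0) (.leaf 0))) (.node 1 (.node 2 (.leaf 0) (.leaf 0)) (.node 2 (.leaf 0) (.leaf 0)))) (.node 1 (.node 1 (.node 2 (.leaf 0) (.leaf 0)) (.node 2 (.leaf 0) (.leaf 0))) (.node 1 (.node 2 (.leaf 0) (.leaf 0)) (.leaf 0)))))))) [(0, 2 ^ 11), (0, 2 ^ 11), (2449, 2470)] = true := by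
  decide +kernel

set_option maxRecDepth 100000 in
theorem dz_P : run 3 430 11 [8, 14, 9] [4096, 4096, 4940] [[dz.G.e]]
    (.node 0 (.leaf 0) (.node 1 (.node 0 (.leaf 0) (.node 1 (.leaf 0) (.leaf 0))) (.leaf 0))) [(0, 2 ^ 11), (0, 2 ^ 11), (2449, 2470)] = true := by
  decide +kernel

theorem dict : CertI (13 / 50) (-413 / 2500) (4077 / 10000) ((299 / 250) ^ 2 - 1) ((603 / 500) ^ 2 - 1) 1 0 1 (2019 / 50000) (45929 / 100000) := by
  refine DatZ.certI dz (by decide) dz_D dz_P ?_ ?_ ?_ ?_ ?_ (by norm_num) (by norm_num) (by norm_num)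
    (by norm_num) (by norm_num) (by norm_num) (by norm_num) (by norm_num) (by norm_num) hW
  all_goals norm_num [DatZ.A0, DatZ.A1, DatZ.A2, DatZ.L0, DatZ.L1, dz]

end Crest.Agent.R307.MO03
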