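import Crest.Agent.R307.PIDict

/-!
Row 307 (S0471), regime M, pointwise certificates on one c-interval (generated, helper14).
-/

set_option autoImplicit false

namespace Crest.Agent.R307.MO04

open Crest.Agent.KB Crest.Agent.R307.PIConic Crest.Agent.R307.GenInt

def f1a : Dat :=
  { N := 4000000000, a0 := 1190000000, a1 := -990000000, a2 := 1854000000, k1 := 1038680000, k2 := -1681320000, e1 := 1467564470, e2 := 282337885, m2 := 0, l2 := 2948429356, cn := 12907004881, cd := 62500000000, NR := 100000000, R := [20594855, -59074986, 72603701, 179862270, -933564399, 1784751107, -1816357952, 970647488, -214302527], tn := 1, td := 1 }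

set_option maxRecDepth 100000 in
theorem f1a_D : run 2 401 4 [1, 43] [32, 32] [[f1a.Q1.e, f1a.Q2.e]]
    (.node 1 (.node 1 (.node 1 (.leaf 0) (.leaf 0)) (.leaf 0)) (.node 1 (.node 1 (.leaf 0) (.leaf 0)) (.leaf 0))) [(0, 2 ^ 4), (0, 2 ^ 4)] = true := by
  decide +kernel

set_option maxRecDepth 100000 in
theorem f1a_P : run 2 766 11 [15, 21] [4096, 4096] [f1a.c1, f1a.c2, f1a.c3]
    (.node 0 (.leaf 1) (.node 1 (.node 0 (.leaf 1) (.node 1 (.node 0 (.leaf 1) (.node 1 (.node 0 (.leaf 1) (.node 1 (.node 0 (.leaf 1) (.node 1 (.node 0 (.leaf 1) (.node 1 (.node 0 (.leaf 1) (.leaf 0)) (.leaf 1))) (.leaf 1))) (.leaf 1))) (.leaf 1))) (.leaf 1))) (.leaf 1))) [(0, 2 ^ 11), (0, 2 ^ 11)] = true := by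
  decide +kernel

theorem f1a_ok : f1a.OK :=
  ⟨_, _, _, _, _, _, _, _, _, _, by decide, f1a_D, f1a_P⟩

def f1b : Dat :=
  { N := 25000000000, a0 := 7437500000, a1 := -6187500000, a2 := 11587500000, k1 := 6491750000, k2 := -10508250000, e1 := 9757983608, e2 := 1877292964, m2 := 0, l2 := 17316576525, cn := 14612216161, cd := 62500000000, NR := 100000000, R := [21795731, -56478402, 57102206, 197579985, -887416146, 1616432897, -1598430429, 837546578, -182290023], tn := 1, td := 1 }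

set_option maxRecDepth 100000 in
theorem f1b_D : run 2 400 4 [1, 43] [32, 32] [[f1b.Q1.e, f1b.Q2.e]]
    (.node 1 (.node 1 (.node 1 (.leaf 0) (.leaf 0)) (.leaf 0)) (.node 1 (.leaf 0) (.leaf 0))) [(0, 2 ^ 4), (0, 2 ^ 4)] = true := by
  decide +kernel

set_option maxRecDepth 100000 in
theorem f1b_P : run 2 776 11 [15, 21] [4096, 4096] [f1b.c1, f1b.c2, f1b.c3]
    (.node 0 (.leaf 1) (.node 1 (.node 0 (.node 1 (.leaf 1) (.leaf 1)) (.node 1 (.node 0 (.leaf 1) (.node 1 (.node 0 (.leaf 1) (.node 1 (.node 0 (.leaf 1) (.node 1 (.node 0 (.leaf 1) (.node 1 (.node 0 (.leaf 1) (.node 1 (.node 0 (.leaf 1) (.node 1 (.node 0 (.leaf 1) (.node 1 (.node 0 (.leaf 1) (.leaf 0)) (.leaf 1))) (.leaf 1))) (.leaf 1))) (.leaf 1))) (.leaf 1))) (.leaf 1))) (.leaf 1))) (.leaf 1))) (.leaf 1))) [(0, 2 ^ 11), (0, 2 ^ 11)] = true := by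
  decide +kernel

theorem f1b_ok : f1b.OK :=
  ⟨_, _, _, _, _, _, _, _, _, _, by decide, f1b_D, f1b_P⟩

def f2a : Dat :=
  { N := 4000000000, a0 := 1190000000, a1 := -990000000, a2 := 1854000000, k1 := 1249440000, k2 := -1651760000, e1 := 1767407340, e2 := 234845, m2 := 0, l2 := 345197328, cn := 12907004881, cd := 62500000000, NR := 100000000, R := [20594855, -59074986, 72603701, 179862270, -933564399, 1784751107, -1816357952, 970647488, -214302527], tn := 1, td := 1 }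

set_option maxRecDepth 100000 in
theorem f2a_D : run 2 401 4 [1, 43] [32, 32] [[f2a.Q1.e, f2a.Q2.e]]
    (.node 1 (.node 1 (.node 1 (.leaf 0) (.leaf 0)) (.leaf 0)) (.node 1 (.node 1 (.leaf 0) (.leaf 0)) (.leaf 0))) [(0, 2 ^ 4), (0, 2 ^ 4)] = true := by
  decide +kernel

set_option maxRecDepth 100000 in
theorem f2a_P : run 2 766 11 [15, 21] [4096, 4096] [f2a.c1, f2a.c2, f2a.c3]
    (.node 0 (.node 1 (.node 0 (.leaf 1) (.leaf 1)) (.leaf 1)) (.node 1 (.node 0 (.leaf 1) (.node 1 (.node 0 (.leaf 1) (.node 1 (.node 0 (.leaf 1) (.node 1 (.node 0 (.leaf 1) (.node 1 (.node 0 (.leaf 1) (.node 1 (.node 0 (.leaf 1) (.leaf 0)) (.leaf 1))) (.leaf 1))) (.leaf 1))) (.leaf 1))) (.leaf 1))) (.node 0 (.leaf 1) (.node 1 (.leaf 1) (.leaf 1))))) [(0, 2 ^ 11), (0, 2 ^ 11)] = true := by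
  decide +kernel

theorem f2a_ok : f2a.OK :=
  ⟨_, _, _, _, _, _, _, _, _, _, by decide, f2a_D, f2a_P⟩

def f2b : Dat :=
  { N := 6250000000, a0 := 1859375000, a1 := -1546875000, a2 := 2896875000, k1 := 1952250000, k2 := -2580875000, e1 := 2937917244, e2 := 390377, m2 := 0, l2 := 506849175, cn := 14612216161, cd := 62500000000, NR := 100000000, R := [21795731, -56478402, 57102206, 197579985, -887416146, 1616432897, -1598430429, 837546578, -182290023], tn := 1, td := 1 }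

set_option maxRecDepth 100000 in
theorem f2b_D : run 2 400 4 [1, 43] [32, 32] [[f2b.Q1.e, f2b.Q2.e]]
    (.node 1 (.node 1 (.node 1 (.leaf 0) (.leaf 0)) (.leaf 0)) (.node 1 (.leaf 0) (.leaf 0))) [(0, 2 ^ 4), (0, 2 ^ 4)] = true := by
  decide +kernel

set_option maxRecDepth 100000 in
theorem f2b_P : run 2 768 11 [15, 21] [4096, 4096] [f2b.c1, f2b.c2, f2b.c3]
    (.node 0 (.leaf 1) (.node 1 (.node 0 (.node 1 (.node 0 (.leaf 1) (.leaf 1)) (.leaf 1)) (.node 1 (.node 0 (.leaf 1) (.node 1 (.node 0 (.leaf 1) (.node 1 (.node 0 (.leaf 1) (.node 1 (.node 0 (.leaf 1) (.node 1 (.node 0 (.leaf 1) (.node 1 (.node 0 (.leaf 1) (.node 1 (.node 0 (.leaf 1) (.node 1 (.node 0 (.leaf 1) (.node 1 (.leaf 0) (.leaf 1))) (.leaf 1))) (.leaf 1))) (.leaf 1))) (.leaf 1))) (.leaf 1))) (.leaf 1))) (.leaf 1))) (.leaf 1))) (.node 0 (.leaf 1) (.node 1 (.leaf 1) (.leaf 1))))) [(0, 2 ^ 11), (0, 2 ^ 11)] = true := by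
  decide +kernel

theorem f2b_ok : f2b.OK :=
  ⟨_, _, _, _, _, _, _, _, _, _, by decide, f2b_D, f2b_P⟩

lemma hW : ∀ c : ℝ, (603 / 500) ^ 2 - 1 ≤ c → c ≤ (609 / 500) ^ 2 - 1 → 0 ≤ Wf (119 / 400) (-99 / 400) (927 / 2000) c := by
  intro c h1 h2
  exact (Wf_pos (by norm_num) (by norm_num) (by norm_num at h1; linarith) (by norm_num at h2; linarith)).le

theorem fam1 : FamI (119 / 400) (-99 / 400) (927 / 2000) ((603 / 500) ^ 2 - 1) ((609 / 500) ^ 2 - 1)
    ⟨(25967 / 100000), (-42033 / 100000), (40619 / 50000), (15629 / 100000), 0, (0), 0, (33721 / 100000)⟩ := by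
  refine Dat.famI_of_ends f1a_ok f1b_ok (z0 := (303 / 250)) (Ua := (3613 / 8000)) (Ub := (30029 / 62500)) (Va := (21859 / 10000)) (Vb := (20541 / 10000))
    (by norm_num) (by norm_num) (by norm_num) (by norm_num) (by norm_num) (by norm_num) (by norm_num)
    (by norm_num) (by norm_num) (by norm_num) (by norm_num) hW ?_ ?_ ?_ ?_
    ?_ ?_ ?_ ?_ ?_ ?_ ?_ ?_ ?_ ?_ ?_ ?_ ?_ ?_ ?_ ?_ ?_ ?_ ?_ ?_ ?_ ?_
  all_goals norm_num [Wtan, Wz, Dat.A0, Dat.A1, Dat.A2, Dat.K1, Dat.K2, Dat.E1, Dat.E2, Dat.M2, Dat.L2,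
    Dat.C2, Dat.T1, f1a, f1b]

theorem fam2 : FamI (119 / 400) (-99 / 400) (927 / 2000) ((603 / 500) ^ 2 - 1) ((609 / 500) ^ 2 - 1)
    ⟨(7809 / 25000), (-20647 / 50000), (24459 / 25000), (13 / 100000), 0, (0), 0, (987 / 25000)⟩ := by
  refine Dat.famI_of_ends f2a_ok f2b_ok (z0 := (303 / 250)) (Ua := (3613 / 8000)) (Ub := (30029 / 62500)) (Va := (21859 / 10000)) (Vb := (20541 / 10000))
    (by norm_num) (by norm_num) (by norm_num) (by norm_num) (by norm_num) (by norm_num) (by norm_num)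
    (by norm_num) (by norm_num) (by norm_num) (by norm_num) hW ?_ ?_ ?_ ?_
    ?_ ?_ ?_ ?_ ?_ ?_ ?_ ?_ ?_ ?_ ?_ ?_ ?_ ?_ ?_ ?_ ?_ ?_ ?_ ?_ ?_ ?_
  all_goals norm_num [Wtan, Wz, Dat.A0, Dat.A1, Dat.A2, Dat.K1, Dat.K2, Dat.E1, Dat.E2, Dat.M2, Dat.L2,
    Dat.C2, Dat.T1, f2a, f2b]

def dz : DatZ :=
  { N := 1000000, a0 := 297500, a1 := -247500, a2 := 463500, l0 := 40450, l1 := 473600, v0 := 15438401, v1 := -10988630, NR := 100000000, R := [(-100000000, 100000000), (-300000000, 200000000), (1119476287, -873030333), (2855432717, -2203287559), (-21723480687, 17443200917), (34651206504, -29123797791), (32832350609, -22070115952), (-185105231061, 141724997107), (259720262240, -202300524402), (-164342741493, 128919582054), (40329505077, -31760536296)] }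

set_option maxRecDepth 100000 in
theorem dz_D : run 3 844 11 [1, 51, 9] [4096, 4096, 4990] [[dz.Rs.e, dz.Q2.e, dz.QV.e]]
    (.node 1 (.leaf 0) (.node 1 (.leaf 0) (.node 1 (.leaf 0) (.node 1 (.node 1 (.leaf 0) (.node 1 (.leaf 0) (.node 1 (.node 2 (.leaf 0) (.leaf 0)) (.node 2 (.leaf 0) (.leaf 0))))) (.node 1 (.node 1 (.node 1 (.node 2 (.leaf 0) (.leaf 0)) (.node 2 (.leaf 0) (.leaf 0))) (.node 1 (.node 2 (.leaf 0) (.leaf 0)) (.node 2 (.leaf 0) (.leaf 0)))) (.node 1 (.node 1 (.node 2 (.leaf 0) (.leaf 0)) (.node 2 (.leaf 0) (.leaf 0))) (.node 1 (.node 2 (.leaf 0) (.leaf 0)) (.node 2 (.leaf 0) (.leaf 0))))))))) [(0, 2 ^ 11), (0, 2 ^ 11), (2469, 2495)] = true := by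
  decide +kernel

set_option maxRecDepth 100000 in
theorem dz_P : run 3 430 11 [8, 14, 9] [4096, 4096, 4990] [[dz.G.e]]
    (.node 0 (.leaf 0) (.node 1 (.node 0 (.leaf 0) (.node 1 (.leaf 0) (.leaf 0))) (.leaf 0))) [(0, 2 ^ 11), (0, 2 ^ 11), (2469, 2495)] = true := by
  decide +kernel

theorem dict : CertI (119 / 400) (-99 / 400) (927 / 2000) ((603 / 500) ^ 2 - 1) ((609 / 500) ^ 2 - 1) 1 0 1 (809 / 20000) (296 / 625) := by
  refine DatZ.certI dz (by decide) dz_D dz_P ?_ ?_ ?_ ?_ ?_ (by norm_num) (by norm_num) (by norm_num)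
    (by norm_num) (by norm_num) (by norm_num) (by norm_num) (by norm_num) (by norm_num) hW
  all_goals norm_num [DatZ.A0, DatZ.A1, DatZ.A2, DatZ.L0, DatZ.L1, dz]

end Crest.Agent.R307.MO04
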