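import Crest.Agent.R307.PIDict

/-!
Row 307 (S0471), regime M, pointwise certificates on one c-interval (generated, helper14).
-/

set_option autoImplicit false

namespace Crest.Agent.R307.MO05

open Crest.Agent.KB Crest.Agent.R307.PIConic Crest.Agent.R307.GenInt

def f1a : Dat :=
  { N := 100000000000, a0 := 34960000000, a1 := -32760000000, a2 := 42570000000, k1 := 32455000000, k2 := -36792000000, e1 := 40852653544, e2 := 6920932553, m2 := 0, l2 := 89766250000, cn := 14612216161, cd := 62500000000, NR := 100000000, R := [21795731, -56478402, 57102206, 197579985, -887416146, 1616432897, -1598430429, 837546578, -182290023], tn := 1, td := 1 }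

set_option maxRecDepth 100000 in
theorem f1a_D : run 2 400 4 [1, 43] [32, 32] [[f1a.Q1.e, f1a.Q2.e]]
    (.node 1 (.node 1 (.node 1 (.leaf 0) (.leaf 0)) (.leaf 0)) (.node 1 (.leaf 0) (.leaf 0))) [(0, 2 ^ 4), (0, 2 ^ 4)] = true := by
  decide +kernel

set_option maxRecDepth 100000 in
theorem f1a_P : run 2 784 11 [15, 21] [4096, 4096] [f1a.c1, f1a.c2, f1a.c3]
    (.node 0 (.node 1 (.node 0 (.leaf 1) (.leaf 1)) (.leaf 1)) (.node 1 (.node 0 (.leaf 1) (.node 1 (.node 0 (.leaf 1) (.node 1 (.node 0 (.leaf 1) (.node 1 (.node 0 (.leaf 1) (.node 1 (.leaf 0) (.node 0 (.leaf 1) (.leaf 0)))) (.node 0 (.leaf 1) (.node 1 (.node 0 (.leaf 1) (.node 1 (.leaf 0) (.node 0 (.leaf 1) (.leaf 0)))) (.node 0 (.leaf 1) (.node 1 (.node 0 (.leaf 1) (.leaf 0)) (.leaf 1))))))) (.leaf 1))) (.leaf 1))) (.node 0 (.leaf 1) (.node 1 (.leaf 1) (.node 0 (.leaf 1) (.node 1 (.leaf 1) (.node 0 (.leaf 1) (.node 1 (.leaf 1) (.node 0 (.leaf 1) (.node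 1 (.node 0 (.leaf 1) (.node 1 (.leaf 1) (.leaf 0))) (.leaf 0))))))))))) [(0, 2 ^ 11), (0, 2 ^ 11)] = true := by
  decide +kernel

theorem f1a_ok : f1a.OK :=
  ⟨_, _, _, _, _, _, _, _, _, _, by decide, f1a_D, f1a_P⟩

def f1b : Dat :=
  { N := 100000000000, a0 := 34960000000, a1 := -32760000000, a2 := 42570000000, k1 := 32455000000, k2 := -36792000000, e1 := 43740673928, e2 := 7410198061, m2 := 0, l2 := 83803125000, cn := 65464281, cd := 244140625, NR := 100000000, R := [23196568, -53534588, 43113190, 199125256, -790734806, 1365343637, -1303508580, 665889292, -142188162], tn := 1, td := 1 }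

set_option maxRecDepth 100000 in
theorem f1b_D : run 2 391 4 [1, 43] [32, 32] [[f1b.Q1.e, f1b.Q2.e]]
    (.node 1 (.node 1 (.node 1 (.node 1 (.leaf 0) (.leaf 0)) (.leaf 0)) (.leaf 0)) (.leaf 0)) [(0, 2 ^ 4), (0, 2 ^ 4)] = true := by
  decide +kernel

set_option maxRecDepth 100000 in
theorem f1b_P : run 2 751 11 [15, 21] [4096, 4096] [f1b.c1, f1b.c2, f1b.c3]
    (.node 0 (.leaf 1) (.node 1 (.node 0 (.leaf 1) (.node 1 (.node 0 (.leaf 1) (.node 1 (.node 0 (.leaf 1) (.node 1 (.node 0 (.leaf 1) (.node 1 (.node 0 (.leaf 1) (.node 1 (.leaf 0) (.node 0 (.leaf 1) (.leaf 0)))) (.leaf 1))) (.leaf 1))) (.leaf 1))) (.leaf 1))) (.node 0 (.leaf 1) (.node 1 (.leaf 1) (.node 0 (.leaf 1) (.node 1 (.leaf 1) (.node 0 (.leaf 1) (.node 1 (.leaf 1) (.node 0 (.leaf 1) (.node 1 (.node 0 (.leaf 1) (.node 1 (.leaf 1) (.leaf 0))) (.leaf 0))))))))))) [(0, 2 ^ 11), (0, 2 ^ 11)] = true := by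
  decide +kernel

theorem f1b_ok : f1b.OK :=
  ⟨_, _, _, _, _, _, _, _, _, _, by decide, f1b_D, f1b_P⟩

def f2a : Dat :=
  { N := 50000000000, a0 := 17480000000, a1 := -16380000000, a2 := 21285000000, k1 := 16249000000, k2 := -22460000000, e1 := 21844688357, e2 := 1483159830, m2 := 0, l2 := 30271231300, cn := 14612216161, cd := 62500000000, NR := 100000000, R := [21795731, -56478402, 57102206, 197579985, -887416146, 1616432897, -1598430429, 837546578, -182290023], tn := 1, td := 1 }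

set_option maxRecDepth 100000 in
theorem f2a_D : run 2 400 4 [1, 43] [32, 32] [[f2a.Q1.e, f2a.Q2.e]]
    (.node 1 (.node 1 (.node 1 (.leaf 0) (.leaf 0)) (.leaf 0)) (.node 1 (.leaf 0) (.leaf 0))) [(0, 2 ^ 4), (0, 2 ^ 4)] = true := by
  decide +kernel

set_option maxRecDepth 100000 in
theorem f2a_P : run 2 780 11 [15, 21] [4096, 4096] [f2a.c1, f2a.c2, f2a.c3]
    (.node 0 (.node 1 (.node 0 (.leaf 1) (.leaf 1)) (.leaf 1)) (.node 1 (.node 0 (.leaf 1) (.node 1 (.node 0 (.leaf 1) (.node 1 (.node 0 (.leaf 1) (.node 1 (.node 0 (.leaf 1) (.node 1 (.node 0 (.leaf 1) (.node 1 (.leaf 0) (.leaf 1))) (.leaf 1))) (.leaf 1))) (.leaf 1))) (.leaf 1))) (.leaf 1))) [(0, 2 ^ 11), (0, 2 ^ 11)] = true := by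
  decide +kernel

theorem f2a_ok : f2a.OK :=
  ⟨_, _, _, _, _, _, _, _, _, _, by decide, f2a_D, f2a_P⟩

def f2b : Dat :=
  { N := 50000000000, a0 := 17480000000, a1 := -16380000000, a2 := 21285000000, k1 := 16249000000, k2 := -22460000000, e1 := 23388967609, e2 := 1588009710, m2 := 0, l2 := 28260329250, cn := 65464281, cd := 244140625, NR := 100000000, R := [23196568, -53534588, 43113190, 199125256, -790734806, 1365343637, -1303508580, 665889292, -142188162], tn := 1, td := 1 }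

set_option maxRecDepth 100000 in
theorem f2b_D : run 2 391 4 [1, 43] [32, 32] [[f2b.Q1.e, f2b.Q2.e]]
    (.node 1 (.node 1 (.node 1 (.node 1 (.leaf 0) (.leaf 0)) (.leaf 0)) (.leaf 0)) (.leaf 0)) [(0, 2 ^ 4), (0, 2 ^ 4)] = true := by
  decide +kernel

set_option maxRecDepth 100000 in
theorem f2b_P : run 2 747 11 [15, 21] [4096, 4096] [f2b.c1, f2b.c2, f2b.c3]
    (.node 0 (.leaf 1) (.node 1 (.node 0 (.leaf 1) (.node 1 (.node 0 (.leaf 1) (.node 1 (.node 0 (.leaf 1) (.node 1 (.node 0 (.leaf 1) (.node 1 (.node 0 (.leaf 1) (.node 1 (.node 0 (.leaf 1) (.node 1 (.node 0 (.leaf 1) (.node 1 (.node 0 (.leaf 1) (.node 1 (.node 0 (.leaf 1) (.leaf 0)) (.leaf 1))) (.leaf 1))) (.leaf 1))) (.leaf 1))) (.leaf 1))) (.leaf 1))) (.leaf 1))) (.leaf 1))) (.node 0 (.leaf 1) (.node 1 (.leaf 1) (.leaf 1))))) [(0, 2 ^ 11), (0, 2 ^ 11)] = true := by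
  decide +kernel

theorem f2b_ok : f2b.OK :=
  ⟨_, _, _, _, _, _, _, _, _, _, by decide, f2b_D, f2b_P⟩

lemma hW : ∀ c : ℝ, (609 / 500) ^ 2 - 1 ≤ c → c ≤ (154 / 125) ^ 2 - 1 → 0 ≤ Wf (437 / 1250) (-819 / 2500) (4257 / 10000) c := by
  intro c h1 h2
  exact (Wf_pos (by norm_num) (by norm_num) (by norm_num at h1; linarith) (by norm_num at h2; linarith)).le

theorem fam1 : FamI (437 / 1250) (-819 / 2500) (4257 / 10000) ((609 / 500) ^ 2 - 1) ((154 / 125) ^ 2 - 1)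
    ⟨(6491 / 20000), (-4599 / 12500), (10639 / 12500), (14419 / 100000), 0, (0), 0, (7 / 16)⟩ := by
  refine Dat.famI_of_ends f1a_ok f1b_ok (z0 := (49 / 40)) (Ua := (479987 / 1000000)) (Ub := (513919 / 1000000)) (Va := (10259 / 5000)) (Vb := (3831 / 2000))
    (by norm_num) (by norm_num) (by norm_num) (by norm_num) (by norm_num) (by norm_num) (by norm_num)
    (by norm_num) (by norm_num) (by norm_num) (by norm_num) hW ?_ ?_ ?_ ?_
    ?_ ?_ ?_ ?_ ?_ ?_ ?_ ?_ ?_ ?_ ?_ ?_ ?_ ?_ ?_ ?_ ?_ ?_ ?_ ?_ ?_ ?_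
  all_goals norm_num [Wtan, Wz, Dat.A0, Dat.A1, Dat.A2, Dat.K1, Dat.K2, Dat.E1, Dat.E2, Dat.M2, Dat.L2,
    Dat.C2, Dat.T1, f1a, f1b]

theorem fam2 : FamI (437 / 1250) (-819 / 2500) (4257 / 10000) ((609 / 500) ^ 2 - 1) ((154 / 125) ^ 2 - 1)
    ⟨(16249 / 50000), (-1123 / 2500), (45511 / 50000), (309 / 5000), 0, (0), 0, (29507 / 100000)⟩ := by
  refine Dat.famI_of_ends f2a_ok f2b_ok (z0 := (49 / 40)) (Ua := (479987 / 1000000)) (Ub := (513919 / 1000000)) (Va := (10259 / 5000)) (Vb := (3831 / 2000))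
    (by norm_num) (by norm_num) (by norm_num) (by norm_num) (by norm_num) (by norm_num) (by norm_num)
    (by norm_num) (by norm_num) (by norm_num) (by norm_num) hW ?_ ?_ ?_ ?_
    ?_ ?_ ?_ ?_ ?_ ?_ ?_ ?_ ?_ ?_ ?_ ?_ ?_ ?_ ?_ ?_ ?_ ?_ ?_ ?_ ?_ ?_
  all_goals norm_num [Wtan, Wz, Dat.A0, Dat.A1, Dat.A2, Dat.K1, Dat.K2, Dat.E1, Dat.E2, Dat.M2, Dat.L2,
    Dat.C2, Dat.T1, f2a, f2b]

def dz : DatZ :=
  { N := 500000, a0 := 174800, a1 := -163800, a2 := 212850, l0 := 27105, l1 := 232870, v0 := 6949404, v1 := -4863258, NR := 100000000, R := [(-100000000, 100000000), (-300000000, 200000000), (966026180, -747054584), (2409208110, -1836935444), (-14591978306, 11588266689), (8251568139, -7450070773), (81434606003, -61971123343), (-233906821190, 181788332196), (284779776215, -222871475498), (-168956350997, 132705753234), (39945136998, -31444607674)] }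

set_option maxRecDepth 100000 in
theorem dz_D : run 3 844 11 [1, 51, 9] [4096, 4096, 5048] [[dz.Rs.e, dz.Q2.e, dz.QV.e]]
    (.node 1 (.leaf 0) (.node 1 (.leaf 0) (.node 1 (.leaf 0) (.node 1 (.node 1 (.node 1 (.leaf 0) (.node 1 (.node 2 (.leaf 0) (.leaf 0)) (.node 2 (.leaf 0) (.leaf 0)))) (.node 1 (.node 1 (.node 2 (.leaf 0) (.leaf 0)) (.node 2 (.leaf 0) (.leaf 0))) (.node 1 (.node 2 (.leaf 0) (.leaf 0)) (.node 2 (.leaf 0) (.leaf 0))))) (.node 1 (.node 1 (.node 1 (.node 2 (.leaf 0) (.leaf 0)) (.node 2 (.leaf 0) (.leaf 0))) (.node 1 (.node 2 (.leaf 0) (.leaf 0)) (.node 2 (.leaf 0) (.leaf 0)))) (.node 1 (.node 1 (.node 2 (.leaf 0) (.leaf 0)) (.node 2 (.leaf 0) (.leaf 0))) (.node 1 (.node 2 (.leaf 0) (.leaf 0)) (.node 2 (.leaf 0) (.leaf 0))))))))) [(0, 2 ^ 11), (0, 2 ^ 11), (2494, 2524)] = true := by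
  decide +kernel

set_option maxRecDepth 100000 in
theorem dz_P : run 3 428 11 [8, 14, 9] [4096, 4096, 5048] [[dz.G.e]]
    (.node 0 (.leaf 0) (.node 1 (.leaf 0) (.leaf 0))) [(0, 2 ^ 11), (0, 2 ^ 11), (2494, 2524)] = true := by
  decide +kernel

theorem dict : CertI (437 / 1250) (-819 / 2500) (4257 / 10000) ((609 / 500) ^ 2 - 1) ((154 / 125) ^ 2 - 1) 1 0 1 (5421 / 100000) (23287 / 50000) := by
  refine DatZ.certI dz (by decide) dz_D dz_P ?_ ?_ ?_ ?_ ?_ (by norm_num) (by norm_num) (by norm_num)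
    (by norm_num) (by norm_num) (by norm_num) (by norm_num) (by norm_num) (by norm_num) hW
  all_goals norm_num [DatZ.A0, DatZ.A1, DatZ.A2, DatZ.L0, DatZ.L1, dz]

end Crest.Agent.R307.MO05
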