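import Crest.Agent.R307.PIDict

/-!
Row 307 (S0471), regime M, pointwise certificates on one c-interval (generated, helper14).
-/

set_option autoImplicit false

namespace Crest.Agent.R307.MO06

open Crest.Agent.KB Crest.Agent.R307.PIConic Crest.Agent.R307.GenInt

def f1a : Dat :=
  { N := 10000000000, a0 := 3377000000, a1 := -3001000000, a2 := 4439000000, k1 := 3339900000, k2 := -4457800000, e1 := 4571800299, e2 := 474689754, m2 := 0, l2 := 6086515760, cn := 65464281, cd := 244140625, NR := 100000000, R := [23196568, -53534588, 43113190, 199125256, -790734806, 1365343637, -1303508580, 665889292, -142188162], tn := 1, td := 1 }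

set_option maxRecDepth 100000 in
theorem f1a_D : run 2 391 4 [1, 43] [32, 32] [[f1a.Q1.e, f1a.Q2.e]]
    (.node 1 (.node 1 (.node 1 (.node 1 (.leaf 0) (.leaf 0)) (.leaf 0)) (.leaf 0)) (.leaf 0)) [(0, 2 ^ 4), (0, 2 ^ 4)] = true := by
  decide +kernel

set_option maxRecDepth 100000 in
theorem f1a_P : run 2 738 11 [15, 21] [4096, 4096] [f1a.c1, f1a.c2, f1a.c3]
    (.node 0 (.leaf 1) (.node 1 (.node 0 (.leaf 1) (.node 1 (.node 0 (.leaf 1) (.node 1 (.node 0 (.leaf 1) (.node 1 (.node 0 (.leaf 1) (.node 1 (.node 0 (.leaf 1) (.node 1 (.leaf 0) (.leaf 1))) (.leaf 1))) (.leaf 1))) (.leaf 1))) (.leaf 1))) (.leaf 1))) [(0, 2 ^ 11), (0, 2 ^ 11)] = true := by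
  decide +kernel

theorem f1a_ok : f1a.OK :=
  ⟨_, _, _, _, _, _, _, _, _, _, by decide, f1a_D, f1a_P⟩

def f1b : Dat :=
  { N := 50000000000, a0 := 16885000000, a1 := -15005000000, a2 := 22195000000, k1 := 16699500000, k2 := -22289000000, e1 := 24605671509, e2 := 2554805414, m2 := 0, l2 := 28261539800, cn := 75881521, cd := 244140625, NR := 100000000, R := [24797486, -50254429, 31262814, 184551444, -651836797, 1054889959, -960749341, 473360868, -98252749], tn := 1, td := 1 }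

set_option maxRecDepth 100000 in
theorem f1b_D : run 2 389 4 [1, 43] [32, 32] [[f1b.Q1.e, f1b.Q2.e]]
    (.node 1 (.node 1 (.node 1 (.node 1 (.leaf 0) (.leaf 0)) (.leaf 0)) (.leaf 0)) (.leaf 0)) [(0, 2 ^ 4), (0, 2 ^ 4)] = true := by
  decide +kernel

set_option maxRecDepth 100000 in
theorem f1b_P : run 2 746 11 [15, 21] [4096, 4096] [f1b.c1, f1b.c2, f1b.c3]
    (.node 0 (.leaf 1) (.node 1 (.node 0 (.node 1 (.node 0 (.leaf 1) (.leaf 1)) (.leaf 1)) (.node 1 (.node 0 (.leaf 1) (.node 1 (.node 0 (.leaf 1) (.node 1 (.node 0 (.leaf 1) (.node 1 (.node 0 (.leaf 1) (.node 1 (.node 0 (.leaf 1) (.node 1 (.node 0 (.leaf 1) (.node 1 (.node 0 (.leaf 1) (.node 1 (.node 0 (.leaf 1) (.leaf 0)) (.leaf 1))) (.leaf 1))) (.leaf 1))) (.leaf 1))) (.leaf 1))) (.leaf 1))) (.leaf 1))) (.leaf 1))) (.leaf 1))) [(0, 2 ^ 11), (0, 2 ^ 11)] = true := by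
  decide +kernel

theorem f1b_ok : f1b.OK :=
  ⟨_, _, _, _, _, _, _, _, _, _, by decide, f1b_D, f1b_P⟩

def f2a : Dat :=
  { N := 20000000000, a0 := 6754000000, a1 := -6002000000, a2 := 8878000000, k1 := 7008200000, k2 := -8250400000, e1 := 9595823490, e2 := 637213797, m2 := 0, l2 := 8839601200, cn := 65464281, cd := 244140625, NR := 100000000, R := [23196568, -53534588, 43113190, 199125256, -790734806, 1365343637, -1303508580, 665889292, -142188162], tn := 1, td := 1 }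

set_option maxRecDepth 100000 in
theorem f2a_D : run 2 391 4 [1, 43] [32, 32] [[f2a.Q1.e, f2a.Q2.e]]
    (.node 1 (.node 1 (.node 1 (.node 1 (.leaf 0) (.leaf 0)) (.leaf 0)) (.leaf 0)) (.leaf 0)) [(0, 2 ^ 4), (0, 2 ^ 4)] = true := by
  decide +kernel

set_option maxRecDepth 100000 in
theorem f2a_P : run 2 742 11 [15, 21] [4096, 4096] [f2a.c1, f2a.c2, f2a.c3]
    (.node 0 (.node 1 (.node 0 (.leaf 1) (.leaf 1)) (.leaf 1)) (.node 1 (.node 0 (.leaf 1) (.node 1 (.node 0 (.leaf 1) (.node 1 (.node 0 (.leaf 1) (.node 1 (.node 0 (.leaf 1) (.node 1 (.node 0 (.leaf 1) (.node 1 (.leaf 0) (.leaf 1))) (.leaf 1))) (.leaf 1))) (.leaf 1))) (.leaf 1))) (.leaf 1))) [(0, 2 ^ 11), (0, 2 ^ 11)] = true := by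
  decide +kernel

theorem f2a_ok : f2a.OK :=
  ⟨_, _, _, _, _, _, _, _, _, _, by decide, f2a_D, f2a_P⟩

def f2b : Dat :=
  { N := 100000000000, a0 := 33770000000, a1 := -30010000000, a2 := 44390000000, k1 := 35041000000, k2 := -41252000000, e1 := 51645230590, e2 := 3429518427, m2 := 0, l2 := 41044951000, cn := 75881521, cd := 244140625, NR := 100000000, R := [24797486, -50254429, 31262814, 184551444, -651836797, 1054889959, -960749341, 473360868, -98252749], tn := 1, td := 1 }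

set_option maxRecDepth 100000 in
theorem f2b_D : run 2 389 4 [1, 43] [32, 32] [[f2b.Q1.e, f2b.Q2.e]]
    (.node 1 (.node 1 (.node 1 (.node 1 (.leaf 0) (.leaf 0)) (.leaf 0)) (.leaf 0)) (.leaf 0)) [(0, 2 ^ 4), (0, 2 ^ 4)] = true := by
  decide +kernel

set_option maxRecDepth 100000 in
theorem f2b_P : run 2 750 11 [15, 21] [4096, 4096] [f2b.c1, f2b.c2, f2b.c3]
    (.node 0 (.leaf 1) (.node 1 (.node 0 (.node 1 (.node 0 (.leaf 1) (.leaf 1)) (.leaf 1)) (.node 1 (.node 0 (.leaf 1) (.node 1 (.node 0 (.leaf 1) (.node 1 (.node 0 (.leaf 1) (.node 1 (.node 0 (.leaf 1) (.node 1 (.node 0 (.leaf 1) (.node 1 (.node 0 (.leaf 1) (.node 1 (.node 0 (.leaf 1) (.node 1 (.node 0 (.leaf 1) (.node 1 (.leaf 0) (.leaf 1))) (.leaf 1))) (.leaf 1))) (.leaf 1))) (.leaf 1))) (.leaf 1))) (.leaf 1))) (.leaf 1))) (.leaf 1))) (.leaf 1))) [(0, 2 ^ 11), (0, 2 ^ 11)] = true := by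
  decide +kernel

theorem f2b_ok : f2b.OK :=
  ⟨_, _, _, _, _, _, _, _, _, _, by decide, f2b_D, f2b_P⟩

lemma hW : ∀ c : ℝ, (154 / 125) ^ 2 - 1 ≤ c → c ≤ (156 / 125) ^ 2 - 1 → 0 ≤ Wf (3377 / 10000) (-3001 / 10000) (4439 / 10000) c := by
  intro c h1 h2
  exact (Wf_pos (by norm_num) (by norm_num) (by norm_num at h1; linarith) (by norm_num at h2; linarith)).le

theorem fam1 : FamI (3377 / 10000) (-3001 / 10000) (4439 / 10000) ((154 / 125) ^ 2 - 1) ((156 / 125) ^ 2 - 1)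
    ⟨(33399 / 100000), (-22289 / 50000), (44361 / 50000), (2303 / 25000), 0, (0), 0, (15847 / 50000)⟩ := by
  refine Dat.famI_of_ends f1a_ok f1b_ok (z0 := (31 / 25)) (Ua := (103059 / 200000)) (Ub := (554669 / 1000000)) (Va := (4801 / 2500)) (Vb := (8917 / 5000))
    (by norm_num) (by norm_num) (by norm_num) (by norm_num) (by norm_num) (by norm_num) (by norm_num)
    (by norm_num) (by norm_num) (by norm_num) (by norm_num) hW ?_ ?_ ?_ ?_
    ?_ ?_ ?_ ?_ ?_ ?_ ?_ ?_ ?_ ?_ ?_ ?_ ?_ ?_ ?_ ?_ ?_ ?_ ?_ ?_ ?_ ?_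
  all_goals norm_num [Wtan, Wz, Dat.A0, Dat.A1, Dat.A2, Dat.K1, Dat.K2, Dat.E1, Dat.E2, Dat.M2, Dat.L2,
    Dat.C2, Dat.T1, f1a, f1b]

theorem fam2 : FamI (3377 / 10000) (-3001 / 10000) (4439 / 10000) ((154 / 125) ^ 2 - 1) ((156 / 125) ^ 2 - 1)
    ⟨(35041 / 100000), (-10313 / 25000), (9311 / 10000), (6183 / 100000), 0, (0), 0, (4603 / 20000)⟩ := by
  refine Dat.famI_of_ends f2a_ok f2b_ok (z0 := (31 / 25)) (Ua := (103059 / 200000)) (Ub := (554669 / 1000000)) (Va := (4801 / 2500)) (Vb := (8917 / 5000))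
    (by norm_num) (by norm_num) (by norm_num) (by norm_num) (by norm_num) (by norm_num) (by norm_num)
    (by norm_num) (by norm_num) (by norm_num) (by norm_num) hW ?_ ?_ ?_ ?_
    ?_ ?_ ?_ ?_ ?_ ?_ ?_ ?_ ?_ ?_ ?_ ?_ ?_ ?_ ?_ ?_ ?_ ?_ ?_ ?_ ?_ ?_
  all_goals norm_num [Wtan, Wz, Dat.A0, Dat.A1, Dat.A2, Dat.K1, Dat.K2, Dat.E1, Dat.E2, Dat.M2, Dat.L2,
    Dat.C2, Dat.T1, f2a, f2b]

def dz : DatZ :=
  { N := 1000000, a0 := 337700, a1 := -300100, a2 := 443900, l0 := 51320, l1 := 492550, v0 := 12468062, v1 := -8561421, NR := 100000000, R := [(-100000000, 100000000), (-300000000, 200000000), (820162205, -628668170), (2020284517, -1521299157), (-9299235813, 7292921853), (-7169686016, 5064835861), (98396937783, -75735749762), (-231116324904, 179521237569), (261141707503, -203685275751), (-148718001766, 116279778312), (34248726513, -26821330837)] }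

set_option maxRecDepth 100000 in
theorem dz_D : run 3 844 11 [1, 51, 9] [4096, 4096, 5112] [[dz.Rs.e, dz.Q2.e, dz.QV.e]]
    (.node 1 (.leaf 0) (.node 1 (.leaf 0) (.node 1 (.node 1 (.leaf 0) (.node 1 (.leaf 0) (.node 1 (.node 2 (.leaf 0) (.leaf 0)) (.node 2 (.leaf 0) (.leaf 0))))) (.node 1 (.node 1 (.node 1 (.node 2 (.leaf 0) (.leaf 0)) (.node 2 (.leaf 0) (.leaf 0))) (.node 1 (.node 2 (.leaf 0) (.leaf 0)) (.node 2 (.leaf 0) (.leaf 0)))) (.node 1 (.node 1 (.node 2 (.leaf 0) (.leaf 0)) (.node 2 (.leaf 0) (.leaf 0))) (.node 1 (.node 2 (.leaf 0) (.leaf 0)) (.node 2 (.leaf 0) (.leaf 0)))))))) [(0, 2 ^ 11), (0, 2 ^ 11), (2523, 2556)] = true := by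
  decide +kernel

set_option maxRecDepth 100000 in
theorem dz_P : run 3 430 11 [8, 14, 9] [4096, 4096, 5112] [[dz.G.e]]
    (.node 0 (.leaf 0) (.node 1 (.node 0 (.leaf 0) (.node 1 (.leaf 0) (.leaf 0))) (.leaf 0))) [(0, 2 ^ 11), (0, 2 ^ 11), (2523, 2556)] = true := by
  decide +kernel

theorem dict : CertI (3377 / 10000) (-3001 / 10000) (4439 / 10000) ((154 / 125) ^ 2 - 1) ((156 / 125) ^ 2 - 1) 1 0 1 (1283 / 25000) (9851 / 20000) := by
  refine DatZ.certI dz (by decide) dz_D dz_P ?_ ?_ ?_ ?_ ?_ (by norm_num) (by norm_num) (by norm_num)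
    (by norm_num) (by norm_num) (by norm_num) (by norm_num) (by norm_num) (by norm_num) hW
  all_goals norm_num [DatZ.A0, DatZ.A1, DatZ.A2, DatZ.L0, DatZ.L1, dz]

end Crest.Agent.R307.MO06
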