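import Crest.Agent.R307.PIDict

/-!
Row 307 (S0471), regime M, pointwise certificates on one c-interval (generated, helper14).
-/

set_option autoImplicit false

namespace Crest.Agent.R307.MO07

open Crest.Agent.KB Crest.Agent.R307.PIConic Crest.Agent.R307.GenInt

def f1a : Dat :=
  { N := 5000000000, a0 := 1972500000, a1 := -1687000000, a2 := 1680000000, k1 := 1944450000, k2 := -1944450000, e1 := 2552593072, e2 := 367690152, m2 := 1111054065, l2 := 3705643755, cn := 87216921, cd := 244140625, NR := 100000000, R := [26397982, -47033478, 22622627, 160516554, -506565959, 758984759, -649435507, 303857632, -60414167], tn := 1, td := 1 }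

set_option maxRecDepth 100000 in
theorem f1a_D : run 2 387 4 [1, 43] [32, 32] [[f1a.Q1.e, f1a.Q2.e]]
    (.node 1 (.node 1 (.leaf 0) (.leaf 0)) (.node 1 (.leaf 0) (.node 1 (.leaf 0) (.node 1 (.leaf 0) (.leaf 0))))) [(0, 2 ^ 4), (0, 2 ^ 4)] = true := by
  decide +kernel

set_option maxRecDepth 100000 in
theorem f1a_P : run 2 732 11 [15, 21] [4096, 4096] [f1a.c1, f1a.c2, f1a.c3]
    (.node 0 (.node 1 (.node 0 (.leaf 1) (.leaf 1)) (.leaf 1)) (.node 1 (.node 0 (.leaf 1) (.node 1 (.node 0 (.leaf 1) (.node 1 (.node 0 (.leaf 1) (.node 1 (.node 0 (.leaf 1) (.node 1 (.node 0 (.leaf 1) (.node 1 (.leaf 0) (.leaf 1))) (.leaf 1))) (.leaf 1))) (.leaf 1))) (.leaf 1))) (.leaf 1))) [(0, 2 ^ 11), (0, 2 ^ 11)] = true := by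
  decide +kernel

theorem f1a_ok : f1a.OK :=
  ⟨_, _, _, _, _, _, _, _, _, _, by decide, f1a_D, f1a_P⟩

def f1b : Dat :=
  { N := 1000000000, a0 := 394500000, a1 := -337400000, a2 := 336000000, k1 := 388890000, k2 := -388890000, e1 := 540840446, e2 := 77905761, m2 := 209707355, l2 := 699426585, cn := 25065539041, cd := 62500000000, NR := 100000000, R := [27798051, -44244076, 16930455, 136446484, -387351161, 532139973, -420587182, 182896948, -34003699], tn := 1, td := 1 }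

set_option maxRecDepth 100000 in
theorem f1b_D : run 2 393 4 [1, 43] [32, 32] [[f1b.Q1.e, f1b.Q2.e]]
    (.node 1 (.leaf 0) (.node 1 (.leaf 0) (.node 1 (.leaf 0) (.node 1 (.leaf 0) (.leaf 0))))) [(0, 2 ^ 4), (0, 2 ^ 4)] = true := by
  decide +kernel

set_option maxRecDepth 100000 in
theorem f1b_P : run 2 754 11 [15, 21] [4096, 4096] [f1b.c1, f1b.c2, f1b.c3]
    (.node 0 (.leaf 1) (.node 1 (.node 0 (.leaf 1) (.node 1 (.node 0 (.leaf 1) (.node 1 (.node 0 (.leaf 1) (.node 1 (.node 0 (.leaf 1) (.node 1 (.node 0 (.leaf 1) (.node 1 (.node 0 (.leaf 1) (.node 1 (.node 0 (.leaf 1) (.node 1 (.node 0 (.leaf 1) (.node 1 (.node 0 (.leaf 1) (.node 1 (.node 0 (.leaf 1) (.node 1 (.leaf 0) (.leaf 1))) (.leaf 1))) (.leaf 1))) (.leaf 1))) (.leaf 1))) (.leaf 1))) (.leaf 1))) (.leaf 1))) (.leaf 1))) (.leaf 1))) (.leaf 1))) [(0, 2 ^ 11), (0, 2 ^ 11)] = true := by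
  decide +kernel

theorem f1b_ok : f1b.OK :=
  ⟨_, _, _, _, _, _, _, _, _, _, by decide, f1b_D, f1b_P⟩

def f2a : Dat :=
  { N := 5000000000, a0 := 1972500000, a1 := -1687000000, a2 := 1680000000, k1 := 1951700000, k2 := -2011550000, e1 := 2562084912, e2 := 396996208, m2 := 898586865, l2 := 3785235960, cn := 87216921, cd := 244140625, NR := 100000000, R := [26397982, -47033478, 22622627, 160516554, -506565959, 758984759, -649435507, 303857632, -60414167], tn := 1, td := 1 }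

set_option maxRecDepth 100000 in
theorem f2a_D : run 2 387 4 [1, 43] [32, 32] [[f2a.Q1.e, f2a.Q2.e]]
    (.node 1 (.node 1 (.leaf 0) (.leaf 0)) (.node 1 (.leaf 0) (.node 1 (.leaf 0) (.node 1 (.leaf 0) (.leaf 0))))) [(0, 2 ^ 4), (0, 2 ^ 4)] = true := by
  decide +kernel

set_option maxRecDepth 100000 in
theorem f2a_P : run 2 732 11 [15, 21] [4096, 4096] [f2a.c1, f2a.c2, f2a.c3]
    (.node 0 (.node 1 (.node 0 (.leaf 1) (.leaf 1)) (.leaf 1)) (.node 1 (.node 0 (.leaf 1) (.node 1 (.node 0 (.leaf 1) (.node 1 (.node 0 (.leaf 1) (.node 1 (.node 0 (.leaf 1) (.node 1 (.node 0 (.leaf 1) (.node 1 (.leaf 0) (.node 0 (.leaf 1) (.leaf 0)))) (.leaf 1))) (.leaf 1))) (.leaf 1))) (.leaf 1))) (.node 0 (.leaf 1) (.node 1 (.leaf 1) (.node 0 (.leaf 1) (.node 1 (.leaf 1) (.node 0 (.leaf 1) (.node 1 (.leaf 1) (.node 0 (.node 1 (.leaf 1) (.node 0 (.leaf 1) (.leaf 0))) (.node 1 (.node 0 (.leaf 1) (.leaf 0)) (.leaf 0)))))))))))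 [(0, 2 ^ 11), (0, 2 ^ 11)] = true := by
  decide +kernel

theorem f2a_ok : f2a.OK :=
  ⟨_, _, _, _, _, _, _, _, _, _, by decide, f2a_D, f2a_P⟩

def f2b : Dat :=
  { N := 1000000000, a0 := 394500000, a1 := -337400000, a2 := 336000000, k1 := 390340000, k2 := -402310000, e1 := 542851566, e2 := 84115094, m2 := 169604955, l2 := 714449320, cn := 25065539041, cd := 62500000000, NR := 100000000, R := [27798051, -44244076, 16930455, 136446484, -387351161, 532139973, -420587182, 182896948, -34003699], tn := 1, td := 1 }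

set_option maxRecDepth 100000 in
theorem f2b_D : run 2 393 4 [1, 43] [32, 32] [[f2b.Q1.e, f2b.Q2.e]]
    (.node 1 (.leaf 0) (.node 1 (.leaf 0) (.node 1 (.leaf 0) (.node 1 (.leaf 0) (.leaf 0))))) [(0, 2 ^ 4), (0, 2 ^ 4)] = true := by
  decide +kernel

set_option maxRecDepth 100000 in
theorem f2b_P : run 2 754 11 [15, 21] [4096, 4096] [f2b.c1, f2b.c2, f2b.c3]
    (.node 0 (.leaf 1) (.node 1 (.node 0 (.leaf 1) (.node 1 (.node 0 (.leaf 1) (.node 1 (.node 0 (.leaf 1) (.node 1 (.node 0 (.leaf 1) (.node 1 (.node 0 (.leaf 1) (.node 1 (.node 0 (.leaf 1) (.node 1 (.node 0 (.leaf 1) (.node 1 (.node 0 (.leaf 1) (.node 1 (.node 0 (.leaf 1) (.node 1 (.node 0 (.leaf 1) (.node 1 (.leaf 0) (.leaf 1))) (.leaf 1))) (.leaf 1))) (.leaf 1))) (.leaf 1))) (.leaf 1))) (.leaf 1))) (.leaf 1))) (.leaf 1))) (.leaf 1))) (.node 0 (.leaf 1) (.node 1 (.leaf 1) (.node 0 (.leaf 1) (.node 1 (.leaf 1) (.node 0 (.leaf 1) (.node 1 (.leaf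 1) (.node 0 (.node 1 (.leaf 1) (.leaf 0)) (.node 1 (.node 0 (.leaf 1) (.leaf 0)) (.leaf 0))))))))))) [(0, 2 ^ 11), (0, 2 ^ 11)] = true := by
  decide +kernel

theorem f2b_ok : f2b.OK :=
  ⟨_, _, _, _, _, _, _, _, _, _, by decide, f2b_D, f2b_P⟩

lemma hW : ∀ c : ℝ, (158 / 125) ^ 2 - 1 ≤ c → c ≤ (639 / 500) ^ 2 - 1 → 0 ≤ Wf (789 / 2000) (-1687 / 5000) (42 / 125) c := by
  intro c h1 h2
  exact (Wf_pos (by norm_num) (by norm_num) (by norm_num at h1; linarith) (by norm_num at h2; linarith)).le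

theorem fam1 : FamI (789 / 2000) (-1687 / 5000) (42 / 125) ((158 / 125) ^ 2 - 1) ((639 / 500) ^ 2 - 1)
    ⟨(38889 / 100000), (-38889 / 100000), (10757 / 12500), (3099 / 25000), 0, (13387 / 100000), 0, (44649 / 100000)⟩ := by
  refine Dat.famI_of_ends f1a_ok f1b_ok (z0 := (1271 / 1000)) (Ua := (14831 / 25000)) (Ub := (25139 / 40000)) (Va := (16599 / 10000)) (Vb := (3133 / 2000))
    (by norm_num) (by norm_num) (by norm_num) (by norm_num) (by norm_num) (by norm_num) (by norm_num)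
    (by norm_num) (by norm_num) (by norm_num) (by norm_num) hW ?_ ?_ ?_ ?_
    ?_ ?_ ?_ ?_ ?_ ?_ ?_ ?_ ?_ ?_ ?_ ?_ ?_ ?_ ?_ ?_ ?_ ?_ ?_ ?_ ?_ ?_
  all_goals norm_num [Wtan, Wz, Dat.A0, Dat.A1, Dat.A2, Dat.K1, Dat.K2, Dat.E1, Dat.E2, Dat.M2, Dat.L2,
    Dat.C2, Dat.T1, f1a, f1b]

theorem fam2 : FamI (789 / 2000) (-1687 / 5000) (42 / 125) ((158 / 125) ^ 2 - 1) ((639 / 500) ^ 2 - 1)
    ⟨(19517 / 50000), (-40231 / 100000), (10797 / 12500), (1673 / 12500), 0, (10827 / 100000), 0, (5701 / 12500)⟩ := by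
  refine Dat.famI_of_ends f2a_ok f2b_ok (z0 := (1271 / 1000)) (Ua := (14831 / 25000)) (Ub := (25139 / 40000)) (Va := (16599 / 10000)) (Vb := (3133 / 2000))
    (by norm_num) (by norm_num) (by norm_num) (by norm_num) (by norm_num) (by norm_num) (by norm_num)
    (by norm_num) (by norm_num) (by norm_num) (by norm_num) hW ?_ ?_ ?_ ?_
    ?_ ?_ ?_ ?_ ?_ ?_ ?_ ?_ ?_ ?_ ?_ ?_ ?_ ?_ ?_ ?_ ?_ ?_ ?_ ?_ ?_ ?_
  all_goals norm_num [Wtan, Wz, Dat.A0, Dat.A1, Dat.A2, Dat.K1, Dat.K2, Dat.E1, Dat.E2, Dat.M2, Dat.L2,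
    Dat.C2, Dat.T1, f2a, f2b]

def dz : DatZ :=
  { N := 250000, a0 := 98625, a1 := -84350, a2 := 84000, l0 := 0, l1 := 110870, v0 := 2524958, v1 := -1669268, NR := 100000000, R := [(-100000000, 100000000), (-300000000, 200000000), (584806848, -441038288), (1466637301, -1080027383), (-3717835657, 2841191208), (-14557176302, 10975028507), (77461475754, -59113796981), (-151714131684, 116336586788), (155727870168, -119758564741), (-83275223353, 64164295667), (18333587050, -14145539158)] }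

set_option maxRecDepth 100000 in
theorem dz_D : run 3 841 11 [1, 51, 9] [4096, 4096, 5236] [[dz.Rs.e, dz.Q2.e, dz.QV.e]]
    (.node 1 (.leaf 0) (.node 1 (.leaf 0) (.node 1 (.node 1 (.node 1 (.leaf 0) (.node 1 (.leaf 0) (.node 1 (.node 2 (.leaf 0) (.leaf 0)) (.node 2 (.leaf 0) (.leaf 0))))) (.node 1 (.node 1 (.node 1 (.node 2 (.leaf 0) (.leaf 0)) (.node 2 (.leaf 0) (.leaf 0))) (.node 1 (.node 2 (.leaf 0) (.leaf 0)) (.node 2 (.leaf 0) (.leaf 0)))) (.node 1 (.node 1 (.node 2 (.leaf 0) (.leaf 0)) (.node 2 (.leaf 0) (.leaf 0))) (.node 1 (.node 2 (.leaf 0) (.leaf 0)) (.node 2 (.leaf 0) (.leaf 0)))))) (.node 1 (.node 1 (.node 1 (.node 1 (.node 2 (.leaf 0) (.leaf 0)) (.node 2 (.leaf 0) (.leaf 0))) (.node 1 (.node 2 (.leaf 0) (.leaf 0)) (.node 2 (.leaf 0) (.leaf 0)))) (.node 1 (.node 1 (.node 2 (.leaf 0) (.leaf 0)) (.node 2 (.leaf 0) (.leaf 0))) (.node 1 (.node 2 (.leaf 0) (.leaf 0)) (.node 2 (.leaf 0) (.leaf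 0))))) (.node 1 (.node 1 (.node 1 (.node 2 (.leaf 0) (.leaf 0)) (.node 2 (.leaf 0) (.leaf 0))) (.node 1 (.node 2 (.leaf 0) (.leaf 0)) (.node 2 (.leaf 0) (.leaf 0)))) (.node 1 (.node 1 (.node 2 (.leaf 0) (.leaf 0)) (.node 2 (.leaf 0) (.leaf 0))) (.node 1 (.node 2 (.leaf 0) (.leaf 0)) (.node 2 (.leaf 0) (.leaf 0))))))))) [(0, 2 ^ 11), (0, 2 ^ 11), (2588, 2618)] = true := by
  decide +kernel

set_option maxRecDepth 100000 in
theorem dz_P : run 3 425 11 [8, 14, 9] [4096, 4096, 5236] [[dz.G.e]]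
    (.leaf 0) [(0, 2 ^ 11), (0, 2 ^ 11), (2588, 2618)] = true := by
  decide +kernel

theorem dict : CertI (789 / 2000) (-1687 / 5000) (42 / 125) ((158 / 125) ^ 2 - 1) ((639 / 500) ^ 2 - 1) 1 0 1 (0) (11087 / 25000) := by
  refine DatZ.certI dz (by decide) dz_D dz_P ?_ ?_ ?_ ?_ ?_ (by norm_num) (by norm_num) (by norm_num)
    (by norm_num) (by norm_num) (by norm_num) (by norm_num) (by norm_num) (by norm_num) hW
  all_goals norm_num [DatZ.A0, DatZ.A1, DatZ.A2, DatZ.L0, DatZ.L1, dz]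

end Crest.Agent.R307.MO07
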