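import Crest.Agent.R307.PIDict

/-!
Row 307 (S0471), regime M, pointwise certificates on one c-interval (generated, helper14).
-/

set_option autoImplicit false

namespace Crest.Agent.R307.MO08

open Crest.Agent.KB Crest.Agent.R307.PIConic Crest.Agent.R307.GenInt

def f1a : Dat :=
  { N := 10000000000, a0 := 3928000000, a1 := -3252000000, a2 := 2854000000, k1 := 4095500000, k2 := -4095500000, e1 := 5317349413, e2 := 567338145, m2 := 3409749220, l2 := 7099890580, cn := 25065539041, cd := 62500000000, NR := 100000000, R := [27798051, -44244076, 16930455, 136446484, -387351161, 532139973, -420587182, 182896948, -34003699], tn := 1, td := 1 }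

set_option maxRecDepth 100000 in
theorem f1a_D : run 2 393 4 [1, 43] [32, 32] [[f1a.Q1.e, f1a.Q2.e]]
    (.node 1 (.leaf 0) (.node 1 (.leaf 0) (.node 1 (.leaf 0) (.node 1 (.leaf 0) (.leaf 0))))) [(0, 2 ^ 4), (0, 2 ^ 4)] = true := by
  decide +kernel

set_option maxRecDepth 100000 in
theorem f1a_P : run 2 767 11 [15, 21] [4096, 4096] [f1a.c1, f1a.c2, f1a.c3]
    (.node 0 (.leaf 1) (.node 1 (.node 0 (.leaf 1) (.node 1 (.node 0 (.leaf 1) (.node 1 (.node 0 (.leaf 1) (.node 1 (.node 0 (.leaf 1) (.node 1 (.node 0 (.leaf 1) (.node 1 (.node 0 (.leaf 1) (.leaf 0)) (.leaf 1))) (.leaf 1))) (.leaf 1))) (.leaf 1))) (.leaf 1))) (.leaf 1))) [(0, 2 ^ 11), (0, 2 ^ 11)] = true := by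
  decide +kernel

theorem f1a_ok : f1a.OK :=
  ⟨_, _, _, _, _, _, _, _, _, _, by decide, f1a_D, f1a_P⟩

def f1b : Dat :=
  { N := 10000000000, a0 := 3928000000, a1 := -3252000000, a2 := 2854000000, k1 := 4095500000, k2 := -4095500000, e1 := 5531653991, e2 := 590203515, m2 := 3276299520, l2 := 6822017280, cn := 106007616, cd := 244140625, NR := 100000000, R := [28798236, -42261218, 13642738, 119147244, -310738619, 393804346, -286026042, 113706185, -19218015], tn := 1, td := 1 }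

set_option maxRecDepth 100000 in
theorem f1b_D : run 2 382 4 [1, 43] [32, 32] [[f1b.Q1.e, f1b.Q2.e]]
    (.node 1 (.leaf 0) (.node 1 (.leaf 0) (.node 1 (.leaf 0) (.node 1 (.leaf 0) (.leaf 0))))) [(0, 2 ^ 4), (0, 2 ^ 4)] = true := by
  decide +kernel

set_option maxRecDepth 100000 in
theorem f1b_P : run 2 734 11 [15, 21] [4096, 4096] [f1b.c1, f1b.c2, f1b.c3]
    (.node 0 (.leaf 1) (.node 1 (.node 0 (.leaf 1) (.node 1 (.node 0 (.leaf 1) (.node 1 (.node 0 (.leaf 1) (.node 1 (.node 0 (.leaf 1) (.node 1 (.node 0 (.leaf 1) (.node 1 (.node 0 (.leaf 1) (.node 1 (.node 0 (.leaf 1) (.node 1 (.node 0 (.leaf 1) (.node 1 (.node 0 (.leaf 1) (.node 1 (.node 0 (.leaf 1) (.node 1 (.leaf 0) (.leaf 1))) (.leaf 1))) (.leaf 1))) (.leaf 1))) (.leaf 1))) (.leaf 1))) (.leaf 1))) (.leaf 1))) (.leaf 1))) (.leaf 1))) (.leaf 1))) [(0, 2 ^ 11), (0, 2 ^ 11)] = true := by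
  decide +kernel

theorem f1b_ok : f1b.OK :=
  ⟨_, _, _, _, _, _, _, _, _, _, by decide, f1b_D, f1b_P⟩

def f2a : Dat :=
  { N := 50000000000, a0 := 19640000000, a1 := -16260000000, a2 := 14270000000, k1 := 20628000000, k2 := -22403500000, e1 := 26782111440, e2 := 4065767081, m2 := 15890706300, l2 := 34202697700, cn := 25065539041, cd := 62500000000, NR := 100000000, R := [27798051, -44244076, 16930455, 136446484, -387351161, 532139973, -420587182, 182896948, -34003699], tn := 1, td := 1 }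

set_option maxRecDepth 100000 in
theorem f2a_D : run 2 393 4 [1, 43] [32, 32] [[f2a.Q1.e, f2a.Q2.e]]
    (.node 1 (.leaf 0) (.node 1 (.leaf 0) (.node 1 (.leaf 0) (.node 1 (.leaf 0) (.leaf 0))))) [(0, 2 ^ 4), (0, 2 ^ 4)] = true := by
  decide +kernel

set_option maxRecDepth 100000 in
theorem f2a_P : run 2 776 11 [15, 21] [4096, 4096] [f2a.c1, f2a.c2, f2a.c3]
    (.node 0 (.node 1 (.node 0 (.leaf 1) (.leaf 1)) (.leaf 1)) (.node 1 (.node 0 (.leaf 1) (.node 1 (.node 0 (.leaf 1) (.node 1 (.node 0 (.leaf 1) (.node 1 (.node 0 (.leaf 1) (.node 1 (.node 0 (.leaf 1) (.node 1 (.node 0 (.leaf 1) (.leaf 0)) (.node 0 (.leaf 1) (.leaf 0)))) (.leaf 1))) (.leaf 1))) (.leaf 1))) (.leaf 1))) (.node 0 (.leaf 1) (.node 1 (.leaf 1) (.node 0 (.leaf 1) (.node 1 (.leaf 1) (.node 0 (.leaf 1) (.leaf 1)))))))) [(0, 2 ^ 11), (0, 2 ^ 11)] = true := by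
  decide +kernel

theorem f2a_ok : f2a.OK :=
  ⟨_, _, _, _, _, _, _, _, _, _, by decide, f2a_D, f2a_P⟩

def f2b : Dat :=
  { N := 50000000000, a0 := 19640000000, a1 := -16260000000, a2 := 14270000000, k1 := 20628000000, k2 := -22403500000, e1 := 27861508080, e2 := 4229629267, m2 := 15268780800, l2 := 32864083200, cn := 106007616, cd := 244140625, NR := 100000000, R := [28798236, -42261218, 13642738, 119147244, -310738619, 393804346, -286026042, 113706185, -19218015], tn := 1, td := 1 }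

set_option maxRecDepth 100000 in
theorem f2b_D : run 2 382 4 [1, 43] [32, 32] [[f2b.Q1.e, f2b.Q2.e]]
    (.node 1 (.leaf 0) (.node 1 (.leaf 0) (.node 1 (.leaf 0) (.node 1 (.leaf 0) (.leaf 0))))) [(0, 2 ^ 4), (0, 2 ^ 4)] = true := by
  decide +kernel

set_option maxRecDepth 100000 in
theorem f2b_P : run 2 743 11 [15, 21] [4096, 4096] [f2b.c1, f2b.c2, f2b.c3]
    (.node 0 (.leaf 1) (.node 1 (.node 0 (.leaf 1) (.node 1 (.node 0 (.leaf 1) (.node 1 (.node 0 (.leaf 1) (.node 1 (.node 0 (.leaf 1) (.node 1 (.node 0 (.leaf 1) (.node 1 (.node 0 (.leaf 1) (.node 1 (.node 0 (.leaf 1) (.node 1 (.node 0 (.leaf 1) (.node 1 (.node 0 (.leaf 1) (.node 1 (.node 0 (.leaf 1) (.node 1 (.leaf 0) (.leaf 1))) (.leaf 1))) (.leaf 1))) (.leaf 1))) (.leaf 1))) (.leaf 1))) (.leaf 1))) (.leaf 1))) (.leaf 1))) (.leaf 1))) (.node 0 (.leaf 1) (.leaf 1)))) [(0, 2 ^ 11), (0, 2 ^ 11)] = true := by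
  decide +kernel

theorem f2b_ok : f2b.OK :=
  ⟨_, _, _, _, _, _, _, _, _, _, by decide, f2b_D, f2b_P⟩

lemma hW : ∀ c : ℝ, (639 / 500) ^ 2 - 1 ≤ c → c ≤ (161 / 125) ^ 2 - 1 → 0 ≤ Wf (491 / 1250) (-813 / 2500) (1427 / 5000) c := by
  intro c h1 h2
  exact (Wf_pos (by norm_num) (by norm_num) (by norm_num at h1; linarith) (by norm_num at h2; linarith)).le

theorem fam1 : FamI (491 / 1250) (-813 / 2500) (1427 / 5000) ((639 / 500) ^ 2 - 1) ((161 / 125) ^ 2 - 1)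
    ⟨(8191 / 20000), (-8191 / 20000), (17011 / 20000), (363 / 4000), 0, (21877 / 100000), 0, (45553 / 100000)⟩ := by
  refine Dat.famI_of_ends f1a_ok f1b_ok (z0 := (1283 / 1000)) (Ua := (312583 / 500000)) (Ub := (325181 / 500000)) (Va := (7793 / 5000)) (Vb := (936 / 625))
    (by norm_num) (by norm_num) (by norm_num) (by norm_num) (by norm_num) (by norm_num) (by norm_num)
    (by norm_num) (by norm_num) (by norm_num) (by norm_num) hW ?_ ?_ ?_ ?_
    ?_ ?_ ?_ ?_ ?_ ?_ ?_ ?_ ?_ ?_ ?_ ?_ ?_ ?_ ?_ ?_ ?_ ?_ ?_ ?_ ?_ ?_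
  all_goals norm_num [Wtan, Wz, Dat.A0, Dat.A1, Dat.A2, Dat.K1, Dat.K2, Dat.E1, Dat.E2, Dat.M2, Dat.L2,
    Dat.C2, Dat.T1, f1a, f1b]

theorem fam2 : FamI (491 / 1250) (-813 / 2500) (1427 / 5000) ((639 / 500) ^ 2 - 1) ((161 / 125) ^ 2 - 1)
    ⟨(5157 / 12500), (-44807 / 100000), (1071 / 1250), (13007 / 100000), 0, (20391 / 100000), 0, (43889 / 100000)⟩ := by
  refine Dat.famI_of_ends f2a_ok f2b_ok (z0 := (1283 / 1000)) (Ua := (312583 / 500000)) (Ub := (325181 / 500000)) (Va := (7793 / 5000)) (Vb := (936 / 625))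
    (by norm_num) (by norm_num) (by norm_num) (by norm_num) (by norm_num) (by norm_num) (by norm_num)
    (by norm_num) (by norm_num) (by norm_num) (by norm_num) hW ?_ ?_ ?_ ?_
    ?_ ?_ ?_ ?_ ?_ ?_ ?_ ?_ ?_ ?_ ?_ ?_ ?_ ?_ ?_ ?_ ?_ ?_ ?_ ?_ ?_ ?_
  all_goals norm_num [Wtan, Wz, Dat.A0, Dat.A1, Dat.A2, Dat.K1, Dat.K2, Dat.E1, Dat.E2, Dat.M2, Dat.L2,
    Dat.C2, Dat.T1, f2a, f2b]

def dz : DatZ :=
  { N := 1000000, a0 := 392800, a1 := -325200, a2 := 285400, l0 := 0, l1 := 462010, v0 := 9355833, v1 := -6101162, NR := 100000000, R := [(-100000000, 100000000), (-300000000, 200000000), (512424415, -384337181), (1312717575, -959602105), (-2659038378, 2012809726), (-13459175069, 10115903513), (63182940914, -47942282632), (-117308429953, 89417764396), (116154775573, -88796892312), (-60473360962, 46324331702), (13041254992, -10004872878)] }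

set_option maxRecDepth 100000 in
theorem dz_D : run 3 839 11 [1, 51, 9] [4096, 4096, 5276] [[dz.Rs.e, dz.Q2.e, dz.QV.e]]
    (.node 1 (.leaf 0) (.node 1 (.leaf 0) (.node 1 (.node 1 (.node 1 (.leaf 0) (.node 1 (.leaf 0) (.node 1 (.node 2 (.leaf 0) (.leaf 0)) (.node 2 (.leaf 0) (.leaf 0))))) (.node 1 (.node 1 (.node 1 (.node 2 (.leaf 0) (.leaf 0)) (.node 2 (.leaf 0) (.leaf 0))) (.node 1 (.node 2 (.leaf 0) (.leaf 0)) (.node 2 (.leaf 0) (.leaf 0)))) (.node 1 (.node 1 (.node 2 (.leaf 0) (.leaf 0)) (.node 2 (.leaf 0) (.leaf 0))) (.node 1 (.node 2 (.leaf 0) (.leaf 0)) (.node 2 (.leaf 0) (.leaf 0)))))) (.node 1 (.node 1 (.node 1 (.node 1 (.node 2 (.leaf 0) (.leaf 0)) (.node 2 (.leaf 0) (.leaf 0))) (.node 1 (.node 2 (.leaf 0) (.leaf 0)) (.node 2 (.leaf 0) (.leaf 0)))) (.node 1 (.node 1 (.node 2 (.leaf 0) (.leaf 0)) (.node 2 (.leaf 0) (.leaf 0))) (.node 1 (.node 2 (.leaf 0) (.leaf 0)) (.node 2 (.leaf 0) (.leaf 0)))))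 (.node 1 (.node 1 (.node 1 (.node 2 (.leaf 0) (.leaf 0)) (.node 2 (.leaf 0) (.leaf 0))) (.node 1 (.node 2 (.leaf 0) (.leaf 0)) (.node 2 (.leaf 0) (.leaf 0)))) (.node 1 (.node 1 (.node 2 (.leaf 0) (.leaf 0)) (.node 2 (.leaf 0) (.leaf 0))) (.node 1 (.node 2 (.leaf 0) (.leaf 0)) (.node 2 (.leaf 0) (.leaf 0))))))))) [(0, 2 ^ 11), (0, 2 ^ 11), (2617, 2638)] = true := by
  decide +kernel

set_option maxRecDepth 100000 in
theorem dz_P : run 3 429 11 [8, 14, 9] [4096, 4096, 5276] [[dz.G.e]]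
    (.leaf 0) [(0, 2 ^ 11), (0, 2 ^ 11), (2617, 2638)] = true := by
  decide +kernel

theorem dict : CertI (491 / 1250) (-813 / 2500) (1427 / 5000) ((639 / 500) ^ 2 - 1) ((161 / 125) ^ 2 - 1) 1 0 1 (0) (46201 / 100000) := by
  refine DatZ.certI dz (by decide) dz_D dz_P ?_ ?_ ?_ ?_ ?_ (by norm_num) (by norm_num) (by norm_num)
    (by norm_num) (by norm_num) (by norm_num) (by norm_num) (by norm_num) (by norm_num) hW
  all_goals norm_num [DatZ.A0, DatZ.A1, DatZ.A2, DatZ.L0, DatZ.L1, dz]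

end Crest.Agent.R307.MO08
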