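import Crest.Agent.R307.PIDict

/-!
Row 307 (S0471), regime M, pointwise certificates on one c-interval (generated, helper14).
-/

set_option autoImplicit false

namespace Crest.Agent.R307.MO09

open Crest.Agent.KB Crest.Agent.R307.PIConic Crest.Agent.R307.GenInt

def f1a : Dat :=
  { N := 50000000000, a0 := 20960000000, a1 := -17410000000, a2 := 13860000000, k1 := 21813000000, k2 := -21813000000, e1 := 28068912135, e2 := 2038375746, m2 := 22017048000, l2 := 34996976000, cn := 112763161, cd := 244140625, NR := 100000000, R := [29598429, -40677839, 11372580, 105780560, -255674095, 298421933, -196114625, 68614851, -9775100], tn := 1, td := 1 }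

set_option maxRecDepth 100000 in
theorem f1a_D : run 2 380 4 [1, 43] [32, 32] [[f1a.Q1.e, f1a.Q2.e]]
    (.node 1 (.leaf 0) (.node 1 (.leaf 0) (.node 1 (.leaf 0) (.leaf 0)))) [(0, 2 ^ 4), (0, 2 ^ 4)] = true := by
  decide +kernel

set_option maxRecDepth 100000 in
theorem f1a_P : run 2 742 11 [15, 21] [4096, 4096] [f1a.c1, f1a.c2, f1a.c3]
    (.node 0 (.node 1 (.leaf 1) (.leaf 1)) (.node 1 (.node 0 (.leaf 1) (.node 1 (.node 0 (.leaf 1) (.node 1 (.node 0 (.leaf 1) (.node 1 (.node 0 (.leaf 1) (.node 1 (.node 0 (.leaf 1) (.node 1 (.leaf 0) (.leaf 1))) (.leaf 1))) (.leaf 1))) (.leaf 1))) (.leaf 1))) (.leaf 1))) [(0, 2 ^ 11), (0, 2 ^ 11)] = true := by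
  decide +kernel

theorem f1a_ok : f1a.OK :=
  ⟨_, _, _, _, _, _, _, _, _, _, by decide, f1a_D, f1a_P⟩

def f1b : Dat :=
  { N := 100000000000, a0 := 41920000000, a1 := -34820000000, a2 := 27720000000, k1 := 43626000000, k2 := -43626000000, e1 := 58712218835, e2 := 4263705066, m2 := 42094614000, l2 := 66911068000, cn := 1973936041, cd := 3906250000, NR := 100000000, R := [30798746, -38304364, 8439312, 87071690, -184240012, 180850024, -89803101, 17125444, 695287], tn := 1, td := 1 }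

set_option maxRecDepth 100000 in
theorem f1b_D : run 2 380 4 [1, 43] [32, 32] [[f1b.Q1.e, f1b.Q2.e]]
    (.node 1 (.leaf 0) (.node 1 (.leaf 0) (.node 1 (.leaf 0) (.leaf 0)))) [(0, 2 ^ 4), (0, 2 ^ 4)] = true := by
  decide +kernel

set_option maxRecDepth 100000 in
theorem f1b_P : run 2 761 11 [15, 21] [4096, 4096] [f1b.c1, f1b.c2, f1b.c3]
    (.node 0 (.leaf 1) (.node 1 (.node 0 (.leaf 1) (.node 1 (.node 0 (.leaf 1) (.node 1 (.node 0 (.leaf 1) (.node 1 (.node 0 (.leaf 1) (.node 1 (.node 0 (.leaf 1) (.node 1 (.node 0 (.leaf 1) (.node 1 (.node 0 (.leaf 1) (.node 1 (.node 0 (.leaf 1) (.node 1 (.node 0 (.leaf 1) (.node 1 (.node 0 (.leaf 1) (.leaf 0)) (.leaf 1))) (.leaf 1))) (.leaf 1))) (.leaf 1))) (.leaf 1))) (.leaf 1))) (.leaf 1))) (.leaf 1))) (.leaf 1))) (.leaf 1))) [(0, 2 ^ 11), (0, 2 ^ 11)] = true := by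
  decide +kernel

theorem f1b_ok : f1b.OK :=
  ⟨_, _, _, _, _, _, _, _, _, _, by decide, f1b_D, f1b_P⟩

def f2a : Dat :=
  { N := 50000000000, a0 := 20960000000, a1 := -17410000000, a2 := 13860000000, k1 := 22267000000, k2 := -24149500000, e1 := 28654094997, e2 := 4416817482, m2 := 17894226400, l2 := 31465211200, cn := 112763161, cd := 244140625, NR := 100000000, R := [29598429, -40677839, 11372580, 105780560, -255674095, 298421933, -196114625, 68614851, -9775100], tn := 1, td := 1 }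

set_option maxRecDepth 100000 in
theorem f2a_D : run 2 380 4 [1, 43] [32, 32] [[f2a.Q1.e, f2a.Q2.e]]
    (.node 1 (.leaf 0) (.node 1 (.leaf 0) (.node 1 (.leaf 0) (.leaf 0)))) [(0, 2 ^ 4), (0, 2 ^ 4)] = true := by
  decide +kernel

set_option maxRecDepth 100000 in
theorem f2a_P : run 2 742 11 [15, 21] [4096, 4096] [f2a.c1, f2a.c2, f2a.c3]
    (.node 0 (.node 1 (.node 0 (.leaf 1) (.leaf 1)) (.leaf 1)) (.node 1 (.node 0 (.leaf 1) (.node 1 (.node 0 (.leaf 1) (.node 1 (.node 0 (.leaf 1) (.node 1 (.node 0 (.leaf 1) (.node 1 (.node 0 (.leaf 1) (.node 1 (.leaf 0) (.node 0 (.leaf 1) (.leaf 0)))) (.node 0 (.leaf 1) (.node 1 (.node 0 (.leaf 1) (.leaf 0)) (.leaf 1))))) (.leaf 1))) (.leaf 1))) (.leaf 1))) (.node 0 (.leaf 1) (.node 1 (.leaf 1) (.leaf 1))))) [(0, 2 ^ 11), (0, 2 ^ 11)] = true := by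
  decide +kernel

theorem f2a_ok : f2a.OK :=
  ⟨_, _, _, _, _, _, _, _, _, _, by decide, f2a_D, f2a_P⟩

def f2b : Dat :=
  { N := 100000000000, a0 := 41920000000, a1 := -34820000000, a2 := 27720000000, k1 := 44534000000, k2 := -48299000000, e1 := 59936255737, e2 := 9238731922, m2 := 34212150200, l2 := 60158651600, cn := 1973936041, cd := 3906250000, NR := 100000000, R := [30798746, -38304364, 8439312, 87071690, -184240012, 180850024, -89803101, 17125444, 695287], tn := 1, td := 1 }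

set_option maxRecDepth 100000 in
theorem f2b_D : run 2 380 4 [1, 43] [32, 32] [[f2b.Q1.e, f2b.Q2.e]]
    (.node 1 (.leaf 0) (.node 1 (.leaf 0) (.node 1 (.leaf 0) (.leaf 0)))) [(0, 2 ^ 4), (0, 2 ^ 4)] = true := by
  decide +kernel

set_option maxRecDepth 100000 in
theorem f2b_P : run 2 761 11 [15, 21] [4096, 4096] [f2b.c1, f2b.c2, f2b.c3]
    (.node 0 (.leaf 1) (.node 1 (.node 0 (.leaf 1) (.node 1 (.node 0 (.leaf 1) (.node 1 (.node 0 (.leaf 1) (.node 1 (.node 0 (.leaf 1) (.node 1 (.node 0 (.leaf 1) (.node 1 (.node 0 (.leaf 1) (.node 1 (.node 0 (.leaf 1) (.node 1 (.node 0 (.leaf 1) (.node 1 (.node 0 (.leaf 1) (.node 1 (.node 0 (.leaf 1) (.leaf 0)) (.leaf 1))) (.leaf 1))) (.leaf 1))) (.leaf 1))) (.leaf 1))) (.leaf 1))) (.leaf 1))) (.leaf 1))) (.leaf 1))) (.leaf 1))) [(0, 2 ^ 11), (0, 2 ^ 11)] = true := by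
  decide +kernel

theorem f2b_ok : f2b.OK :=
  ⟨_, _, _, _, _, _, _, _, _, _, by decide, f2b_D, f2b_P⟩

lemma hW : ∀ c : ℝ, (162 / 125) ^ 2 - 1 ≤ c → c ≤ (327 / 250) ^ 2 - 1 → 0 ≤ Wf (262 / 625) (-1741 / 5000) (693 / 2500) c := by
  intro c h1 h2
  exact (Wf_pos (by norm_num) (by norm_num) (by norm_num at h1; linarith) (by norm_num at h2; linarith)).le

theorem fam1 : FamI (262 / 625) (-1741 / 5000) (693 / 2500) ((162 / 125) ^ 2 - 1) ((327 / 250) ^ 2 - 1)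
    ⟨(21813 / 50000), (-21813 / 50000), (16673 / 20000), (3027 / 50000), 0, (3021 / 10000), 0, (2401 / 5000)⟩ := by
  refine Dat.famI_of_ends f1a_ok f1b_ok (z0 := (651 / 500)) (Ua := (336699 / 500000)) (Ub := (704279 / 1000000)) (Va := (911 / 625)) (Vb := (6967 / 5000))
    (by norm_num) (by norm_num) (by norm_num) (by norm_num) (by norm_num) (by norm_num) (by norm_num)
    (by norm_num) (by norm_num) (by norm_num) (by norm_num) hW ?_ ?_ ?_ ?_
    ?_ ?_ ?_ ?_ ?_ ?_ ?_ ?_ ?_ ?_ ?_ ?_ ?_ ?_ ?_ ?_ ?_ ?_ ?_ ?_ ?_ ?_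
  all_goals norm_num [Wtan, Wz, Dat.A0, Dat.A1, Dat.A2, Dat.K1, Dat.K2, Dat.E1, Dat.E2, Dat.M2, Dat.L2,
    Dat.C2, Dat.T1, f1a, f1b]

theorem fam2 : FamI (262 / 625) (-1741 / 5000) (693 / 2500) ((162 / 125) ^ 2 - 1) ((327 / 250) ^ 2 - 1)
    ⟨(22267 / 50000), (-48299 / 100000), (85103 / 100000), (6559 / 50000), 0, (24553 / 100000), 0, (21587 / 50000)⟩ := by
  refine Dat.famI_of_ends f2a_ok f2b_ok (z0 := (651 / 500)) (Ua := (336699 / 500000)) (Ub := (704279 / 1000000)) (Va := (911 / 625)) (Vb := (6967 / 5000))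
    (by norm_num) (by norm_num) (by norm_num) (by norm_num) (by norm_num) (by norm_num) (by norm_num)
    (by norm_num) (by norm_num) (by norm_num) (by norm_num) hW ?_ ?_ ?_ ?_
    ?_ ?_ ?_ ?_ ?_ ?_ ?_ ?_ ?_ ?_ ?_ ?_ ?_ ?_ ?_ ?_ ?_ ?_ ?_ ?_ ?_ ?_
  all_goals norm_num [Wtan, Wz, Dat.A0, Dat.A1, Dat.A2, Dat.K1, Dat.K2, Dat.E1, Dat.E2, Dat.M2, Dat.L2,
    Dat.C2, Dat.T1, f2a, f2b]

def dz : DatZ :=
  { N := 1000000, a0 := 419200, a1 := -348200, a2 := 277200, l0 := 128600, l1 := 456370, v0 := 8393191, v1 := -5351540, NR := 100000000, R := [(-100000000, 100000000), (-300000000, 200000000), (413707554, -307940167), (1112714004, -804793971), (-1634130561, 1219274069), (-10383442928, 7736093915), (41797045231, -31389890444), (-70937494755, 53524346395), (65559416865, -49631759763), (-32286811077, 24504852495), (6653171720, -5059683251)] }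

set_option maxRecDepth 100000 in
theorem dz_D : run 3 836 11 [1, 51, 9] [4096, 4096, 5358] [[dz.Rs.e, dz.Q2.e, dz.QV.e]]
    (.node 1 (.leaf 0) (.node 1 (.leaf 0) (.node 1 (.node 1 (.node 1 (.node 1 (.leaf 0) (.node 1 (.node 2 (.leaf 0) (.leaf 0)) (.node 2 (.leaf 0) (.leaf 0)))) (.node 1 (.node 1 (.node 2 (.leaf 0) (.leaf 0)) (.node 2 (.leaf 0) (.leaf 0))) (.node 1 (.node 2 (.leaf 0) (.leaf 0)) (.node 2 (.leaf 0) (.leaf 0))))) (.node 1 (.node 1 (.node 1 (.node 2 (.leaf 0) (.leaf 0)) (.node 2 (.leaf 0) (.leaf 0))) (.node 1 (.node 2 (.leaf 0) (.leaf 0)) (.node 2 (.leaf 0) (.leaf 0)))) (.node 1 (.node 1 (.node 2 (.leaf 0) (.leaf 0)) (.node 2 (.leaf 0) (.leaf 0))) (.node 1 (.node 2 (.leaf 0) (.leaf 0)) (.node 2 (.leaf 0) (.leaf 0)))))) (.node 1 (.node 1 (.node 1 (.node 1 (.node 2 (.leaf 0) (.leaf 0)) (.node 2 (.leaf 0) (.leaf 0))) (.node 1 (.node 2 (.leaf 0) (.leaf 0)) (.node 2 (.leaf 0) (.leaf 0)))) (.node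 1 (.node 1 (.node 2 (.leaf 0) (.leaf 0)) (.node 2 (.leaf 0) (.leaf 0))) (.node 1 (.node 2 (.leaf 0) (.leaf 0)) (.node 2 (.leaf 0) (.leaf 0))))) (.node 1 (.node 1 (.node 1 (.node 2 (.leaf 0) (.leaf 0)) (.node 2 (.leaf 0) (.leaf 0))) (.node 1 (.node 2 (.leaf 0) (.leaf 0)) (.node 2 (.leaf 0) (.leaf 0)))) (.node 1 (.node 1 (.node 2 (.leaf 0) (.leaf 0)) (.node 2 (.leaf 0) (.leaf 0))) (.node 1 (.node 2 (.leaf 0) (.leaf 0)) (.node 2 (.leaf 0) (.leaf 0))))))))) [(0, 2 ^ 11), (0, 2 ^ 11), (2654, 2679)] = true := by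
  decide +kernel

set_option maxRecDepth 100000 in
theorem dz_P : run 3 428 11 [8, 14, 9] [4096, 4096, 5358] [[dz.G.e]]
    (.leaf 0) [(0, 2 ^ 11), (0, 2 ^ 11), (2654, 2679)] = true := by
  decide +kernel

theorem dict : CertI (262 / 625) (-1741 / 5000) (693 / 2500) ((162 / 125) ^ 2 - 1) ((327 / 250) ^ 2 - 1) 1 0 1 (643 / 5000) (45637 / 100000) := by
  refine DatZ.certI dz (by decide) dz_D dz_P ?_ ?_ ?_ ?_ ?_ (by norm_num) (by norm_num) (by norm_num)
    (by norm_num) (by norm_num) (by norm_num) (by norm_num) (by norm_num) (by norm_num) hW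
  all_goals norm_num [DatZ.A0, DatZ.A1, DatZ.A2, DatZ.L0, DatZ.L1, dz]

end Crest.Agent.R307.MO09
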