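import Crest.Agent.R307.PIDict

/-!
Row 307 (S0471), regime M, pointwise certificates on one c-interval (generated, helper14).
-/

set_option autoImplicit false

namespace Crest.Agent.R307.MO10

open Crest.Agent.KB Crest.Agent.R307.PIConic Crest.Agent.R307.GenInt

def f1a : Dat :=
  { N := 200000000, a0 := 78600000, a1 := -60940000, a2 := 48300000, k1 := 91416000, k2 := -91416000, e1 := 116642727, e2 := 6085026, m2 := 93597738, l2 := 135445635, cn := 1973936041, cd := 3906250000, NR := 100000000, R := [30798746, -38304364, 8439312, 87071690, -184240012, 180850024, -89803101, 17125444, 695287], tn := 1, td := 1 }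

set_option maxRecDepth 100000 in
theorem f1a_D : run 2 380 4 [1, 43] [32, 32] [[f1a.Q1.e, f1a.Q2.e]]
    (.node 1 (.leaf 0) (.node 1 (.leaf 0) (.node 1 (.leaf 0) (.leaf 0)))) [(0, 2 ^ 4), (0, 2 ^ 4)] = true := by
  decide +kernel

set_option maxRecDepth 100000 in
theorem f1a_P : run 2 725 11 [15, 21] [4096, 4096] [f1a.c1, f1a.c2, f1a.c3]
    (.node 0 (.leaf 1) (.node 1 (.node 0 (.leaf 1) (.node 1 (.node 0 (.leaf 1) (.node 1 (.node 0 (.leaf 1) (.node 1 (.node 0 (.leaf 1) (.node 1 (.node 0 (.leaf 1) (.node 1 (.node 0 (.leaf 1) (.leaf 0)) (.leaf 1))) (.leaf 1))) (.leaf 1))) (.leaf 1))) (.leaf 1))) (.leaf 1))) [(0, 2 ^ 11), (0, 2 ^ 11)] = true := by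
  decide +kernel

theorem f1a_ok : f1a.OK :=
  ⟨_, _, _, _, _, _, _, _, _, _, by decide, f1a_D, f1a_P⟩

def f1b : Dat :=
  { N := 25000000000, a0 := 9825000000, a1 := -7617500000, a2 := 6037500000, k1 := 11427000000, k2 := -11427000000, e1 := 15168846981, e2 := 791329478, m2 := 11240010050, l2 := 16265460375, cn := 547246337121, cd := 1000000000000, NR := 100000000, R := [31899004, -36127800, 6141473, 71705259, -130647358, 98736444, -20163336, -14696882, 6834241], tn := 1, td := 1 }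

set_option maxRecDepth 100000 in
theorem f1b_D : run 2 385 4 [1, 43] [32, 32] [[f1b.Q1.e, f1b.Q2.e]]
    (.node 1 (.leaf 0) (.node 1 (.leaf 0) (.node 1 (.leaf 0) (.leaf 0)))) [(0, 2 ^ 4), (0, 2 ^ 4)] = true := by
  decide +kernel

set_option maxRecDepth 100000 in
theorem f1b_P : run 2 784 11 [15, 21] [4096, 4096] [f1b.c1, f1b.c2, f1b.c3]
    (.node 0 (.leaf 1) (.node 1 (.node 0 (.leaf 1) (.node 1 (.node 0 (.leaf 1) (.node 1 (.node 0 (.leaf 1) (.node 1 (.node 0 (.leaf 1) (.node 1 (.node 0 (.leaf 1) (.node 1 (.node 0 (.leaf 1) (.node 1 (.node 0 (.leaf 1) (.node 1 (.node 0 (.leaf 1) (.node 1 (.node 0 (.leaf 1) (.node 1 (.node 0 (.leaf 1) (.leaf 0)) (.leaf 1))) (.leaf 1))) (.leaf 1))) (.leaf 1))) (.leaf 1))) (.leaf 1))) (.leaf 1))) (.leaf 1))) (.leaf 1))) (.leaf 1))) [(0, 2 ^ 11), (0, 2 ^ 11)] = true := by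
  decide +kernel

theorem f1b_ok : f1b.OK :=
  ⟨_, _, _, _, _, _, _, _, _, _, by decide, f1b_D, f1b_P⟩

def f2a : Dat :=
  { N := 400000000, a0 := 157200000, a1 := -121880000, a2 := 96600000, k1 := 188268000, k2 := -195568000, e1 := 240226974, e2 := 36602523, m2 := 129771954, l2 := 242475792, cn := 1973936041, cd := 3906250000, NR := 100000000, R := [30798746, -38304364, 8439312, 87071690, -184240012, 180850024, -89803101, 17125444, 695287], tn := 1, td := 1 }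

set_option maxRecDepth 100000 in
theorem f2a_D : run 2 380 4 [1, 43] [32, 32] [[f2a.Q1.e, f2a.Q2.e]]
    (.node 1 (.leaf 0) (.node 1 (.leaf 0) (.node 1 (.leaf 0) (.leaf 0)))) [(0, 2 ^ 4), (0, 2 ^ 4)] = true := by
  decide +kernel

set_option maxRecDepth 100000 in
theorem f2a_P : run 2 729 11 [15, 21] [4096, 4096] [f2a.c1, f2a.c2, f2a.c3]
    (.node 0 (.node 1 (.node 0 (.leaf 1) (.leaf 1)) (.leaf 1)) (.node 1 (.node 0 (.leaf 1) (.node 1 (.node 0 (.leaf 1) (.node 1 (.node 0 (.leaf 1) (.node 1 (.node 0 (.leaf 1) (.node 1 (.node 0 (.leaf 1) (.node 1 (.node 0 (.leaf 1) (.leaf 0)) (.node 0 (.leaf 1) (.leaf 0)))) (.leaf 1))) (.leaf 1))) (.leaf 1))) (.leaf 1))) (.node 0 (.leaf 1) (.node 1 (.leaf 1) (.node 0 (.leaf 1) (.node 1 (.leaf 1) (.node 0 (.node 1 (.leaf 1) (.node 0 (.leaf 1) (.node 1 (.leaf 1) (.node 0 (.leaf 1) (.leaf 0))))) (.node 1 (.leaf 1) (.node 0 (.node 1 (.leaf 1) (.leaf 0)) (.leaf 0))))))))))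 [(0, 2 ^ 11), (0, 2 ^ 11)] = true := by
  decide +kernel

theorem f2a_ok : f2a.OK :=
  ⟨_, _, _, _, _, _, _, _, _, _, by decide, f2a_D, f2a_P⟩

def f2b : Dat :=
  { N := 50000000000, a0 := 19650000000, a1 := -15235000000, a2 := 12075000000, k1 := 23533500000, k2 := -24446000000, e1 := 31240406522, e2 := 4759988769, m2 := 15584116650, l2 := 29118549200, cn := 547246337121, cd := 1000000000000, NR := 100000000, R := [31899004, -36127800, 6141473, 71705259, -130647358, 98736444, -20163336, -14696882, 6834241], tn := 1, td := 1 }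

set_option maxRecDepth 100000 in
theorem f2b_D : run 2 385 4 [1, 43] [32, 32] [[f2b.Q1.e, f2b.Q2.e]]
    (.node 1 (.leaf 0) (.node 1 (.leaf 0) (.node 1 (.leaf 0) (.leaf 0)))) [(0, 2 ^ 4), (0, 2 ^ 4)] = true := by
  decide +kernel

set_option maxRecDepth 100000 in
theorem f2b_P : run 2 788 11 [15, 21] [4096, 4096] [f2b.c1, f2b.c2, f2b.c3]
    (.node 0 (.leaf 1) (.node 1 (.node 0 (.leaf 1) (.node 1 (.node 0 (.leaf 1) (.node 1 (.node 0 (.leaf 1) (.node 1 (.node 0 (.leaf 1) (.node 1 (.node 0 (.leaf 1) (.node 1 (.node 0 (.leaf 1) (.node 1 (.node 0 (.leaf 1) (.node 1 (.node 0 (.leaf 1) (.node 1 (.node 0 (.leaf 1) (.node 1 (.node 0 (.leaf 1) (.leaf 0)) (.leaf 1))) (.leaf 1))) (.leaf 1))) (.leaf 1))) (.leaf 1))) (.leaf 1))) (.leaf 1))) (.leaf 1))) (.leaf 1))) (.node 0 (.leaf 1) (.node 1 (.leaf 1) (.node 0 (.leaf 1) (.leaf 1)))))) [(0, 2 ^ 11), (0, 2 ^ 11)] = true := by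
  decide +kernel

theorem f2b_ok : f2b.OK :=
  ⟨_, _, _, _, _, _, _, _, _, _, by decide, f2b_D, f2b_P⟩

lemma hW : ∀ c : ℝ, (327 / 250) ^ 2 - 1 ≤ c → c ≤ (1319 / 1000) ^ 2 - 1 → 0 ≤ Wf (393 / 1000) (-3047 / 10000) (483 / 2000) c := by
  intro c h1 h2
  exact (Wf_pos (by norm_num) (by norm_num) (by norm_num at h1; linarith) (by norm_num at h2; linarith)).le

theorem fam1 : FamI (393 / 1000) (-3047 / 10000) (483 / 2000) ((327 / 250) ^ 2 - 1) ((1319 / 1000) ^ 2 - 1)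
    ⟨(11427 / 25000), (-11427 / 25000), (41673 / 50000), (1087 / 25000), 0, (16901 / 50000), 0, (9783 / 20000)⟩ := by
  refine Dat.famI_of_ends f1a_ok f1b_ok (z0 := (2627 / 2000)) (Ua := (2799 / 4000)) (Ub := (363997 / 500000)) (Va := (2769 / 2000)) (Vb := (13301 / 10000))
    (by norm_num) (by norm_num) (by norm_num) (by norm_num) (by norm_num) (by norm_num) (by norm_num)
    (by norm_num) (by norm_num) (by norm_num) (by norm_num) hW ?_ ?_ ?_ ?_
    ?_ ?_ ?_ ?_ ?_ ?_ ?_ ?_ ?_ ?_ ?_ ?_ ?_ ?_ ?_ ?_ ?_ ?_ ?_ ?_ ?_ ?_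
  all_goals norm_num [Wtan, Wz, Dat.A0, Dat.A1, Dat.A2, Dat.K1, Dat.K2, Dat.E1, Dat.E2, Dat.M2, Dat.L2,
    Dat.C2, Dat.T1, f1a, f1b]

theorem fam2 : FamI (393 / 1000) (-3047 / 10000) (483 / 2000) ((327 / 250) ^ 2 - 1) ((1319 / 1000) ^ 2 - 1)
    ⟨(47067 / 100000), (-12223 / 25000), (42913 / 50000), (13077 / 100000), 0, (23433 / 100000), 0, (5473 / 12500)⟩ := by
  refine Dat.famI_of_ends f2a_ok f2b_ok (z0 := (2627 / 2000)) (Ua := (2799 / 4000)) (Ub := (363997 / 500000)) (Va := (2769 / 2000)) (Vb := (13301 / 10000))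
    (by norm_num) (by norm_num) (by norm_num) (by norm_num) (by norm_num) (by norm_num) (by norm_num)
    (by norm_num) (by norm_num) (by norm_num) (by norm_num) hW ?_ ?_ ?_ ?_
    ?_ ?_ ?_ ?_ ?_ ?_ ?_ ?_ ?_ ?_ ?_ ?_ ?_ ?_ ?_ ?_ ?_ ?_ ?_ ?_ ?_ ?_
  all_goals norm_num [Wtan, Wz, Dat.A0, Dat.A1, Dat.A2, Dat.K1, Dat.K2, Dat.E1, Dat.E2, Dat.M2, Dat.L2,
    Dat.C2, Dat.T1, f2a, f2b]

def dz : DatZ :=
  { N := 1000000, a0 := 393000, a1 := -304700, a2 := 241500, l0 := 144420, l1 := 446400, v0 := 7859141, v1 := -4950009, NR := 100000000, R := [(-100000000, 100000000), (-300000000, 200000000), (362000271, -268394080), (1010905745, -726951593), (-1245887472, 922428240), (-8409424648, 6226756611), (30964662486, -23107501323), (-49148453979, 36864602186), (42850228865, -32268515442), (-20041568069, 15142263215), (3945511159, -2989435920)] }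

set_option maxRecDepth 100000 in
theorem dz_D : run 3 833 11 [1, 51, 9] [4096, 4096, 5404] [[dz.Rs.e, dz.Q2.e, dz.QV.e]]
    (.node 1 (.leaf 0) (.node 1 (.leaf 0) (.node 1 (.node 1 (.node 1 (.node 1 (.node 1 (.node 2 (.leaf 0) (.leaf 0)) (.node 2 (.leaf 0) (.leaf 0))) (.node 1 (.node 2 (.leaf 0) (.leaf 0)) (.node 2 (.leaf 0) (.leaf 0)))) (.node 1 (.node 1 (.node 2 (.leaf 0) (.leaf 0)) (.node 2 (.leaf 0) (.leaf 0))) (.node 1 (.node 2 (.leaf 0) (.leaf 0)) (.node 2 (.leaf 0) (.leaf 0))))) (.node 1 (.node 1 (.node 1 (.node 2 (.leaf 0) (.leaf 0)) (.node 2 (.leaf 0) (.leaf 0))) (.node 1 (.node 2 (.leaf 0) (.leaf 0)) (.node 2 (.leaf 0) (.leaf 0)))) (.node 1 (.node 1 (.node 2 (.leaf 0) (.leaf 0)) (.node 2 (.leaf 0) (.leaf 0))) (.node 1 (.node 2 (.leaf 0) (.leaf 0)) (.node 2 (.leaf 0) (.leaf 0)))))) (.node 1 (.node 1 (.node 1 (.node 1 (.node 2 (.leaf 0) (.leaf 0)) (.node 2 (.leaf 0) (.leaf 0))) (.node 1 (.node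 2 (.leaf 0) (.leaf 0)) (.node 2 (.leaf 0) (.leaf 0)))) (.node 1 (.node 1 (.node 2 (.leaf 0) (.leaf 0)) (.node 2 (.leaf 0) (.leaf 0))) (.node 1 (.node 2 (.leaf 0) (.leaf 0)) (.node 2 (.leaf 0) (.leaf 0))))) (.node 1 (.node 1 (.node 1 (.node 2 (.leaf 0) (.leaf 0)) (.node 2 (.leaf 0) (.leaf 0))) (.node 1 (.node 2 (.leaf 0) (.leaf 0)) (.node 2 (.leaf 0) (.leaf 0)))) (.node 1 (.node 1 (.node 2 (.leaf 0) (.leaf 0)) (.node 2 (.leaf 0) (.leaf 0))) (.node 1 (.node 2 (.leaf 0) (.leaf 0)) (.node 2 (.leaf 0) (.leaf 0))))))))) [(0, 2 ^ 11), (0, 2 ^ 11), (2678, 2702)] = true := by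
  decide +kernel

set_option maxRecDepth 100000 in
theorem dz_P : run 3 427 11 [8, 14, 9] [4096, 4096, 5404] [[dz.G.e]]
    (.leaf 0) [(0, 2 ^ 11), (0, 2 ^ 11), (2678, 2702)] = true := by
  decide +kernel

theorem dict : CertI (393 / 1000) (-3047 / 10000) (483 / 2000) ((327 / 250) ^ 2 - 1) ((1319 / 1000) ^ 2 - 1) 1 0 1 (7221 / 50000) (279 / 625) := by
  refine DatZ.certI dz (by decide) dz_D dz_P ?_ ?_ ?_ ?_ ?_ (by norm_num) (by norm_num) (by norm_num)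
    (by norm_num) (by norm_num) (by norm_num) (by norm_num) (by norm_num) (by norm_num) hW
  all_goals norm_num [DatZ.A0, DatZ.A1, DatZ.A2, DatZ.L0, DatZ.L1, dz]

end Crest.Agent.R307.MO10
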