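import Crest.Agent.R307.PIDict

/-!
Row 307 (S0471), regime M, pointwise certificates on one c-interval (generated, helper14).
-/

set_option autoImplicit false

namespace Crest.Agent.R307.MO11

open Crest.Agent.KB Crest.Agent.R307.PIConic Crest.Agent.R307.GenInt

def f1a : Dat :=
  { N := 500000000, a0 := 194550000, a1 := -147850000, a2 := 120350000, k1 := 237375000, k2 := -237375000, e1 := 305285926, e2 := 8401697, m2 := 234161757, l2 := 326131785, cn := 547246337121, cd := 1000000000000, NR := 100000000, R := [31899004, -36127800, 6141473, 71705259, -130647358, 98736444, -20163336, -14696882, 6834241], tn := 1, td := 1 }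

set_option maxRecDepth 100000 in
theorem f1a_D : run 2 385 4 [1, 43] [32, 32] [[f1a.Q1.e, f1a.Q2.e]]
    (.node 1 (.leaf 0) (.node 1 (.leaf 0) (.node 1 (.leaf 0) (.leaf 0)))) [(0, 2 ^ 4), (0, 2 ^ 4)] = true := by
  decide +kernel

set_option maxRecDepth 100000 in
theorem f1a_P : run 2 761 11 [15, 21] [4096, 4096] [f1a.c1, f1a.c2, f1a.c3]
    (.node 0 (.leaf 1) (.node 1 (.node 0 (.leaf 1) (.node 1 (.node 0 (.leaf 1) (.node 1 (.node 0 (.leaf 1) (.node 1 (.node 0 (.leaf 1) (.node 1 (.node 0 (.leaf 1) (.node 1 (.node 0 (.leaf 1) (.leaf 0)) (.leaf 1))) (.leaf 1))) (.leaf 1))) (.leaf 1))) (.leaf 1))) (.leaf 1))) [(0, 2 ^ 11), (0, 2 ^ 11)] = true := by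
  decide +kernel

theorem f1a_ok : f1a.OK :=
  ⟨_, _, _, _, _, _, _, _, _, _, by decide, f1a_D, f1a_P⟩

def f1b : Dat :=
  { N := 1000000000, a0 := 389100000, a1 := -295700000, a2 := 240700000, k1 := 474750000, k2 := -474750000, e1 := 632250696, e2 := 17400012, m2 := 452022673, l2 := 629560365, cn := 587125270081, cd := 1000000000000, NR := 100000000, R := [32899224, -34146939, 4307083, 59378357, -91406293, 43505410, 22811136, -32669008, 9999084], tn := 1, td := 1 }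

set_option maxRecDepth 100000 in
theorem f1b_D : run 2 385 4 [1, 43] [32, 32] [[f1b.Q1.e, f1b.Q2.e]]
    (.node 1 (.leaf 0) (.node 1 (.leaf 0) (.leaf 0))) [(0, 2 ^ 4), (0, 2 ^ 4)] = true := by
  decide +kernel

set_option maxRecDepth 100000 in
theorem f1b_P : run 2 765 11 [15, 21] [4096, 4096] [f1b.c1, f1b.c2, f1b.c3]
    (.node 0 (.leaf 1) (.node 1 (.node 0 (.leaf 1) (.node 1 (.node 0 (.leaf 1) (.node 1 (.node 0 (.leaf 1) (.node 1 (.node 0 (.leaf 1) (.node 1 (.node 0 (.leaf 1) (.node 1 (.node 0 (.leaf 1) (.node 1 (.node 0 (.leaf 1) (.node 1 (.node 0 (.leaf 1) (.node 1 (.node 0 (.leaf 1) (.node 1 (.node 0 (.leaf 1) (.leaf 0)) (.leaf 1))) (.leaf 1))) (.leaf 1))) (.leaf 1))) (.leaf 1))) (.leaf 1))) (.leaf 1))) (.leaf 1))) (.leaf 1))) (.leaf 1))) [(0, 2 ^ 11), (0, 2 ^ 11)] = true := by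
  decide +kernel

theorem f1b_ok : f1b.OK :=
  ⟨_, _, _, _, _, _, _, _, _, _, by decide, f1b_D, f1b_P⟩

def f2a : Dat :=
  { N := 2000000000, a0 := 778200000, a1 := -591400000, a2 := 481400000, k1 := 977300000, k2 := -991300000, e1 := 1256934642, e2 := 182522135, m2 := 641262816, l2 := 1193881104, cn := 547246337121, cd := 1000000000000, NR := 100000000, R := [31899004, -36127800, 6141473, 71705259, -130647358, 98736444, -20163336, -14696882, 6834241], tn := 1, td := 1 }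

set_option maxRecDepth 100000 in
theorem f2a_D : run 2 385 4 [1, 43] [32, 32] [[f2a.Q1.e, f2a.Q2.e]]
    (.node 1 (.leaf 0) (.node 1 (.leaf 0) (.node 1 (.leaf 0) (.leaf 0)))) [(0, 2 ^ 4), (0, 2 ^ 4)] = true := by
  decide +kernel

set_option maxRecDepth 100000 in
theorem f2a_P : run 2 769 11 [15, 21] [4096, 4096] [f2a.c1, f2a.c2, f2a.c3]
    (.node 0 (.node 1 (.node 0 (.leaf 1) (.leaf 1)) (.leaf 1)) (.node 1 (.node 0 (.leaf 1) (.node 1 (.node 0 (.leaf 1) (.node 1 (.node 0 (.leaf 1) (.node 1 (.node 0 (.leaf 1) (.node 1 (.node 0 (.leaf 1) (.node 1 (.node 0 (.leaf 1) (.leaf 0)) (.node 0 (.leaf 1) (.leaf 0)))) (.leaf 1))) (.leaf 1))) (.leaf 1))) (.leaf 1))) (.node 0 (.leaf 1) (.node 1 (.leaf 1) (.node 0 (.leaf 1) (.node 1 (.leaf 1) (.node 0 (.node 1 (.leaf 1) (.node 0 (.leaf 1) (.node 1 (.leaf 1) (.node 0 (.leaf 1) (.leaf 0))))) (.node 1 (.leaf 1) (.node 0 (.node 1 (.leaf 1) (.leaf 0)) (.leaf 0))))))))))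 [(0, 2 ^ 11), (0, 2 ^ 11)] = true := by
  decide +kernel

theorem f2a_ok : f2a.OK :=
  ⟨_, _, _, _, _, _, _, _, _, _, by decide, f2a_D, f2a_P⟩

def f2b : Dat :=
  { N := 1000000000, a0 := 389100000, a1 := -295700000, a2 := 240700000, k1 := 488650000, k2 := -495650000, e1 := 650781558, e2 := 94501365, m2 := 309471256, l2 := 576162964, cn := 587125270081, cd := 1000000000000, NR := 100000000, R := [32899224, -34146939, 4307083, 59378357, -91406293, 43505410, 22811136, -32669008, 9999084], tn := 1, td := 1 }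

set_option maxRecDepth 100000 in
theorem f2b_D : run 2 385 4 [1, 43] [32, 32] [[f2b.Q1.e, f2b.Q2.e]]
    (.node 1 (.leaf 0) (.node 1 (.leaf 0) (.leaf 0))) [(0, 2 ^ 4), (0, 2 ^ 4)] = true := by
  decide +kernel

set_option maxRecDepth 100000 in
theorem f2b_P : run 2 765 11 [15, 21] [4096, 4096] [f2b.c1, f2b.c2, f2b.c3]
    (.node 0 (.leaf 1) (.node 1 (.node 0 (.leaf 1) (.node 1 (.node 0 (.leaf 1) (.node 1 (.node 0 (.leaf 1) (.node 1 (.node 0 (.leaf 1) (.node 1 (.node 0 (.leaf 1) (.node 1 (.node 0 (.leaf 1) (.node 1 (.node 0 (.leaf 1) (.node 1 (.node 0 (.leaf 1) (.node 1 (.node 0 (.leaf 1) (.node 1 (.node 0 (.leaf 1) (.leaf 0)) (.leaf 1))) (.leaf 1))) (.leaf 1))) (.leaf 1))) (.leaf 1))) (.leaf 1))) (.leaf 1))) (.leaf 1))) (.leaf 1))) (.node 0 (.leaf 1) (.node 1 (.leaf 1) (.node 0 (.leaf 1) (.leaf 1)))))) [(0, 2 ^ 11), (0, 2 ^ 11)] = true := by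
  decide +kernel

theorem f2b_ok : f2b.OK :=
  ⟨_, _, _, _, _, _, _, _, _, _, by decide, f2b_D, f2b_P⟩

lemma hW : ∀ c : ℝ, (1319 / 1000) ^ 2 - 1 ≤ c → c ≤ (1329 / 1000) ^ 2 - 1 → 0 ≤ Wf (3891 / 10000) (-2957 / 10000) (2407 / 10000) c := by
  intro c h1 h2
  exact (Wf_pos (by norm_num) (by norm_num) (by norm_num at h1; linarith) (by norm_num at h2; linarith)).le

theorem fam1 : FamI (3891 / 10000) (-2957 / 10000) (2407 / 10000) ((1319 / 1000) ^ 2 - 1) ((1329 / 1000) ^ 2 - 1)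
    ⟨(1899 / 4000), (-1899 / 4000), (10483 / 12500), (577 / 25000), 0, (35207 / 100000), 0, (9807 / 20000)⟩ := by
  refine Dat.famI_of_ends f1a_ok f1b_ok (z0 := (331 / 250)) (Ua := (14561 / 20000)) (Ub := (7539 / 10000)) (Va := (6651 / 5000)) (Vb := (12839 / 10000))
    (by norm_num) (by norm_num) (by norm_num) (by norm_num) (by norm_num) (by norm_num) (by norm_num)
    (by norm_num) (by norm_num) (by norm_num) (by norm_num) hW ?_ ?_ ?_ ?_
    ?_ ?_ ?_ ?_ ?_ ?_ ?_ ?_ ?_ ?_ ?_ ?_ ?_ ?_ ?_ ?_ ?_ ?_ ?_ ?_ ?_ ?_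
  all_goals norm_num [Wtan, Wz, Dat.A0, Dat.A1, Dat.A2, Dat.K1, Dat.K2, Dat.E1, Dat.E2, Dat.M2, Dat.L2,
    Dat.C2, Dat.T1, f1a, f1b]

theorem fam2 : FamI (3891 / 10000) (-2957 / 10000) (2407 / 10000) ((1319 / 1000) ^ 2 - 1) ((1329 / 1000) ^ 2 - 1)
    ⟨(9773 / 20000), (-9913 / 20000), (43161 / 50000), (2507 / 20000), 0, (3013 / 12500), 0, (11219 / 25000)⟩ := by
  refine Dat.famI_of_ends f2a_ok f2b_ok (z0 := (331 / 250)) (Ua := (14561 / 20000)) (Ub := (7539 / 10000)) (Va := (6651 / 5000)) (Vb := (12839 / 10000))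
    (by norm_num) (by norm_num) (by norm_num) (by norm_num) (by norm_num) (by norm_num) (by norm_num)
    (by norm_num) (by norm_num) (by norm_num) (by norm_num) hW ?_ ?_ ?_ ?_
    ?_ ?_ ?_ ?_ ?_ ?_ ?_ ?_ ?_ ?_ ?_ ?_ ?_ ?_ ?_ ?_ ?_ ?_ ?_ ?_ ?_ ?_
  all_goals norm_num [Wtan, Wz, Dat.A0, Dat.A1, Dat.A2, Dat.K1, Dat.K2, Dat.E1, Dat.E2, Dat.M2, Dat.L2,
    Dat.C2, Dat.T1, f2a, f2b]

def dz : DatZ :=
  { N := 500000, a0 := 194550, a1 := -147850, a2 := 120350, l0 := 75510, l1 := 222750, v0 := 3720550, v1 := -2316491, NR := 100000000, R := [(-100000000, 100000000), (-300000000, 200000000), (319025866, -235800134), (927219662, -663510635), (-984350589, 724163943), (-6732946345, 4955848304), (22697478048, -16840331341), (-33316031188, 24862427557), (26910860276, -20185294414), (-11672946939, 8798240146), (2133837619, -1616057645)] }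

set_option maxRecDepth 100000 in
theorem dz_D : run 3 831 11 [1, 51, 9] [4096, 4096, 5444] [[dz.Rs.e, dz.Q2.e, dz.QV.e]]
    (.node 1 (.leaf 0) (.node 1 (.node 1 (.leaf 0) (.node 1 (.leaf 0) (.node 1 (.leaf 0) (.node 1 (.leaf 0) (.node 1 (.node 2 (.leaf 0) (.leaf 0)) (.node 2 (.leaf 0) (.leaf 0))))))) (.node 1 (.node 1 (.node 1 (.node 1 (.node 1 (.node 2 (.leaf 0) (.leaf 0)) (.node 2 (.leaf 0) (.leaf 0))) (.node 1 (.node 2 (.leaf 0) (.leaf 0)) (.node 2 (.leaf 0) (.leaf 0)))) (.node 1 (.node 1 (.node 2 (.leaf 0) (.leaf 0)) (.node 2 (.leaf 0) (.leaf 0))) (.node 1 (.node 2 (.leaf 0) (.leaf 0)) (.node 2 (.leaf 0) (.leaf 0))))) (.node 1 (.node 1 (.node 1 (.node 2 (.leaf 0) (.leaf 0)) (.node 2 (.leaf 0) (.leaf 0))) (.node 1 (.node 2 (.leaf 0) (.leaf 0)) (.node 2 (.leaf 0) (.leaf 0)))) (.node 1 (.node 1 (.node 2 (.leaf 0) (.leaf 0)) (.node 2 (.leaf 0) (.leaf 0))) (.node 1 (.node 2 (.leaf 0) (.leaf 0)) (.node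 2 (.leaf 0) (.leaf 0)))))) (.node 1 (.node 1 (.node 1 (.node 1 (.node 2 (.leaf 0) (.leaf 0)) (.node 2 (.leaf 0) (.leaf 0))) (.node 1 (.node 2 (.leaf 0) (.leaf 0)) (.node 2 (.leaf 0) (.leaf 0)))) (.node 1 (.node 1 (.node 2 (.leaf 0) (.leaf 0)) (.node 2 (.leaf 0) (.leaf 0))) (.node 1 (.node 2 (.leaf 0) (.leaf 0)) (.node 2 (.leaf 0) (.leaf 0))))) (.node 1 (.node 1 (.node 1 (.node 2 (.leaf 0) (.leaf 0)) (.node 2 (.leaf 0) (.leaf 0))) (.node 1 (.node 2 (.leaf 0) (.leaf 0)) (.node 2 (.leaf 0) (.leaf 0)))) (.node 1 (.node 1 (.node 2 (.leaf 0) (.leaf 0)) (.node 2 (.leaf 0) (.leaf 0))) (.node 1 (.node 2 (.leaf 0) (.leaf 0)) (.node 2 (.leaf 0) (.leaf 0))))))))) [(0, 2 ^ 11), (0, 2 ^ 11), (2701, 2722)] = true := by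
  decide +kernel

set_option maxRecDepth 100000 in
theorem dz_P : run 3 425 11 [8, 14, 9] [4096, 4096, 5444] [[dz.G.e]]
    (.leaf 0) [(0, 2 ^ 11), (0, 2 ^ 11), (2701, 2722)] = true := by
  decide +kernel

theorem dict : CertI (3891 / 10000) (-2957 / 10000) (2407 / 10000) ((1319 / 1000) ^ 2 - 1) ((1329 / 1000) ^ 2 - 1) 1 0 1 (7551 / 50000) (891 / 2000) := by
  refine DatZ.certI dz (by decide) dz_D dz_P ?_ ?_ ?_ ?_ ?_ (by norm_num) (by norm_num) (by norm_num)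
    (by norm_num) (by norm_num) (by norm_num) (by norm_num) (by norm_num) (by norm_num) hW
  all_goals norm_num [DatZ.A0, DatZ.A1, DatZ.A2, DatZ.L0, DatZ.L1, dz]

end Crest.Agent.R307.MO11
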