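import Crest.Agent.R307.PIDict

/-!
Row 307 (S0471), regime M, pointwise certificates on one c-interval (generated, helper14).
-/

set_option autoImplicit false

namespace Crest.Agent.R307.MO12

open Crest.Agent.KB Crest.Agent.R307.PIConic Crest.Agent.R307.GenInt

def f1a : Dat :=
  { N := 50000000000, a0 := 20425000000, a1 := -14975000000, a2 := 11000000000, k1 := 25283500000, k2 := -26622500000, e1 := 32527451649, e2 := 4774310728, m2 := 18624116500, l2 := 26864693500, cn := 587125270081, cd := 1000000000000, NR := 100000000, R := [32899224, -34146939, 4307083, 59378357, -91406293, 43505410, 22811136, -32669008, 9999084], tn := 1, td := 1 }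

set_option maxRecDepth 100000 in
theorem f1a_D : run 2 385 4 [1, 43] [32, 32] [[f1a.Q1.e, f1a.Q2.e]]
    (.node 1 (.leaf 0) (.node 1 (.leaf 0) (.leaf 0))) [(0, 2 ^ 4), (0, 2 ^ 4)] = true := by
  decide +kernel

set_option maxRecDepth 100000 in
theorem f1a_P : run 2 788 11 [15, 21] [4096, 4096] [f1a.c1, f1a.c2, f1a.c3]
    (.node 0 (.node 1 (.node 0 (.leaf 1) (.leaf 1)) (.leaf 1)) (.node 1 (.node 0 (.leaf 1) (.node 1 (.node 0 (.leaf 1) (.node 1 (.node 0 (.leaf 1) (.node 1 (.node 0 (.leaf 1) (.node 1 (.node 0 (.leaf 1) (.node 1 (.node 0 (.leaf 1) (.leaf 0)) (.node 0 (.leaf 1) (.leaf 0)))) (.leaf 1))) (.leaf 1))) (.leaf 1))) (.leaf 1))) (.node 0 (.leaf 1) (.node 1 (.leaf 1) (.node 0 (.leaf 1) (.leaf 1)))))) [(0, 2 ^ 11), (0, 2 ^ 11)] = true := by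
  decide +kernel

theorem f1a_ok : f1a.OK :=
  ⟨_, _, _, _, _, _, _, _, _, _, by decide, f1a_D, f1a_P⟩

def f1b : Dat :=
  { N := 10000000000, a0 := 4085000000, a1 := -2995000000, a2 := 2200000000, k1 := 5056700000, k2 := -5324500000, e1 := 6708717603, e2 := 984691416, m2 := 3611258090, l2 := 5209124510, cn := 39030348721, cd := 62500000000, NR := 100000000, R := [33799406, -32361772, 2826543, 49644650, -63245312, 7802916, 47309807, -41407687, 11243533], tn := 1, td := 1 }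

set_option maxRecDepth 100000 in
theorem f1b_D : run 2 382 4 [1, 43] [32, 32] [[f1b.Q1.e, f1b.Q2.e]]
    (.node 1 (.node 1 (.leaf 0) (.leaf 0)) (.node 1 (.leaf 0) (.leaf 0))) [(0, 2 ^ 4), (0, 2 ^ 4)] = true := by
  decide +kernel

set_option maxRecDepth 100000 in
theorem f1b_P : run 2 763 11 [15, 21] [4096, 4096] [f1b.c1, f1b.c2, f1b.c3]
    (.node 0 (.leaf 1) (.node 1 (.node 0 (.leaf 1) (.node 1 (.node 0 (.leaf 1) (.node 1 (.node 0 (.leaf 1) (.node 1 (.node 0 (.leaf 1) (.node 1 (.node 0 (.leaf 1) (.node 1 (.node 0 (.leaf 1) (.node 1 (.node 0 (.leaf 1) (.node 1 (.node 0 (.leaf 1) (.node 1 (.node 0 (.leaf 1) (.node 1 (.node 0 (.leaf 1) (.leaf 0)) (.leaf 1))) (.leaf 1))) (.leaf 1))) (.leaf 1))) (.leaf 1))) (.leaf 1))) (.leaf 1))) (.leaf 1))) (.leaf 1))) (.leaf 1))) [(0, 2 ^ 11), (0, 2 ^ 11)] = true := by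
  decide +kernel

theorem f1b_ok : f1b.OK :=
  ⟨_, _, _, _, _, _, _, _, _, _, by decide, f1b_D, f1b_P⟩

def f2a : Dat :=
  { N := 50000000000, a0 := 20425000000, a1 := -14975000000, a2 := 11000000000, k1 := 24358500000, k2 := -24358500000, e1 := 31335009266, e2 := 1330191995, m2 := 25203172500, l2 := 33629365500, cn := 587125270081, cd := 1000000000000, NR := 100000000, R := [32899224, -34146939, 4307083, 59378357, -91406293, 43505410, 22811136, -32669008, 9999084], tn := 1, td := 1 }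

set_option maxRecDepth 100000 in
theorem f2a_D : run 2 385 4 [1, 43] [32, 32] [[f2a.Q1.e, f2a.Q2.e]]
    (.node 1 (.leaf 0) (.node 1 (.leaf 0) (.leaf 0))) [(0, 2 ^ 4), (0, 2 ^ 4)] = true := by
  decide +kernel

set_option maxRecDepth 100000 in
theorem f2a_P : run 2 788 11 [15, 21] [4096, 4096] [f2a.c1, f2a.c2, f2a.c3]
    (.node 0 (.leaf 1) (.node 1 (.node 0 (.leaf 1) (.node 1 (.node 0 (.leaf 1) (.node 1 (.node 0 (.leaf 1) (.node 1 (.node 0 (.leaf 1) (.node 1 (.node 0 (.leaf 1) (.node 1 (.node 0 (.leaf 1) (.leaf 0)) (.node 0 (.leaf 1) (.leaf 0)))) (.leaf 1))) (.leaf 1))) (.leaf 1))) (.leaf 1))) (.leaf 1))) [(0, 2 ^ 11), (0, 2 ^ 11)] = true := by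
  decide +kernel

theorem f2a_ok : f2a.OK :=
  ⟨_, _, _, _, _, _, _, _, _, _, by decide, f2a_D, f2a_P⟩

def f2b : Dat :=
  { N := 10000000000, a0 := 4085000000, a1 := -2995000000, a2 := 2200000000, k1 := 4871700000, k2 := -4871700000, e1 := 6462778902, e2 := 274349265, m2 := 4886951850, l2 := 6520809630, cn := 39030348721, cd := 62500000000, NR := 100000000, R := [33799406, -32361772, 2826543, 49644650, -63245312, 7802916, 47309807, -41407687, 11243533], tn := 1, td := 1 }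

set_option maxRecDepth 100000 in
theorem f2b_D : run 2 382 4 [1, 43] [32, 32] [[f2b.Q1.e, f2b.Q2.e]]
    (.node 1 (.node 1 (.leaf 0) (.leaf 0)) (.node 1 (.leaf 0) (.leaf 0))) [(0, 2 ^ 4), (0, 2 ^ 4)] = true := by
  decide +kernel

set_option maxRecDepth 100000 in
theorem f2b_P : run 2 763 11 [15, 21] [4096, 4096] [f2b.c1, f2b.c2, f2b.c3]
    (.node 0 (.leaf 1) (.node 1 (.node 0 (.leaf 1) (.node 1 (.node 0 (.leaf 1) (.node 1 (.node 0 (.leaf 1) (.node 1 (.node 0 (.leaf 1) (.node 1 (.node 0 (.leaf 1) (.node 1 (.node 0 (.leaf 1) (.node 1 (.node 0 (.leaf 1) (.node 1 (.node 0 (.leaf 1) (.node 1 (.node 0 (.leaf 1) (.node 1 (.node 0 (.leaf 1) (.leaf 0)) (.leaf 1))) (.leaf 1))) (.leaf 1))) (.leaf 1))) (.leaf 1))) (.leaf 1))) (.leaf 1))) (.leaf 1))) (.leaf 1))) (.leaf 1))) [(0, 2 ^ 11), (0, 2 ^ 11)] = true := by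
  decide +kernel

theorem f2b_ok : f2b.OK :=
  ⟨_, _, _, _, _, _, _, _, _, _, by decide, f2b_D, f2b_P⟩

lemma hW : ∀ c : ℝ, (1329 / 1000) ^ 2 - 1 ≤ c → c ≤ (669 / 500) ^ 2 - 1 → 0 ≤ Wf (817 / 2000) (-599 / 2000) (11 / 50) c := by
  intro c h1 h2
  exact (Wf_pos (by norm_num) (by norm_num) (by norm_num at h1; linarith) (by norm_num at h2; linarith)).le

theorem fam1 : FamI (817 / 2000) (-599 / 2000) (11 / 50) ((1329 / 1000) ^ 2 - 1) ((669 / 500) ^ 2 - 1)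
    ⟨(50567 / 100000), (-10649 / 20000), (85953 / 100000), (1577 / 12500), 0, (28897 / 100000), 0, (41683 / 100000)⟩ := by
  refine Dat.famI_of_ends f1a_ok f1b_ok (z0 := (2667 / 2000)) (Ua := (378433 / 500000)) (Ub := (78051 / 100000)) (Va := (1289 / 1000)) (Vb := (12497 / 10000))
    (by norm_num) (by norm_num) (by norm_num) (by norm_num) (by norm_num) (by norm_num) (by norm_num)
    (by norm_num) (by norm_num) (by norm_num) (by norm_num) hW ?_ ?_ ?_ ?_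
    ?_ ?_ ?_ ?_ ?_ ?_ ?_ ?_ ?_ ?_ ?_ ?_ ?_ ?_ ?_ ?_ ?_ ?_ ?_ ?_ ?_ ?_
  all_goals norm_num [Wtan, Wz, Dat.A0, Dat.A1, Dat.A2, Dat.K1, Dat.K2, Dat.E1, Dat.E2, Dat.M2, Dat.L2,
    Dat.C2, Dat.T1, f1a, f1b]

theorem fam2 : FamI (817 / 2000) (-599 / 2000) (11 / 50) ((1329 / 1000) ^ 2 - 1) ((669 / 500) ^ 2 - 1)
    ⟨(48717 / 100000), (-48717 / 100000), (41401 / 50000), (703 / 20000), 0, (7821 / 20000), 0, (52179 / 100000)⟩ := by
  refine Dat.famI_of_ends f2a_ok f2b_ok (z0 := (2667 / 2000)) (Ua := (378433 / 500000)) (Ub := (78051 / 100000)) (Va := (1289 / 1000)) (Vb := (12497 / 10000))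
    (by norm_num) (by norm_num) (by norm_num) (by norm_num) (by norm_num) (by norm_num) (by norm_num)
    (by norm_num) (by norm_num) (by norm_num) (by norm_num) hW ?_ ?_ ?_ ?_
    ?_ ?_ ?_ ?_ ?_ ?_ ?_ ?_ ?_ ?_ ?_ ?_ ?_ ?_ ?_ ?_ ?_ ?_ ?_ ?_ ?_ ?_
  all_goals norm_num [Wtan, Wz, Dat.A0, Dat.A1, Dat.A2, Dat.K1, Dat.K2, Dat.E1, Dat.E2, Dat.M2, Dat.L2,
    Dat.C2, Dat.T1, f2a, f2b]

def dz : DatZ :=
  { N := 1000000, a0 := 408500, a1 := -299500, a2 := 220000, l0 := 137660, l1 := 432220, v0 := 7085429, v1 := -4361501, NR := 100000000, R := [(-100000000, 100000000), (-300000000, 200000000), (283258509, -208878482), (857930452, -611369228), (-801258149, 586384774), (-5387134870, 3943103778), (16579675202, -12236608110), (-22146508536, 16457246709), (16077384719, -12033012106), (-6155967404, 4646674648), (969332994, -739761318)] }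

set_option maxRecDepth 100000 in
theorem dz_D : run 3 827 11 [1, 51, 9] [4096, 4096, 5482] [[dz.Rs.e, dz.Q2.e, dz.QV.e]]
    (.node 1 (.leaf 0) (.node 1 (.node 1 (.leaf 0) (.node 1 (.leaf 0) (.node 1 (.node 1 (.leaf 0) (.node 1 (.leaf 0) (.node 2 (.leaf 0) (.leaf 0)))) (.node 1 (.node 1 (.node 2 (.leaf 0) (.leaf 0)) (.node 2 (.leaf 0) (.leaf 0))) (.node 1 (.node 2 (.leaf 0) (.leaf 0)) (.node 2 (.leaf 0) (.leaf 0))))))) (.node 1 (.node 1 (.node 1 (.node 1 (.node 1 (.node 2 (.leaf 0) (.leaf 0)) (.node 2 (.leaf 0) (.leaf 0))) (.node 1 (.node 2 (.leaf 0) (.leaf 0)) (.node 2 (.leaf 0) (.leaf 0)))) (.node 1 (.node 1 (.node 2 (.leaf 0) (.leaf 0)) (.node 2 (.leaf 0) (.leaf 0))) (.node 1 (.node 2 (.leaf 0) (.leaf 0)) (.node 2 (.leaf 0) (.leaf 0))))) (.node 1 (.node 1 (.node 1 (.node 2 (.leaf 0) (.leaf 0)) (.node 2 (.leaf 0) (.leaf 0))) (.node 1 (.node 2 (.leaf 0) (.leaf 0)) (.node 2 (.leaf 0) (.leaf 0)))) (.node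 1 (.node 1 (.node 2 (.leaf 0) (.leaf 0)) (.node 2 (.leaf 0) (.leaf 0))) (.node 1 (.node 2 (.leaf 0) (.leaf 0)) (.node 2 (.leaf 0) (.leaf 0)))))) (.node 1 (.node 1 (.node 1 (.node 1 (.node 2 (.leaf 0) (.leaf 0)) (.node 2 (.leaf 0) (.leaf 0))) (.node 1 (.node 2 (.leaf 0) (.leaf 0)) (.node 2 (.leaf 0) (.leaf 0)))) (.node 1 (.node 1 (.node 2 (.leaf 0) (.leaf 0)) (.node 2 (.leaf 0) (.leaf 0))) (.node 1 (.node 2 (.leaf 0) (.leaf 0)) (.node 2 (.leaf 0) (.leaf 0))))) (.node 1 (.node 1 (.node 1 (.node 2 (.leaf 0) (.leaf 0)) (.node 2 (.leaf 0) (.leaf 0))) (.node 1 (.node 2 (.leaf 0) (.leaf 0)) (.node 2 (.leaf 0) (.leaf 0)))) (.node 1 (.node 1 (.node 2 (.leaf 0) (.leaf 0)) (.node 2 (.leaf 0) (.leaf 0))) (.node 1 (.node 2 (.leaf 0) (.leaf 0)) (.node 2 (.leaf 0) (.leaf 0))))))))) [(0, 2 ^ 11), (0, 2 ^ 11), (2721, 2741)] = true := by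
  decide +kernel

set_option maxRecDepth 100000 in
theorem dz_P : run 3 426 11 [8, 14, 9] [4096, 4096, 5482] [[dz.G.e]]
    (.leaf 0) [(0, 2 ^ 11), (0, 2 ^ 11), (2721, 2741)] = true := by
  decide +kernel

theorem dict : CertI (817 / 2000) (-599 / 2000) (11 / 50) ((1329 / 1000) ^ 2 - 1) ((669 / 500) ^ 2 - 1) 1 0 1 (6883 / 50000) (21611 / 50000) := by
  refine DatZ.certI dz (by decide) dz_D dz_P ?_ ?_ ?_ ?_ ?_ (by norm_num) (by norm_num) (by norm_num)
    (by norm_num) (by norm_num) (by norm_num) (by norm_num) (by norm_num) (by norm_num) hW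
  all_goals norm_num [DatZ.A0, DatZ.A1, DatZ.A2, DatZ.L0, DatZ.L1, dz]

end Crest.Agent.R307.MO12
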