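import Crest.Agent.R307.PIDict

/-!
Row 307 (S0471), regime M, pointwise certificates on one c-interval (generated, helper14).
-/

set_option autoImplicit false

namespace Crest.Agent.R307.MO13

open Crest.Agent.KB Crest.Agent.R307.PIConic Crest.Agent.R307.GenInt

def f1a : Dat :=
  { N := 100000000000, a0 := 36480000000, a1 := -32280000000, a2 := 41030000000, k1 := 37097000000, k2 := -37097000000, e1 := 50011216048, e2 := 5357472605, m2 := 5531020000, l2 := 61506726600, cn := 75881521, cd := 244140625, NR := 100000000, R := [24797486, -50254429, 31262814, 184551444, -651836797, 1054889959, -960749341, 473360868, -98252749], tn := 1, td := 1 }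

set_option maxRecDepth 100000 in
theorem f1a_D : run 2 389 4 [1, 43] [32, 32] [[f1a.Q1.e, f1a.Q2.e]]
    (.node 1 (.node 1 (.node 1 (.node 1 (.leaf 0) (.leaf 0)) (.leaf 0)) (.leaf 0)) (.leaf 0)) [(0, 2 ^ 4), (0, 2 ^ 4)] = true := by
  decide +kernel

set_option maxRecDepth 100000 in
theorem f1a_P : run 2 750 11 [15, 21] [4096, 4096] [f1a.c1, f1a.c2, f1a.c3]
    (.node 0 (.node 1 (.node 0 (.leaf 1) (.leaf 1)) (.leaf 1)) (.node 1 (.node 0 (.leaf 1) (.node 1 (.node 0 (.leaf 1) (.node 1 (.node 0 (.leaf 1) (.node 1 (.node 0 (.leaf 1) (.node 1 (.node 0 (.leaf 1) (.node 1 (.leaf 0) (.leaf 1))) (.leaf 1))) (.leaf 1))) (.leaf 1))) (.leaf 1))) (.node 0 (.leaf 1) (.node 1 (.leaf 1) (.node 0 (.leaf 1) (.node 1 (.leaf 1) (.node 0 (.leaf 1) (.node 1 (.leaf 1) (.node 0 (.leaf 1) (.node 1 (.leaf 1) (.node 0 (.leaf 1) (.leaf 0)))))))))))) [(0, 2 ^ 11), (0, 2 ^ 11)] = true := by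
  decide +kernel

theorem f1a_ok : f1a.OK :=
  ⟨_, _, _, _, _, _, _, _, _, _, by decide, f1a_D, f1a_P⟩

def f1b : Dat :=
  { N := 10000000000, a0 := 3648000000, a1 := -3228000000, a2 := 4103000000, k1 := 3709700000, k2 := -3709700000, e1 := 5360723312, e2 := 574269745, m2 := 515840000, l2 := 5736307200, cn := 87216921, cd := 244140625, NR := 100000000, R := [26397982, -47033478, 22622627, 160516554, -506565959, 758984759, -649435507, 303857632, -60414167], tn := 1, td := 1 }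

set_option maxRecDepth 100000 in
theorem f1b_D : run 2 387 4 [1, 43] [32, 32] [[f1b.Q1.e, f1b.Q2.e]]
    (.node 1 (.node 1 (.leaf 0) (.leaf 0)) (.node 1 (.leaf 0) (.node 1 (.leaf 0) (.node 1 (.leaf 0) (.leaf 0))))) [(0, 2 ^ 4), (0, 2 ^ 4)] = true := by
  decide +kernel

set_option maxRecDepth 100000 in
theorem f1b_P : run 2 736 11 [15, 21] [4096, 4096] [f1b.c1, f1b.c2, f1b.c3]
    (.node 0 (.leaf 1) (.node 1 (.node 0 (.leaf 1) (.node 1 (.node 0 (.leaf 1) (.node 1 (.node 0 (.leaf 1) (.node 1 (.node 0 (.leaf 1) (.node 1 (.node 0 (.leaf 1) (.node 1 (.node 0 (.leaf 1) (.node 1 (.node 0 (.leaf 1) (.node 1 (.node 0 (.leaf 1) (.node 1 (.node 0 (.leaf 1) (.leaf 0)) (.leaf 1))) (.leaf 1))) (.leaf 1))) (.leaf 1))) (.leaf 1))) (.leaf 1))) (.leaf 1))) (.leaf 1))) (.node 0 (.leaf 1) (.node 1 (.leaf 1) (.node 0 (.leaf 1) (.node 1 (.leaf 1) (.node 0 (.leaf 1) (.node 1 (.leaf 1) (.node 0 (.leaf 1) (.node 1 (.leaf 1) (.node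 0 (.leaf 1) (.leaf 0)))))))))))) [(0, 2 ^ 11), (0, 2 ^ 11)] = true := by
  decide +kernel

theorem f1b_ok : f1b.OK :=
  ⟨_, _, _, _, _, _, _, _, _, _, by decide, f1b_D, f1b_P⟩

def f2a : Dat :=
  { N := 10000000000, a0 := 3648000000, a1 := -3228000000, a2 := 4103000000, k1 := 3709800000, k2 := -4693500000, e1 := 5001232583, e2 := 426711179, m2 := 0, l2 := 6701990460, cn := 75881521, cd := 244140625, NR := 100000000, R := [24797486, -50254429, 31262814, 184551444, -651836797, 1054889959, -960749341, 473360868, -98252749], tn := 1, td := 1 }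

set_option maxRecDepth 100000 in
theorem f2a_D : run 2 389 4 [1, 43] [32, 32] [[f2a.Q1.e, f2a.Q2.e]]
    (.node 1 (.node 1 (.node 1 (.node 1 (.leaf 0) (.leaf 0)) (.leaf 0)) (.leaf 0)) (.leaf 0)) [(0, 2 ^ 4), (0, 2 ^ 4)] = true := by
  decide +kernel

set_option maxRecDepth 100000 in
theorem f2a_P : run 2 737 11 [15, 21] [4096, 4096] [f2a.c1, f2a.c2, f2a.c3]
    (.node 0 (.node 1 (.node 0 (.leaf 1) (.leaf 1)) (.leaf 1)) (.node 1 (.node 0 (.leaf 1) (.node 1 (.node 0 (.leaf 1) (.node 1 (.node 0 (.leaf 1) (.node 1 (.node 0 (.leaf 1) (.node 1 (.node 0 (.leaf 1) (.node 1 (.leaf 0) (.leaf 1))) (.leaf 1))) (.leaf 1))) (.leaf 1))) (.leaf 1))) (.leaf 1))) [(0, 2 ^ 11), (0, 2 ^ 11)] = true := by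
  decide +kernel

theorem f2a_ok : f2a.OK :=
  ⟨_, _, _, _, _, _, _, _, _, _, by decide, f2a_D, f2a_P⟩

def f2b : Dat :=
  { N := 1000000000, a0 := 364800000, a1 := -322800000, a2 := 410300000, k1 := 370980000, k2 := -469350000, e1 := 536084227, e2 := 45739351, m2 := 0, l2 := 625048320, cn := 87216921, cd := 244140625, NR := 100000000, R := [26397982, -47033478, 22622627, 160516554, -506565959, 758984759, -649435507, 303857632, -60414167], tn := 1, td := 1 }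

set_option maxRecDepth 100000 in
theorem f2b_D : run 2 387 4 [1, 43] [32, 32] [[f2b.Q1.e, f2b.Q2.e]]
    (.node 1 (.node 1 (.leaf 0) (.leaf 0)) (.node 1 (.leaf 0) (.node 1 (.leaf 0) (.node 1 (.leaf 0) (.leaf 0))))) [(0, 2 ^ 4), (0, 2 ^ 4)] = true := by
  decide +kernel

set_option maxRecDepth 100000 in
theorem f2b_P : run 2 723 11 [15, 21] [4096, 4096] [f2b.c1, f2b.c2, f2b.c3]
    (.node 0 (.leaf 1) (.node 1 (.node 0 (.leaf 1) (.node 1 (.node 0 (.leaf 1) (.node 1 (.node 0 (.leaf 1) (.node 1 (.node 0 (.leaf 1) (.node 1 (.node 0 (.leaf 1) (.node 1 (.node 0 (.leaf 1) (.node 1 (.node 0 (.leaf 1) (.node 1 (.node 0 (.leaf 1) (.node 1 (.node 0 (.leaf 1) (.leaf 0)) (.leaf 1))) (.leaf 1))) (.leaf 1))) (.leaf 1))) (.leaf 1))) (.leaf 1))) (.leaf 1))) (.leaf 1))) (.leaf 1))) [(0, 2 ^ 11), (0, 2 ^ 11)] = true := by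
  decide +kernel

theorem f2b_ok : f2b.OK :=
  ⟨_, _, _, _, _, _, _, _, _, _, by decide, f2b_D, f2b_P⟩

lemma hW : ∀ c : ℝ, (156 / 125) ^ 2 - 1 ≤ c → c ≤ (158 / 125) ^ 2 - 1 → 0 ≤ Wf (228 / 625) (-807 / 2500) (4103 / 10000) c := by
  intro c h1 h2
  exact (Wf_pos (by norm_num) (by norm_num) (by norm_num at h1; linarith) (by norm_num at h2; linarith)).le

theorem fam1 : FamI (228 / 625) (-807 / 2500) (4103 / 10000) ((156 / 125) ^ 2 - 1) ((158 / 125) ^ 2 - 1)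
    ⟨(37097 / 100000), (-37097 / 100000), (5633 / 6250), (1931 / 20000), 0, (31 / 1000), 0, (34473 / 100000)⟩ := by
  refine Dat.famI_of_ends f1a_ok f1b_ok (z0 := (157 / 125)) (Ua := (554891 / 1000000)) (Ub := (59479 / 100000)) (Va := (8921 / 5000)) (Vb := (208 / 125))
    (by norm_num) (by norm_num) (by norm_num) (by norm_num) (by norm_num) (by norm_num) (by norm_num)
    (by norm_num) (by norm_num) (by norm_num) (by norm_num) hW ?_ ?_ ?_ ?_
    ?_ ?_ ?_ ?_ ?_ ?_ ?_ ?_ ?_ ?_ ?_ ?_ ?_ ?_ ?_ ?_ ?_ ?_ ?_ ?_ ?_ ?_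
  all_goals norm_num [Wtan, Wz, Dat.A0, Dat.A1, Dat.A2, Dat.K1, Dat.K2, Dat.E1, Dat.E2, Dat.M2, Dat.L2,
    Dat.C2, Dat.T1, f1a, f1b]

theorem fam2 : FamI (228 / 625) (-807 / 2500) (4103 / 10000) ((156 / 125) ^ 2 - 1) ((158 / 125) ^ 2 - 1)
    ⟨(18549 / 50000), (-9387 / 20000), (9013 / 10000), (769 / 10000), 0, (0), 0, (37563 / 100000)⟩ := by
  refine Dat.famI_of_ends f2a_ok f2b_ok (z0 := (157 / 125)) (Ua := (554891 / 1000000)) (Ub := (59479 / 100000)) (Va := (8921 / 5000)) (Vb := (208 / 125))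
    (by norm_num) (by norm_num) (by norm_num) (by norm_num) (by norm_num) (by norm_num) (by norm_num)
    (by norm_num) (by norm_num) (by norm_num) (by norm_num) hW ?_ ?_ ?_ ?_
    ?_ ?_ ?_ ?_ ?_ ?_ ?_ ?_ ?_ ?_ ?_ ?_ ?_ ?_ ?_ ?_ ?_ ?_ ?_ ?_ ?_ ?_
  all_goals norm_num [Wtan, Wz, Dat.A0, Dat.A1, Dat.A2, Dat.K1, Dat.K2, Dat.E1, Dat.E2, Dat.M2, Dat.L2,
    Dat.C2, Dat.T1, f2a, f2b]

def dz : DatZ :=
  { N := 1000000, a0 := 364800, a1 := -322800, a2 := 410300, l0 := 63330, l1 := 495220, v0 := 11171931, v1 := -7522076, NR := 100000000, R := [(-100000000, 100000000), (-300000000, 200000000), (689948283, -524286871), (1703179596, -1267172445), (-5782411515, 4474594440), (-13615056137, 10229820428), (92818066893, -71263917324), (-195734981100, 151165202626), (209856199157, -162583799486), (-115651030424, 89779294368), (26033331424, -20237388664)] }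

set_option maxRecDepth 100000 in
theorem dz_D : run 3 843 11 [1, 51, 9] [4096, 4096, 5178] [[dz.Rs.e, dz.Q2.e, dz.QV.e]]
    (.node 1 (.leaf 0) (.node 1 (.leaf 0) (.node 1 (.node 1 (.leaf 0) (.node 1 (.node 1 (.node 2 (.leaf 0) (.leaf 0)) (.node 2 (.leaf 0) (.leaf 0))) (.node 1 (.node 2 (.leaf 0) (.leaf 0)) (.node 2 (.leaf 0) (.leaf 0))))) (.node 1 (.node 1 (.node 1 (.node 2 (.leaf 0) (.leaf 0)) (.node 2 (.leaf 0) (.leaf 0))) (.node 1 (.node 2 (.leaf 0) (.leaf 0)) (.node 2 (.leaf 0) (.leaf 0)))) (.node 1 (.node 1 (.node 2 (.leaf 0) (.leaf 0)) (.node 2 (.leaf 0) (.leaf 0))) (.node 1 (.node 2 (.leaf 0) (.leaf 0)) (.node 2 (.leaf 0) (.leaf 0)))))))) [(0, 2 ^ 11), (0, 2 ^ 11), (2555, 2589)] = true := by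
  decide +kernel

set_option maxRecDepth 100000 in
theorem dz_P : run 3 430 11 [8, 14, 9] [4096, 4096, 5178] [[dz.G.e]]
    (.node 0 (.leaf 0) (.node 1 (.leaf 0) (.leaf 0))) [(0, 2 ^ 11), (0, 2 ^ 11), (2555, 2589)] = true := by
  decide +kernel

theorem dict : CertI (228 / 625) (-807 / 2500) (4103 / 10000) ((156 / 125) ^ 2 - 1) ((158 / 125) ^ 2 - 1) 1 0 1 (6333 / 100000) (24761 / 50000) := by
  refine DatZ.certI dz (by decide) dz_D dz_P ?_ ?_ ?_ ?_ ?_ (by norm_num) (by norm_num) (by norm_num)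
    (by norm_num) (by norm_num) (by norm_num) (by norm_num) (by norm_num) (by norm_num) hW
  all_goals norm_num [DatZ.A0, DatZ.A1, DatZ.A2, DatZ.L0, DatZ.L1, dz]

end Crest.Agent.R307.MO13
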