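import Crest.Agent.R307.PIDict

/-!
Row 307 (S0471), regime M, pointwise certificates on one c-interval (generated, helper14).
-/

set_option autoImplicit false

namespace Crest.Agent.R307.MOa

open Crest.Agent.KB Crest.Agent.R307.PIConic Crest.Agent.R307.GenInt

def f1a : Dat :=
  { N := 20000000000, a0 := 7970000000, a1 := -6482000000, a2 := 5354000000, k1 := 8474800000, k2 := -8474800000, e1 := 11003782559, e2 := 266957749, m2 := 6271770800, l2 := 15491528400, cn := 106007616, cd := 244140625, NR := 100000000, R := [28798236, -42261218, 13642738, 119147244, -310738619, 393804346, -286026042, 113706185, -19218015], tn := 1, td := 1 }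

set_option maxRecDepth 100000 in
theorem f1a_D : run 2 382 4 [1, 43] [32, 32] [[f1a.Q1.e, f1a.Q2.e]]
    (.node 1 (.leaf 0) (.node 1 (.leaf 0) (.node 1 (.leaf 0) (.node 1 (.leaf 0) (.leaf 0))))) [(0, 2 ^ 4), (0, 2 ^ 4)] = true := by
  decide +kernel

set_option maxRecDepth 100000 in
theorem f1a_P : run 2 738 11 [15, 21] [4096, 4096] [f1a.c1, f1a.c2, f1a.c3]
    (.node 0 (.leaf 1) (.node 1 (.node 0 (.leaf 1) (.node 1 (.node 0 (.leaf 1) (.node 1 (.node 0 (.leaf 1) (.node 1 (.node 0 (.leaf 1) (.node 1 (.node 0 (.leaf 1) (.node 1 (.node 0 (.leaf 1) (.leaf 0)) (.node 0 (.leaf 1) (.node 1 (.leaf 0) (.leaf 1))))) (.leaf 1))) (.leaf 1))) (.leaf 1))) (.leaf 1))) (.leaf 1))) [(0, 2 ^ 11), (0, 2 ^ 11)] = true := by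
  decide +kernel

theorem f1a_ok : f1a.OK :=
  ⟨_, _, _, _, _, _, _, _, _, _, by decide, f1a_D, f1a_P⟩

def f1b : Dat :=
  { N := 100000000000, a0 := 39850000000, a1 := -32410000000, a2 := 26770000000, k1 := 42374000000, k2 := -42374000000, e1 := 56736251957, e2 := 1376452327, m2 := 30401667500, l2 := 75093352500, cn := 112763161, cd := 244140625, NR := 100000000, R := [29598429, -40677839, 11372580, 105780560, -255674095, 298421933, -196114625, 68614851, -9775100], tn := 1, td := 1 }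

set_option maxRecDepth 100000 in
theorem f1b_D : run 2 380 4 [1, 43] [32, 32] [[f1b.Q1.e, f1b.Q2.e]]
    (.node 1 (.leaf 0) (.node 1 (.leaf 0) (.node 1 (.leaf 0) (.leaf 0)))) [(0, 2 ^ 4), (0, 2 ^ 4)] = true := by
  decide +kernel

set_option maxRecDepth 100000 in
theorem f1b_P : run 2 746 11 [15, 21] [4096, 4096] [f1b.c1, f1b.c2, f1b.c3]
    (.node 0 (.leaf 1) (.node 1 (.node 0 (.leaf 1) (.node 1 (.node 0 (.leaf 1) (.node 1 (.node 0 (.leaf 1) (.node 1 (.node 0 (.leaf 1) (.node 1 (.node 0 (.leaf 1) (.node 1 (.node 0 (.leaf 1) (.node 1 (.node 0 (.leaf 1) (.node 1 (.node 0 (.leaf 1) (.node 1 (.node 0 (.leaf 1) (.node 1 (.node 0 (.leaf 1) (.leaf 0)) (.leaf 1))) (.leaf 1))) (.leaf 1))) (.leaf 1))) (.leaf 1))) (.leaf 1))) (.leaf 1))) (.leaf 1))) (.leaf 1))) (.leaf 1))) [(0, 2 ^ 11), (0, 2 ^ 11)] = true := by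
  decide +kernel

theorem f1b_ok : f1b.OK :=
  ⟨_, _, _, _, _, _, _, _, _, _, by decide, f1b_D, f1b_P⟩

def f2a : Dat :=
  { N := 20000000000, a0 := 7970000000, a1 := -6482000000, a2 := 5354000000, k1 := 8635600000, k2 := -9339000000, e1 := 11212875623, e2 := 1614879827, m2 := 6368489920, l2 := 12961859280, cn := 106007616, cd := 244140625, NR := 100000000, R := [28798236, -42261218, 13642738, 119147244, -310738619, 393804346, -286026042, 113706185, -19218015], tn := 1, td := 1 }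

set_option maxRecDepth 100000 in
theorem f2a_D : run 2 382 4 [1, 43] [32, 32] [[f2a.Q1.e, f2a.Q2.e]]
    (.node 1 (.leaf 0) (.node 1 (.leaf 0) (.node 1 (.leaf 0) (.node 1 (.leaf 0) (.leaf 0))))) [(0, 2 ^ 4), (0, 2 ^ 4)] = true := by
  decide +kernel

set_option maxRecDepth 100000 in
theorem f2a_P : run 2 738 11 [15, 21] [4096, 4096] [f2a.c1, f2a.c2, f2a.c3]
    (.node 0 (.node 1 (.node 0 (.leaf 1) (.node 1 (.node 0 (.leaf 1) (.leaf 1)) (.leaf 1))) (.leaf 1)) (.node 1 (.node 0 (.leaf 1) (.node 1 (.node 0 (.leaf 1) (.node 1 (.node 0 (.leaf 1) (.node 1 (.node 0 (.leaf 1) (.node 1 (.node 0 (.leaf 1) (.node 1 (.node 0 (.leaf 1) (.leaf 0)) (.node 0 (.leaf 1) (.node 1 (.leaf 0) (.leaf 1))))) (.leaf 1))) (.leaf 1))) (.leaf 1))) (.leaf 1))) (.node 0 (.leaf 1) (.leaf 1)))) [(0, 2 ^ 11), (0, 2 ^ 11)] = true := by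
  decide +kernel

theorem f2a_ok : f2a.OK :=
  ⟨_, _, _, _, _, _, _, _, _, _, by decide, f2a_D, f2a_P⟩

def f2b : Dat :=
  { N := 100000000000, a0 := 39850000000, a1 := -32410000000, a2 := 26770000000, k1 := 43178000000, k2 := -46695000000, e1 := 57814350029, e2 := 8326430321, m2 := 30870502000, l2 := 62831080500, cn := 112763161, cd := 244140625, NR := 100000000, R := [29598429, -40677839, 11372580, 105780560, -255674095, 298421933, -196114625, 68614851, -9775100], tn := 1, td := 1 }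

set_option maxRecDepth 100000 in
theorem f2b_D : run 2 380 4 [1, 43] [32, 32] [[f2b.Q1.e, f2b.Q2.e]]
    (.node 1 (.leaf 0) (.node 1 (.leaf 0) (.node 1 (.leaf 0) (.leaf 0)))) [(0, 2 ^ 4), (0, 2 ^ 4)] = true := by
  decide +kernel

set_option maxRecDepth 100000 in
theorem f2b_P : run 2 746 11 [15, 21] [4096, 4096] [f2b.c1, f2b.c2, f2b.c3]
    (.node 0 (.leaf 1) (.node 1 (.node 0 (.leaf 1) (.node 1 (.node 0 (.leaf 1) (.node 1 (.node 0 (.leaf 1) (.node 1 (.node 0 (.leaf 1) (.node 1 (.node 0 (.leaf 1) (.node 1 (.node 0 (.leaf 1) (.node 1 (.node 0 (.leaf 1) (.node 1 (.node 0 (.leaf 1) (.node 1 (.node 0 (.leaf 1) (.node 1 (.node 0 (.leaf 1) (.leaf 0)) (.leaf 1))) (.leaf 1))) (.leaf 1))) (.leaf 1))) (.leaf 1))) (.leaf 1))) (.leaf 1))) (.leaf 1))) (.leaf 1))) (.leaf 1))) [(0, 2 ^ 11), (0, 2 ^ 11)] = true := by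
  decide +kernel

theorem f2b_ok : f2b.OK :=
  ⟨_, _, _, _, _, _, _, _, _, _, by decide, f2b_D, f2b_P⟩

lemma hW : ∀ c : ℝ, (161 / 125) ^ 2 - 1 ≤ c → c ≤ (162 / 125) ^ 2 - 1 → 0 ≤ Wf (797 / 2000) (-3241 / 10000) (2677 / 10000) c := by
  intro c h1 h2
  exact (Wf_pos (by norm_num) (by norm_num) (by norm_num at h1; linarith) (by norm_num at h2; linarith)).le

theorem fam1 : FamI (797 / 2000) (-3241 / 10000) (2677 / 10000) ((161 / 125) ^ 2 - 1) ((162 / 125) ^ 2 - 1)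
    ⟨(21187 / 50000), (-21187 / 50000), (84623 / 100000), (2053 / 100000), 0, (4189 / 20000), 0, (10347 / 20000)⟩ := by
  refine Dat.famI_of_ends f1a_ok f1b_ok (z0 := (323 / 250)) (Ua := (130033 / 200000)) (Ub := (670459 / 1000000)) (Va := (3743 / 2500)) (Vb := (2903 / 2000))
    (by norm_num) (by norm_num) (by norm_num) (by norm_num) (by norm_num) (by norm_num) (by norm_num)
    (by norm_num) (by norm_num) (by norm_num) (by norm_num) hW ?_ ?_ ?_ ?_
    ?_ ?_ ?_ ?_ ?_ ?_ ?_ ?_ ?_ ?_ ?_ ?_ ?_ ?_ ?_ ?_ ?_ ?_ ?_ ?_ ?_ ?_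
  all_goals norm_num [Wtan, Wz, Dat.A0, Dat.A1, Dat.A2, Dat.K1, Dat.K2, Dat.E1, Dat.E2, Dat.M2, Dat.L2,
    Dat.C2, Dat.T1, f1a, f1b]

theorem fam2 : FamI (797 / 2000) (-3241 / 10000) (2677 / 10000) ((161 / 125) ^ 2 - 1) ((162 / 125) ^ 2 - 1)
    ⟨(21589 / 50000), (-9339 / 20000), (86231 / 100000), (12419 / 100000), 0, (5317 / 25000), 0, (43287 / 100000)⟩ := by
  refine Dat.famI_of_ends f2a_ok f2b_ok (z0 := (323 / 250)) (Ua := (130033 / 200000)) (Ub := (670459 / 1000000)) (Va := (3743 / 2500)) (Vb := (2903 / 2000))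
    (by norm_num) (by norm_num) (by norm_num) (by norm_num) (by norm_num) (by norm_num) (by norm_num)
    (by norm_num) (by norm_num) (by norm_num) (by norm_num) hW ?_ ?_ ?_ ?_
    ?_ ?_ ?_ ?_ ?_ ?_ ?_ ?_ ?_ ?_ ?_ ?_ ?_ ?_ ?_ ?_ ?_ ?_ ?_ ?_ ?_ ?_
  all_goals norm_num [Wtan, Wz, Dat.A0, Dat.A1, Dat.A2, Dat.K1, Dat.K2, Dat.E1, Dat.E2, Dat.M2, Dat.L2,
    Dat.C2, Dat.T1, f2a, f2b]

def dz : DatZ :=
  { N := 1000000, a0 := 398500, a1 := -324100, a2 := 267700, l0 := 123010, l1 := 456890, v0 := 8864903, v1 := -5720231, NR := 100000000, R := [(-100000000, 100000000), (-300000000, 200000000), (463280982, -346161073), (1211912414, -881329415), (-2094130453, 1574177641), (-12096355966, 9057687359), (52586406464, -39714307188), (-93711657916, 71095454602), (90029216237, -68511078853), (-45775612935, 34911928517), (9686426557, -7399941727)] }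

set_option maxRecDepth 100000 in
theorem dz_D : run 3 838 11 [1, 51, 9] [4096, 4096, 5310] [[dz.Rs.e, dz.Q2.e, dz.QV.e]]
    (.node 1 (.leaf 0) (.node 1 (.leaf 0) (.node 1 (.node 1 (.node 1 (.leaf 0) (.node 1 (.leaf 0) (.node 1 (.node 2 (.leaf 0) (.leaf 0)) (.node 2 (.leaf 0) (.leaf 0))))) (.node 1 (.node 1 (.node 1 (.node 2 (.leaf 0) (.leaf 0)) (.node 2 (.leaf 0) (.leaf 0))) (.node 1 (.node 2 (.leaf 0) (.leaf 0)) (.node 2 (.leaf 0) (.leaf 0)))) (.node 1 (.node 1 (.node 2 (.leaf 0) (.leaf 0)) (.node 2 (.leaf 0) (.leaf 0))) (.node 1 (.node 2 (.leaf 0) (.leaf 0)) (.node 2 (.leaf 0) (.leaf 0)))))) (.node 1 (.node 1 (.node 1 (.node 1 (.node 2 (.leaf 0) (.leaf 0)) (.node 2 (.leaf 0) (.leaf 0))) (.node 1 (.node 2 (.leaf 0) (.leaf 0)) (.node 2 (.leaf 0) (.leaf 0)))) (.node 1 (.node 1 (.node 2 (.leaf 0) (.leaf 0)) (.node 2 (.leaf 0) (.leaf 0))) (.node 1 (.node 2 (.leaf 0) (.leaf 0)) (.node 2 (.leaf 0) (.leaf 0)))))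 (.node 1 (.node 1 (.node 1 (.node 2 (.leaf 0) (.leaf 0)) (.node 2 (.leaf 0) (.leaf 0))) (.node 1 (.node 2 (.leaf 0) (.leaf 0)) (.node 2 (.leaf 0) (.leaf 0)))) (.node 1 (.node 1 (.node 2 (.leaf 0) (.leaf 0)) (.node 2 (.leaf 0) (.leaf 0))) (.node 1 (.node 2 (.leaf 0) (.leaf 0)) (.node 2 (.leaf 0) (.leaf 0))))))))) [(0, 2 ^ 11), (0, 2 ^ 11), (2637, 2655)] = true := by
  decide +kernel

set_option maxRecDepth 100000 in
theorem dz_P : run 3 428 11 [8, 14, 9] [4096, 4096, 5310] [[dz.G.e]]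
    (.leaf 0) [(0, 2 ^ 11), (0, 2 ^ 11), (2637, 2655)] = true := by
  decide +kernel

theorem dict : CertI (797 / 2000) (-3241 / 10000) (2677 / 10000) ((161 / 125) ^ 2 - 1) ((162 / 125) ^ 2 - 1) 1 0 1 (12301 / 100000) (45689 / 100000) := by
  refine DatZ.certI dz (by decide) dz_D dz_P ?_ ?_ ?_ ?_ ?_ (by norm_num) (by norm_num) (by norm_num)
    (by norm_num) (by norm_num) (by norm_num) (by norm_num) (by norm_num) (by norm_num) hW
  all_goals norm_num [DatZ.A0, DatZ.A1, DatZ.A2, DatZ.L0, DatZ.L1, dz]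

end Crest.Agent.R307.MOa
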