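import Crest.Agent.R307.SubDefs

/-!
Row 307 (S0472), task T2: the one-coordinate case `GG t M hbar ≤ kk a b`.
-/

set_option autoImplicit false

open Set Crest.CubeNoise

namespace Crest.Agent.R307.NOne

/-- perspective formula for `io` (private copy) -/
theorem io_persp' {a b : ℝ} (ha : |a| < 1) (hb : |b| < 1) :
    io a b = ((1 + (a + b) / 2) * psi ((a - b) / 2 / (1 + (a + b) / 2)) +
      (1 - (a + b) / 2) * psi ((a - b) / 2 / (1 - (a + b) / 2))) / 2 := by
  obtain ⟨ha1, ha2⟩ := abs_lt.mp ha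
  obtain ⟨hb1, hb2⟩ := abs_lt.mp hb
  have p1 : 0 < 1 + (a + b) / 2 := by linarith
  have p2 : 0 < 1 - (a + b) / 2 := by linarith
  have hM : |(a + b) / 2| ≤ 1 := abs_le.mpr ⟨by linarith, by linarith⟩
  have hx1 : |(a - b) / 2 / (1 + (a + b) / 2)| ≤ 1 := by
    rw [abs_div, abs_of_pos p1, div_le_one p1]
    exact abs_le.mpr ⟨by linarith, by linarith⟩
  have hx2 : |(a - b) / 2 / (1 - (a + b) / 2)| ≤ 1 := by
    rw [abs_div, abs_of_pos p2, div_le_one p2]
    exact abs_le.mpr ⟨by linarith, by linarith⟩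
  unfold io psi
  rw [signEntropy_eq_logs ha.le, signEntropy_eq_logs hb.le, signEntropy_eq_logs hM,
    signEntropy_eq_logs hx1, signEntropy_eq_logs hx2]
  have e1 : 1 + (a - b) / 2 / (1 + (a + b) / 2) = (1 + a) / (1 + (a + b) / 2) := by
    rw [eq_div_iff p1.ne', add_mul, div_mul_cancel₀ _ p1.ne']; ring
  have e2 : 1 - (a - b) / 2 / (1 + (a + b) / 2) = (1 + b) / (1 + (a + b) / 2) := by
    rw [eq_div_iff p1.ne', sub_mul, div_mul_cancel₀ _ p1.ne']; ring
  have e3 : 1 + (a - b) / 2 / (1 - (a + b) / 2) = (1 - b) / (1 - (a + b) / 2) := by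
    rw [eq_div_iff p2.ne', add_mul, div_mul_cancel₀ _ p2.ne']; ring
  have e4 : 1 - (a - b) / 2 / (1 - (a + b) / 2) = (1 - a) / (1 - (a + b) / 2) := by
    rw [eq_div_iff p2.ne', sub_mul, div_mul_cancel₀ _ p2.ne']; ring
  rw [e1, e2, e3, e4, Real.log_div (by linarith) p1.ne', Real.log_div (by linarith) p1.ne',
    Real.log_div (by linarith) p2.ne', Real.log_div (by linarith) p2.ne']
  have f1 : (1 + (a + b) / 2) * ((1 + a) / (1 + (a + b) / 2)) = 1 + a := by
    rw [mul_comm]; exact div_mul_cancel₀ _ p1.ne'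
  have f2 : (1 + (a + b) / 2) * ((1 + b) / (1 + (a + b) / 2)) = 1 + b := by
    rw [mul_comm]; exact div_mul_cancel₀ _ p1.ne'
  have f3 : (1 - (a + b) / 2) * ((1 - b) / (1 - (a + b) / 2)) = 1 - b := by
    rw [mul_comm]; exact div_mul_cancel₀ _ p2.ne'
  have f4 : (1 - (a + b) / 2) * ((1 - a) / (1 - (a + b) / 2)) = 1 - a := by
    rw [mul_comm]; exact div_mul_cancel₀ _ p2.ne'
  set u1 := (1 + a) / (1 + (a + b) / 2)
  set u2 := (1 + b) / (1 + (a + b) / 2)
  set u3 := (1 - b) / (1 - (a + b) / 2)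
  set u4 := (1 - a) / (1 - (a + b) / 2)
  linear_combination (-(Real.log (1 + a) - Real.log (1 + (a + b) / 2)) / 4) * f1
    - ((Real.log (1 + b) - Real.log (1 + (a + b) / 2)) / 4) * f2
    - ((Real.log (1 - b) - Real.log (1 - (a + b) / 2)) / 4) * f3
    - ((Real.log (1 - a) - Real.log (1 - (a + b) / 2)) / 4) * f4

theorem io_lt {M d : ℝ} (hd0 : 0 ≤ d) (hd : d < 1 - |M|) :
    io (M + d) (M - d) < (1 - M ^ 2) * Real.log 2 := by
  have hM : |M| < 1 := by linarith
  obtain ⟨hM1, hM2⟩ := abs_lt.mp hM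
  have hle := neg_abs_le M
  have hle' := le_abs_self M
  have ha : |M + d| < 1 := abs_lt.mpr ⟨by linarith, by linarith⟩
  have hb : |M - d| < 1 := abs_lt.mpr ⟨by linarith, by linarith⟩
  have h := io_persp' ha hb
  have e1 : (M + d + (M - d)) / 2 = M := by ring
  have e2 : (M + d - (M - d)) / 2 = d := by ring
  rw [e1, e2] at h
  have p1 : 0 < 1 + M := by linarith
  have p2 : 0 < 1 - M := by linarith
  have q1 : |d / (1 + M)| ≤ 1 := by
    rw [abs_div, abs_of_pos p1, div_le_one p1, abs_of_nonneg hd0]; linarith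
  have q2 : |d / (1 - M)| ≤ 1 := by
    rw [abs_div, abs_of_pos p2, div_le_one p2, abs_of_nonneg hd0]; linarith
  have b1 := mul_le_mul_of_nonneg_left (psi_le_sq q1) p1.le
  have b2 := mul_le_mul_of_nonneg_left (psi_le_sq q2) p2.le
  have hl : 0 < Real.log 2 := Real.log_pos (by norm_num)
  have e3 : ((1 + M) * ((d / (1 + M)) ^ 2 * Real.log 2) +
      (1 - M) * ((d / (1 - M)) ^ 2 * Real.log 2)) / 2 = d ^ 2 / (1 - M ^ 2) * Real.log 2 := by
    have e4 : 1 - M ^ 2 = (1 + M) * (1 - M) := by ring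
    rw [e4]
    field_simp
    ring
  have hv : 0 < 1 - M ^ 2 := by nlinarith
  have hdv : d < 1 - M ^ 2 := by
    have : 1 - |M| ≤ 1 - M ^ 2 := by
      have := sq_abs M
      nlinarith [abs_nonneg M]
    linarith
  have e5 : d ^ 2 / (1 - M ^ 2) < 1 - M ^ 2 := by
    rw [div_lt_iff₀ hv]
    nlinarith
  have := mul_lt_mul_of_pos_right e5 hl
  linarith

/-- the comparison function -/
noncomputable def ff (M c d : ℝ) : ℝ := (1 - M ^ 2) * psi (c * d) - io (M + d) (M - d)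

noncomputable def ff' (M c d : ℝ) : ℝ :=
  (1 - M ^ 2) * (c * Real.artanh (c * d)) - (Real.artanh (M + d) - Real.artanh (M - d)) / 2

noncomputable def ff'' (M c d : ℝ) : ℝ :=
  (1 - M ^ 2) * (c ^ 2 / (1 - (c * d) ^ 2)) - (1 / (1 - (M + d) ^ 2) + 1 / (1 - (M - d) ^ 2)) / 2

noncomputable def QQ (M c D : ℝ) : ℝ :=
  (1 - M ^ 2) * (c ^ 2 * (1 - M ^ 2) ^ 2 - 1) +
    D * (1 + 2 * c ^ 2 * (1 - M ^ 2) ^ 2 - 3 * c ^ 2 * (1 - M ^ 2)) - D ^ 2 * (c ^ 2 * M ^ 2)

theorem hasDerivAt_ff {M c d : ℝ} (h1 : |M + d| < 1) (h2 : |M - d| < 1) (h3 : |c * d| < 1) :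
    HasDerivAt (ff M c) (ff' M c d) d := by
  have d1 : HasDerivAt (fun x : ℝ => c * x) c d := by
    simpa using (hasDerivAt_id d).const_mul c
  have d2 : HasDerivAt (fun x : ℝ => M + x) 1 d := (hasDerivAt_id d).const_add M
  have d3 : HasDerivAt (fun x : ℝ => M - x) (-1) d := (hasDerivAt_id d).const_sub M
  have p1 := ((hasDerivAt_psi h3).comp d d1).const_mul (1 - M ^ 2)
  have p2 := (hasDerivAt_signEntropy h1).comp d d2
  have p3 := (hasDerivAt_signEntropy h2).comp d d3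
  have p4 := ((p2.add p3).div_const 2).const_sub (signEntropy M)
  have p5 := p1.sub p4
  refine (p5.congr_of_eventuallyEq ?_).congr_deriv ?_
  · refine Filter.Eventually.of_forall fun x => ?_
    simp only [ff, io, Function.comp, Pi.sub_apply, Pi.add_apply]
    have e1 : (M + x + (M - x)) / 2 = M := by ring
    rw [e1]
  · unfold ff'
    ring

theorem hasDerivAt_ff' {M c d : ℝ} (h1 : |M + d| < 1) (h2 : |M - d| < 1) (h3 : |c * d| < 1) :
    HasDerivAt (ff' M c) (ff'' M c d) d := by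
  have d1 : HasDerivAt (fun x : ℝ => c * x) c d := by
    simpa using (hasDerivAt_id d).const_mul c
  have d2 : HasDerivAt (fun x : ℝ => M + x) 1 d := (hasDerivAt_id d).const_add M
  have d3 : HasDerivAt (fun x : ℝ => M - x) (-1) d := (hasDerivAt_id d).const_sub M
  have p1 := (((hasDerivAt_artanh h3).comp d d1).const_mul c).const_mul (1 - M ^ 2)
  have p2 := (hasDerivAt_artanh h1).comp d d2
  have p3 := (hasDerivAt_artanh h2).comp d d3
  have p4 := ((p2.sub p3).div_const 2)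
  have p5 := p1.sub p4
  refine (p5.congr_of_eventuallyEq ?_).congr_deriv ?_
  · refine Filter.Eventually.of_forall fun x => ?_
    simp only [ff', Function.comp, Pi.sub_apply]
  · unfold ff''
    ring

theorem ff''_eq {M c d : ℝ} (h1 : |M + d| < 1) (h2 : |M - d| < 1) (h3 : |c * d| < 1) :
    ff'' M c d = QQ M c (d ^ 2) /
      ((1 - (c * d) ^ 2) * ((1 - (M + d) ^ 2) * (1 - (M - d) ^ 2))) := by
  have p1 : 1 - (M + d) ^ 2 ≠ 0 := by
    have := (sq_lt_one_iff_abs_lt_one (M + d)).mpr h1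
    linarith
  have p2 : 1 - (M - d) ^ 2 ≠ 0 := by
    have := (sq_lt_one_iff_abs_lt_one (M - d)).mpr h2
    linarith
  have p3 : 1 - (c * d) ^ 2 ≠ 0 := by
    have := (sq_lt_one_iff_abs_lt_one (c * d)).mpr h3
    linarith
  have key : ∀ P A B k : ℝ, P ≠ 0 → A ≠ 0 → B ≠ 0 →
      k / P - (1 / A + 1 / B) / 2 = (k * (A * B) - P * (A + B) / 2) / (P * (A * B)) := by
    intro P A B k hP hA hB
    field_simp
    ring
  unfold ff'' QQ
  rw [← mul_div_assoc, key _ _ _ _ p3 p1 p2]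
  congr 1
  ring

theorem den_pos {M c d : ℝ} (h1 : |M + d| < 1) (h2 : |M - d| < 1) (h3 : |c * d| < 1) :
    0 < (1 - (c * d) ^ 2) * ((1 - (M + d) ^ 2) * (1 - (M - d) ^ 2)) := by
  have p1 := (sq_lt_one_iff_abs_lt_one (M + d)).mpr h1
  have p2 := (sq_lt_one_iff_abs_lt_one (M - d)).mpr h2
  have p3 := (sq_lt_one_iff_abs_lt_one (c * d)).mpr h3
  exact mul_pos (by linarith) (mul_pos (by linarith) (by linarith))

theorem ff_zero (M c : ℝ) : ff M c 0 = 0 := by
  unfold ff io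
  rw [mul_zero, psi_zero]
  simp

theorem ff'_zero (M c : ℝ) : ff' M c 0 = 0 := by
  unfold ff'
  simp

/-- abstract calculus lemma -/
theorem calc_lemma {f f' f'' : ℝ → ℝ} {d : ℝ} (hd : 0 < d)
    (h1 : ∀ x ∈ Icc 0 d, HasDerivAt f (f' x) x) (h2 : ∀ x ∈ Icc 0 d, HasDerivAt f' (f'' x) x)
    (h0 : f' 0 = 0) (hq : ∀ y z, 0 < y → y < z → z ≤ d → 0 < f'' z → 0 ≤ f'' y)
    (hf : f d ≤ f 0) : f' d ≤ 0 := by
  by_contra hcon
  push Not at hcon
  have hc' : ContinuousOn f' (Icc 0 d) := fun x hx => (h2 x hx).continuousAt.continuousWithinAt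
  have hc : ContinuousOn f (Icc 0 d) := fun x hx => (h1 x hx).continuousAt.continuousWithinAt
  have hpos : ∀ x ∈ Icc 0 d, 0 ≤ f' x := by
    intro x hx
    by_contra hneg
    push Not at hneg
    have hx0 : 0 < x := by
      rcases eq_or_lt_of_le hx.1 with h | h
      · rw [← h, h0] at hneg; exact absurd hneg (lt_irrefl _)
      · exact h
    have hxd : x < d := by
      rcases eq_or_lt_of_le hx.2 with h | h
      · rw [h] at hneg; linarith
      · exact h
    obtain ⟨y, hy, hy'⟩ := exists_hasDerivAt_eq_slope f' f'' hx0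
      (hc'.mono (Icc_subset_Icc_right hx.2)) (fun z hz => h2 z ⟨hz.1.le, hz.2.le.trans hx.2⟩)
    obtain ⟨z, hz, hz'⟩ := exists_hasDerivAt_eq_slope f' f'' hxd
      (hc'.mono (Icc_subset_Icc_left hx.1)) (fun w hw => h2 w ⟨hx.1.trans hw.1.le, hw.2.le⟩)
    have hy2 : f'' y < 0 := by
      rw [hy', h0]
      exact div_neg_of_neg_of_pos (by linarith) (by linarith)
    have hz2 : 0 < f'' z := by
      rw [hz']
      exact div_pos (by linarith) (by linarith)
    have := hq y z hy.1 (hy.2.trans hz.1) hz.2.le hz2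
    linarith
  have hmono : MonotoneOn f (Icc 0 d) := by
    refine monotoneOn_of_deriv_nonneg (convex_Icc 0 d) hc ?_ ?_
    · rw [interior_Icc]
      intro x hx
      exact (h1 x ⟨hx.1.le, hx.2.le⟩).differentiableAt.differentiableWithinAt
    · rw [interior_Icc]
      intro x hx
      rw [(h1 x ⟨hx.1.le, hx.2.le⟩).deriv]
      exact hpos x ⟨hx.1.le, hx.2.le⟩
  -- `f` is constant on `[0,d]`
  have hconst : ∀ x ∈ Icc 0 d, f x = f d := by
    intro x hx
    have i1 := hmono (left_mem_Icc.mpr hd.le) hx hx.1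
    have i2 := hmono hx (right_mem_Icc.mpr hd.le) hx.2
    linarith
  have hz : ∀ x ∈ Ioo 0 d, f' x = 0 := by
    intro x hx
    have hev : f =ᶠ[nhds x] fun _ => f d := by
      filter_upwards [Ioo_mem_nhds hx.1 hx.2] with y hy
      exact hconst y ⟨hy.1.le, hy.2.le⟩
    have := (hasDerivAt_const x (f d)).congr_of_eventuallyEq hev
    exact (h1 x ⟨hx.1.le, hx.2.le⟩).unique this
  have hcl : f' d = 0 := by
    have hcw : ContinuousWithinAt f' (Ioo 0 d) d :=
      ((h2 d (right_mem_Icc.mpr hd.le)).continuousAt).continuousWithinAt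
    have hne : (nhdsWithin d (Ioo 0 d)).NeBot := by
      rw [← mem_closure_iff_nhdsWithin_neBot, closure_Ioo hd.ne]
      exact right_mem_Icc.mpr hd.le
    have ht : Filter.Tendsto f' (nhdsWithin d (Ioo 0 d)) (nhds 0) := by
      refine tendsto_const_nhds.congr' ?_
      filter_upwards [self_mem_nhdsWithin] with x hx
      exact (hz x hx).symm
    exact tendsto_nhds_unique hcw ht
  linarith

/-- `psi (d/v) ≤ io / v` -/
theorem lower_io {M d : ℝ} (hd0 : 0 < d) (hd : d < 1 - |M|) :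
    (1 - M ^ 2) * psi (d / (1 - M ^ 2)) ≤ io (M + d) (M - d) := by
  have hM : |M| < 1 := by linarith
  have hle := neg_abs_le M
  have hle' := le_abs_self M
  have hv : 0 < 1 - M ^ 2 := by
    have := (sq_lt_one_iff_abs_lt_one M).mpr hM
    linarith
  have hdv : 1 - |M| ≤ 1 - M ^ 2 := by
    have := sq_abs M
    nlinarith [abs_nonneg M]
  set c := 1 / (1 - M ^ 2) with hc
  have hc0 : 0 < c := by positivity
  have hcv : c * (1 - M ^ 2) = 1 := by rw [hc]; field_simp
  have hr : ∀ x ∈ Icc 0 d, |M + x| < 1 ∧ |M - x| < 1 ∧ |c * x| < 1 := by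
    intro x hx
    refine ⟨abs_lt.mpr ⟨by linarith [hx.1, hx.2], by linarith [hx.1, hx.2]⟩,
      abs_lt.mpr ⟨by linarith [hx.1, hx.2], by linarith [hx.1, hx.2]⟩, ?_⟩
    rw [abs_of_nonneg (mul_nonneg hc0.le hx.1), ← hcv]
    exact mul_lt_mul_of_pos_left (by linarith [hx.2]) hc0
  have hneg : ∀ x ∈ Icc 0 d, ff'' M c x ≤ 0 := by
    intro x hx
    obtain ⟨r1, r2, r3⟩ := hr x hx
    rw [ff''_eq r1 r2 r3]
    refine div_nonpos_of_nonpos_of_nonneg ?_ (den_pos r1 r2 r3).le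
    unfold QQ
    have e1 : c ^ 2 * (1 - M ^ 2) ^ 2 = 1 := by
      rw [← mul_pow, hcv, one_pow]
    have e2 : c ^ 2 * (1 - M ^ 2) = c := by
      rw [pow_two, mul_assoc, hcv, mul_one]
    have e3 : 1 + 2 * c ^ 2 * (1 - M ^ 2) ^ 2 - 3 * c ^ 2 * (1 - M ^ 2) = 3 * (1 - c) := by
      linear_combination 2 * e1 - 3 * e2
    rw [e1, e3]
    have hc1 : 1 ≤ c := by
      rw [hc, le_div_iff₀ hv]
      nlinarith [sq_nonneg M]
    have := mul_nonneg (sq_nonneg x) (by linarith : (0 : ℝ) ≤ c - 1)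
    have := mul_nonneg (sq_nonneg (x ^ 2)) (mul_nonneg (sq_nonneg c) (sq_nonneg M))
    nlinarith
  have hanti' : AntitoneOn (ff' M c) (Icc 0 d) := by
    refine antitoneOn_of_deriv_nonpos (convex_Icc 0 d) ?_ ?_ ?_
    · intro x hx
      obtain ⟨r1, r2, r3⟩ := hr x hx
      exact (hasDerivAt_ff' r1 r2 r3).continuousAt.continuousWithinAt
    · rw [interior_Icc]
      intro x hx
      obtain ⟨r1, r2, r3⟩ := hr x ⟨hx.1.le, hx.2.le⟩
      exact (hasDerivAt_ff' r1 r2 r3).differentiableAt.differentiableWithinAt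
    · rw [interior_Icc]
      intro x hx
      obtain ⟨r1, r2, r3⟩ := hr x ⟨hx.1.le, hx.2.le⟩
      rw [(hasDerivAt_ff' r1 r2 r3).deriv]
      exact hneg x ⟨hx.1.le, hx.2.le⟩
  have hanti : AntitoneOn (ff M c) (Icc 0 d) := by
    refine antitoneOn_of_deriv_nonpos (convex_Icc 0 d) ?_ ?_ ?_
    · intro x hx
      obtain ⟨r1, r2, r3⟩ := hr x hx
      exact (hasDerivAt_ff r1 r2 r3).continuousAt.continuousWithinAt
    · rw [interior_Icc]
      intro x hx
      obtain ⟨r1, r2, r3⟩ := hr x ⟨hx.1.le, hx.2.le⟩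
      exact (hasDerivAt_ff r1 r2 r3).differentiableAt.differentiableWithinAt
    · rw [interior_Icc]
      intro x hx
      obtain ⟨r1, r2, r3⟩ := hr x ⟨hx.1.le, hx.2.le⟩
      rw [(hasDerivAt_ff r1 r2 r3).deriv]
      have := hanti' (left_mem_Icc.mpr hd0.le) ⟨hx.1.le, hx.2.le⟩ hx.1.le
      rwa [ff'_zero] at this
  have h := hanti (left_mem_Icc.mpr hd0.le) (right_mem_Icc.mpr hd0.le) hd0.le
  rw [ff_zero] at h
  unfold ff at h
  have e : c * d = d / (1 - M ^ 2) := by rw [hc]; ring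
  rw [e] at h
  linarith

/-- main step for `d > 0` -/
theorem main_pos {M d r : ℝ} (hd0 : 0 < d) (hd : d < 1 - |M|) (hr0 : 0 ≤ r) (hr1 : r < 1)
    (hr : (1 - M ^ 2) * psi r = io (M + d) (M - d)) :
    (1 - M ^ 2) * (r * Real.artanh r) ≤ kk (M + d) (M - d) := by
  have hM : |M| < 1 := by linarith
  have hle := neg_abs_le M
  have hle' := le_abs_self M
  have hv : 0 < 1 - M ^ 2 := by
    have := (sq_lt_one_iff_abs_lt_one M).mpr hM
    linarith
  have hdv : 1 - |M| ≤ 1 - M ^ 2 := by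
    have := sq_abs M
    nlinarith [abs_nonneg M]
  -- `d / v ≤ r`
  have hlow := lower_io hd0 hd
  rw [← hr] at hlow
  have hdr : d / (1 - M ^ 2) ≤ r := by
    have h1 : psi (d / (1 - M ^ 2)) ≤ psi r := le_of_mul_le_mul_left hlow hv
    have h2 : d / (1 - M ^ 2) ∈ Icc (0 : ℝ) 1 :=
      ⟨by positivity, by rw [div_le_one hv]; linarith⟩
    exact (strictMonoOn_psi.le_iff_le h2 ⟨hr0, hr1.le⟩).mp h1
  set c := r / d with hc
  have hcd : c * d = r := by rw [hc]; field_simp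
  have hcv : 1 ≤ c * (1 - M ^ 2) := by
    rw [div_le_iff₀ hv] at hdr
    rw [hc, div_mul_eq_mul_div, le_div_iff₀ hd0]
    linarith
  have hc0 : 0 ≤ c := by positivity
  have hR : ∀ x ∈ Icc 0 d, |M + x| < 1 ∧ |M - x| < 1 ∧ |c * x| < 1 := by
    intro x hx
    refine ⟨abs_lt.mpr ⟨by linarith [hx.1, hx.2], by linarith [hx.1, hx.2]⟩,
      abs_lt.mpr ⟨by linarith [hx.1, hx.2], by linarith [hx.1, hx.2]⟩, ?_⟩
    rw [abs_of_nonneg (mul_nonneg hc0 hx.1)]
    have := mul_le_mul_of_nonneg_left hx.2 hc0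
    rw [hcd] at this
    linarith
  have hmain := calc_lemma (f := ff M c) (f' := ff' M c) (f'' := ff'' M c) hd0
    (fun x hx => by obtain ⟨r1, r2, r3⟩ := hR x hx; exact hasDerivAt_ff r1 r2 r3)
    (fun x hx => by obtain ⟨r1, r2, r3⟩ := hR x hx; exact hasDerivAt_ff' r1 r2 r3)
    (ff'_zero M c)
    (fun y z hy hyz hz hpos => by
      obtain ⟨r1, r2, r3⟩ := hR y ⟨hy.le, (hyz.trans_le hz).le⟩
      obtain ⟨s1, s2, s3⟩ := hR z ⟨(hy.trans hyz).le, hz⟩
      rw [ff''_eq r1 r2 r3]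
      rw [ff''_eq s1 s2 s3] at hpos
      have hQz : 0 < QQ M c (z ^ 2) := by
        by_contra hcon
        push Not at hcon
        have := div_nonpos_of_nonpos_of_nonneg hcon (den_pos s1 s2 s3).le
        linarith
      have hQ0 : 0 ≤ QQ M c 0 := by
        unfold QQ
        have : 1 ≤ c ^ 2 * (1 - M ^ 2) ^ 2 := by
          rw [← mul_pow]
          exact one_le_pow₀ hcv
        have := mul_nonneg hv.le (by linarith : (0 : ℝ) ≤ c ^ 2 * (1 - M ^ 2) ^ 2 - 1)
        linarith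
      refine div_nonneg ?_ (den_pos r1 r2 r3).le
      -- concavity
      have hyz2 : y ^ 2 ≤ z ^ 2 := by nlinarith
      have hz2 : 0 < z ^ 2 := by nlinarith
      have key : z ^ 2 * QQ M c (y ^ 2) = (z ^ 2 - y ^ 2) * QQ M c 0 + y ^ 2 * QQ M c (z ^ 2) +
          c ^ 2 * M ^ 2 * (y ^ 2 * z ^ 2 * (z ^ 2 - y ^ 2)) := by
        unfold QQ; ring
      have : 0 ≤ z ^ 2 * QQ M c (y ^ 2) := by
        rw [key]
        have t1 := mul_nonneg (by linarith : (0 : ℝ) ≤ z ^ 2 - y ^ 2) hQ0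
        have t2 := mul_nonneg (sq_nonneg y) hQz.le
        have t3 : 0 ≤ c ^ 2 * M ^ 2 * (y ^ 2 * z ^ 2 * (z ^ 2 - y ^ 2)) := by
          have : (0 : ℝ) ≤ z ^ 2 - y ^ 2 := by linarith
          positivity
        linarith
      exact nonneg_of_mul_nonneg_right this hz2)
    (by
      rw [ff_zero]
      unfold ff
      rw [hcd, hr]
      linarith)
  unfold ff' at hmain
  rw [hcd] at hmain
  have h3 := mul_le_mul_of_nonneg_right hmain hd0.le
  have e1 : ((1 - M ^ 2) * (c * Real.artanh r) -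
      (Real.artanh (M + d) - Real.artanh (M - d)) / 2) * d =
      (1 - M ^ 2) * ((c * d) * Real.artanh r) - kk (M + d) (M - d) := by
    unfold kk; ring
  rw [e1, hcd, zero_mul] at h3
  linarith

theorem io_comm' (a b : ℝ) : io a b = io b a := by unfold io; rw [add_comm a b]; ring

theorem kk_comm' (a b : ℝ) : kk a b = kk b a := by unfold kk; ring

theorem io_self' (a : ℝ) : io a a = 0 := by
  unfold io
  have : (a + a) / 2 = a := by ring
  rw [this]; ring

/-- `kk ≥ v F(io / v)` in parametrised form, together with existence of the parameter -/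
theorem kk_ge {a b : ℝ} (ha : |a| < 1) (hb : |b| < 1) :
    ∃ r : ℝ, 0 ≤ r ∧ r < 1 ∧ (1 - ((a + b) / 2) ^ 2) * psi r = io a b ∧
      (1 - ((a + b) / 2) ^ 2) * (r * Real.artanh r) ≤ kk a b := by
  have key : ∀ a b : ℝ, |a| < 1 → |b| < 1 → b < a →
      ∃ r : ℝ, 0 ≤ r ∧ r < 1 ∧ (1 - ((a + b) / 2) ^ 2) * psi r = io a b ∧
      (1 - ((a + b) / 2) ^ 2) * (r * Real.artanh r) ≤ kk a b := by
    intro a b ha hb hab
    obtain ⟨ha1, ha2⟩ := abs_lt.mp ha
    obtain ⟨hb1, hb2⟩ := abs_lt.mp hb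
    set M := (a + b) / 2 with hM
    set d := (a - b) / 2 with hdd
    have eA : M + d = a := by rw [hM, hdd]; ring
    have eB : M - d = b := by rw [hM, hdd]; ring
    have hd0 : 0 < d := by rw [hdd]; linarith
    have hd : d < 1 - |M| := by
      rcases abs_cases M with ⟨h, _⟩ | ⟨h, _⟩ <;> rw [h] <;> linarith
    have hMlt : |M| < 1 := by linarith
    have hv : 0 < 1 - M ^ 2 := by
      have := (sq_lt_one_iff_abs_lt_one M).mpr hMlt
      linarith
    have hlt := io_lt hd0.le hd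
    have hlow := lower_io hd0 hd
    have hio0 : 0 ≤ io (M + d) (M - d) := (mul_nonneg hv.le (psi_nonneg _)).trans hlow
    obtain ⟨r, hr0, hr1, hr⟩ := exists_psi_eq (y := io (M + d) (M - d) / (1 - M ^ 2))
      (div_nonneg hio0 hv.le) (by rw [div_lt_iff₀ hv]; linarith)
    have hr' : (1 - M ^ 2) * psi r = io (M + d) (M - d) := by
      rw [hr]; field_simp
    have hfin := main_pos hd0 hd hr0 hr1 hr'
    rw [eA, eB] at hr' hfin
    exact ⟨r, hr0, hr1, hr', hfin⟩
  rcases lt_trichotomy a b with h | h | h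
  · obtain ⟨r, h0, h1, h2, h3⟩ := key b a hb ha h
    refine ⟨r, h0, h1, ?_, ?_⟩
    · rw [add_comm a b, h2, io_comm']
    · rw [add_comm a b, kk_comm' a b]; exact h3
  · subst h
    refine ⟨0, le_rfl, one_pos, ?_, ?_⟩
    · rw [psi_zero, io_self', mul_zero]
    · unfold kk; simp
  · exact key a b ha hb h

end Crest.Agent.R307.NOne

namespace Crest.Agent.R307

theorem GG_le_kk {a b t : ℝ} (ha : |a| < 1) (hb : |b| < 1) (ht0 : 0 ≤ t) (ht1 : t < 1) :
    GG t ((a + b) / 2) ((signEntropy a + signEntropy b) / 2) ≤ kk a b := by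
  obtain ⟨r, hr0, hr1, hr, hk⟩ := NOne.kk_ge ha hb
  obtain ⟨ha1, ha2⟩ := abs_lt.mp ha
  obtain ⟨hb1, hb2⟩ := abs_lt.mp hb
  have hM : |(a + b) / 2| < 1 := abs_lt.mpr ⟨by linarith, by linarith⟩
  have hv : 0 < 1 - ((a + b) / 2) ^ 2 := by
    have := (sq_lt_one_iff_abs_lt_one ((a + b) / 2)).mpr hM
    linarith
  have hF := mul_le_mul_of_nonneg_left (F_tangent_le ht0 ht1 hr0 hr1) hv.le
  have hS := le_signEntropy hM.le
  have hK := two_le_kappa ht0 ht1
  have hmul := mul_nonneg (by linarith : (0 : ℝ) ≤ kappa t - 2) (sub_nonneg.mpr hS)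
  have e1 : (signEntropy a + signEntropy b) / 2 = signEntropy ((a + b) / 2) - io a b := by
    unfold io; ring
  have e2 : signEntropy t = Real.log 2 - psi t := by unfold psi; ring
  unfold GG CC
  rw [e1, e2]
  set M := (a + b) / 2
  set v := 1 - M ^ 2
  nlinarith [hF, hmul, hk, hr]

end Crest.Agent.R307
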