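import Crest.Agent.R307.PIEng
import Crest.Agent.R307.Conic
import Crest.Agent.Tools.KB

/-!
Row 307 (S0471), helper14: generic kernel check of the pointwise certificates of a conic family
at one value of `c²` (two variables `y = √q0`, `ε = 1 - √q1/√q0`), with an explicit polynomial
lower bound `D = ε² R(r)` of `(√G + √G' - y0 - y1)/y0`.
-/

set_option autoImplicit false

namespace Crest.Agent.R307.PIConic

open Crest.Agent.R307.GenPI Crest.Agent.R307.PIEng Crest.Agent.R307.Conic Crest.Agent.KB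

/-! ### padded polynomial expressions -/

/-- an expression with its degrees in the variables `0,1,2` -/
structure PE where
  e : Ex
  a : ℕ
  b : ℕ
  c : ℕ

/-- multiply by `w_i ^ k` -/
def pw (i : ℕ) : ℕ → Ex → Ex
  | 0, e => e
  | k + 1, e => .mul e (.W i (k + 1))

lemma pw_val (i k : ℕ) (e : Ex) (x : ℕ → ℝ) : (pw i k e).val x (fun _ => 1) = e.val x (fun _ => 1) := by
  cases k with
  | zero => rfl
  | succ k => simp [pw, Ex.val]

def PE.pad (p : PE) (a b c : ℕ) : Ex := pw 2 (c - p.c) (pw 1 (b - p.b) (pw 0 (a - p.a) p.e))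

noncomputable def PE.val (p : PE) (x : ℕ → ℝ) : ℝ := p.e.val x (fun _ => 1)

lemma PE.pad_val (p : PE) (a b c : ℕ) (x : ℕ → ℝ) : (p.pad a b c).val x (fun _ => 1) = p.val x := by
  unfold PE.pad PE.val
  rw [pw_val, pw_val, pw_val]

def PE.add (p q : PE) : PE :=
  ⟨.add (p.pad (max p.a q.a) (max p.b q.b) (max p.c q.c))
    (q.pad (max p.a q.a) (max p.b q.b) (max p.c q.c)), max p.a q.a, max p.b q.b, max p.c q.c⟩

def PE.sub (p q : PE) : PE :=
  ⟨.sub (p.pad (max p.a q.a) (max p.b q.b) (max p.c q.c))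
    (q.pad (max p.a q.a) (max p.b q.b) (max p.c q.c)), max p.a q.a, max p.b q.b, max p.c q.c⟩

def PE.mul (p q : PE) : PE := ⟨.mul p.e q.e, p.a + q.a, p.b + q.b, p.c + q.c⟩

def PE.cst (n : ℤ) : PE := ⟨.c n, 0, 0, 0⟩

def PE.smul (n : ℤ) (p : PE) : PE := ⟨.mul (.c n) p.e, p.a, p.b, p.c⟩

@[simp] lemma PE.add_val (p q : PE) (x : ℕ → ℝ) : (p.add q).val x = p.val x + q.val x := by
  simp only [PE.add, PE.val, Ex.val, PE.pad_val]

@[simp] lemma PE.sub_val (p q : PE) (x : ℕ → ℝ) : (p.sub q).val x = p.val x - q.val x := by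
  simp only [PE.sub, PE.val, Ex.val, PE.pad_val]

@[simp] lemma PE.mul_val (p q : PE) (x : ℕ → ℝ) : (p.mul q).val x = p.val x * q.val x := rfl

@[simp] lemma PE.cst_val (n : ℤ) (x : ℕ → ℝ) : (PE.cst n).val x = n := rfl

@[simp] lemma PE.smul_val (n : ℤ) (p : PE) (x : ℕ → ℝ) : (PE.smul n p).val x = n * p.val x := rfl

/-- the variable `y`, to the power `k` -/
def PE.y (k : ℕ) : PE := ⟨.X 0 k, k, 0, 0⟩
/-- the variable `ε`, to the power `k` -/
def PE.ep (k : ℕ) : PE := ⟨.X 1 k, 0, k, 0⟩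
/-- `r = 1 - ε` -/
def PE.r : PE := ⟨.sub (.W 1 1) (.X 1 1), 0, 1, 0⟩
/-- `1 + r` -/
def PE.r1 : PE := ⟨.sub (.mul (.c 2) (.W 1 1)) (.X 1 1), 0, 1, 0⟩

@[simp] lemma PE.y_val (k : ℕ) (x : ℕ → ℝ) : (PE.y k).val x = x 0 ^ k := rfl
@[simp] lemma PE.ep_val (k : ℕ) (x : ℕ → ℝ) : (PE.ep k).val x = x 1 ^ k := rfl
@[simp] lemma PE.r_val (x : ℕ → ℝ) : PE.r.val x = 1 - x 1 := by simp [PE.r, PE.val, Ex.val]
@[simp] lemma PE.r1_val (x : ℕ → ℝ) : PE.r1.val x = 1 + (1 - x 1) := by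
  simp only [PE.r1, PE.val, Ex.val]; push_cast; ring

/-- `1 + r + ... + r^k` -/
def PE.gs : ℕ → PE
  | 0 => .cst 1
  | k + 1 => PE.add (.cst 1) (PE.mul .r (PE.gs k))

/-- Horner evaluation in `r` -/
def PE.horner : List ℤ → PE
  | [] => .cst 0
  | a :: l => PE.add (.cst a) (PE.mul .r (PE.horner l))

/-- real value of the list -/
noncomputable def evl (r : ℝ) : List ℤ → ℝ
  | [] => 0
  | a :: l => a + r * evl r l

lemma PE.horner_val (l : List ℤ) (x : ℕ → ℝ) : (PE.horner l).val x = evl (1 - x 1) l := by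
  induction l with
  | nil => simp [PE.horner, evl]
  | cons a l ih => simp [PE.horner, evl, ih]

/-! ### the data -/

/-- all parameters; `N` is the common denominator of the coefficients -/
structure Dat where
  N : ℕ
  a0 : ℤ
  a1 : ℤ
  a2 : ℤ
  k1 : ℤ
  k2 : ℤ
  e1 : ℤ
  e2 : ℤ
  m2 : ℤ
  l2 : ℤ
  cn : ℕ
  cd : ℕ
  NR : ℕ
  R : List ℤ
  tn : ℕ
  td : ℕ

namespace Dat

/-- `N * DDf` -/
def DDs (d : Dat) : PE :=
  ((((PE.cst (2 * d.N)).add (PE.smul (d.a0 - 2 * d.N) ((PE.y 1).mul (PE.gs 1)))).add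
    (PE.smul (d.a1 - d.a0) ((PE.y 3).mul (PE.gs 3)))).add
    (PE.smul (d.a2 - d.a1) ((PE.y 5).mul (PE.gs 5)))).sub
    (PE.smul d.a2 ((PE.y 7).mul (PE.gs 7)))

/-- `y r` -/
def yr : PE := (PE.y 1).mul PE.r

/-- `N * f1f` -/
def f1s (d : Dat) : PE :=
  (PE.r.mul ((PE.cst 1).sub yr)).mul ((PE.cst (2 * d.N)).add ((yr.mul ((PE.cst 1).add yr)).mul
    ((PE.cst d.a0).add ((yr.mul yr).mul ((PE.cst d.a1).add (PE.smul d.a2 (yr.mul yr)))))))

/-- `8 N cd * corrf` -/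
def co8 (d : Dat) : PE :=
  (((PE.cst (4 * d.cd * (d.a0 - d.a1))).add (PE.smul (6 * d.cd * (d.a1 - d.a2))
    ((PE.y 2).mul ((PE.cst 1).add (PE.r.mul PE.r))))).add
    (PE.smul (8 * d.cd * d.a2) ((PE.y 4).mul
      ((PE.cst 1).add ((PE.r.mul PE.r).mul ((PE.cst 1).add (PE.r.mul PE.r))))))).sub
    (PE.smul (d.a2 * d.cn) (((PE.y 4).mul (PE.ep 2)).mul (PE.r1.mul PE.r1)))

/-- `NR * R(r)` -/
def Rs (d : Dat) : PE := PE.horner d.R

/-- `S * Dp`, `S = 8 N² cd² NR` -/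
def Dp (d : Dat) : PE :=
  (PE.smul (16 * d.N ^ 2 * d.cd ^ 2) d.Rs).add
    (PE.smul (d.N * d.NR * d.cn) (((PE.y 3).mul (PE.r1.mul PE.r1)).mul d.co8))

/-- `S * Ap` -/
def Ap (d : Dat) : PE :=
  PE.smul (8 * d.cd ^ 2 * d.NR) ((PE.smul d.k1 d.DDs).add (PE.smul (d.N * d.e1) ((PE.y 1).mul PE.r1)))

/-- `S * Bp` -/
def Bp (d : Dat) : PE :=
  PE.smul (8 * d.cd ^ 2 * d.NR)
    (((((PE.smul d.N d.f1s).sub (PE.smul d.k2 ((PE.ep 1).mul d.DDs))).sub
      (PE.smul (d.N * d.e2) (((PE.y 1).mul (PE.ep 1)).mul PE.r1))).sub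
      (PE.smul (d.N * d.m2) ((PE.y 1).mul ((PE.cst 1).sub (PE.y 2))))).sub
      (PE.smul (d.N * d.l2) (((PE.y 1).mul (PE.r.mul PE.r)).mul ((PE.cst 1).sub (yr.mul yr)))))

/-- `S (D + 2 B)/y`-/
def Ep (d : Dat) : PE := ((PE.ep 2).mul d.Dp).add (PE.smul 2 d.Bp)

/-- the polynomials of the `D` check -/
def Q1 (d : Dat) : PE := d.Rs
def Q2 (d : Dat) : PE :=
  (PE.smul (d.cn * d.NR ^ 4) (PE.r1.mul PE.r1)).sub
    (PE.smul d.cd (d.Rs.mul ((((PE.ep 2).mul d.Rs).add (.cst (2 * d.NR))).mul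
      ((((PE.ep 2).mul d.Rs).add (PE.smul (2 * d.NR) PE.r)).mul
        (((PE.ep 2).mul d.Rs).add (PE.smul (2 * d.NR) PE.r1))))))

/-- `S p(t1)/y * td²` -/
def Pt (d : Dat) : PE :=
  ((PE.smul (d.td ^ 2) ((PE.ep 2).mul d.Dp)).sub
      (PE.smul (2 * d.tn * d.td) ((PE.ep 1).mul d.Ap))).add (PE.smul (d.tn ^ 2) d.Ep)
/-- clause 1: Bernstein coefficients on `[0,t1]` -/
def c1 (d : Dat) : List Ex :=
  [d.Dp.e, ((PE.smul d.td ((PE.ep 1).mul d.Dp)).sub (PE.smul d.tn d.Ap)).e, d.Pt.e]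
/-- clause 2: discriminant -/
def c2 (d : Dat) : List Ex := [d.Dp.e, d.Ep.e, ((d.Dp.mul d.Ep).sub (d.Ap.mul d.Ap)).e]
/-- clause 3: vertex beyond `t1` -/
def c3 (d : Dat) : List Ex :=
  [d.Dp.e, d.Pt.e, ((PE.smul d.td ((PE.ep 1).mul d.Ap)).sub (PE.smul d.tn d.Ep)).e]

noncomputable def A0 (d : Dat) : ℝ := d.a0 / d.N
noncomputable def A1 (d : Dat) : ℝ := d.a1 / d.N
noncomputable def A2 (d : Dat) : ℝ := d.a2 / d.N
noncomputable def K1 (d : Dat) : ℝ := d.k1 / d.N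
noncomputable def K2 (d : Dat) : ℝ := d.k2 / d.N
noncomputable def E1 (d : Dat) : ℝ := d.e1 / d.N
noncomputable def E2 (d : Dat) : ℝ := d.e2 / d.N
noncomputable def M2 (d : Dat) : ℝ := d.m2 / d.N
noncomputable def L2 (d : Dat) : ℝ := d.l2 / d.N
noncomputable def C2 (d : Dat) : ℝ := d.cn / d.cd
noncomputable def T1 (d : Dat) : ℝ := d.tn / d.td
noncomputable def Rr (d : Dat) (r : ℝ) : ℝ := evl r d.R / d.NR

/-- real versions -/
noncomputable def Dpr (d : Dat) (y r : ℝ) : ℝ :=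
  2 * d.Rr r + d.C2 * y ^ 3 * (1 + r) ^ 2 * corrf d.A0 d.A1 d.A2 d.C2 y r
noncomputable def Apr (d : Dat) (y r : ℝ) : ℝ :=
  d.K1 * DDf d.A0 d.A1 d.A2 y r + d.E1 * (y * (1 + r))
noncomputable def Bpr (d : Dat) (y r : ℝ) : ℝ :=
  f1f d.A0 d.A1 d.A2 y r - d.K2 * ((1 - r) * DDf d.A0 d.A1 d.A2 y r) -
    d.E2 * (y * (1 - r) * (1 + r)) - d.M2 * (y * (1 - y ^ 2)) -
    d.L2 * (y * r ^ 2 * (1 - y ^ 2 * r ^ 2))

/-- the common scale -/
noncomputable def S (d : Dat) : ℝ := 8 * d.N ^ 2 * d.cd ^ 2 * d.NR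

section
variable (d : Dat) (hN : 0 < d.N) (hcd : 0 < d.cd) (hNR : 0 < d.NR) (x : ℕ → ℝ)
include hN

lemma DDs_val : d.DDs.val x = d.N * DDf d.A0 d.A1 d.A2 (x 0) (1 - x 1) := by
  have h1 : (d.N : ℝ) ≠ 0 := by exact_mod_cast hN.ne'
  simp only [DDs, DDf, A0, A1, A2, PE.gs, PE.sub_val, PE.add_val, PE.smul_val, PE.mul_val,
    PE.cst_val, PE.y_val, PE.r_val]
  push_cast
  field_simp
  ring

lemma f1s_val : d.f1s.val x = d.N * f1f d.A0 d.A1 d.A2 (x 0) (1 - x 1) := by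
  have h1 : (d.N : ℝ) ≠ 0 := by exact_mod_cast hN.ne'
  simp only [f1s, f1f, yr, A0, A1, A2, PE.sub_val, PE.add_val, PE.smul_val, PE.mul_val,
    PE.cst_val, PE.y_val, PE.r_val]
  push_cast
  field_simp
  ring

include hcd in
lemma co8_val : d.co8.val x = 8 * d.N * d.cd * corrf d.A0 d.A1 d.A2 d.C2 (x 0) (1 - x 1) := by
  have h1 : (d.N : ℝ) ≠ 0 := by exact_mod_cast hN.ne'
  have h2 : (d.cd : ℝ) ≠ 0 := by exact_mod_cast hcd.ne'
  simp only [co8, corrf, A0, A1, A2, C2, PE.sub_val, PE.add_val, PE.smul_val, PE.mul_val,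
    PE.cst_val, PE.y_val, PE.r_val, PE.r1_val, PE.ep_val]
  push_cast
  field_simp
  ring

include hcd hNR in
lemma Dp_val : d.Dp.val x = d.S * d.Dpr (x 0) (1 - x 1) := by
  have h1 : (d.N : ℝ) ≠ 0 := by exact_mod_cast hN.ne'
  have h2 : (d.cd : ℝ) ≠ 0 := by exact_mod_cast hcd.ne'
  have h3 : (d.NR : ℝ) ≠ 0 := by exact_mod_cast hNR.ne'
  simp only [Dp, Dpr, S, Rs, Rr, C2, PE.add_val, PE.smul_val, PE.mul_val,
    PE.y_val, PE.r1_val, PE.horner_val, d.co8_val hN hcd]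
  push_cast
  field_simp
  ring

include hcd hNR in
lemma Ap_val : d.Ap.val x = d.S * d.Apr (x 0) (1 - x 1) := by
  have h1 : (d.N : ℝ) ≠ 0 := by exact_mod_cast hN.ne'
  have h2 : (d.cd : ℝ) ≠ 0 := by exact_mod_cast hcd.ne'
  have h3 : (d.NR : ℝ) ≠ 0 := by exact_mod_cast hNR.ne'
  simp only [Ap, Apr, S, K1, E1, PE.add_val, PE.smul_val, PE.mul_val,
    PE.y_val, PE.r1_val, d.DDs_val hN]
  push_cast
  field_simp

include hcd hNR in
lemma Bp_val : d.Bp.val x = d.S * d.Bpr (x 0) (1 - x 1) := by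
  have h1 : (d.N : ℝ) ≠ 0 := by exact_mod_cast hN.ne'
  have h2 : (d.cd : ℝ) ≠ 0 := by exact_mod_cast hcd.ne'
  have h3 : (d.NR : ℝ) ≠ 0 := by exact_mod_cast hNR.ne'
  simp only [Bp, Bpr, S, K2, E2, M2, L2, yr, PE.add_val, PE.sub_val, PE.smul_val, PE.mul_val,
    PE.y_val, PE.ep_val, PE.r_val, PE.r1_val, PE.cst_val, d.DDs_val hN, d.f1s_val hN]
  push_cast
  field_simp
  ring

include hcd hNR in
lemma S_pos : 0 < d.S := by
  have h1 : (0 : ℝ) < d.N := by exact_mod_cast hN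
  have h2 : (0 : ℝ) < d.cd := by exact_mod_cast hcd
  have h3 : (0 : ℝ) < d.NR := by exact_mod_cast hNR
  unfold S
  positivity

end

/-- `p(t) ≥ 0` on `[0,t1]` from one of the three clauses -/
lemma p_nonneg {D A B t t1 : ℝ} (h0 : 0 ≤ t) (h1 : t ≤ t1)
    (h : (0 ≤ D ∧ 0 ≤ D - A * t1 ∧ 0 ≤ D - 2 * A * t1 + (D + 2 * B) * t1 ^ 2) ∨
      (0 ≤ D ∧ 0 ≤ D + 2 * B ∧ A ^ 2 ≤ D * (D + 2 * B)) ∨
      (0 ≤ D ∧ 0 ≤ D - 2 * A * t1 + (D + 2 * B) * t1 ^ 2 ∧ (D + 2 * B) * t1 ≤ A)) :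
    0 ≤ D - 2 * A * t + (D + 2 * B) * t ^ 2 := by
  rcases h with ⟨a1, a2, a3⟩ | ⟨a1, a2, a3⟩ | ⟨a1, a2, a3⟩
  · rcases (h0.trans h1).eq_or_lt with hz | hz
    · have : t = 0 := le_antisymm (by rw [hz]; exact h1) h0
      rw [this]; linarith
    · have key : 0 ≤ t1 ^ 2 * (D - 2 * A * t + (D + 2 * B) * t ^ 2) := by
        have e : t1 ^ 2 * (D - 2 * A * t + (D + 2 * B) * t ^ 2) =
          (t1 - t) ^ 2 * D + 2 * t * (t1 - t) * (D - A * t1) +
            t ^ 2 * (D - 2 * A * t1 + (D + 2 * B) * t1 ^ 2) := by ring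
        rw [e]
        have b1 : 0 ≤ (t1 - t) ^ 2 * D := mul_nonneg (sq_nonneg _) a1
        have b2 : 0 ≤ 2 * t * (t1 - t) * (D - A * t1) :=
          mul_nonneg (mul_nonneg (by linarith) (by linarith)) a2
        have b3 := mul_nonneg (sq_nonneg t) a3
        linarith
      exact nonneg_of_mul_nonneg_right key (by positivity)
  · rcases a1.eq_or_lt with hD | hD
    · rw [← hD] at a3 ⊢
      have hA : A = 0 := by
        have : A ^ 2 ≤ 0 := by simpa using a3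
        exact pow_eq_zero_iff (two_ne_zero) |>.1 (le_antisymm this (sq_nonneg _))
      rw [hA]
      rw [← hD] at a2
      have := mul_nonneg a2 (sq_nonneg t)
      linarith
    · have key : 0 ≤ D * (D - 2 * A * t + (D + 2 * B) * t ^ 2) := by
        have e : D * (D - 2 * A * t + (D + 2 * B) * t ^ 2) =
            (D - A * t) ^ 2 + (D * (D + 2 * B) - A ^ 2) * t ^ 2 := by ring
        rw [e]
        have := mul_nonneg (sub_nonneg.2 a3) (sq_nonneg t)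
        have := sq_nonneg (D - A * t)
        linarith
      exact nonneg_of_mul_nonneg_right key hD
  · rcases le_total 0 (D + 2 * B) with hB | hB
    · have e : D - 2 * A * t + (D + 2 * B) * t ^ 2 =
          (D - 2 * A * t1 + (D + 2 * B) * t1 ^ 2) +
            (t1 - t) * (2 * (A - (D + 2 * B) * t1) + (D + 2 * B) * (t1 - t)) := by ring
      rw [e]
      have b1 : 0 ≤ (D + 2 * B) * (t1 - t) := mul_nonneg hB (by linarith)
      have b2 : 0 ≤ (t1 - t) * (2 * (A - (D + 2 * B) * t1) + (D + 2 * B) * (t1 - t)) :=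
        mul_nonneg (by linarith) (by linarith)
      linarith
    · rcases h0.eq_or_lt with h | h
      · rw [← h]; linarith
      · have ht1' : 0 < t1 := h.trans_le h1
        -- concave
        have key : 0 ≤ t1 * (D - 2 * A * t + (D + 2 * B) * t ^ 2) := by
          have e : t1 * (D - 2 * A * t + (D + 2 * B) * t ^ 2) =
              (t1 - t) * D + t * (D - 2 * A * t1 + (D + 2 * B) * t1 ^ 2) +
                (-(D + 2 * B)) * (t1 * t * (t1 - t)) := by ring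
          rw [e]
          have b1 : 0 ≤ (t1 - t) * D := mul_nonneg (by linarith) a1
          have b2 := mul_nonneg h.le a2
          have b3 : 0 ≤ (-(D + 2 * B)) * (t1 * t * (t1 - t)) :=
            mul_nonneg (by linarith) (mul_nonneg (mul_nonneg ht1'.le h.le) (by linarith))
          linarith
        exact nonneg_of_mul_nonneg_right key ht1'

/-- `PolyOK` from a lower bound `D` -/
lemma polyOK_of_le {A0 A1 A2 c2 K C beta L0 L1 y r D : ℝ} (hy : 0 ≤ y) (hr : 0 ≤ r) (hD : 0 ≤ D)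
    (hT : tau A0 A1 A2 c2 K C beta L0 L1 y (y * r) ≤ y * D)
    (h : D * (D + 2) * (D + 2 * r) * (D + 2 + 2 * r) ≤ c2 * (1 - r ^ 2) ^ 2) :
    PolyOK A0 A1 A2 c2 K C beta L0 L1 y (y * r) := by
  rcases le_total (tau A0 A1 A2 c2 K C beta L0 L1 y (y * r)) 0 with h0 | h0
  · exact Or.inl h0
  · rcases hy.eq_or_lt with hy0 | hy0
    · left
      rw [← hy0] at hT ⊢
      simpa using hT
    · obtain ⟨T, hTd⟩ : ∃ T, T = tau A0 A1 A2 c2 K C beta L0 L1 y (y * r) / y := ⟨_, rfl⟩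
      have e : tau A0 A1 A2 c2 K C beta L0 L1 y (y * r) = y * T := by rw [hTd]; field_simp
      have hT0 : 0 ≤ T := by rw [hTd]; exact div_nonneg h0 hy
      have hTD : T ≤ D := by
        rw [e] at hT
        exact le_of_mul_le_mul_left hT hy0
      refine polyOK_of_T hy e (Or.inr (le_trans ?_ h))
      gcongr

/-- **soundness**, semantic form -/
theorem sound_aux (d : Dat) (hN : 0 < d.N) (hcd : 0 < d.cd) (hNR : 0 < d.NR) (htd : 0 < d.td)
    (h1 : ∀ x : ℕ → ℝ, 0 ≤ x 0 → x 0 ≤ 1 → 0 ≤ x 1 → x 1 ≤ 1 → 0 ≤ d.Q1.val x ∧ 0 ≤ d.Q2.val x)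
    (h2 : ∀ x : ℕ → ℝ, 0 ≤ x 0 → x 0 ≤ 1 → 0 ≤ x 1 → x 1 ≤ 1 →
      (∀ e ∈ d.c1, 0 ≤ e.val x (fun _ => 1)) ∨ (∀ e ∈ d.c2, 0 ≤ e.val x (fun _ => 1)) ∨
        (∀ e ∈ d.c3, 0 ≤ e.val x (fun _ => 1)))
    {t y0 y1 : ℝ} (ht0 : 0 ≤ t) (ht1 : t ≤ d.T1) (hy1 : 0 ≤ y1) (h01 : y1 ≤ y0) (hy0 : y0 ≤ 1) :
    PolyOK d.A0 d.A1 d.A2 d.C2 (wt2 d.K1 d.K2 t) (wC t) (wt2 d.E1 d.E2 t) (wt2 0 d.M2 t)
      (wt2 0 d.L2 t) y0 y1 := by
  have hy : 0 ≤ y0 := hy1.trans h01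
  obtain ⟨r, hr0, hr1, hr⟩ : ∃ r, 0 ≤ r ∧ r ≤ 1 ∧ y1 = y0 * r := by
    rcases hy.eq_or_lt with h | h
    · refine ⟨0, le_rfl, zero_le_one, ?_⟩
      rw [← h] at h01 ⊢
      rw [le_antisymm h01 hy1]; ring
    · exact ⟨y1 / y0, div_nonneg hy1 hy, div_le_one_of_le₀ h01 hy, by field_simp⟩
  subst hr
  set x : ℕ → ℝ := fun i => if i = 0 then y0 else 1 - r with hx
  have x0 : x 0 = y0 := by simp [hx]
  have x1 : x 1 = 1 - r := by simp [hx]
  have k1 := h1 x (by rw [x0]; exact hy) (by rw [x0]; exact hy0) (by rw [x1]; linarith)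
    (by rw [x1]; linarith)
  have k2 := h2 x (by rw [x0]; exact hy) (by rw [x0]; exact hy0) (by rw [x1]; linarith)
    (by rw [x1]; linarith)
  clear_value x
  have hrr : 1 - (1 - r) = r := by ring
  have vD := d.Dp_val hN hcd hNR x
  have vA := d.Ap_val hN hcd hNR x
  have vB := d.Bp_val hN hcd hNR x
  rw [x0, x1, hrr] at vD vA vB
  have hS := d.S_pos hN hcd hNR
  have n1 : (0 : ℝ) < d.N := by exact_mod_cast hN
  have n2 : (0 : ℝ) < d.cd := by exact_mod_cast hcd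
  have n3 : (0 : ℝ) < d.NR := by exact_mod_cast hNR
  have n4 : (0 : ℝ) < d.td := by exact_mod_cast htd
  have vR : d.Rs.val x = d.NR * d.Rr r := by
    unfold Rs Rr
    rw [PE.horner_val, x1, hrr]
    field_simp
  obtain ⟨q1, q2⟩ := k1
  have hR : 0 ≤ d.Rr r := by
    have : 0 ≤ (d.NR : ℝ) * d.Rr r := by rw [← vR]; exact q1
    exact nonneg_of_mul_nonneg_right this n3
  obtain ⟨D, hDd⟩ : ∃ D, D = (1 - r) ^ 2 * d.Rr r := ⟨_, rfl⟩
  have hD0 : 0 ≤ D := by rw [hDd]; exact mul_nonneg (sq_nonneg _) hR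
  have hD : D * (D + 2) * (D + 2 * r) * (D + 2 + 2 * r) ≤ d.C2 * (1 - r ^ 2) ^ 2 := by
    simp only [Q2, PE.add_val, PE.sub_val, PE.smul_val, PE.mul_val, PE.cst_val, PE.ep_val,
      PE.r_val, PE.r1_val, vR, x1, hrr] at q2
    push_cast at q2
    have e : (d.cn : ℝ) * (d.NR : ℝ) ^ 4 * ((1 + r) * (1 + r)) - (d.cd : ℝ) * ((d.NR : ℝ) * d.Rr r *
        (((1 - r) ^ 2 * ((d.NR : ℝ) * d.Rr r) + 2 * (d.NR : ℝ)) *
          (((1 - r) ^ 2 * ((d.NR : ℝ) * d.Rr r) + 2 * (d.NR : ℝ) * r) *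
            ((1 - r) ^ 2 * ((d.NR : ℝ) * d.Rr r) + 2 * (d.NR : ℝ) * (1 + r))))) =
        ((d.NR : ℝ) ^ 4 * d.cd) * (d.C2 * (1 + r) ^ 2 - d.Rr r * (D + 2) * (D + 2 * r) *
          (D + 2 + 2 * r)) := by
      rw [hDd]
      unfold C2
      field_simp
      ring
    rw [e] at q2
    have q3 := nonneg_of_mul_nonneg_right q2 (by positivity)
    have q4 := mul_nonneg (sq_nonneg (1 - r)) q3
    have e2 : (1 - r) ^ 2 * (d.C2 * (1 + r) ^ 2 - d.Rr r * (D + 2) * (D + 2 * r) *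
          (D + 2 + 2 * r)) = d.C2 * (1 - r ^ 2) ^ 2 -
            ((1 - r) ^ 2 * d.Rr r) * (D + 2) * (D + 2 * r) * (D + 2 + 2 * r) := by ring
    rw [e2, ← hDd] at q4
    linarith
  -- the quadratic
  obtain ⟨DD, hDD⟩ : ∃ v, v = (1 - r) ^ 2 * d.Dpr y0 r := ⟨_, rfl⟩
  obtain ⟨AA, hAA⟩ : ∃ v, v = (1 - r) * d.Apr y0 r := ⟨_, rfl⟩
  obtain ⟨BB, hBB⟩ : ∃ v, v = d.Bpr y0 r := ⟨_, rfl⟩
  have hp : 0 ≤ DD - 2 * AA * t + (DD + 2 * BB) * t ^ 2 := by
    refine p_nonneg ht0 ht1 ?_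
    have hε : 0 ≤ 1 - r := by linarith
    rcases k2 with k | k | k
    · left
      simp only [c1, List.mem_cons, List.not_mem_nil, or_false, forall_eq_or_imp, forall_eq] at k
      obtain ⟨a1, a2, a3⟩ := k
      change 0 ≤ d.Dp.val x at a1
      change 0 ≤ ((PE.smul d.td ((PE.ep 1).mul d.Dp)).sub (PE.smul d.tn d.Ap)).val x at a2
      change 0 ≤ d.Pt.val x at a3
      simp only [Pt, Ep, PE.add_val, PE.sub_val, PE.mul_val, PE.smul_val, PE.ep_val, vD, vA, vB, x1]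
        at a1 a2 a3
      push_cast at a2 a3
      have b1 := nonneg_of_mul_nonneg_right a1 hS
      refine ⟨by rw [hDD]; exact mul_nonneg (sq_nonneg _) b1, ?_, ?_⟩
      · have : 0 ≤ (d.S * d.td) * ((1 - r) * d.Dpr y0 r - d.Apr y0 r * d.T1) := by
          unfold T1
          refine a2.trans (le_of_eq ?_)
          field_simp
        have h5 := nonneg_of_mul_nonneg_right this (by positivity)
        have h6 := mul_nonneg hε h5
        have e : (1 - r) * ((1 - r) * d.Dpr y0 r - d.Apr y0 r * d.T1) = DD - AA * d.T1 := by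
          rw [hDD, hAA]; ring
        rw [e] at h6
        exact h6
      · have : 0 ≤ (d.S * d.td ^ 2) * (DD - 2 * AA * d.T1 + (DD + 2 * BB) * d.T1 ^ 2) := by
          rw [hDD, hBB, hAA]
          unfold T1
          refine a3.trans (le_of_eq ?_)
          field_simp
        exact nonneg_of_mul_nonneg_right this (by positivity)
    · right; left
      simp only [c2, List.mem_cons, List.not_mem_nil, or_false, forall_eq_or_imp, forall_eq] at k
      obtain ⟨a1, a2, a3⟩ := k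
      change 0 ≤ d.Dp.val x at a1
      change 0 ≤ d.Ep.val x at a2
      change 0 ≤ ((d.Dp.mul d.Ep).sub (d.Ap.mul d.Ap)).val x at a3
      simp only [Ep, PE.add_val, PE.sub_val, PE.mul_val, PE.smul_val, PE.ep_val, vD, vA, vB, x1]
        at a1 a2 a3
      push_cast at a2 a3
      have b1 := nonneg_of_mul_nonneg_right a1 hS
      refine ⟨by rw [hDD]; exact mul_nonneg (sq_nonneg _) b1, ?_, ?_⟩
      · have : 0 ≤ d.S * (DD + 2 * BB) := by
          rw [hDD, hBB]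
          refine a2.trans (le_of_eq ?_)
          ring
        exact nonneg_of_mul_nonneg_right this hS
      · have : 0 ≤ d.S ^ 2 * (d.Dpr y0 r * (DD + 2 * BB) - d.Apr y0 r ^ 2) := by
          rw [hDD, hBB]
          refine a3.trans (le_of_eq ?_)
          ring
        have h5 := nonneg_of_mul_nonneg_right this (by positivity)
        have h6 := mul_nonneg (sq_nonneg (1 - r)) h5
        have e : (1 - r) ^ 2 * (d.Dpr y0 r * (DD + 2 * BB) - d.Apr y0 r ^ 2) =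
            DD * (DD + 2 * BB) - AA ^ 2 := by
          rw [hAA, hDD]; ring
        rw [e] at h6
        linarith
    · right; right
      simp only [c3, List.mem_cons, List.not_mem_nil, or_false, forall_eq_or_imp, forall_eq] at k
      obtain ⟨a1, a2, a3⟩ := k
      change 0 ≤ d.Dp.val x at a1
      change 0 ≤ d.Pt.val x at a2
      change 0 ≤ ((PE.smul d.td ((PE.ep 1).mul d.Ap)).sub (PE.smul d.tn d.Ep)).val x at a3
      simp only [Pt, Ep, PE.add_val, PE.sub_val, PE.mul_val, PE.smul_val, PE.ep_val, vD, vA, vB, x1]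
        at a1 a2 a3
      push_cast at a2 a3
      have b1 := nonneg_of_mul_nonneg_right a1 hS
      refine ⟨by rw [hDD]; exact mul_nonneg (sq_nonneg _) b1, ?_, ?_⟩
      · have : 0 ≤ (d.S * d.td ^ 2) * (DD - 2 * AA * d.T1 + (DD + 2 * BB) * d.T1 ^ 2) := by
          rw [hDD, hBB, hAA]
          unfold T1
          refine a2.trans (le_of_eq ?_)
          field_simp
        exact nonneg_of_mul_nonneg_right this (by positivity)
      · have : 0 ≤ (d.S * d.td) * (AA - (DD + 2 * BB) * d.T1) := by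
          rw [hDD, hBB, hAA]
          unfold T1
          refine a3.trans (le_of_eq ?_)
          field_simp
        have := nonneg_of_mul_nonneg_right this (by positivity)
        linarith
  refine polyOK_of_le hy hr0 hD0 ?_ hD
  have hp2 : (0:ℝ) < 1 + t ^ 2 := by positivity
  have key : (2 * (1 + t ^ 2)) * (y0 * D - tau d.A0 d.A1 d.A2 d.C2 (wt2 d.K1 d.K2 t) (wC t)
      (wt2 d.E1 d.E2 t) (wt2 0 d.M2 t) (wt2 0 d.L2 t) y0 (y0 * r)) =
      y0 * (DD - 2 * AA * t + (DD + 2 * BB) * t ^ 2) := by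
    rw [hDD, hAA, hBB, hDd]
    unfold tau
    rw [FP_sub, Corr_eq, FP_f1]
    unfold Dpr Apr Bpr wt2 wC
    field_simp
    ring
  have h3 : 0 ≤ (2 * (1 + t ^ 2)) * (y0 * D - tau d.A0 d.A1 d.A2 d.C2 (wt2 d.K1 d.K2 t) (wC t)
      (wt2 d.E1 d.E2 t) (wt2 0 d.M2 t) (wt2 0 d.L2 t) y0 (y0 * r)) := by
    rw [key]; exact mul_nonneg hy hp
  have h4 := nonneg_of_mul_nonneg_right h3 (by positivity)
  linarith

/-- **soundness** of the two kernel checks -/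
theorem sound (d : Dat) {w1 s1 w2 s2 : ℕ} {Xl1 M1 Xl2 M2 : List ℕ} {tr1 tr2 : Tr}
    (h0 : (decide (0 < d.N) && decide (0 < d.cd) && decide (0 < d.NR) && decide (0 < d.td)) = true)
    (h1 : run 2 w1 s1 Xl1 M1 [[d.Q1.e, d.Q2.e]] tr1 [(0, 2 ^ s1), (0, 2 ^ s1)] = true)
    (h2 : run 2 w2 s2 Xl2 M2 [d.c1, d.c2, d.c3] tr2 [(0, 2 ^ s2), (0, 2 ^ s2)] = true)
    {t y0 y1 : ℝ} (ht0 : 0 ≤ t) (ht1 : t ≤ d.T1) (hy1 : 0 ≤ y1) (h01 : y1 ≤ y0) (hy0 : y0 ≤ 1) :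
    PolyOK d.A0 d.A1 d.A2 d.C2 (wt2 d.K1 d.K2 t) (wC t) (wt2 d.E1 d.E2 t) (wt2 0 d.M2 t)
      (wt2 0 d.L2 t) y0 y1 := by
  simp only [Bool.and_eq_true, decide_eq_true_eq] at h0
  obtain ⟨⟨⟨hN, hcd⟩, hNR⟩, htd⟩ := h0
  have hbox : ∀ (s : ℕ) (x : ℕ → ℝ), 0 ≤ x 0 → x 0 ≤ 1 → 0 ≤ x 1 → x 1 ≤ 1 →
      InBox 2 s [(0, 2 ^ s), (0, 2 ^ s)] x := by
    intro s x a1 a2 a3 a4 i hi
    have hs : (0 : ℝ) < 2 ^ s := by positivity
    interval_cases i
    · simp only [ba, bb, List.getD_cons_zero]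
      push_cast
      constructor
      · positivity
      · nlinarith
    · simp only [ba, bb, List.getD_cons_succ, List.getD_cons_zero]
      push_cast
      constructor
      · positivity
      · nlinarith
  refine sound_aux d hN hcd hNR htd ?_ ?_ ht0 ht1 hy1 h01 hy0
  · intro x a1 a2 a3 a4
    obtain ⟨cl, hcl, h⟩ := run_sound _ _ _ _ _ _ _ _ h1 x (hbox s1 x a1 a2 a3 a4)
    simp only [List.mem_cons, List.not_mem_nil, or_false] at hcl
    subst hcl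
    exact ⟨h _ (by simp), h _ (by simp)⟩
  · intro x a1 a2 a3 a4
    obtain ⟨cl, hcl, h⟩ := run_sound _ _ _ _ _ _ _ _ h2 x (hbox s2 x a1 a2 a3 a4)
    simp only [List.mem_cons, List.not_mem_nil, or_false] at hcl
    rcases hcl with rfl | rfl | rfl
    · exact Or.inl h
    · exact Or.inr (Or.inl h)
    · exact Or.inr (Or.inr h)

end Dat

end Crest.Agent.R307.PIConic
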