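import Crest.Agent.R307.GenPI

/-!
Row 307 (S0471), helper14: blow-up charts for the polynomial certificate condition `PolyOK`.

`y0 = y`, `y1 = y r`.  For a family `K = t a/d`, `1 - C = t² b/d`, `β = U t e/d`,
`L0 = V t² l0/d`, `L1 = V t² l1/d` (`t ∈ [0,τ]`) the quantity `tau` equals `y s² N/(2 d)` in
chart I (`1 - r = s`, `t = s x`) and in chart II (`t = s`, `1 - r = s z`).
-/

set_option autoImplicit false

namespace Crest.Agent.R307.PIEng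

open Crest.Agent.R307.GenPI

/-- divided difference of `FP` at `y`, `y r` -/
def DDf (A0 A1 A2 y r : ℝ) : ℝ :=
  2 + (A0 - 2) * y * (1 + r) + (A1 - A0) * y ^ 3 * (1 + r + r ^ 2 + r ^ 3) +
    (A2 - A1) * y ^ 5 * (1 + r + r ^ 2 + r ^ 3 + r ^ 4 + r ^ 5) -
    A2 * y ^ 7 * (1 + r + r ^ 2 + r ^ 3 + r ^ 4 + r ^ 5 + r ^ 6 + r ^ 7)

/-- `FP (y r) / y` -/
def f1f (A0 A1 A2 y r : ℝ) : ℝ :=
  r * (1 - y * r) * (2 + y * r * (1 + y * r) * (A0 + A1 * (y * r) ^ 2 + A2 * (y * r) ^ 4))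

/-- `Corr = c2 y⁴ (1-r²)² corrf` -/
noncomputable def corrf (A0 A1 A2 c2 y r : ℝ) : ℝ :=
  (A0 - A1) / 2 + 3 * (A1 - A2) / 4 * y ^ 2 * (1 + r ^ 2) + A2 * y ^ 4 * (1 + r ^ 2 + r ^ 4) -
    A2 * c2 / 8 * y ^ 4 * (1 - r ^ 2) ^ 2

lemma FP_sub (A0 A1 A2 y r : ℝ) :
    FP A0 A1 A2 y - FP A0 A1 A2 (y * r) = y * (1 - r) * DDf A0 A1 A2 y r := by
  unfold FP DDf; ring

lemma FP_f1 (A0 A1 A2 y r : ℝ) : FP A0 A1 A2 (y * r) = y * f1f A0 A1 A2 y r := by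
  unfold FP f1f; ring

lemma Corr_eq (A0 A1 A2 c2 y r : ℝ) :
    Corr A0 A1 A2 c2 y (y * r) = c2 * y ^ 4 * (1 - r ^ 2) ^ 2 * corrf A0 A1 A2 c2 y r := by
  unfold Corr corrf; ring

/-- the condition in terms of `T = tau / y` -/
lemma polyOK_of_T {A0 A1 A2 c2 K C beta L0 L1 y r T : ℝ} (hy : 0 ≤ y)
    (hT : tau A0 A1 A2 c2 K C beta L0 L1 y (y * r) = y * T)
    (h : T ≤ 0 ∨ T * (T + 2) * (T + 2 * r) * (T + 2 + 2 * r) ≤ c2 * (1 - r ^ 2) ^ 2) :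
    PolyOK A0 A1 A2 c2 K C beta L0 L1 y (y * r) := by
  unfold PolyOK
  rw [hT]
  rcases le_total T 0 with h0 | h0
  · exact Or.inl (mul_nonpos_of_nonneg_of_nonpos hy h0)
  · rcases h with h | h
    · exact Or.inl (mul_nonpos_of_nonneg_of_nonpos hy h)
    · refine Or.inr ⟨mul_nonneg hy h0, ?_⟩
      have := mul_le_mul_of_nonneg_left h (pow_nonneg hy 4)
      unfold gg
      calc _ = y ^ 4 * (T * (T + 2) * (T + 2 * r) * (T + 2 + 2 * r)) := by ring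
        _ ≤ _ := this
        _ = _ := by ring

/-- twice the reduced numerator, chart I -/
noncomputable def NI (A0 A1 A2 c2 U V a b e l0 l1 d y r x : ℝ) : ℝ :=
  x * a * DDf A0 A1 A2 y r - x ^ 2 * b * f1f A0 A1 A2 y r + U * x * e * (y * (1 + r)) +
    V * x ^ 2 * (l0 * (y * (1 - y ^ 2)) + l1 * (y * r ^ 2 * (1 - y ^ 2 * r ^ 2))) -
    c2 * y ^ 3 * (1 + r) ^ 2 * corrf A0 A1 A2 c2 y r * d

/-- twice the reduced numerator, chart II -/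
noncomputable def NII (A0 A1 A2 c2 U V a b e l0 l1 d y r z : ℝ) : ℝ :=
  z * a * DDf A0 A1 A2 y r - b * f1f A0 A1 A2 y r + U * z * e * (y * (1 + r)) +
    V * (l0 * (y * (1 - y ^ 2)) + l1 * (y * r ^ 2 * (1 - y ^ 2 * r ^ 2))) -
    c2 * y ^ 3 * z ^ 2 * (1 + r) ^ 2 * corrf A0 A1 A2 c2 y r * d

/-- the polynomial condition of a chart (`w = 1` in chart I, `w = z` in chart II) -/
def Good (c2 N d r s w : ℝ) : Prop :=
  N ≤ 0 ∨ N * (s ^ 2 * N + 4 * d) * (s ^ 2 * N + 4 * r * d) * (s ^ 2 * N + 4 * (1 + r) * d) ≤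
    16 * c2 * w ^ 2 * (1 + r) ^ 2 * d ^ 4

lemma good_T {c2 N d r s w : ℝ} (hd : 0 < d) (hw : 1 - r = s * w) (h : Good c2 N d r s w) :
    s ^ 2 * N / (2 * d) ≤ 0 ∨ (s ^ 2 * N / (2 * d)) * (s ^ 2 * N / (2 * d) + 2) *
      (s ^ 2 * N / (2 * d) + 2 * r) * (s ^ 2 * N / (2 * d) + 2 + 2 * r) ≤
      c2 * (1 - r ^ 2) ^ 2 := by
  rcases h with h | h
  · left
    exact div_nonpos_of_nonpos_of_nonneg (mul_nonpos_of_nonneg_of_nonpos (sq_nonneg _) h)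
      (by linarith)
  · right
    have e1 : (s ^ 2 * N / (2 * d)) * (s ^ 2 * N / (2 * d) + 2) *
      (s ^ 2 * N / (2 * d) + 2 * r) * (s ^ 2 * N / (2 * d) + 2 + 2 * r) =
        s ^ 2 * (N * (s ^ 2 * N + 4 * d) * (s ^ 2 * N + 4 * r * d) *
          (s ^ 2 * N + 4 * (1 + r) * d)) / (16 * d ^ 4) := by
      field_simp
      ring
    rw [e1, div_le_iff₀ (by positivity)]
    have h2 := mul_le_mul_of_nonneg_left h (sq_nonneg s)
    have e2 : c2 * (1 - r ^ 2) ^ 2 * (16 * d ^ 4) =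
        s ^ 2 * (16 * c2 * w ^ 2 * (1 + r) ^ 2 * d ^ 4) := by
      have : (1 - r ^ 2) ^ 2 = (1 - r) ^ 2 * (1 + r) ^ 2 := by ring
      rw [this, hw]; ring
    rw [e2]
    exact h2

lemma polyOK_chartI {A0 A1 A2 c2 U V a b e l0 l1 d y s x : ℝ} (hy : 0 ≤ y) (hd : 0 < d)
    (h : Good c2 (NI A0 A1 A2 c2 U V a b e l0 l1 d y (1 - s) x) d (1 - s) s 1) :
    PolyOK A0 A1 A2 c2 ((s * x) * a / d) (1 - (s * x) ^ 2 * b / d) (U * ((s * x) * e / d))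
      (V * ((s * x) ^ 2 * l0 / d)) (V * ((s * x) ^ 2 * l1 / d)) y (y * (1 - s)) := by
  refine polyOK_of_T hy (T := s ^ 2 * NI A0 A1 A2 c2 U V a b e l0 l1 d y (1 - s) x / (2 * d)) ?_
    (good_T hd (by ring) h)
  unfold tau
  rw [FP_sub, Corr_eq, FP_f1]
  unfold NI
  field_simp
  ring

lemma polyOK_chartII {A0 A1 A2 c2 U V a b e l0 l1 d y s z : ℝ} (hy : 0 ≤ y) (hd : 0 < d)
    (h : Good c2 (NII A0 A1 A2 c2 U V a b e l0 l1 d y (1 - s * z) z) d (1 - s * z) s z) :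
    PolyOK A0 A1 A2 c2 (s * a / d) (1 - s ^ 2 * b / d) (U * (s * e / d))
      (V * (s ^ 2 * l0 / d)) (V * (s ^ 2 * l1 / d)) y (y * (1 - s * z)) := by
  refine polyOK_of_T hy (T := s ^ 2 * NII A0 A1 A2 c2 U V a b e l0 l1 d y (1 - s * z) z / (2 * d))
    ?_ (good_T hd (by ring) h)
  unfold tau
  rw [FP_sub, Corr_eq, FP_f1]
  unfold NII
  field_simp
  ring

/-- both charts together: the whole range `0 ≤ t ≤ τ` -/
theorem polyOK_of_charts {A0 A1 A2 c2 U V τ : ℝ} {a b e l0 l1 d : ℝ → ℝ} (hτ : 0 < τ)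
    (hd : ∀ t, 0 ≤ t → t ≤ τ → 0 < d t)
    (hI : ∀ y s x : ℝ, 0 ≤ y → y ≤ 1 → 0 ≤ s → s ≤ 1 → 0 ≤ x → x ≤ τ →
      Good c2 (NI A0 A1 A2 c2 U V (a (s * x)) (b (s * x)) (e (s * x)) (l0 (s * x)) (l1 (s * x))
        (d (s * x)) y (1 - s) x) (d (s * x)) (1 - s) s 1)
    (hII : ∀ y s z : ℝ, 0 ≤ y → y ≤ 1 → 0 ≤ s → s ≤ τ → 0 ≤ z → z * τ ≤ 1 →
      Good c2 (NII A0 A1 A2 c2 U V (a s) (b s) (e s) (l0 s) (l1 s) (d s) y (1 - s * z) z)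
        (d s) (1 - s * z) s z)
    {t y0 y1 : ℝ} (ht0 : 0 ≤ t) (ht1 : t ≤ τ) (h1 : 0 ≤ y1) (h01 : y1 ≤ y0) (h0 : y0 ≤ 1) :
    PolyOK A0 A1 A2 c2 (t * a t / d t) (1 - t ^ 2 * b t / d t) (U * (t * e t / d t))
      (V * (t ^ 2 * l0 t / d t)) (V * (t ^ 2 * l1 t / d t)) y0 y1 := by
  have hy0 : 0 ≤ y0 := h1.trans h01
  obtain ⟨r, hr0, hr1, hr⟩ : ∃ r, 0 ≤ r ∧ r ≤ 1 ∧ y1 = y0 * r := by
    rcases hy0.eq_or_lt with h | h
    · refine ⟨0, le_rfl, zero_le_one, ?_⟩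
      rw [← h] at h01 ⊢
      rw [le_antisymm h01 h1]; ring
    · exact ⟨y1 / y0, div_nonneg h1 hy0, div_le_one_of_le₀ h01 hy0, by field_simp⟩
  subst hr
  rcases le_total t (τ * (1 - r)) with hc | hc
  · -- chart I
    obtain ⟨x, hx0, hx1, hx⟩ : ∃ x, 0 ≤ x ∧ x ≤ τ ∧ t = (1 - r) * x := by
      rcases (sub_nonneg.2 hr1).eq_or_lt with h | h
      · refine ⟨0, le_rfl, hτ.le, ?_⟩
        rw [← h] at hc ⊢
        have : t ≤ 0 := by simpa using hc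
        rw [le_antisymm this ht0]; ring
      · exact ⟨t / (1 - r), div_nonneg ht0 h.le, (div_le_iff₀ h).2 hc, by field_simp⟩
    have hh := hI y0 (1 - r) x hy0 h0 (by linarith) (by linarith) hx0 hx1
    rw [← hx] at hh
    have hh2 := polyOK_chartI hy0 (hd t ht0 ht1) hh
    rw [← hx] at hh2
    simpa using hh2
  · -- chart II
    obtain ⟨z, hz0, hz1, hz⟩ : ∃ z, 0 ≤ z ∧ z * τ ≤ 1 ∧ 1 - r = t * z := by
      rcases ht0.eq_or_lt with h | h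
      · refine ⟨0, le_rfl, by simp, ?_⟩
        rw [← h] at hc ⊢
        have h2 : 1 - r ≤ 0 := by
          by_contra hcon
          have := mul_pos hτ (not_le.1 hcon)
          linarith
        rw [le_antisymm h2 (by linarith)]; ring
      · refine ⟨(1 - r) / t, div_nonneg (by linarith) h.le, ?_, by field_simp⟩
        rw [div_mul_eq_mul_div, div_le_one h]
        linarith
    have hr' : r = 1 - t * z := by linarith
    have hh := hII y0 t z hy0 h0 ht0 ht1 hz0 hz1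
    have hh2 := polyOK_chartII hy0 (hd t ht0 ht1) hh
    rw [hr']
    exact hh2

/-! ### one single certificate -/

/-- `FP y / y` -/
def f0f (A0 A1 A2 y : ℝ) : ℝ :=
  (1 - y) * (2 + y * (1 + y) * (A0 + A1 * y ^ 2 + A2 * y ^ 4))

/-- `2 tau / y` for one certificate `(1 + K, C - K, β, -β, L0, L1)` -/
noncomputable def ND (A0 A1 A2 c2 K C beta L0 L1 y r : ℝ) : ℝ :=
  K * f0f A0 A1 A2 y - (1 - C + K) * f1f A0 A1 A2 y r + beta * (y * (1 - r ^ 2)) +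
    L0 * (y * (1 - y ^ 2)) + L1 * (y * r ^ 2 * (1 - y ^ 2 * r ^ 2)) -
    c2 * y ^ 3 * (1 - r ^ 2) ^ 2 * corrf A0 A1 A2 c2 y r

theorem polyOK_single {A0 A1 A2 c2 K C beta L0 L1 : ℝ}
    (h : ∀ y r : ℝ, 0 ≤ y → y ≤ 1 → 0 ≤ r → r ≤ 1 →
      ND A0 A1 A2 c2 K C beta L0 L1 y r ≤ 0 ∨
      ND A0 A1 A2 c2 K C beta L0 L1 y r * (ND A0 A1 A2 c2 K C beta L0 L1 y r + 4) *
        (ND A0 A1 A2 c2 K C beta L0 L1 y r + 4 * r) *
        (ND A0 A1 A2 c2 K C beta L0 L1 y r + 4 * (1 + r)) ≤ 16 * c2 * (1 - r ^ 2) ^ 2)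
    {y0 y1 : ℝ} (h1 : 0 ≤ y1) (h01 : y1 ≤ y0) (h0 : y0 ≤ 1) :
    PolyOK A0 A1 A2 c2 K C beta L0 L1 y0 y1 := by
  have hy0 : 0 ≤ y0 := h1.trans h01
  obtain ⟨r, hr0, hr1, hr⟩ : ∃ r, 0 ≤ r ∧ r ≤ 1 ∧ y1 = y0 * r := by
    rcases hy0.eq_or_lt with h | h
    · refine ⟨0, le_rfl, zero_le_one, ?_⟩
      rw [← h] at h01 ⊢
      rw [le_antisymm h01 h1]; ring
    · exact ⟨y1 / y0, div_nonneg h1 hy0, div_le_one_of_le₀ h01 hy0, by field_simp⟩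
  subst hr
  refine polyOK_of_T hy0 (T := ND A0 A1 A2 c2 K C beta L0 L1 y0 r / 2) ?_ ?_
  · unfold tau
    rw [Corr_eq, FP_f1]
    unfold ND FP f0f
    ring
  · rcases h y0 r hy0 h0 hr0 hr1 with h | h
    · left; linarith
    · right
      have e : ND A0 A1 A2 c2 K C beta L0 L1 y0 r / 2 *
          (ND A0 A1 A2 c2 K C beta L0 L1 y0 r / 2 + 2) *
          (ND A0 A1 A2 c2 K C beta L0 L1 y0 r / 2 + 2 * r) *
          (ND A0 A1 A2 c2 K C beta L0 L1 y0 r / 2 + 2 + 2 * r) =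
          (ND A0 A1 A2 c2 K C beta L0 L1 y0 r * (ND A0 A1 A2 c2 K C beta L0 L1 y0 r + 4) *
            (ND A0 A1 A2 c2 K C beta L0 L1 y0 r + 4 * r) *
            (ND A0 A1 A2 c2 K C beta L0 L1 y0 r + 4 * (1 + r))) / 16 := by ring
      rw [e]
      linarith

end Crest.Agent.R307.PIEng
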