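import Crest.Agent.R307.PIScx

set_option autoImplicit false
set_option linter.unusedSimpArgs false
set_option linter.unusedTactic false
set_option linter.unusedVariables false

namespace Crest.Agent.R307.PISc

open Crest.Agent.KB

/-- the point -/
def xv (x0 x1 x2 x3 : ℝ) : ℕ → ℝ
  | 0 => x0
  | 1 => x1
  | 2 => x2
  | _ => x3

theorem core (x0 x1 x2 x3 : ℝ) (hx0 : (0 : ℝ) / 16 ≤ x0) (hx0' : x0 ≤ (16 : ℝ) / 16) (hx1 : (0 : ℝ) / 16 ≤ x1) (hx1' : x1 ≤ (8 : ℝ) / 16) (hx2 : (0 : ℝ) / 16 ≤ x2) (hx2' : x2 ≤ (16 : ℝ) / 16) (hx3 : (0 : ℝ) / 16 ≤ x3) (hx3' : x3 ≤ (16 : ℝ) / 16) :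
    (0 ≤ ON.val (xv x0 x1 x2 x3) (fun _ => 1)) ∨ (0 ≤ ccN.val (xv x0 x1 x2 x3) (fun _ => 1)) := by
  obtain ⟨cl, hcl, h⟩ := run_sound _ _ _ _ _ _ _ _ run_ok (xv x0 x1 x2 x3) (by
    intro i hi
    interval_cases i <;> norm_num [ba, bb, xv] <;> constructor <;> linarith)
  simp only [List.mem_cons, List.not_mem_nil, or_false] at hcl
  rcases hcl with rfl | rfl
  · exact Or.inl (h ON (by simp))
  · exact Or.inr (h ccN (by simp))

theorem vals (x0 x1 x2 x3 xi t s p c r u d a a2 r2 as s2 n2 M t2 d2 k1 c2 k2 den p2 p3 p4 p5 p7 r4 u2 E8 rp q2 q3 q4 fr W8 fp dF th xi2 KN KD B A1 L R O cc : ℝ)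
    (hxi : x0 = 1 * xi)
    (ht : x1 = 1 * t)
    (hs : x2 = 1 * s)
    (hp : x3 = 1 * p)
    (hc : c = (xi * t))
    (hr : r = (xi * s))
    (hu : u = ((1 : ℝ) + r))
    (hd : d = ((1 : ℝ) - r))
    (ha : a = (t * (d * u)))
    (ha2 : a2 = (a * a))
    (hr2 : r2 = (r * r))
    (has : as = (a * s))
    (hs2 : s2 = (s * s))
    (hn2 : n2 = ((((800 : ℝ) * s2) + ((460 : ℝ) * as)) + ((135 : ℝ) * a2)))
    (hM : M = (((((3200 : ℝ) * (s2 * s)) + ((1840 : ℝ) * (as * s))) + ((742 : ℝ) * (as * a))) + ((135 : ℝ) * (a2 * a))))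
    (ht2 : t2 = (t * t))
    (hd2 : d2 = (d * d))
    (hk1 : k1 = (t2 * d2))
    (hc2 : c2 = (c * c))
    (hk2 : k2 = (c2 * d2))
    (hden : den = (((4 : ℝ) * M) + (xi * (k1 * n2))))
    (hp2 : p2 = (p * p))
    (hp3 : p3 = (p2 * p))
    (hp4 : p4 = (p2 * p2))
    (hp5 : p5 = (p3 * p2))
    (hp7 : p7 = (p4 * p3))
    (hr4 : r4 = (r2 * r2))
    (hu2 : u2 = (u * u))
    (hE8 : E8 = ((((216 : ℝ) - ((402 : ℝ) * (p2 * ((1 : ℝ) + r2)))) + ((344 : ℝ) * (p4 * (((1 : ℝ) + r2) + r4)))) - ((43 : ℝ) * (p4 * (k2 * u2)))))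
    (hrp : rp = (r * p))
    (hq2 : q2 = (rp * rp))
    (hq3 : q3 = (q2 * rp))
    (hq4 : q4 = (q2 * q2))
    (hfr : fr = (((((200 : ℝ) - ((170 : ℝ) * rp)) - ((54 : ℝ) * q3)) + ((67 : ℝ) * (q3 * q2))) - ((43 : ℝ) * (q4 * q3))))
    (hW8 : W8 = ((((800 : ℝ) - ((42 : ℝ) * c)) + ((100 : ℝ) * c2)) - ((91 : ℝ) * (c2 * c))))
    (hfp : fp = (((((200 : ℝ) - ((170 : ℝ) * p)) - ((54 : ℝ) * p3)) + ((67 : ℝ) * p5)) - ((43 : ℝ) * p7)))
    (hdF : dF = (fp - (r * fr)))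
    (hth : th = ((100 : ℝ) - (((1 : ℝ) - t) * ((1 : ℝ) - t))))
    (hxi2 : xi2 = (xi * xi))
    (hKN : KN = (((286 : ℝ) + ((156 : ℝ) * xi)) + ((335 : ℝ) * xi2)))
    (hKD : KD = (((1100 : ℝ) + ((600 : ℝ) * xi)) + ((500 : ℝ) * xi2)))
    (hB : B = ((((1 : ℝ) - t2) * (KN * dF)) + (KD * (th * (p * (d * u))))))
    (hA1 : A1 = (((3200 : ℝ) * (u * (d2 * n2))) + (den * (p3 * (xi * (d2 * (u2 * E8)))))))
    (hL : L = (((50 : ℝ) * KD) * ((((1 : ℝ) + t2) * A1) + ((16 : ℝ) * (den * (s * fr))))))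
    (hR : R = (W8 * (den * B)))
    (hO : O = (L - R))
    (hcc : cc = (((32 : ℝ) * c) - (13 : ℝ)))
    :
    ON.val (xv x0 x1 x2 x3) (fun _ => 1) = 1 * O ∧
    ccN.val (xv x0 x1 x2 x3) (fun _ => 1) = 1 * cc := by
  set X := (xv x0 x1 x2 x3) with hX
  have e0 : X 0 = x0 := rfl
  have e1 : X 1 = x1 := rfl
  have e2 : X 2 = x2 := rfl
  have e3 : X 3 = x3 := rfl
  have vxiN : xiN.val X (fun _ => 1) = 1 * xi := by
    simp only [xiN, Ex.val, e0, e1, e2, e3]; rw [← hxi]; push_cast; ring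
  have vtN : tN.val X (fun _ => 1) = 1 * t := by
    simp only [tN, Ex.val, e0, e1, e2, e3]; rw [← ht]; push_cast; ring
  have vsN : sN.val X (fun _ => 1) = 1 * s := by
    simp only [sN, Ex.val, e0, e1, e2, e3]; rw [← hs]; push_cast; ring
  have vpN : pN.val X (fun _ => 1) = 1 * p := by
    simp only [pN, Ex.val, e0, e1, e2, e3]; rw [← hp]; push_cast; ring
  clear_value X
  have vcN : cN.val X (fun _ => 1) = 1 * c := by
    simp only [cN, Ex.val, vxiN, vtN]; rw [hc]; push_cast; ring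
  have vrN : rN.val X (fun _ => 1) = 1 * r := by
    simp only [rN, Ex.val, vxiN, vsN]; rw [hr]; push_cast; ring
  have vuN : uN.val X (fun _ => 1) = 1 * u := by
    simp only [uN, Ex.val, vrN]; rw [hu]; push_cast; ring
  have vdN : dN.val X (fun _ => 1) = 1 * d := by
    simp only [dN, Ex.val, vrN]; rw [hd]; push_cast; ring
  have vaN : aN.val X (fun _ => 1) = 1 * a := by
    simp only [aN, Ex.val, vtN, vdN, vuN]; rw [ha]; push_cast; ring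
  have va2N : a2N.val X (fun _ => 1) = 1 * a2 := by
    simp only [a2N, Ex.val, vaN]; rw [ha2]; push_cast; ring
  have vr2N : r2N.val X (fun _ => 1) = 1 * r2 := by
    simp only [r2N, Ex.val, vrN]; rw [hr2]; push_cast; ring
  have vasN : asN.val X (fun _ => 1) = 1 * as := by
    simp only [asN, Ex.val, vaN, vsN]; rw [has]; push_cast; ring
  have vs2N : s2N.val X (fun _ => 1) = 1 * s2 := by
    simp only [s2N, Ex.val, vsN]; rw [hs2]; push_cast; ring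
  have vn2N : n2N.val X (fun _ => 1) = 1 * n2 := by
    simp only [n2N, Ex.val, vs2N, vasN, va2N]; rw [hn2]; push_cast; ring
  have vMN : MN.val X (fun _ => 1) = 1 * M := by
    simp only [MN, Ex.val, vs2N, vsN, vasN, vaN, va2N]; rw [hM]; push_cast; ring
  have vt2N : t2N.val X (fun _ => 1) = 1 * t2 := by
    simp only [t2N, Ex.val, vtN]; rw [ht2]; push_cast; ring
  have vd2N : d2N.val X (fun _ => 1) = 1 * d2 := by
    simp only [d2N, Ex.val, vdN]; rw [hd2]; push_cast; ring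
  have vk1N : k1N.val X (fun _ => 1) = 1 * k1 := by
    simp only [k1N, Ex.val, vt2N, vd2N]; rw [hk1]; push_cast; ring
  have vc2N : c2N.val X (fun _ => 1) = 1 * c2 := by
    simp only [c2N, Ex.val, vcN]; rw [hc2]; push_cast; ring
  have vk2N : k2N.val X (fun _ => 1) = 1 * k2 := by
    simp only [k2N, Ex.val, vc2N, vd2N]; rw [hk2]; push_cast; ring
  have vdenN : denN.val X (fun _ => 1) = 1 * den := by
    simp only [denN, Ex.val, vMN, vxiN, vk1N, vn2N]; rw [hden]; push_cast; ring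
  have vp2N : p2N.val X (fun _ => 1) = 1 * p2 := by
    simp only [p2N, Ex.val, vpN]; rw [hp2]; push_cast; ring
  have vp3N : p3N.val X (fun _ => 1) = 1 * p3 := by
    simp only [p3N, Ex.val, vp2N, vpN]; rw [hp3]; push_cast; ring
  have vp4N : p4N.val X (fun _ => 1) = 1 * p4 := by
    simp only [p4N, Ex.val, vp2N]; rw [hp4]; push_cast; ring
  have vp5N : p5N.val X (fun _ => 1) = 1 * p5 := by
    simp only [p5N, Ex.val, vp3N, vp2N]; rw [hp5]; push_cast; ring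
  have vp7N : p7N.val X (fun _ => 1) = 1 * p7 := by
    simp only [p7N, Ex.val, vp4N, vp3N]; rw [hp7]; push_cast; ring
  have vr4N : r4N.val X (fun _ => 1) = 1 * r4 := by
    simp only [r4N, Ex.val, vr2N]; rw [hr4]; push_cast; ring
  have vu2N : u2N.val X (fun _ => 1) = 1 * u2 := by
    simp only [u2N, Ex.val, vuN]; rw [hu2]; push_cast; ring
  have vE8N : E8N.val X (fun _ => 1) = 1 * E8 := by
    simp only [E8N, Ex.val, vp2N, vr2N, vp4N, vr4N, vk2N, vu2N]; rw [hE8]; push_cast; ring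
  have vrpN : rpN.val X (fun _ => 1) = 1 * rp := by
    simp only [rpN, Ex.val, vrN, vpN]; rw [hrp]; push_cast; ring
  have vq2N : q2N.val X (fun _ => 1) = 1 * q2 := by
    simp only [q2N, Ex.val, vrpN]; rw [hq2]; push_cast; ring
  have vq3N : q3N.val X (fun _ => 1) = 1 * q3 := by
    simp only [q3N, Ex.val, vq2N, vrpN]; rw [hq3]; push_cast; ring
  have vq4N : q4N.val X (fun _ => 1) = 1 * q4 := by
    simp only [q4N, Ex.val, vq2N]; rw [hq4]; push_cast; ring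
  have vfrN : frN.val X (fun _ => 1) = 1 * fr := by
    simp only [frN, Ex.val, vrpN, vq3N, vq2N, vq4N]; rw [hfr]; push_cast; ring
  have vW8N : W8N.val X (fun _ => 1) = 1 * W8 := by
    simp only [W8N, Ex.val, vcN, vc2N]; rw [hW8]; push_cast; ring
  have vfpN : fpN.val X (fun _ => 1) = 1 * fp := by
    simp only [fpN, Ex.val, vpN, vp3N, vp5N, vp7N]; rw [hfp]; push_cast; ring
  have vdFN : dFN.val X (fun _ => 1) = 1 * dF := by
    simp only [dFN, Ex.val, vfpN, vrN, vfrN]; rw [hdF]; push_cast; ring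
  have vthN : thN.val X (fun _ => 1) = 1 * th := by
    simp only [thN, Ex.val, vtN]; rw [hth]; push_cast; ring
  have vxi2N : xi2N.val X (fun _ => 1) = 1 * xi2 := by
    simp only [xi2N, Ex.val, vxiN]; rw [hxi2]; push_cast; ring
  have vKNN : KNN.val X (fun _ => 1) = 1 * KN := by
    simp only [KNN, Ex.val, vxiN, vxi2N]; rw [hKN]; push_cast; ring
  have vKDN : KDN.val X (fun _ => 1) = 1 * KD := by
    simp only [KDN, Ex.val, vxiN, vxi2N]; rw [hKD]; push_cast; ring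
  have vBN : BN.val X (fun _ => 1) = 1 * B := by
    simp only [BN, Ex.val, vt2N, vKNN, vdFN, vKDN, vthN, vpN, vdN, vuN]; rw [hB]; push_cast; ring
  have vA1N : A1N.val X (fun _ => 1) = 1 * A1 := by
    simp only [A1N, Ex.val, vuN, vd2N, vn2N, vdenN, vp3N, vxiN, vu2N, vE8N]; rw [hA1]; push_cast; ring
  have vLN : LN.val X (fun _ => 1) = 1 * L := by
    simp only [LN, Ex.val, vKDN, vt2N, vA1N, vdenN, vsN, vfrN]; rw [hL]; push_cast; ring
  have vRN : RN.val X (fun _ => 1) = 1 * R := by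
    simp only [RN, Ex.val, vW8N, vdenN, vBN]; rw [hR]; push_cast; ring
  have vON : ON.val X (fun _ => 1) = 1 * O := by
    simp only [ON, Ex.val, vLN, vRN]; rw [hO]; push_cast; ring
  have vccN : ccN.val X (fun _ => 1) = 1 * cc := by
    simp only [ccN, Ex.val, vcN]; rw [hcc]; push_cast; ring
  exact ⟨vON, vccN⟩

theorem main (x0 x1 x2 x3 xi t s p c r u d a a2 r2 as s2 n2 M t2 d2 k1 c2 k2 den p2 p3 p4 p5 p7 r4 u2 E8 rp q2 q3 q4 fr W8 fp dF th xi2 KN KD B A1 L R O cc : ℝ) (hx0 : (0 : ℝ) / 16 ≤ x0) (hx0' : x0 ≤ (16 : ℝ) / 16) (hx1 : (0 : ℝ) / 16 ≤ x1) (hx1' : x1 ≤ (8 : ℝ) / 16) (hx2 : (0 : ℝ) / 16 ≤ x2) (hx2' : x2 ≤ (16 : ℝ) / 16) (hx3 : (0 : ℝ) / 16 ≤ x3) (hx3' : x3 ≤ (16 : ℝ) / 16)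
    (hxi : x0 = 1 * xi)
    (ht : x1 = 1 * t)
    (hs : x2 = 1 * s)
    (hp : x3 = 1 * p)
    (hc : c = (xi * t))
    (hr : r = (xi * s))
    (hu : u = ((1 : ℝ) + r))
    (hd : d = ((1 : ℝ) - r))
    (ha : a = (t * (d * u)))
    (ha2 : a2 = (a * a))
    (hr2 : r2 = (r * r))
    (has : as = (a * s))
    (hs2 : s2 = (s * s))
    (hn2 : n2 = ((((800 : ℝ) * s2) + ((460 : ℝ) * as)) + ((135 : ℝ) * a2)))
    (hM : M = (((((3200 : ℝ) * (s2 * s)) + ((1840 : ℝ) * (as * s))) + ((742 : ℝ) * (as * a))) + ((135 : ℝ) * (a2 * a))))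
    (ht2 : t2 = (t * t))
    (hd2 : d2 = (d * d))
    (hk1 : k1 = (t2 * d2))
    (hc2 : c2 = (c * c))
    (hk2 : k2 = (c2 * d2))
    (hden : den = (((4 : ℝ) * M) + (xi * (k1 * n2))))
    (hp2 : p2 = (p * p))
    (hp3 : p3 = (p2 * p))
    (hp4 : p4 = (p2 * p2))
    (hp5 : p5 = (p3 * p2))
    (hp7 : p7 = (p4 * p3))
    (hr4 : r4 = (r2 * r2))
    (hu2 : u2 = (u * u))
    (hE8 : E8 = ((((216 : ℝ) - ((402 : ℝ) * (p2 * ((1 : ℝ) + r2)))) + ((344 : ℝ) * (p4 * (((1 : ℝ) + r2) + r4)))) - ((43 : ℝ) * (p4 * (k2 * u2)))))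
    (hrp : rp = (r * p))
    (hq2 : q2 = (rp * rp))
    (hq3 : q3 = (q2 * rp))
    (hq4 : q4 = (q2 * q2))
    (hfr : fr = (((((200 : ℝ) - ((170 : ℝ) * rp)) - ((54 : ℝ) * q3)) + ((67 : ℝ) * (q3 * q2))) - ((43 : ℝ) * (q4 * q3))))
    (hW8 : W8 = ((((800 : ℝ) - ((42 : ℝ) * c)) + ((100 : ℝ) * c2)) - ((91 : ℝ) * (c2 * c))))
    (hfp : fp = (((((200 : ℝ) - ((170 : ℝ) * p)) - ((54 : ℝ) * p3)) + ((67 : ℝ) * p5)) - ((43 : ℝ) * p7)))
    (hdF : dF = (fp - (r * fr)))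
    (hth : th = ((100 : ℝ) - (((1 : ℝ) - t) * ((1 : ℝ) - t))))
    (hxi2 : xi2 = (xi * xi))
    (hKN : KN = (((286 : ℝ) + ((156 : ℝ) * xi)) + ((335 : ℝ) * xi2)))
    (hKD : KD = (((1100 : ℝ) + ((600 : ℝ) * xi)) + ((500 : ℝ) * xi2)))
    (hB : B = ((((1 : ℝ) - t2) * (KN * dF)) + (KD * (th * (p * (d * u))))))
    (hA1 : A1 = (((3200 : ℝ) * (u * (d2 * n2))) + (den * (p3 * (xi * (d2 * (u2 * E8)))))))
    (hL : L = (((50 : ℝ) * KD) * ((((1 : ℝ) + t2) * A1) + ((16 : ℝ) * (den * (s * fr))))))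
    (hR : R = (W8 * (den * B)))
    (hO : O = (L - R))
    (hcc : cc = (((32 : ℝ) * c) - (13 : ℝ)))
    :
    (0 ≤ O) ∨ (0 ≤ cc) := by
  have hv := vals x0 x1 x2 x3 xi t s p c r u d a a2 r2 as s2 n2 M t2 d2 k1 c2 k2 den p2 p3 p4 p5 p7 r4 u2 E8 rp q2 q3 q4 fr W8 fp dF th xi2 KN KD B A1 L R O cc hxi ht hs hp hc hr hu hd ha ha2 hr2 has hs2 hn2 hM ht2 hd2 hk1 hc2 hk2 hden hp2 hp3 hp4 hp5 hp7 hr4 hu2 hE8 hrp hq2 hq3 hq4 hfr hW8 hfp hdF hth hxi2 hKN hKD hB hA1 hL hR hO hcc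
  have hc := core x0 x1 x2 x3 hx0 hx0' hx1 hx1' hx2 hx2' hx3 hx3'
  obtain ⟨w0, w1⟩ := hv
  simp only [w0, w1] at hc
  rcases hc with a0 | a0
  · exact Or.inl (nonneg_of_mul_nonneg_right a0 (by positivity))
  · exact Or.inr (nonneg_of_mul_nonneg_right a0 (by positivity))

end Crest.Agent.R307.PISc
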