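import Crest.Agent.R307.PISw
import Crest.Agent.R307.PISc

set_option autoImplicit false

namespace Crest.Agent.R307.PIS1

open Crest.Agent.R307 Crest.Agent.R307.GenInd Crest.Agent.R307.GenPI Crest.Agent.R307.GenFin
  Crest.Agent.R307.GenS

/-- chart c: `c = ξ t`, `r = ξ s`. -/
theorem chartC {c p r t xi s : ℝ} (hc0 : 0 < c) (hc1 : c ≤ 2 / 5) (hp0 : 0 ≤ p) (hp1 : p ≤ 1)
    (hr0 : 0 ≤ r) (hr1 : r ≤ 1) (ht0 : 0 < t) (ht1 : t ≤ 1 / 2) (hxi0 : 0 < xi) (hxi1 : xi ≤ 1)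
    (hs0 : 0 ≤ s) (hs1 : s ≤ 1) (hc : c = xi * t) (hr : r = xi * s) :
    Pt (WS c) c t p r := by
  obtain ⟨d, hd⟩ : ∃ z : ℝ, z = 1 - r := ⟨_, rfl⟩
  obtain ⟨u, hu⟩ : ∃ z : ℝ, z = 1 + r := ⟨_, rfl⟩
  obtain ⟨a, ha⟩ : ∃ zz : ℝ, zz = (t * (d * u)) := ⟨_, rfl⟩
  obtain ⟨a2, ha2⟩ : ∃ zz : ℝ, zz = (a * a) := ⟨_, rfl⟩
  obtain ⟨r2, hr2⟩ : ∃ zz : ℝ, zz = (r * r) := ⟨_, rfl⟩
  obtain ⟨as_, has⟩ : ∃ zz : ℝ, zz = (a * s) := ⟨_, rfl⟩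
  obtain ⟨s2, hs2⟩ : ∃ zz : ℝ, zz = (s * s) := ⟨_, rfl⟩
  obtain ⟨n2, hn2⟩ : ∃ zz : ℝ, zz = ((((800 : ℝ) * s2) + ((460 : ℝ) * as_)) + ((135 : ℝ) * a2)) := ⟨_, rfl⟩
  obtain ⟨M, hM⟩ : ∃ zz : ℝ, zz = (((((3200 : ℝ) * (s2 * s)) + ((1840 : ℝ) * (as_ * s))) + ((742 : ℝ) * (as_ * a))) + ((135 : ℝ) * (a2 * a))) := ⟨_, rfl⟩
  obtain ⟨t2, ht2⟩ : ∃ zz : ℝ, zz = (t * t) := ⟨_, rfl⟩
  obtain ⟨d2, hd2⟩ : ∃ zz : ℝ, zz = (d * d) := ⟨_, rfl⟩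
  obtain ⟨k1, hk1⟩ : ∃ zz : ℝ, zz = (t2 * d2) := ⟨_, rfl⟩
  obtain ⟨c2, hc2⟩ : ∃ zz : ℝ, zz = (c * c) := ⟨_, rfl⟩
  obtain ⟨k2, hk2⟩ : ∃ zz : ℝ, zz = (c2 * d2) := ⟨_, rfl⟩
  obtain ⟨den, hden⟩ : ∃ zz : ℝ, zz = (((4 : ℝ) * M) + (xi * (k1 * n2))) := ⟨_, rfl⟩
  obtain ⟨p2, hp2⟩ : ∃ zz : ℝ, zz = (p * p) := ⟨_, rfl⟩
  obtain ⟨p3, hp3⟩ : ∃ zz : ℝ, zz = (p2 * p) := ⟨_, rfl⟩
  obtain ⟨p4, hp4⟩ : ∃ zz : ℝ, zz = (p2 * p2) := ⟨_, rfl⟩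
  obtain ⟨p5, hp5⟩ : ∃ zz : ℝ, zz = (p3 * p2) := ⟨_, rfl⟩
  obtain ⟨p7, hp7⟩ : ∃ zz : ℝ, zz = (p4 * p3) := ⟨_, rfl⟩
  obtain ⟨r4, hr4⟩ : ∃ zz : ℝ, zz = (r2 * r2) := ⟨_, rfl⟩
  obtain ⟨u2, hu2⟩ : ∃ zz : ℝ, zz = (u * u) := ⟨_, rfl⟩
  obtain ⟨E8v, hE8⟩ : ∃ zz : ℝ, zz = ((((216 : ℝ) - ((402 : ℝ) * (p2 * ((1 : ℝ) + r2)))) + ((344 : ℝ) * (p4 * (((1 : ℝ) + r2) + r4)))) - ((43 : ℝ) * (p4 * (k2 * u2)))) := ⟨_, rfl⟩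
  obtain ⟨rp, hrp⟩ : ∃ zz : ℝ, zz = (r * p) := ⟨_, rfl⟩
  obtain ⟨q2, hq2⟩ : ∃ zz : ℝ, zz = (rp * rp) := ⟨_, rfl⟩
  obtain ⟨q3, hq3⟩ : ∃ zz : ℝ, zz = (q2 * rp) := ⟨_, rfl⟩
  obtain ⟨q4, hq4⟩ : ∃ zz : ℝ, zz = (q2 * q2) := ⟨_, rfl⟩
  obtain ⟨fr, hfr⟩ : ∃ zz : ℝ, zz = (((((200 : ℝ) - ((170 : ℝ) * rp)) - ((54 : ℝ) * q3)) + ((67 : ℝ) * (q3 * q2))) - ((43 : ℝ) * (q4 * q3))) := ⟨_, rfl⟩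
  obtain ⟨W8, hW8⟩ : ∃ zz : ℝ, zz = ((((800 : ℝ) - ((42 : ℝ) * c)) + ((100 : ℝ) * c2)) - ((91 : ℝ) * (c2 * c))) := ⟨_, rfl⟩
  obtain ⟨fp, hfp⟩ : ∃ zz : ℝ, zz = (((((200 : ℝ) - ((170 : ℝ) * p)) - ((54 : ℝ) * p3)) + ((67 : ℝ) * p5)) - ((43 : ℝ) * p7)) := ⟨_, rfl⟩
  obtain ⟨dF, hdF⟩ : ∃ zz : ℝ, zz = (fp - (r * fr)) := ⟨_, rfl⟩
  obtain ⟨th, hth⟩ : ∃ zz : ℝ, zz = ((100 : ℝ) - (((1 : ℝ) - t) * ((1 : ℝ) - t))) := ⟨_, rfl⟩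
  obtain ⟨xi2, hxi2⟩ : ∃ zz : ℝ, zz = (xi * xi) := ⟨_, rfl⟩
  obtain ⟨KN, hKN⟩ : ∃ zz : ℝ, zz = (((286 : ℝ) + ((156 : ℝ) * xi)) + ((335 : ℝ) * xi2)) := ⟨_, rfl⟩
  obtain ⟨KD, hKD⟩ : ∃ zz : ℝ, zz = (((1100 : ℝ) + ((600 : ℝ) * xi)) + ((500 : ℝ) * xi2)) := ⟨_, rfl⟩
  obtain ⟨B, hB⟩ : ∃ zz : ℝ, zz = ((((1 : ℝ) - t2) * (KN * dF)) + (KD * (th * (p * (d * u))))) := ⟨_, rfl⟩
  obtain ⟨A1, hA1⟩ : ∃ zz : ℝ, zz = (((3200 : ℝ) * (u * (d2 * n2))) + (den * (p3 * (xi * (d2 * (u2 * E8v)))))) := ⟨_, rfl⟩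
  obtain ⟨L, hL⟩ : ∃ zz : ℝ, zz = (((50 : ℝ) * KD) * ((((1 : ℝ) + t2) * A1) + ((16 : ℝ) * (den * (s * fr))))) := ⟨_, rfl⟩
  obtain ⟨R, hR⟩ : ∃ zz : ℝ, zz = (W8 * (den * B)) := ⟨_, rfl⟩
  obtain ⟨O, hO⟩ : ∃ zz : ℝ, zz = (L - R) := ⟨_, rfl⟩
  obtain ⟨cc, hcc⟩ : ∃ zz : ℝ, zz = (((32 : ℝ) * c) - (13 : ℝ)) := ⟨_, rfl⟩
  have hmain := PISc.main xi t s p xi t s p c r u d a a2 r2 as_ s2 n2 M t2 d2 k1 c2 k2 den p2 p3 p4 p5 p7 r4 u2 E8v rp q2 q3 q4 fr W8 fp dF th xi2 KN KD B A1 L R O cc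
    (by linarith) (by linarith) (by linarith) (by linarith) (by linarith) (by linarith) (by linarith) (by linarith)
    (one_mul _).symm (one_mul _).symm (one_mul _).symm (one_mul _).symm hc hr hu hd ha ha2 hr2 has hs2 hn2 hM ht2 hd2 hk1 hc2 hk2 hden hp2 hp3 hp4 hp5 hp7 hr4 hu2 hE8 hrp hq2 hq3 hq4 hfr hW8 hfp hdF hth hxi2 hKN hKD hB hA1 hL hR hO hcc
  have hO0 : 0 ≤ O := by
    rcases hmain with h | h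
    · exact h
    · exfalso
      rw [hcc] at h
      linarith
  refine pt_of_chart (N := 80000) (G := xi ^ 4 * t ^ 4 * O) hc0 hc1 ht0.le hp0 hp1 hr0 hr1
    (by norm_num) (by positivity) ?_
  intro D hD
  have ea : c * (1 - r) * (1 + r) = xi * a := by rw [ha, hd, hu, hc]; ring
  have en : n2f r (xi * a) = xi ^ 2 * n2 := by
    rw [hn2, hs2, has, ha2, hr]; unfold n2f; ring
  have eM : Mf r (xi * a) = xi ^ 3 * M := by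
    rw [hM, hs2, has, ha2, hr]; unfold Mf; ring
  have eden : denA c r = xi ^ 3 * den := by
    unfold denA; rw [ea, en, eM, hden, hk1, hd2, ht2, hd, hc]; ring
  have enum : numA c r = 2 * u * (xi ^ 4 * (t ^ 2 * d ^ 2)) * n2 := by
    unfold numA; rw [ea, en, hu, hd, hc]; ring
  have eE : E8 c p r = E8v := by
    rw [hE8, hp2, hp4, hp2, hr4, hr2, hk2, hd2, hu2, hc2, hu, hd]; unfold PIS1.E8; ring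
  have efr : f1 (r * p) = fr := by
    rw [hfr, hq4, hq3, hq2, hrp]; unfold f1; ring
  have efp : f1 p = fp := by
    rw [hfp, hp7, hp5, hp4, hp3, hp2]; unfold f1; ring
  have ekn : kn c t = t ^ 2 * KN := by
    rw [hKN, hxi2, hc]; unfold kn; ring
  have ekd : kd c t = t ^ 2 * KD := by
    rw [hKD, hxi2, hc]; unfold kd; ring
  have ew : w8 c = W8 := by
    rw [hW8, hc2]; unfold w8; ring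
  have eth : 1 - (1 - t) ^ 2 / 100 = th / 100 := by rw [hth]; ring
  have e1r : 1 - r ^ 2 = d * u := by rw [hd, hu]; ring
  rw [eden, enum] at hD
  unfold LL BB
  rw [ekn, ekd, ew, eth, efp, efr, eE, e1r, eden]
  rw [hO, hL, hR, hA1, hB, hdF, ht2, hd2, hp3, hp2, hu2]
  clear hW8 hc2 hE8 hk2 hmain hcc
  rw [hc]
  rw [hr]
  linear_combination (80000 * t ^ 2 * KD * (1 + t ^ 2)) * hD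

end Crest.Agent.R307.PIS1
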