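import Crest.Agent.R307.PISn
import Crest.Agent.R307.PISf

set_option autoImplicit false

namespace Crest.Agent.R307.PIS1

open Crest.Agent.R307 Crest.Agent.R307.GenInd Crest.Agent.R307.GenPI Crest.Agent.R307.GenFin
  Crest.Agent.R307.GenS

theorem chartF {g ep v s ta t c p : ℝ} (hg0 : 1 ≤ g) (hgu : g ≤ 303 / 256) (hep0 : 0 ≤ ep)
    (hep1 : ep ≤ 196 / 256) (hv0 : 0 ≤ v) (hv1 : v ≤ 168 / 256) (hp0 : 0 ≤ p) (hp1 : p ≤ 1)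
    (hs : s = 1 - ep) (hta : ta = ep * v) (ht : t = 1 - ta) (hc : c = g ^ 2 - 1) :
    0 ≤ ON g c s t p := by
  obtain ⟨g1, hg1⟩ : ∃ zz : ℝ, zz = (g + (1 : ℝ)) := ⟨_, rfl⟩
  obtain ⟨s2, hs2⟩ : ∃ zz : ℝ, zz = (s * s) := ⟨_, rfl⟩
  obtain ⟨sh, hsh⟩ : ∃ zz : ℝ, zz = ((1 : ℝ) - s2) := ⟨_, rfl⟩
  obtain ⟨R, hR⟩ : ∃ zz : ℝ, zz = (c * sh) := ⟨_, rfl⟩
  obtain ⟨U, hU⟩ : ∃ zz : ℝ, zz = (((4 : ℝ) * s) + R) := ⟨_, rfl⟩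
  obtain ⟨R2, hR2⟩ : ∃ zz : ℝ, zz = (R * R) := ⟨_, rfl⟩
  obtain ⟨s3, hs3⟩ : ∃ zz : ℝ, zz = (s2 * s) := ⟨_, rfl⟩
  obtain ⟨H, hH⟩ : ∃ zz : ℝ, zz = (((16 : ℝ) * s3) - R2) := ⟨_, rfl⟩
  obtain ⟨DNv, hDN⟩ : ∃ zz : ℝ, zz = (((g1 * g1) * (U * U)) + (c * H)) := ⟨_, rfl⟩
  obtain ⟨c2, hc2⟩ : ∃ zz : ℝ, zz = (c * c) := ⟨_, rfl⟩
  obtain ⟨t2, ht2⟩ : ∃ zz : ℝ, zz = (t * t) := ⟨_, rfl⟩
  obtain ⟨ct, hct⟩ : ∃ zz : ℝ, zz = (c * t) := ⟨_, rfl⟩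
  obtain ⟨KN, hKN⟩ : ∃ zz : ℝ, zz = ((((335 : ℝ) * c2) + ((156 : ℝ) * ct)) + ((286 : ℝ) * t2)) := ⟨_, rfl⟩
  obtain ⟨KD, hKD⟩ : ∃ zz : ℝ, zz = ((((500 : ℝ) * c2) + ((600 : ℝ) * ct)) + ((1100 : ℝ) * t2)) := ⟨_, rfl⟩
  obtain ⟨p2, hp2⟩ : ∃ zz : ℝ, zz = (p * p) := ⟨_, rfl⟩
  obtain ⟨p3, hp3⟩ : ∃ zz : ℝ, zz = (p2 * p) := ⟨_, rfl⟩
  obtain ⟨p4, hp4⟩ : ∃ zz : ℝ, zz = (p2 * p2) := ⟨_, rfl⟩
  obtain ⟨p5, hp5⟩ : ∃ zz : ℝ, zz = (p3 * p2) := ⟨_, rfl⟩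
  obtain ⟨p7, hp7⟩ : ∃ zz : ℝ, zz = (p4 * p3) := ⟨_, rfl⟩
  obtain ⟨E0, hE0⟩ : ∃ zz : ℝ, zz = ((((216 : ℝ) - ((402 : ℝ) * p2)) + ((344 : ℝ) * p4)) - ((43 : ℝ) * (c2 * p4))) := ⟨_, rfl⟩
  obtain ⟨E16, hE16⟩ : ∃ zz : ℝ, zz = (((((16 : ℝ) * s2) - ((2 : ℝ) * R2)) * E0) - (R2 * (((402 : ℝ) * p2) - ((344 : ℝ) * p4)))) := ⟨_, rfl⟩
  obtain ⟨FR, hFR⟩ : ∃ zz : ℝ, zz = ((((4000 : ℝ) * s2) - ((850 : ℝ) * (s * (R * p)))) - ((27 : ℝ) * (R2 * p2))) := ⟨_, rfl⟩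
  obtain ⟨WG, hWG⟩ : ∃ zz : ℝ, zz = ((1600 : ℝ) + (g1 * (((158 : ℝ) * c) - ((43 : ℝ) * (c2 * c))))) := ⟨_, rfl⟩
  obtain ⟨th, hth⟩ : ∃ zz : ℝ, zz = ((100 : ℝ) - (ta * ta)) := ⟨_, rfl⟩
  obtain ⟨fp, hfp⟩ : ∃ zz : ℝ, zz = (((((200 : ℝ) - ((170 : ℝ) * p)) - ((54 : ℝ) * p3)) + ((67 : ℝ) * p5)) - ((43 : ℝ) * p7)) := ⟨_, rfl⟩
  obtain ⟨shF, hshF⟩ : ∃ zz : ℝ, zz = (sh * FR) := ⟨_, rfl⟩
  obtain ⟨A, hA⟩ : ∃ zz : ℝ, zz = ((((1 : ℝ) + t2) * (((128000 : ℝ) * (s2 * (g * (U * H)))) + ((10 : ℝ) * ((s * c) * (p3 * (DNv * E16)))))) + ((32 : ℝ) * (t2 * (DNv * shF)))) := ⟨_, rfl⟩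
  obtain ⟨B, hB⟩ : ∃ zz : ℝ, zz = ((((1 : ℝ) - t2) * (KN * (((80 : ℝ) * (s3 * fp)) - (c * shF)))) + ((5 : ℝ) * (KD * (th * (p * (s * (((16 : ℝ) * s2) - R2))))))) := ⟨_, rfl⟩
  obtain ⟨O, hO⟩ : ∃ zz : ℝ, zz = (((25 : ℝ) * (g1 * (KD * A))) - (WG * (t * (DNv * B)))) := ⟨_, rfl⟩
  have hmain := PISf.main g ep v p g p ep v s ta t g1 c s2 sh R U R2 s3 H DNv c2 t2 ct KN KD p2 p3 p4 p5 p7 E0 E16 FR WG th fp shF A B O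
    (by linarith) (by linarith) (by linarith) (by linarith) (by linarith) (by linarith) (by linarith) (by linarith)
    (one_mul _).symm (one_mul _).symm (one_mul _).symm (one_mul _).symm hs hta ht hg1 (by rw [hg1]; linarith) hs2 hsh hR hU hR2 hs3 hH hDN hc2 ht2 hct hKN hKD hp2 hp3 hp4 hp5 hp7 hE0 hE16 hFR hWG hth hfp hshF hA hB hO
  have eR : RN c s = R := by rw [hR, hsh, hs2]; unfold RN; ring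
  have eU : UN c s = U := by unfold UN; rw [eR, hU]
  have eH : HN c s = H := by unfold HN; rw [eR, hH, hs3, hs2, hR2]; ring
  have eDN : DN g c s = DNv := by unfold DN; rw [eU, eH, hDN, hg1]; ring
  have eE0 : E0N c p = E0 := by unfold E0N; rw [hE0, hp4, hp2, hc2]; ring
  have eE16 : E16N c s p = E16 := by
    unfold E16N; rw [eR, eE0, hE16, hs2, hR2, hp4, hp2]; ring
  have eFR : FRN c s p = FR := by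
    unfold FRN; rw [eR, hFR, hs2, hR2, hp2]; ring
  have eWG : WGN g c = WG := by
    unfold WGN; rw [hWG, hg1, hc2]; ring
  have ekn : kn c t = KN := by
    rw [hKN, hc2, hct, ht2]; unfold kn; ring
  have ekd : kd c t = KD := by
    rw [hKD, hc2, hct, ht2]; unfold kd; ring
  have efp : f1 p = fp := by
    rw [hfp, hp7, hp5, hp4, hp3, hp2]; unfold f1; ring
  have eth : 100 - (1 - t) ^ 2 = th := by rw [hth, ht]; ring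
  have esh : 1 - s ^ 2 = sh := by rw [hsh, hs2]; ring
  have eA : AN g c s t p = A := by
    unfold AN; rw [eU, eH, eDN, eE16, eFR, esh, hA, hshF, ht2, hp3, hp2, hs2]; ring
  have eB : BN c s t p = B := by
    unfold BN; rw [eR, ekn, efp, eFR, esh, ekd, eth, hB, hshF, ht2, hs3, hs2, hR2]; ring
  have eO : ON g c s t p = O := by
    unfold ON; rw [eA, eB, ekd, eWG, eDN, hO, hg1]
  rw [eO]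
  exact hmain

end Crest.Agent.R307.PIS1
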