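import Crest.Agent.R307.PISga
import Crest.Agent.R307.PISgb
import Crest.Agent.R307.PISgc
import Crest.Agent.R307.PISgd
import Crest.Agent.R307.PISge
import Crest.Agent.R307.PISgf

/-!
Row 307, S0471, regime S: **(PI) for `c ∈ (0, 2/5]`** (`pis_S`), from six kernel-checked charts.
-/

set_option autoImplicit false

namespace Crest.Agent.R307.PIS1

open Crest.Agent.R307 Crest.Agent.R307.GenInd Crest.Agent.R307.GenPI Crest.Agent.R307.GenFin
  Crest.Agent.R307.GenS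

lemma pt_zero {c p r : ℝ} (hc0 : 0 < c) (hc1 : c ≤ 2 / 5) (hp0 : 0 ≤ p) (hp1 : p ≤ 1)
    (hr0 : 0 ≤ r) (hr1 : r ≤ 1) : Pt (WS c) c 0 p r := by
  refine ⟨0, ⟨le_rfl, by simp; positivity⟩, ?_⟩
  have := LL_nonneg hc0 hc1 le_rfl hp0 hp1 hr0 hr1 le_rfl
  simpa using this

lemma pt_small {c t p r : ℝ} (hc0 : 0 < c) (hc1 : c ≤ 2 / 5) (ht0 : 0 < t) (htc : t ≤ c)
    (hp0 : 0 ≤ p) (hp1 : p ≤ 1) (hr0 : 0 ≤ r) (hr1 : r ≤ 1) : Pt (WS c) c t p r := by
  have hX0 : 0 < t / c := div_pos ht0 hc0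
  have hX1 : t / c ≤ 1 := (div_le_one hc0).mpr htc
  have e : c * (t / c) = t := by field_simp
  by_cases h : t / c ≤ 1 - r
  · have hd : 0 < 1 - r := lt_of_lt_of_le hX0 h
    have h2 := chartA (c := c) (p := p) (r := r) (Y := (t / c) / (1 - r)) hc0 hc1 hp0 hp1 hr0
      (by linarith) (by positivity) ((div_le_one hd).mpr h)
    have e2 : (1 - r) * ((t / c) / (1 - r)) = t / c := by field_simp
    rw [e2, e] at h2
    exact h2
  · have h' : 1 - r < t / c := not_le.mp h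
    have h2 := chartB (c := c) (p := p) (r := r) (Xq := t / c) (V := (1 - r) / (t / c)) hc0 hc1
      hp0 hp1 hr0 hr1 hX0.le hX1 (div_nonneg (by linarith) hX0.le) ((div_le_one hX0).mpr h'.le)
      (by field_simp)
    rw [e] at h2
    exact h2

lemma pt_D {c t p r : ℝ} (hc0 : 0 < c) (hc1 : c ≤ 2 / 5) (ht0 : 0 < t) (ht1 : t ≤ 1)
    (hp0 : 0 ≤ p) (hp1 : p ≤ 1) (hr0 : 0 < r) (hr1 : r ≤ 1) (h : c ≤ 2 * (r * t)) :
    Pt (WS c) c t p r := by
  have hrt : 0 < r * t := mul_pos hr0 ht0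
  exact chartD (z := c / (r * t)) hc0 hc1 hp0 hp1 hr0 hr1 ht0 ht1 (by positivity)
    ((div_le_iff₀ hrt).mpr h) (by field_simp)

lemma pt_mid {c t p r : ℝ} (hc0 : 0 < c) (hc1 : c ≤ 2 / 5) (htc : c < t) (ht1 : t ≤ 1 / 2)
    (hp0 : 0 ≤ p) (hp1 : p ≤ 1) (hr0 : 0 ≤ r) (hr1 : r ≤ 1) : Pt (WS c) c t p r := by
  have ht0 : 0 < t := hc0.trans htc
  have hxi0 : 0 < c / t := div_pos hc0 ht0
  have hxi1 : c / t ≤ 1 := (div_le_one ht0).mpr htc.le
  by_cases h : r ≤ c / t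
  · exact chartC (xi := c / t) (s := r / (c / t)) hc0 hc1 hp0 hp1 hr0 hr1 ht0 ht1 hxi0 hxi1
      (by positivity) ((div_le_one hxi0).mpr h) (by field_simp) (by field_simp)
  · have h' : c / t < r := not_le.mp h
    have h2 : c < r * t := (div_lt_iff₀ ht0).mp h'
    have hr : 0 < r := hxi0.trans h'
    exact pt_D hc0 hc1 ht0 (by linarith) hp0 hp1 hr hr1 (by linarith)

lemma pt_N {c t p r : ℝ} (hc0 : 0 < c) (hc1 : c ≤ 2 / 5) (ht0 : 1 / 2 ≤ t) (ht1 : t ≤ 1)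
    (hp0 : 0 ≤ p) (hp1 : p ≤ 1) (hr0 : 0 ≤ r) (hrc : r ≤ c) : Pt (WS c) c t p r := by
  set g := Real.sqrt (1 + c) with hgd
  have hg2 : g ^ 2 = 1 + c := Real.sq_sqrt (by linarith)
  have hg0 : 0 ≤ g := Real.sqrt_nonneg _
  have hg1 : 1 ≤ g := by nlinarith
  have hgu : g ≤ 303 / 256 := by nlinarith
  have hcg : c = g ^ 2 - 1 := by linarith
  set σ := r / c with hσ
  have hσ0 : 0 ≤ σ := div_nonneg hr0 hc0.le
  have hσ1 : σ ≤ 1 := (div_le_one hc0).mpr hrc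
  have hrσ : r = c * σ := by rw [hσ]; field_simp
  set q := Real.sqrt (1 + 4 * σ ^ 2) with hq
  have hq2 : q ^ 2 = 1 + 4 * σ ^ 2 := Real.sq_sqrt (by positivity)
  have hq0 : 0 ≤ q := Real.sqrt_nonneg _
  obtain ⟨s, hs⟩ : ∃ s : ℝ, s = q - 2 * σ := ⟨_, rfl⟩
  have hqσ : 2 * σ < q := by nlinarith
  have hs0 : 0 < s := by linarith
  have hss : s ^ 2 + 4 * σ * s = 1 := by
    rw [hs]; nlinarith
  have hs1 : s ≤ 1 := by nlinarith [mul_nonneg hσ0 hs0.le]
  have hsl : 15 / 64 ≤ s := by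
    by_contra hcon
    have h1 : s < 15 / 64 := not_le.mp hcon
    have h2 : σ * s ≤ s := by nlinarith
    nlinarith
  have hrs : 4 * s * r = c * (1 - s ^ 2) := by
    rw [hrσ]; linear_combination c * hss
  refine pt_of_ON hc0 hc1 hg1 hg2 (by linarith) ht1 hp0 hp1 hr0 hrc (by linarith) hrs ?_
  by_cases h : 1 - s ≤ 25 / 16 * (1 - t)
  · rcases (by linarith : 0 ≤ 1 - t).eq_or_lt with hτ | hτ
    · have hs' : s = 1 := by
        rw [← hτ] at h; linarith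
      exact chartE (ta := 0) (v := 0) hg1 (by linarith) le_rfl (by norm_num) le_rfl (by norm_num)
        hp0 hp1 (by linarith) (by linarith) hcg
    · refine chartE (ta := 1 - t) (v := (1 - s) / (1 - t)) hg1 (by linarith) hτ.le (by linarith)
        (div_nonneg (by linarith) hτ.le) ((div_le_iff₀ hτ).mpr h) hp0 hp1 ?_ (by ring) hcg
      have : (1 - t) * ((1 - s) / (1 - t)) = 1 - s := by field_simp
      linarith
  · have h' : 25 / 16 * (1 - t) < 1 - s := not_le.mp h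
    have hε : 0 < 1 - s := by linarith
    refine chartF (ep := 1 - s) (v := (1 - t) / (1 - s)) (ta := 1 - t) hg1 hgu hε.le (by linarith)
      (div_nonneg (by linarith) hε.le) ((div_le_iff₀ hε).mpr (by linarith)) hp0 hp1 (by ring)
      ?_ (by ring) hcg
    field_simp

/-- **(PI) of regime S.** -/
theorem pis_S : PIS (13 / 50) (41 / 100) (6 / 5) (11 / 5) (1 / 100) (2 / 5) := by
  refine pis_of_point fun c t p r hc0 hc1 ht0 ht1 hp0 hp1 hr0 hr1 => ?_
  rcases ht0.eq_or_lt with h | h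
  · rw [← h]
    exact pt_zero hc0 hc1 hp0.le hp1 hr0 hr1
  · by_cases h1 : t ≤ c
    · exact pt_small hc0 hc1 h h1 hp0.le hp1 hr0 hr1
    · have h1' : c < t := not_le.mp h1
      by_cases h2 : t ≤ 1 / 2
      · exact pt_mid hc0 hc1 h1' h2 hp0.le hp1 hr0 hr1
      · have h2' : 1 / 2 < t := not_le.mp h2
        by_cases h3 : r ≤ c
        · exact pt_N hc0 hc1 h2'.le ht1 hp0.le hp1 hr0 h3
        · have h3' : c < r := not_le.mp h3
          refine pt_D hc0 hc1 h ht1 hp0.le hp1 (hc0.trans h3') hr1 ?_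
          nlinarith

end Crest.Agent.R307.PIS1
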