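import Crest.Agent.Tools.KB

set_option autoImplicit false

namespace Crest.Agent.R307.PISa

open Crest.Agent.KB

def cN : Ex := (.X 0 1)
def pN : Ex := (.X 3 1)
def dN : Ex := (.X 1 1)
def YN : Ex := (.X 2 1)
def XqN : Ex := (.mul dN YN)
def tN : Ex := (.mul cN XqN)
def rN : Ex := (.sub (.mul (.W 1 1) (.c (1))) dN)
def uN : Ex := (.sub (.mul (.W 1 1) (.c (2))) dN)
def aN : Ex := (.mul (.mul cN dN) uN)
def a2N : Ex := (.mul aN aN)
def r2N : Ex := (.mul rN rN)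
def arN : Ex := (.mul aN rN)
def n2N : Ex := (.add (.mul (.W 1 1) (.mul (.W 0 1) (.add (.mul (.W 1 1) (.mul (.W 0 1) (.mul (.c (800)) r2N))) (.mul (.c (460)) arN)))) (.mul (.c (135)) a2N))
def MN : Ex := (.add (.mul (.W 1 1) (.mul (.W 0 1) (.add (.mul (.W 1 1) (.mul (.W 0 1) (.add (.mul (.W 1 1) (.mul (.W 0 1) (.mul (.c (3200)) (.mul r2N rN)))) (.mul (.c (1840)) (.mul arN rN))))) (.mul (.c (742)) (.mul arN aN))))) (.mul (.c (135)) (.mul a2N aN)))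
def c2N : Ex := (.mul cN cN)
def k2N : Ex := (.mul c2N (.mul dN dN))
def denN : Ex := (.add (.mul (.W 0 1) (.mul (.c (4)) MN)) (.mul k2N n2N))
def p2N : Ex := (.mul pN pN)
def p3N : Ex := (.mul p2N pN)
def p4N : Ex := (.mul p2N p2N)
def p5N : Ex := (.mul p3N p2N)
def p7N : Ex := (.mul p4N p3N)
def r4N : Ex := (.mul r2N r2N)
def u2N : Ex := (.mul uN uN)
def E8N : Ex := (.sub (.mul (.W 0 2) (.add (.mul (.W 3 2) (.mul (.W 1 2) (.sub (.mul (.W 3 2) (.mul (.W 1 2) (.c (216)))) (.mul (.c (402)) (.mul p2N (.add (.mul (.W 1 2) (.c (1))) r2N)))))) (.mul (.c (344)) (.mul p4N (.add (.mul (.W 1 2) (.add (.mul (.W 1 2) (.c (1))) r2N)) r4N))))) (.mul (.c (43)) (.mul p4N (.mul k2N u2N))))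
def rpN : Ex := (.mul rN pN)
def q2N : Ex := (.mul rpN rpN)
def q3N : Ex := (.mul q2N rpN)
def q4N : Ex := (.mul q2N q2N)
def frN : Ex := (.sub (.mul (.W 3 2) (.mul (.W 1 2) (.add (.mul (.W 3 2) (.mul (.W 1 2) (.sub (.mul (.W 3 2) (.mul (.W 1 2) (.sub (.mul (.W 3 1) (.mul (.W 1 1) (.c (200)))) (.mul (.c (170)) rpN)))) (.mul (.c (54)) q3N)))) (.mul (.c (67)) (.mul q3N q2N))))) (.mul (.c (43)) (.mul q4N q3N)))
def W8N : Ex := (.sub (.mul (.W 0 1) (.add (.mul (.W 0 1) (.sub (.mul (.W 0 1) (.c (800))) (.mul (.c (42)) cN))) (.mul (.c (100)) c2N))) (.mul (.c (91)) (.mul c2N cN)))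
def t2N : Ex := (.mul tN tN)
def thN : Ex := (.sub (.mul (.W 2 2) (.mul (.W 1 2) (.mul (.W 0 2) (.c (100))))) (.mul (.sub (.mul (.W 2 1) (.mul (.W 1 1) (.mul (.W 0 1) (.c (1))))) tN) (.sub (.mul (.W 2 1) (.mul (.W 1 1) (.mul (.W 0 1) (.c (1))))) tN)))
def g4N : Ex := (.mul (.add (.mul (.W 1 1) (.c (1))) rN) (.add (.mul (.W 1 2) (.c (1))) r2N))
def g6N : Ex := (.mul (.add (.mul (.W 1 1) (.c (1))) rN) (.add (.mul (.W 1 2) (.add (.mul (.W 1 2) (.c (1))) r2N)) r4N))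
def g8N : Ex := (.mul g4N (.add (.mul (.W 1 4) (.c (1))) r4N))
def phN : Ex := (.sub (.mul (.W 3 2) (.mul (.W 1 2) (.add (.mul (.W 3 2) (.mul (.W 1 2) (.sub (.mul (.W 3 2) (.mul (.W 1 2) (.sub (.mul (.W 3 1) (.mul (.W 1 1) (.c (200)))) (.mul (.c (170)) (.mul pN (.add (.mul (.W 1 1) (.c (1))) rN)))))) (.mul (.c (54)) (.mul p3N g4N))))) (.mul (.c (67)) (.mul p5N g6N))))) (.mul (.c (43)) (.mul p7N g8N)))
def X2N : Ex := (.mul XqN XqN)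
def KNN : Ex := (.add (.mul (.W 2 1) (.mul (.W 1 1) (.add (.mul (.W 2 1) (.mul (.W 1 1) (.c (335)))) (.mul (.c (156)) XqN)))) (.mul (.c (286)) X2N))
def KDN : Ex := (.add (.mul (.W 2 1) (.mul (.W 1 1) (.add (.mul (.W 2 1) (.mul (.W 1 1) (.c (500)))) (.mul (.c (600)) XqN)))) (.mul (.c (1100)) X2N))
def A1N : Ex := (.add (.mul (.W 3 7) (.mul (.W 1 7) (.mul (.W 0 4) (.mul (.c (3200)) (.mul uN n2N))))) (.mul denN (.mul p3N (.mul u2N E8N))))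
def BN : Ex := (.add (.mul (.sub (.mul (.W 2 2) (.mul (.W 1 2) (.mul (.W 0 2) (.c (1))))) t2N) (.mul KNN phN)) (.mul (.W 3 6) (.mul (.W 1 6) (.mul KDN (.mul thN (.mul pN uN))))))
def LN : Ex := (.mul (.mul (.c (50)) KDN) (.add (.mul (.add (.mul (.W 2 2) (.mul (.W 1 2) (.mul (.W 0 2) (.c (1))))) t2N) A1N) (.mul (.W 0 4) (.mul (.c (16)) (.mul denN (.mul (.mul YN YN) (.mul rN frN)))))))
def RN : Ex := (.mul W8N (.mul YN (.mul denN BN)))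
def ON : Ex := (.sub (.mul (.W 2 1) (.mul (.W 1 1) (.mul (.W 0 1) LN))) RN)

set_option maxRecDepth 100000 in
theorem run_ok : run 4 434 9 [10, 18, 6, 8] [410, 1024, 1024, 1024] [[ON]]
    (.node 3 (.node 1 (.node 2 (.node 3 (.node 1 (.node 2 (.leaf 0) (.leaf 0)) (.leaf 0)) (.node 1 (.node 2 (.leaf 0) (.leaf 0)) (.leaf 0))) (.leaf 0)) (.node 2 (.leaf 0) (.leaf 0))) (.node 1 (.node 2 (.leaf 0) (.node 3 (.node 1 (.node 2 (.leaf 0) (.leaf 0)) (.node 2 (.leaf 0) (.leaf 0))) (.node 1 (.leaf 0) (.node 2 (.leaf 0) (.leaf 0))))) (.node 2 (.leaf 0) (.node 3 (.leaf 0) (.leaf 0))))) [(0, 205), (0, 512), (0, 512), (0, 512)] = true := by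
  decide +kernel

end Crest.Agent.R307.PISa
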