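import Crest.Agent.R307.GenS
import Crest.Agent.R307.Conic

/-!
Row 307, S0471, regime S: reduction of `PIS (13/50) (41/100) (6/5) (11/5) (1/100) (2/5)` to a
polynomial inequality in `(c, t, p, r)`, `p = √P`, `r p = √Q`, with a lower bound `D` of
`(√G + √G' - √P - √Q)/√P`.
-/

set_option autoImplicit false

namespace Crest.Agent.R307.PIS1

open Crest.Agent.R307 Crest.Agent.R307.GenInd Crest.Agent.R307.GenPI Crest.Agent.R307.GenFin
  Crest.Agent.R307.GenS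

/-- `W(c)` of the frozen functional. -/
noncomputable abbrev WS (c : ℝ) : ℝ := WA (3 / 10) (-6 / 25) (43 / 100) c

/-- `100 F(y)/y`. -/
noncomputable def f1 (y : ℝ) : ℝ := 200 - 170 * y - 54 * y ^ 3 + 67 * y ^ 5 - 43 * y ^ 7

/-- `800 E`. -/
noncomputable def E8 (c p r : ℝ) : ℝ :=
  216 - 402 * (p ^ 2 * (1 + r ^ 2)) + 344 * (p ^ 4 * (1 + r ^ 2 + r ^ 4))
    - 43 * (c ^ 2 * p ^ 4 * (1 - r ^ 2) ^ 2)

/-- numerator of `κ` -/
noncomputable def kn (c t : ℝ) : ℝ := 335 * c ^ 2 + 156 * (c * t) + 286 * t ^ 2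

/-- denominator of `κ` -/
noncomputable def kd (c t : ℝ) : ℝ := 500 * c ^ 2 + 600 * (c * t) + 1100 * t ^ 2

/-- the part without `W` -/
noncomputable def LL (c t p r D : ℝ) : ℝ :=
  kd c t * ((1 + t ^ 2) * (D + c ^ 2 * p ^ 3 * (1 - r ^ 2) ^ 2 * E8 c p r / 1600)
    + t ^ 2 * r * f1 (r * p) / 100)

/-- the factor of `W t` -/
noncomputable def BB (c t p r : ℝ) : ℝ :=
  (1 - t ^ 2) * kn c t * (f1 p - r * f1 (r * p)) / 100
    + kd c t * (1 - (1 - t) ^ 2 / 100) * p * (1 - r ^ 2)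

/-- The condition on `D`. -/
def DOK (c r D : ℝ) : Prop :=
  0 ≤ D ∧ D * (D + 2) * (D + 2 * r) * (D + 2 + 2 * r) ≤ c ^ 2 * (1 - r ^ 2) ^ 2

/-- The pointwise statement with `w` in place of `W(c)`. -/
def Pt (w c t p r : ℝ) : Prop := ∃ D, DOK c r D ∧ 0 ≤ LL c t p r D - w * t * BB c t p r

lemma FP_eq (y : ℝ) : FP (3 / 10) (-6 / 25) (43 / 100) y = y * f1 y / 100 := by
  unfold FP f1; ring

lemma Corr_eq (c p r : ℝ) : Corr (3 / 10) (-6 / 25) (43 / 100) (c ^ 2) p (r * p) =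
    c ^ 2 * p ^ 4 * (1 - r ^ 2) ^ 2 * E8 c p r / 800 := by
  unfold Corr E8; ring

lemma kd_pos {c t : ℝ} (hc : 0 < c) (ht : 0 ≤ t) : 0 < kd c t := by
  unfold kd; positivity

lemma kap_eq {c t : ℝ} (hc : 0 < c) (ht : 0 ≤ t) :
    kapR (13 / 50) (41 / 100) (6 / 5) (11 / 5) c t * kd c t = kn c t := by
  unfold kapR kd kn
  have : 0 < c ^ 2 + 6 / 5 * (c * t) + 11 / 5 * t ^ 2 := by positivity
  field_simp
  ring

/-- key algebra -/
lemma key_alg {c t p r D S W : ℝ} (hc : 0 < c) (ht : 0 ≤ t) (hp : 0 < p) (hS : p * D ≤ S)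
    (h : 0 ≤ LL c t p r D - W * t * BB c t p r) :
    (1 + Kf (13 / 50) (41 / 100) (6 / 5) (11 / 5) W c t) * (p * f1 p / 100) +
      (Cf t - Kf (13 / 50) (41 / 100) (6 / 5) (11 / 5) W c t) * (r * p * f1 (r * p) / 100) +
      (W * btf (1 / 100) t) * p ^ 2 + (-(W * btf (1 / 100) t)) * (r * p) ^ 2 ≤
    p * f1 p / 100 + r * p * f1 (r * p) / 100 + 2 * S +
      c ^ 2 * p ^ 4 * (1 - r ^ 2) ^ 2 * E8 c p r / 800 := by
  have hkd := kd_pos hc ht
  have hk := kap_eq hc ht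
  have h1 : (1 + t ^ 2) ≠ 0 := by positivity
  have hpos : 0 < (1 + t ^ 2) * kd c t := by positivity
  have hSf : (1 + t ^ 2) * Sf t = 2 * t := by unfold Sf; field_simp
  have hCf : (1 + t ^ 2) * Cf t = 1 - t ^ 2 := by unfold Cf; field_simp
  set κ := kapR (13 / 50) (41 / 100) (6 / 5) (11 / 5) c t with hκ
  set d := kd c t with hd
  set n := kn c t with hn
  set F := f1 p with hF
  set G := f1 (r * p) with hG
  set E := E8 c p r with hE
  have hmain : 0 ≤ ((1 + t ^ 2) * d) * ((p * F / 100 + r * p * G / 100 + 2 * (p * D) +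
      c ^ 2 * p ^ 4 * (1 - r ^ 2) ^ 2 * E / 800) -
      ((1 + W * Sf t * (1 - t ^ 2) * κ) * (p * F / 100) +
      (Cf t - W * Sf t * (1 - t ^ 2) * κ) * (r * p * G / 100) +
      (W * (Sf t * (1 - 1 / 100 * (1 - t) ^ 2))) * p ^ 2 +
      (-(W * (Sf t * (1 - 1 / 100 * (1 - t) ^ 2)))) * (r * p) ^ 2)) := by
    have e : ((1 + t ^ 2) * d) * ((p * F / 100 + r * p * G / 100 + 2 * (p * D) +
      c ^ 2 * p ^ 4 * (1 - r ^ 2) ^ 2 * E / 800) -
      ((1 + W * Sf t * (1 - t ^ 2) * κ) * (p * F / 100) +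
      (Cf t - W * Sf t * (1 - t ^ 2) * κ) * (r * p * G / 100) +
      (W * (Sf t * (1 - 1 / 100 * (1 - t) ^ 2))) * p ^ 2 +
      (-(W * (Sf t * (1 - 1 / 100 * (1 - t) ^ 2)))) * (r * p) ^ 2)) =
      2 * p * (LL c t p r D - W * t * BB c t p r) := by
      unfold LL BB
      rw [← hd, ← hn, ← hF, ← hG, ← hE]
      linear_combination (-(d * W * (1 - t ^ 2) * κ * (p * F / 100 - r * p * G / 100)) -
        d * W * (1 - 1 / 100 * (1 - t) ^ 2) * (p ^ 2 - (r * p) ^ 2)) * hSf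
        - d * (r * p * G / 100) * hCf
        - 2 * t * W * (1 - t ^ 2) * (p * F / 100 - r * p * G / 100) * hk
    rw [e]
    positivity
  have h2 := nonneg_of_mul_nonneg_right hmain hpos
  unfold Kf btf
  rw [← hκ]
  linarith

/-- **Reduction**: `PIS` from the pointwise statement. -/
theorem pis_of_point (h : ∀ c t p r : ℝ, 0 < c → c ≤ 2 / 5 → 0 ≤ t → t ≤ 1 → 0 < p → p ≤ 1 →
    0 ≤ r → r ≤ 1 → Pt (WS c) c t p r) :
    PIS (13 / 50) (41 / 100) (6 / 5) (11 / 5) (1 / 100) (2 / 5) := by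
  intro c hc0 hc1 t ht0 ht1
  refine ⟨le_rfl, le_rfl, ?_⟩
  intro P Q hQ hQP hP
  have hc2 : 0 ≤ 1 - c ^ 2 := by nlinarith
  have hρ : |Real.sqrt (1 - c ^ 2)| ≤ 1 := by
    rw [abs_of_nonneg (Real.sqrt_nonneg _)]
    exact Real.sqrt_le_iff.mpr ⟨by norm_num, by nlinarith [sq_nonneg c]⟩
  have hρ2 : 1 - (Real.sqrt (1 - c ^ 2)) ^ 2 = c ^ 2 := by rw [Real.sq_sqrt hc2]; ring
  set ρ := Real.sqrt (1 - c ^ 2) with hρd
  have eFA : FA (3 / 10) (-6 / 25) (43 / 100) = FG (3 / 10) (-6 / 25) (43 / 100) := rfl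
  rw [eFA]
  rcases (hQ.trans hQP).eq_or_lt with hP0 | hP0
  · have hQ0 : Q = 0 := le_antisymm (by rw [hP0]; exact hQP) hQ
    rw [hQ0, ← hP0]
    simp [FG_zero]
  · set y0 := Real.sqrt P with hy0
    have hy0p : 0 < y0 := Real.sqrt_pos.mpr hP0
    have hy01 : y0 ≤ 1 := Real.sqrt_le_iff.mpr ⟨by norm_num, by simpa using hP⟩
    have e0 : y0 ^ 2 = P := Real.sq_sqrt hP0.le
    set r := Real.sqrt Q / y0 with hr
    have hr0 : 0 ≤ r := div_nonneg (Real.sqrt_nonneg _) hy0p.le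
    have hr1 : r ≤ 1 := (div_le_one hy0p).mpr (Real.sqrt_le_sqrt hQP)
    have er : r * y0 = Real.sqrt Q := by rw [hr]; field_simp
    have e1 : (r * y0) ^ 2 = Q := by rw [er]; exact Real.sq_sqrt hQ
    have hry : 0 ≤ r * y0 := mul_nonneg hr0 hy0p.le
    obtain ⟨D, ⟨hD0, hD⟩, hPt⟩ := h c t y0 r hc0 hc1 ht0 ht1 hy0p hy01 hr0 hr1
    have hlow := Conic.D_le (c2 := 1 - ρ ^ 2) rfl hρ hy0p.le hr0 hD0 (by rw [hρ2]; exact hD)
    have hadd := FG_add (3 / 10) (-6 / 25) (43 / 100) ρ y0 (r * y0)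
    have f0 := FG_sq (3 / 10) (-6 / 25) (43 / 100) hy0p.le
    have f1' := FG_sq (3 / 10) (-6 / 25) (43 / 100) hry
    have hk := key_alg (W := WS c) hc0 ht0 hy0p hlow hPt
    rw [hρ2] at hadd
    rw [Corr_eq, FP_eq, FP_eq] at hadd
    rw [FP_eq] at f0 f1'
    rw [e0] at f0 hadd hk
    rw [e1] at f1' hadd hk
    rw [hadd, f0, f1']
    unfold WS at hk
    linarith

/-! ### Lower bounds for `D` -/

lemma dok_of_h {c r h D : ℝ} (hr : 0 ≤ r) (hD : 0 ≤ D) (h1 : D * (D + 2 * (1 + r)) ≤ h)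
    (h2 : h * (h + 4 * r) ≤ c ^ 2 * (1 - r ^ 2) ^ 2) : DOK c r D := by
  refine ⟨hD, ?_⟩
  have hx : 0 ≤ D * (D + 2 * (1 + r)) := by positivity
  have e : D * (D + 2) * (D + 2 * r) * (D + 2 + 2 * r) =
      (D * (D + 2 * (1 + r))) * (D * (D + 2 * (1 + r)) + 4 * r) := by ring
  rw [e]
  refine le_trans ?_ h2
  exact mul_le_mul h1 (by linarith) (by positivity) (hx.trans h1)

/-- first bound: `D = 2uh/(4u²+h)`, `h = a² n2/M`. -/
lemma dok_A {c r : ℝ} (hc : 0 < c) (hr : 0 ≤ r) (hr1 : r ≤ 1) :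
    DOK c r (2 * (1 + r) * (c ^ 2 * (1 - r) ^ 2) *
      (800 * r ^ 2 + 460 * ((c * (1 - r) * (1 + r)) * r) + 135 * (c * (1 - r) * (1 + r)) ^ 2) /
      (4 * (3200 * r ^ 3 + 1840 * ((c * (1 - r) * (1 + r)) * r ^ 2) +
        742 * ((c * (1 - r) * (1 + r)) ^ 2 * r) + 135 * (c * (1 - r) * (1 + r)) ^ 3) +
        c ^ 2 * (1 - r) ^ 2 *
        (800 * r ^ 2 + 460 * ((c * (1 - r) * (1 + r)) * r) + 135 * (c * (1 - r) * (1 + r)) ^ 2))) := by
  set a := c * (1 - r) * (1 + r) with ha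
  have ha0 : 0 ≤ a := mul_nonneg (mul_nonneg hc.le (by linarith)) (by linarith)
  set n2 := 800 * r ^ 2 + 460 * (a * r) + 135 * a ^ 2 with hn2
  set M := 3200 * r ^ 3 + 1840 * (a * r ^ 2) + 742 * (a ^ 2 * r) + 135 * a ^ 3 with hM
  have hn0 : 0 ≤ n2 := by positivity
  have hMpos : 0 < M := by
    rcases hr.eq_or_lt with h | h
    · have : 0 < a := by rw [ha, ← h]; simpa using hc
      positivity
    · positivity
  set u := 1 + r with hu
  have hu0 : 0 < u := by positivity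
  have hh0 : 0 ≤ a ^ 2 * n2 / M := by positivity
  have hden : 0 < 4 * M + c ^ 2 * (1 - r) ^ 2 * n2 := by positivity
  have eD : 2 * u * (c ^ 2 * (1 - r) ^ 2) * n2 / (4 * M + c ^ 2 * (1 - r) ^ 2 * n2) =
      2 * u * (a ^ 2 * n2 / M) / (4 * u ^ 2 + a ^ 2 * n2 / M) := by
    have e1 : a ^ 2 = c ^ 2 * (1 - r) ^ 2 * u ^ 2 := by rw [ha]; ring
    have h4 : 0 < 4 * u ^ 2 + a ^ 2 * n2 / M := by positivity
    rw [div_eq_div_iff hden.ne' h4.ne']
    rw [e1]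
    field_simp
  refine dok_of_h (h := a ^ 2 * n2 / M) hr (by positivity) ?_ ?_
  · rw [eD]
    set h := a ^ 2 * n2 / M with hh
    have h4 : 0 < 4 * u ^ 2 + h := by positivity
    have e : 2 * u * h / (4 * u ^ 2 + h) * (2 * u * h / (4 * u ^ 2 + h) + 2 * u) =
        h * (16 * u ^ 4 + 8 * u ^ 2 * h) / (4 * u ^ 2 + h) ^ 2 := by
      field_simp
      ring
    rw [e, div_le_iff₀ (by positivity)]
    have : 0 ≤ h * h ^ 2 := by positivity
    nlinarith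
  · have e : a ^ 2 * n2 / M * (a ^ 2 * n2 / M + 4 * r) =
        a ^ 2 * (n2 * (a ^ 2 * n2 + 4 * r * M)) / M ^ 2 := by
      field_simp
    have e2 : c ^ 2 * (1 - r ^ 2) ^ 2 = a ^ 2 := by rw [ha, hu]; ring
    rw [e, e2, div_le_iff₀ (by positivity)]
    have key : n2 * (a ^ 2 * n2 + 4 * r * M) ≤ M ^ 2 := by
      have e3 : M ^ 2 - n2 * (a ^ 2 * n2 + 4 * r * M) =
          a ^ 2 * r * (6400 * r ^ 3 + a * (67680 * r ^ 2 - 29316 * a * r + 3240 * a ^ 2)) := by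
        rw [hM, hn2]; ring
      have h5 : 0 ≤ 67680 * r ^ 2 - 29316 * a * r + 3240 * a ^ 2 := by
        nlinarith [sq_nonneg (3240 * a - 14658 * r), sq_nonneg r]
      have h6 : 0 ≤ a ^ 2 * r * (6400 * r ^ 3 + a * (67680 * r ^ 2 - 29316 * a * r + 3240 * a ^ 2)) := by
        positivity
      linarith
    nlinarith [sq_nonneg a]

end Crest.Agent.R307.PIS1
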