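import Crest.Agent.Tools.KB

set_option autoImplicit false

namespace Crest.Agent.R307.PISc

open Crest.Agent.KB

def xiN : Ex := (.X 0 1)
def tN : Ex := (.X 1 1)
def sN : Ex := (.X 2 1)
def pN : Ex := (.X 3 1)
def cN : Ex := (.mul xiN tN)
def rN : Ex := (.mul xiN sN)
def uN : Ex := (.add (.mul (.W 2 1) (.mul (.W 0 1) (.c (1)))) rN)
def dN : Ex := (.sub (.mul (.W 2 1) (.mul (.W 0 1) (.c (1)))) rN)
def aN : Ex := (.mul tN (.mul dN uN))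
def a2N : Ex := (.mul aN aN)
def r2N : Ex := (.mul rN rN)
def asN : Ex := (.mul aN sN)
def s2N : Ex := (.mul sN sN)
def n2N : Ex := (.add (.mul (.W 2 1) (.mul (.W 1 1) (.mul (.W 0 2) (.add (.mul (.W 2 1) (.mul (.W 1 1) (.mul (.W 0 2) (.mul (.c (800)) s2N)))) (.mul (.c (460)) asN))))) (.mul (.c (135)) a2N))
def MN : Ex := (.add (.mul (.W 2 1) (.mul (.W 1 1) (.mul (.W 0 2) (.add (.mul (.W 2 1) (.mul (.W 1 1) (.mul (.W 0 2) (.add (.mul (.W 2 1) (.mul (.W 1 1) (.mul (.W 0 2) (.mul (.c (3200)) (.mul s2N sN))))) (.mul (.c (1840)) (.mul asN sN)))))) (.mul (.c (742)) (.mul asN aN)))))) (.mul (.c (135)) (.mul a2N aN)))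
def t2N : Ex := (.mul tN tN)
def d2N : Ex := (.mul dN dN)
def k1N : Ex := (.mul t2N d2N)
def c2N : Ex := (.mul cN cN)
def k2N : Ex := (.mul c2N d2N)
def denN : Ex := (.add (.mul (.W 1 1) (.mul (.W 0 1) (.mul (.c (4)) MN))) (.mul xiN (.mul k1N n2N)))
def p2N : Ex := (.mul pN pN)
def p3N : Ex := (.mul p2N pN)
def p4N : Ex := (.mul p2N p2N)
def p5N : Ex := (.mul p3N p2N)
def p7N : Ex := (.mul p4N p3N)
def r4N : Ex := (.mul r2N r2N)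
def u2N : Ex := (.mul uN uN)
def E8N : Ex := (.sub (.mul (.W 1 2) (.mul (.W 0 2) (.add (.mul (.W 3 2) (.mul (.W 2 2) (.mul (.W 0 2) (.sub (.mul (.W 3 2) (.mul (.W 2 2) (.mul (.W 0 2) (.c (216))))) (.mul (.c (402)) (.mul p2N (.add (.mul (.W 2 2) (.mul (.W 0 2) (.c (1)))) r2N))))))) (.mul (.c (344)) (.mul p4N (.add (.mul (.W 2 2) (.mul (.W 0 2) (.add (.mul (.W 2 2) (.mul (.W 0 2) (.c (1)))) r2N))) r4N)))))) (.mul (.c (43)) (.mul p4N (.mul k2N u2N))))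
def rpN : Ex := (.mul rN pN)
def q2N : Ex := (.mul rpN rpN)
def q3N : Ex := (.mul q2N rpN)
def q4N : Ex := (.mul q2N q2N)
def frN : Ex := (.sub (.mul (.W 3 2) (.mul (.W 2 2) (.mul (.W 0 2) (.add (.mul (.W 3 2) (.mul (.W 2 2) (.mul (.W 0 2) (.sub (.mul (.W 3 2) (.mul (.W 2 2) (.mul (.W 0 2) (.sub (.mul (.W 3 1) (.mul (.W 2 1) (.mul (.W 0 1) (.c (200))))) (.mul (.c (170)) rpN))))) (.mul (.c (54)) q3N))))) (.mul (.c (67)) (.mul q3N q2N)))))) (.mul (.c (43)) (.mul q4N q3N)))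
def W8N : Ex := (.sub (.mul (.W 1 1) (.mul (.W 0 1) (.add (.mul (.W 1 1) (.mul (.W 0 1) (.sub (.mul (.W 1 1) (.mul (.W 0 1) (.c (800)))) (.mul (.c (42)) cN)))) (.mul (.c (100)) c2N)))) (.mul (.c (91)) (.mul c2N cN)))
def fpN : Ex := (.sub (.mul (.W 3 2) (.add (.mul (.W 3 2) (.sub (.mul (.W 3 2) (.sub (.mul (.W 3 1) (.c (200))) (.mul (.c (170)) pN))) (.mul (.c (54)) p3N))) (.mul (.c (67)) p5N))) (.mul (.c (43)) p7N))
def dFN : Ex := (.sub (.mul (.W 2 8) (.mul (.W 0 8) fpN)) (.mul rN frN))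
def thN : Ex := (.sub (.mul (.W 1 2) (.c (100))) (.mul (.sub (.mul (.W 1 1) (.c (1))) tN) (.sub (.mul (.W 1 1) (.c (1))) tN)))
def xi2N : Ex := (.mul xiN xiN)
def KNN : Ex := (.add (.mul (.W 0 1) (.add (.mul (.W 0 1) (.c (286))) (.mul (.c (156)) xiN))) (.mul (.c (335)) xi2N))
def KDN : Ex := (.add (.mul (.W 0 1) (.add (.mul (.W 0 1) (.c (1100))) (.mul (.c (600)) xiN))) (.mul (.c (500)) xi2N))
def BN : Ex := (.add (.mul (.sub (.mul (.W 1 2) (.c (1))) t2N) (.mul KNN dFN)) (.mul (.W 3 6) (.mul (.W 2 6) (.mul (.W 0 6) (.mul KDN (.mul thN (.mul pN (.mul dN uN))))))))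
def A1N : Ex := (.add (.mul (.W 3 7) (.mul (.W 2 7) (.mul (.W 1 4) (.mul (.W 0 11) (.mul (.c (3200)) (.mul uN (.mul d2N n2N))))))) (.mul denN (.mul p3N (.mul xiN (.mul d2N (.mul u2N E8N))))))
def LN : Ex := (.mul (.mul (.c (50)) KDN) (.add (.mul (.add (.mul (.W 1 2) (.c (1))) t2N) A1N) (.mul (.W 1 4) (.mul (.W 0 4) (.mul (.c (16)) (.mul denN (.mul sN frN)))))))
def RN : Ex := (.mul W8N (.mul denN BN))
def ON : Ex := (.sub (.mul (.W 1 1) LN) RN)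
def ccN : Ex := (.sub (.mul (.c (32)) cN) (.mul (.W 1 1) (.mul (.W 0 1) (.c (13)))))

set_option maxRecDepth 100000 in
theorem run_ok : run 4 300 4 [21, 10, 15, 8] [32, 16, 32, 32] [[ON], [ccN]]
    (.node 3 (.node 3 (.leaf 0) (.node 0 (.leaf 0) (.node 2 (.leaf 0) (.leaf 0)))) (.node 3 (.node 0 (.node 2 (.leaf 0) (.leaf 0)) (.node 2 (.node 3 (.leaf 0) (.node 0 (.leaf 0) (.node 1 (.node 2 (.leaf 0) (.leaf 0)) (.leaf 0)))) (.leaf 0))) (.node 0 (.node 2 (.node 3 (.node 0 (.node 1 (.node 2 (.leaf 0) (.leaf 0)) (.leaf 0)) (.node 1 (.node 2 (.leaf 0) (.leaf 0)) (.node 2 (.leaf 0) (.leaf 0)))) (.node 0 (.node 1 (.node 2 (.leaf 0) (.leaf 0)) (.node 2 (.node 3 (.leaf 0) (.node 0 (.node 1 (.node 2 (.leaf 0) (.leaf 0)) (.node 2 (.leaf 0) (.leaf 0))) (.node 1 (.leaf 0) (.node 2 (.leaf 0) (.leaf 0))))) (.leaf 0))) (.node 1 (.node 2 (.leaf 0) (.leaf 0)) (.node 2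 (.node 3 (.leaf 0) (.node 0 (.node 1 (.leaf 0) (.node 2 (.leaf 0) (.leaf 0))) (.leaf 0))) (.leaf 0))))) (.leaf 0)) (.node 2 (.node 3 (.node 0 (.node 1 (.node 2 (.leaf 0) (.leaf 0)) (.node 2 (.leaf 0) (.leaf 0))) (.node 1 (.node 2 (.leaf 0) (.leaf 0)) (.node 2 (.leaf 0) (.leaf 0)))) (.node 0 (.node 1 (.node 2 (.leaf 0) (.leaf 0)) (.node 2 (.leaf 0) (.leaf 0))) (.node 1 (.node 2 (.leaf 0) (.leaf 0)) (.node 2 (.leaf 0) (.leaf 0))))) (.leaf 0))))) [(0, 16), (0, 8), (0, 16), (0, 16)] = true := by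
  decide +kernel

end Crest.Agent.R307.PISc
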