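import Crest.Agent.Tools.KB

set_option autoImplicit false

namespace Crest.Agent.R307.PISe

open Crest.Agent.KB

def gN : Ex := (.X 0 1)
def pN : Ex := (.X 3 1)
def taN : Ex := (.X 1 1)
def vN : Ex := (.X 2 1)
def sN : Ex := (.sub (.mul (.W 2 1) (.mul (.W 1 1) (.c (1)))) (.mul taN vN))
def tN : Ex := (.sub (.mul (.W 1 1) (.c (1))) taN)
def g1N : Ex := (.add gN (.mul (.W 0 1) (.c (1))))
def cN : Ex := (.mul (.sub gN (.mul (.W 0 1) (.c (1)))) g1N)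
def s2N : Ex := (.mul sN sN)
def shN : Ex := (.sub (.mul (.W 2 2) (.mul (.W 1 2) (.c (1)))) s2N)
def RN : Ex := (.mul cN shN)
def UN : Ex := (.add (.mul (.W 2 1) (.mul (.W 1 1) (.mul (.W 0 2) (.mul (.c (4)) sN)))) RN)
def R2N : Ex := (.mul RN RN)
def s3N : Ex := (.mul s2N sN)
def HN : Ex := (.sub (.mul (.W 2 1) (.mul (.W 1 1) (.mul (.W 0 4) (.mul (.c (16)) s3N)))) R2N)
def DNN : Ex := (.add (.mul (.mul g1N g1N) (.mul UN UN)) (.mul cN HN))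
def c2N : Ex := (.mul cN cN)
def t2N : Ex := (.mul tN tN)
def ctN : Ex := (.mul cN tN)
def KNN : Ex := (.add (.mul (.W 1 1) (.add (.mul (.W 1 1) (.mul (.c (335)) c2N)) (.mul (.W 0 2) (.mul (.c (156)) ctN)))) (.mul (.W 0 4) (.mul (.c (286)) t2N)))
def KDN : Ex := (.add (.mul (.W 1 1) (.add (.mul (.W 1 1) (.mul (.c (500)) c2N)) (.mul (.W 0 2) (.mul (.c (600)) ctN)))) (.mul (.W 0 4) (.mul (.c (1100)) t2N)))
def p2N : Ex := (.mul pN pN)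
def p3N : Ex := (.mul p2N pN)
def p4N : Ex := (.mul p2N p2N)
def p5N : Ex := (.mul p3N p2N)
def p7N : Ex := (.mul p4N p3N)
def E0N : Ex := (.sub (.mul (.W 0 4) (.add (.mul (.W 3 2) (.sub (.mul (.W 3 2) (.c (216))) (.mul (.c (402)) p2N))) (.mul (.c (344)) p4N))) (.mul (.c (43)) (.mul c2N p4N)))
def E16N : Ex := (.sub (.mul (.sub (.mul (.W 2 2) (.mul (.W 1 2) (.mul (.W 0 4) (.mul (.c (16)) s2N)))) (.mul (.c (2)) R2N)) E0N) (.mul (.W 0 4) (.mul R2N (.sub (.mul (.W 3 2) (.mul (.c (402)) p2N)) (.mul (.c (344)) p4N)))))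
def FRN : Ex := (.sub (.mul (.W 3 1) (.mul (.W 2 1) (.mul (.W 1 1) (.mul (.W 0 2) (.sub (.mul (.W 3 1) (.mul (.W 2 1) (.mul (.W 1 1) (.mul (.W 0 2) (.mul (.c (4000)) s2N))))) (.mul (.c (850)) (.mul sN (.mul RN pN)))))))) (.mul (.c (27)) (.mul R2N p2N)))
def WGN : Ex := (.add (.mul (.W 0 7) (.c (1600))) (.mul g1N (.sub (.mul (.W 0 4) (.mul (.c (158)) cN)) (.mul (.c (43)) (.mul c2N cN)))))
def thN : Ex := (.sub (.mul (.W 1 2) (.c (100))) (.mul taN taN))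
def fpN : Ex := (.sub (.mul (.W 3 2) (.add (.mul (.W 3 2) (.sub (.mul (.W 3 2) (.sub (.mul (.W 3 1) (.c (200))) (.mul (.c (170)) pN))) (.mul (.c (54)) p3N))) (.mul (.c (67)) p5N))) (.mul (.c (43)) p7N))
def shFN : Ex := (.mul shN FRN)
def AN : Ex := (.add (.mul (.W 2 1) (.mul (.W 1 1) (.mul (.add (.mul (.W 1 2) (.c (1))) t2N) (.add (.mul (.W 3 7) (.mul (.W 2 1) (.mul (.W 1 1) (.mul (.W 0 9) (.mul (.c (128000)) (.mul s2N (.mul gN (.mul UN HN)))))))) (.mul (.c (10)) (.mul (.mul sN cN) (.mul p3N (.mul DNN E16N)))))))) (.mul (.W 3 5) (.mul (.W 0 6) (.mul (.c (32)) (.mul t2N (.mul DNN shFN))))))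
def BN : Ex := (.add (.mul (.sub (.mul (.W 1 2) (.c (1))) t2N) (.mul KNN (.sub (.mul (.W 2 3) (.mul (.W 1 3) (.mul (.W 0 6) (.mul (.c (80)) (.mul s3N fpN))))) (.mul (.W 3 5) (.mul cN shFN))))) (.mul (.W 3 6) (.mul (.W 2 1) (.mul (.W 1 1) (.mul (.W 0 2) (.mul (.c (5)) (.mul KDN (.mul thN (.mul pN (.mul sN (.sub (.mul (.W 2 2) (.mul (.W 1 2) (.mul (.W 0 4) (.mul (.c (16)) s2N)))) R2N)))))))))))
def ON : Ex := (.sub (.mul (.W 1 1) (.mul (.W 0 2) (.mul (.c (25)) (.mul g1N (.mul KDN AN))))) (.mul WGN (.mul tN (.mul DNN BN))))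

set_option maxRecDepth 100000 in
theorem run_ok : run 4 339 4 [24, 16, 11, 8] [38, 16, 50, 32] [[ON]]
    (.node 2 (.node 1 (.leaf 0) (.node 3 (.leaf 0) (.leaf 0))) (.node 1 (.node 3 (.leaf 0) (.node 2 (.leaf 0) (.leaf 0))) (.node 3 (.leaf 0) (.node 2 (.node 1 (.node 3 (.leaf 0) (.leaf 0)) (.node 3 (.leaf 0) (.node 2 (.leaf 0) (.node 1 (.leaf 0) (.node 3 (.leaf 0) (.node 2 (.leaf 0) (.node 2 (.node 3 (.leaf 0) (.leaf 0)) (.node 3 (.leaf 0) (.leaf 0))))))))) (.node 1 (.node 3 (.leaf 0) (.leaf 0)) (.node 3 (.leaf 0) (.node 2 (.node 1 (.leaf 0) (.node 3 (.leaf 0) (.node 2 (.node 3 (.leaf 0) (.leaf 0)) (.leaf 0)))) (.leaf 0)))))))) [(16, 19), (0, 8), (0, 25), (0, 16)] = true := by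
  decide +kernel

end Crest.Agent.R307.PISe
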