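import Crest.Agent.R307.PISw
import Crest.Agent.R307.PISa

set_option autoImplicit false

namespace Crest.Agent.R307.PIS1

open Crest.Agent.R307 Crest.Agent.R307.GenInd Crest.Agent.R307.GenPI Crest.Agent.R307.GenFin
  Crest.Agent.R307.GenS

/-- chart a: `t = c d Y`, `d = 1 - r`. -/
theorem chartA {c p r Y : ℝ} (hc0 : 0 < c) (hc1 : c ≤ 2 / 5) (hp0 : 0 ≤ p) (hp1 : p ≤ 1)
    (hr0 : 0 ≤ r) (hr1 : r < 1) (hY0 : 0 ≤ Y) (hY1 : Y ≤ 1) :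
    Pt (WS c) c (c * ((1 - r) * Y)) p r := by
  obtain ⟨d, hd⟩ : ∃ z : ℝ, z = 1 - r := ⟨_, rfl⟩
  obtain ⟨u, hu⟩ : ∃ z : ℝ, z = 1 + r := ⟨_, rfl⟩
  obtain ⟨Xq, hXq⟩ : ∃ z : ℝ, z = d * Y := ⟨_, rfl⟩
  obtain ⟨t, ht⟩ : ∃ z : ℝ, z = c * Xq := ⟨_, rfl⟩
  have hd0 : 0 < d := by linarith
  obtain ⟨a, ha⟩ : ∃ z : ℝ, z = ((c * d) * u) := ⟨_, rfl⟩
  obtain ⟨a2, ha2⟩ : ∃ z : ℝ, z = (a * a) := ⟨_, rfl⟩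
  obtain ⟨r2, hr2⟩ : ∃ z : ℝ, z = (r * r) := ⟨_, rfl⟩
  obtain ⟨ar, har⟩ : ∃ z : ℝ, z = (a * r) := ⟨_, rfl⟩
  obtain ⟨n2, hn2⟩ : ∃ z : ℝ, z = ((((800 : ℝ) * r2) + ((460 : ℝ) * ar)) + ((135 : ℝ) * a2)) := ⟨_, rfl⟩
  obtain ⟨M, hM⟩ : ∃ z : ℝ, z = (((((3200 : ℝ) * (r2 * r)) + ((1840 : ℝ) * (ar * r))) + ((742 : ℝ) * (ar * a))) + ((135 : ℝ) * (a2 * a))) := ⟨_, rfl⟩
  obtain ⟨c2, hc2⟩ : ∃ z : ℝ, z = (c * c) := ⟨_, rfl⟩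
  obtain ⟨k2, hk2⟩ : ∃ z : ℝ, z = (c2 * (d * d)) := ⟨_, rfl⟩
  obtain ⟨den, hden⟩ : ∃ z : ℝ, z = (((4 : ℝ) * M) + (k2 * n2)) := ⟨_, rfl⟩
  obtain ⟨p2, hp2⟩ : ∃ z : ℝ, z = (p * p) := ⟨_, rfl⟩
  obtain ⟨p3, hp3⟩ : ∃ z : ℝ, z = (p2 * p) := ⟨_, rfl⟩
  obtain ⟨p4, hp4⟩ : ∃ z : ℝ, z = (p2 * p2) := ⟨_, rfl⟩
  obtain ⟨p5, hp5⟩ : ∃ z : ℝ, z = (p3 * p2) := ⟨_, rfl⟩
  obtain ⟨p7, hp7⟩ : ∃ z : ℝ, z = (p4 * p3) := ⟨_, rfl⟩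
  obtain ⟨r4, hr4⟩ : ∃ z : ℝ, z = (r2 * r2) := ⟨_, rfl⟩
  obtain ⟨u2, hu2⟩ : ∃ z : ℝ, z = (u * u) := ⟨_, rfl⟩
  obtain ⟨E8v, hE8⟩ : ∃ z : ℝ, z = ((((216 : ℝ) - ((402 : ℝ) * (p2 * ((1 : ℝ) + r2)))) + ((344 : ℝ) * (p4 * (((1 : ℝ) + r2) + r4)))) - ((43 : ℝ) * (p4 * (k2 * u2)))) := ⟨_, rfl⟩
  obtain ⟨rp, hrp⟩ : ∃ z : ℝ, z = (r * p) := ⟨_, rfl⟩
  obtain ⟨q2, hq2⟩ : ∃ z : ℝ, z = (rp * rp) := ⟨_, rfl⟩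
  obtain ⟨q3, hq3⟩ : ∃ z : ℝ, z = (q2 * rp) := ⟨_, rfl⟩
  obtain ⟨q4, hq4⟩ : ∃ z : ℝ, z = (q2 * q2) := ⟨_, rfl⟩
  obtain ⟨fr, hfr⟩ : ∃ z : ℝ, z = (((((200 : ℝ) - ((170 : ℝ) * rp)) - ((54 : ℝ) * q3)) + ((67 : ℝ) * (q3 * q2))) - ((43 : ℝ) * (q4 * q3))) := ⟨_, rfl⟩
  obtain ⟨W8, hW8⟩ : ∃ z : ℝ, z = ((((800 : ℝ) - ((42 : ℝ) * c)) + ((100 : ℝ) * c2)) - ((91 : ℝ) * (c2 * c))) := ⟨_, rfl⟩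
  obtain ⟨t2, ht2⟩ : ∃ z : ℝ, z = (t * t) := ⟨_, rfl⟩
  obtain ⟨th, hth⟩ : ∃ z : ℝ, z = ((100 : ℝ) - (((1 : ℝ) - t) * ((1 : ℝ) - t))) := ⟨_, rfl⟩
  obtain ⟨g4, hg4⟩ : ∃ z : ℝ, z = (((1 : ℝ) + r) * ((1 : ℝ) + r2)) := ⟨_, rfl⟩
  obtain ⟨g6, hg6⟩ : ∃ z : ℝ, z = (((1 : ℝ) + r) * (((1 : ℝ) + r2) + r4)) := ⟨_, rfl⟩
  obtain ⟨g8, hg8⟩ : ∃ z : ℝ, z = (g4 * ((1 : ℝ) + r4)) := ⟨_, rfl⟩
  obtain ⟨ph, hph⟩ : ∃ z : ℝ, z = (((((200 : ℝ) - ((170 : ℝ) * (p * ((1 : ℝ) + r)))) - ((54 : ℝ) * (p3 * g4))) + ((67 : ℝ) * (p5 * g6))) - ((43 : ℝ) * (p7 * g8))) := ⟨_, rfl⟩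
  obtain ⟨X2, hX2⟩ : ∃ z : ℝ, z = (Xq * Xq) := ⟨_, rfl⟩
  obtain ⟨KN, hKN⟩ : ∃ z : ℝ, z = (((335 : ℝ) + ((156 : ℝ) * Xq)) + ((286 : ℝ) * X2)) := ⟨_, rfl⟩
  obtain ⟨KD, hKD⟩ : ∃ z : ℝ, z = (((500 : ℝ) + ((600 : ℝ) * Xq)) + ((1100 : ℝ) * X2)) := ⟨_, rfl⟩
  obtain ⟨A1, hA1⟩ : ∃ z : ℝ, z = (((3200 : ℝ) * (u * n2)) + (den * (p3 * (u2 * E8v)))) := ⟨_, rfl⟩
  obtain ⟨B, hB⟩ : ∃ z : ℝ, z = ((((1 : ℝ) - t2) * (KN * ph)) + (KD * (th * (p * u)))) := ⟨_, rfl⟩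
  obtain ⟨L, hL⟩ : ∃ z : ℝ, z = (((50 : ℝ) * KD) * ((((1 : ℝ) + t2) * A1) + ((16 : ℝ) * (den * ((Y * Y) * (r * fr)))))) := ⟨_, rfl⟩
  obtain ⟨R, hR⟩ : ∃ z : ℝ, z = (W8 * (Y * (den * B))) := ⟨_, rfl⟩
  obtain ⟨O, hO⟩ : ∃ z : ℝ, z = (L - R) := ⟨_, rfl⟩
  have hmain := PISa.main c d Y p c p d Y Xq t r u a a2 r2 ar n2 M c2 k2 den p2 p3 p4 p5 p7 r4 u2 E8v rp q2 q3 q4 fr W8 t2 th g4 g6 g8 ph X2 KN KD A1 B L R O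
    (by linarith) (by linarith) (by linarith) (by linarith) (by linarith) (by linarith) (by linarith) (by linarith)
    (one_mul _).symm (one_mul _).symm (one_mul _).symm (one_mul _).symm hXq ht (by rw [hd]; ring) (by rw [hu, hd]; ring) ha ha2 hr2 har hn2 hM hc2 hk2 hden hp2 hp3 hp4 hp5 hp7 hr4 hu2 hE8 hrp hq2 hq3 hq4 hfr hW8 ht2 hth hg4 hg6 hg8 hph hX2 hKN hKD hA1 hB hL hR hO
  have et : c * ((1 - r) * Y) = t := by rw [ht, hXq, hd]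
  rw [et]
  have ht0 : 0 ≤ t := by rw [ht, hXq]; positivity
  have hN : 0 < 80000 := by norm_num
  refine pt_of_chart (N := 80000) (G := c ^ 4 * d ^ 2 * O) hc0 hc1 ht0 hp0 hp1 hr0 hr1.le
    (by norm_num) (by positivity) ?_
  intro D hD
  have ea : c * (1 - r) * (1 + r) = a := by rw [ha, hd, hu]
  have en : n2f r a = n2 := by
    rw [hn2, hr2, har, ha2]; unfold n2f; ring
  have eM : Mf r a = M := by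
    rw [hM, hr2, har, ha2]; unfold Mf; ring
  have eden : denA c r = den := by
    unfold denA; rw [ea, en, eM, hden, hk2, hc2, hd]; ring
  have enum : numA c r = 2 * u * (c ^ 2 * d ^ 2) * n2 := by
    unfold numA; rw [ea, en, hu, hd]
  have eE : E8 c p r = E8v := by
    rw [hE8, hp2, hp4, hp2, hr4, hr2, hk2, hu2, hc2, hu, hd]; unfold PIS1.E8; ring
  have efr : f1 (r * p) = fr := by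
    rw [hfr, hq4, hq3, hq2, hrp]; unfold f1; ring
  have efp : f1 p = d * ph + r * fr := by
    rw [hfr, hq4, hq3, hq2, hrp, hph, hg8, hg6, hg4, hp7, hp5, hp4, hp3, hp2, hr4, hr2, hd]
    unfold f1; ring
  have ekn : kn c t = c ^ 2 * KN := by
    rw [hKN, hX2, ht]; unfold kn; ring
  have ekd : kd c t = c ^ 2 * KD := by
    rw [hKD, hX2, ht]; unfold kd; ring
  have ew : w8 c = W8 := by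
    rw [hW8, hc2]; unfold w8; ring
  have eth : 1 - (1 - t) ^ 2 / 100 = th / 100 := by rw [hth]; ring
  have e1r : 1 - r ^ 2 = d * u := by rw [hd, hu]; ring
  rw [eden, enum] at hD
  unfold LL BB
  rw [ekn, ekd, ew, eth, efp, efr, eE, e1r, eden]
  rw [hO, hL, hR, hA1, hB, ht2, hp3, hp2, hu2]
  have htc : t = c * d * Y := by rw [ht, hXq]; ring
  rw [htc]
  linear_combination (80000 * c ^ 2 * KD * (1 + (c * d * Y) ^ 2)) * hD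

end Crest.Agent.R307.PIS1
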