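import Crest.Agent.R307.PISw

/-!
Row 307, S0471, regime S: the region near the dictator, exact square roots `g = √(1+c)` and
`4 s r = c (1 - s²)`.
-/

set_option autoImplicit false

namespace Crest.Agent.R307.PIS1

open Crest.Agent.R307 Crest.Agent.R307.GenInd Crest.Agent.R307.GenPI Crest.Agent.R307.GenFin
  Crest.Agent.R307.GenS

noncomputable def RN (c s : ℝ) : ℝ := c * (1 - s ^ 2)
noncomputable def UN (c s : ℝ) : ℝ := 4 * s + RN c s
noncomputable def HN (c s : ℝ) : ℝ := 16 * s ^ 3 - RN c s ^ 2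
noncomputable def DN (g c s : ℝ) : ℝ := (g + 1) ^ 2 * UN c s ^ 2 + c * HN c s
noncomputable def E0N (c p : ℝ) : ℝ := 216 - 402 * p ^ 2 + 344 * p ^ 4 - 43 * (c ^ 2 * p ^ 4)
noncomputable def E16N (c s p : ℝ) : ℝ :=
  (16 * s ^ 2 - 2 * RN c s ^ 2) * E0N c p - RN c s ^ 2 * (402 * p ^ 2 - 344 * p ^ 4)
noncomputable def FRN (c s p : ℝ) : ℝ :=
  4000 * s ^ 2 - 850 * (s * (RN c s * p)) - 27 * (RN c s ^ 2 * p ^ 2)
noncomputable def WGN (g c : ℝ) : ℝ := 1600 + (g + 1) * (158 * c - 43 * c ^ 3)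
noncomputable def AN (g c s t p : ℝ) : ℝ :=
  (1 + t ^ 2) * (128000 * (s ^ 2 * (g * (UN c s * HN c s))) +
    10 * (s * c * (p ^ 3 * (DN g c s * E16N c s p)))) +
    32 * (t ^ 2 * (DN g c s * ((1 - s ^ 2) * FRN c s p)))
noncomputable def BN (c s t p : ℝ) : ℝ :=
  (1 - t ^ 2) * (kn c t * (80 * (s ^ 3 * f1 p) - c * ((1 - s ^ 2) * FRN c s p))) +
    5 * (kd c t * ((100 - (1 - t) ^ 2) * (p * (s * (16 * s ^ 2 - RN c s ^ 2)))))
/-- the polynomial checked in the charts e, f -/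
noncomputable def ON (g c s t p : ℝ) : ℝ :=
  25 * ((g + 1) * (kd c t * AN g c s t p)) - WGN g c * (t * (DN g c s * BN c s t p))

/-- lower bound of `f1` -/
noncomputable def fl (y : ℝ) : ℝ := 200 - 170 * y - 108 / 5 * y ^ 2

lemma fl_le {y : ℝ} (h0 : 0 ≤ y) (h1 : y ≤ 2 / 5) : fl y ≤ f1 y := by
  have e : f1 y - fl y = 54 * y ^ 2 * (2 / 5 - y) + y ^ 5 * (67 - 43 * y ^ 2) := by
    unfold f1 fl; ring
  have h2 : 0 ≤ 54 * y ^ 2 * (2 / 5 - y) := mul_nonneg (by positivity) (by linarith)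
  have h3 : 0 ≤ y ^ 5 * (67 - 43 * y ^ 2) := mul_nonneg (by positivity) (by nlinarith)
  linarith

/-- lower bound of `(1-r²)² E8` -/
noncomputable def El (c p r : ℝ) : ℝ :=
  (1 - 2 * r ^ 2) * E0N c p - r ^ 2 * (402 * p ^ 2 - 344 * p ^ 4)

lemma El_le {c p r : ℝ} (hc0 : 0 ≤ c) (hc1 : c ≤ 2 / 5) (hp0 : 0 ≤ p) (hp1 : p ≤ 1)
    (hr0 : 0 ≤ r) (hr1 : r ≤ 2 / 5) : El c p r ≤ (1 - r ^ 2) ^ 2 * E8 c p r := by
  have hE := E8_nonneg hc0 hc1 hp0 hp1 hr0 (by linarith)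
  have e : (1 - r ^ 2) ^ 2 * E8 c p r - El c p r =
      (r ^ 2) ^ 2 * E8 c p r + 2 * (r ^ 2) ^ 2 * (402 * p ^ 2 - 344 * p ^ 4)
      + (1 - 2 * r ^ 2) * (344 * p ^ 4 * r ^ 4 + 43 * (c ^ 2 * p ^ 4) * (r ^ 2 * (2 - r ^ 2))) := by
    unfold El E8 E0N; ring
  have hr2 : r ^ 2 ≤ 4 / 25 := by nlinarith
  have hp4 : p ^ 4 ≤ p ^ 2 := by
    have : p ^ 2 ≤ 1 := by nlinarith
    nlinarith [sq_nonneg p]
  have h1 : 0 ≤ (r ^ 2) ^ 2 * E8 c p r := by positivity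
  have h2 : 0 ≤ 2 * (r ^ 2) ^ 2 * (402 * p ^ 2 - 344 * p ^ 4) :=
    mul_nonneg (by positivity) (by nlinarith [sq_nonneg p])
  have h3 : 0 ≤ 2 - r ^ 2 := by linarith
  have h4 : 0 ≤ 1 - 2 * r ^ 2 := by linarith
  have h5 : 0 ≤ (1 - 2 * r ^ 2) * (344 * p ^ 4 * r ^ 4 + 43 * (c ^ 2 * p ^ 4) * (r ^ 2 * (2 - r ^ 2))) := by
    positivity
  linarith

lemma WS_g {c g : ℝ} (hg0 : 0 ≤ g) (hg : g ^ 2 = 1 + c) :
    800 * ((g + 1) * WS c) = c * WGN g c := by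
  have h : Real.sqrt (1 + c) = g := by rw [← hg]; exact Real.sqrt_sq hg0
  unfold WS WA WGN
  rw [h]
  have hc : c = g ^ 2 - 1 := by linarith
  rw [hc]
  ring

lemma dok_N {c g r s : ℝ} (hc0 : 0 < c) (hg : 0 ≤ g) (hr0 : 0 ≤ r)
    (hs0 : 0 < s) (hrs : 4 * s * r = c * (1 - s ^ 2)) (hsr : r ^ 2 ≤ s) :
    DOK c r (2 * g * (1 + r) * (c * (s - r ^ 2)) / ((g + 1) ^ 2 * (1 + r) ^ 2 + c * (s - r ^ 2))) := by
  set u := 1 + r with hu
  set h := c * (s - r ^ 2) with hh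
  have hu0 : 0 < u := by positivity
  have hh0 : 0 ≤ h := mul_nonneg hc0.le (by linarith)
  have hden : 0 < (g + 1) ^ 2 * u ^ 2 + h := by positivity
  refine dok_of_h (h := h) hr0 (by positivity) ?_ ?_
  · rw [← hu]
    have e : 2 * g * u * h / ((g + 1) ^ 2 * u ^ 2 + h) *
        (2 * g * u * h / ((g + 1) ^ 2 * u ^ 2 + h) + 2 * u) =
        h * (4 * g * ((g + 1) * u ^ 2) * (h + (g + 1) * u ^ 2)) / ((g + 1) ^ 2 * u ^ 2 + h) ^ 2 := by
      field_simp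
      ring
    rw [e, div_le_iff₀ (by positivity)]
    apply mul_le_mul_of_nonneg_left _ hh0
    nlinarith [sq_nonneg ((1 - g) * ((g + 1) * u ^ 2) + h)]
  · have e : s * (h * (h + 4 * r)) = c ^ 2 * ((s - r ^ 2) * (1 - s * r ^ 2)) := by
      rw [hh]
      linear_combination (c * (s - r ^ 2)) * hrs
    have h1 : (s - r ^ 2) * (1 - s * r ^ 2) ≤ s * (1 - r ^ 2) ^ 2 := by
      nlinarith [mul_nonneg (sq_nonneg r) (sq_nonneg (1 - s))]
    have h2 : s * (h * (h + 4 * r)) ≤ s * (c ^ 2 * (1 - r ^ 2) ^ 2) := by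
      rw [e]
      have := mul_le_mul_of_nonneg_left h1 (sq_nonneg c)
      linarith
    exact le_of_mul_le_mul_left h2 hs0

set_option maxHeartbeats 2000000 in
theorem pt_of_ON {c g t p r s : ℝ} (hc0 : 0 < c) (hc1 : c ≤ 2 / 5) (hg1 : 1 ≤ g)
    (hg : g ^ 2 = 1 + c) (ht0 : 0 ≤ t) (ht1 : t ≤ 1) (hp0 : 0 ≤ p) (hp1 : p ≤ 1)
    (hr0 : 0 ≤ r) (hrc : r ≤ c) (hs0 : 4 / 25 ≤ s) (hrs : 4 * s * r = c * (1 - s ^ 2))
    (hO : 0 ≤ ON g c s t p) : Pt (WS c) c t p r := by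
  have hr1 : r ≤ 2 / 5 := hrc.trans hc1
  have hspos : 0 < s := by linarith
  have hsr : r ^ 2 ≤ s := by nlinarith
  have hg0 : 0 ≤ g := by linarith
  have hD := dok_N hc0 hg0 hr0 hspos hrs hsr
  set D := 2 * g * (1 + r) * (c * (s - r ^ 2)) / ((g + 1) ^ 2 * (1 + r) ^ 2 + c * (s - r ^ 2)) with hDd
  refine ⟨D, hD, ?_⟩
  have hW := WS_g hg0 hg
  have hWn : 0 ≤ WS c := WS_nonneg hc0.le (by linarith)
  set W := WS c with hWd
  have hRN : RN c s = 4 * s * r := by rw [hrs]; rfl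
  have hUN : UN c s = 4 * s * (1 + r) := by unfold UN; rw [hRN]; ring
  have hHN : HN c s = 16 * s ^ 2 * (s - r ^ 2) := by unfold HN; rw [hRN]; ring
  have hDN : DN g c s = 16 * s ^ 2 * ((g + 1) ^ 2 * (1 + r) ^ 2 + c * (s - r ^ 2)) := by
    unfold DN; rw [hUN, hHN]; ring
  have hq : 0 < (g + 1) ^ 2 * (1 + r) ^ 2 + c * (s - r ^ 2) := by
    have : 0 ≤ c * (s - r ^ 2) := mul_nonneg hc0.le (by linarith)
    positivity
  have hDNpos : 0 < DN g c s := by rw [hDN]; positivity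
  have hDD : D * DN g c s = 32 * s ^ 2 * g * c * (1 + r) * (s - r ^ 2) := by
    rw [hDN, hDd, div_mul_eq_mul_div, div_eq_iff hq.ne']
    ring
  have hFR : FRN c s p = 20 * s ^ 2 * fl (r * p) := by
    unfold FRN fl; rw [hRN]; ring
  have hE16 : E16N c s p = 16 * s ^ 2 * El c p r := by
    unfold E16N El; rw [hRN]; ring
  -- lower bound
  have hkd := kd_pos hc0 ht0
  have hkn : 0 ≤ kn c t := by unfold kn; positivity
  have hrp0 : 0 ≤ r * p := mul_nonneg hr0 hp0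
  have hrp1 : r * p ≤ 2 / 5 := by nlinarith
  have hf := fl_le hrp0 hrp1
  have hEl := El_le hc0.le hc1 hp0 hp1 hr0 hr1
  have ht2 : 0 ≤ 1 - t ^ 2 := by nlinarith
  obtain ⟨Λ, hΛ⟩ : ∃ z : ℝ, z = kd c t * ((1 + t ^ 2) * (D + c ^ 2 * p ^ 3 * El c p r / 1600)
      + t ^ 2 * r * fl (r * p) / 100) - W * t * ((1 - t ^ 2) * kn c t * (f1 p - r * fl (r * p)) / 100
      + kd c t * (1 - (1 - t) ^ 2 / 100) * p * (1 - r ^ 2)) := ⟨_, rfl⟩
  have hlow : Λ ≤ LL c t p r D - W * t * BB c t p r := by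
    have e : LL c t p r D - W * t * BB c t p r - Λ =
        kd c t * (1 + t ^ 2) * (c ^ 2 * p ^ 3) * ((1 - r ^ 2) ^ 2 * E8 c p r - El c p r) / 1600 +
        (kd c t * (t ^ 2 * r) + W * t * (1 - t ^ 2) * kn c t * r) * (f1 (r * p) - fl (r * p)) / 100 := by
      rw [hΛ]; unfold LL BB; ring
    have h1 : 0 ≤ (1 - r ^ 2) ^ 2 * E8 c p r - El c p r := by linarith
    have h2 : 0 ≤ f1 (r * p) - fl (r * p) := by linarith
    have h3 : 0 ≤ kd c t * (1 + t ^ 2) * (c ^ 2 * p ^ 3) * ((1 - r ^ 2) ^ 2 * E8 c p r - El c p r) / 1600 := by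
      positivity
    have h4 : 0 ≤ (kd c t * (t ^ 2 * r) + W * t * (1 - t ^ 2) * kn c t * r) * (f1 (r * p) - fl (r * p)) / 100 := by
      positivity
    linarith
  have hcs : c * (1 - s ^ 2) = 4 * s * r := hrs.symm
  have hid : Λ * (6400000 * (s ^ 3 * (DN g c s * (g + 1)))) = c * ON g c s t p := by
    rw [hΛ]
    unfold ON AN BN
    rw [hFR, hE16, hUN, hHN, hRN]
    set N := DN g c s with hN
    set e0 := El c p r with he0
    set F := fl (r * p) with hF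
    set f := f1 p with hf1
    set k1 := kn c t with hk1
    set k2 := kd c t with hk2
    set G := WGN g c with hG
    linear_combination (6400000 * s ^ 3 * (g + 1) * k2 * (1 + t ^ 2)) * hDD -
      (80 * t * s ^ 3 * N * ((1 - t ^ 2) * k1 * (f - r * F) +
        k2 * (100 - (1 - t) ^ 2) * p * (1 - r ^ 2))) * hW -
      (N * (20 * s ^ 2 * F) * (800 * (g + 1) * k2 * t ^ 2 + G * t * c * (1 - t ^ 2) * k1)) * hcs
  have hpos : 0 < 6400000 * (s ^ 3 * (DN g c s * (g + 1))) := by positivity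
  have h0 : 0 ≤ Λ * (6400000 * (s ^ 3 * (DN g c s * (g + 1)))) := by
    rw [hid]; positivity
  have := nonneg_of_mul_nonneg_left h0 hpos
  linarith

end Crest.Agent.R307.PIS1
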