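import Crest.Agent.R307.PISbase

/-!
Row 307, S0471, regime S: elementary bounds for the chart glue.
-/

set_option autoImplicit false

namespace Crest.Agent.R307.PIS1

open Crest.Agent.R307 Crest.Agent.R307.GenInd Crest.Agent.R307.GenPI Crest.Agent.R307.GenFin
  Crest.Agent.R307.GenS

/-- `800 w`, `W(c) ≤ c w(c)` -/
noncomputable def w8 (c : ℝ) : ℝ := 800 - 42 * c + 100 * c ^ 2 - 91 * c ^ 3

lemma WS_le {c : ℝ} (h0 : 0 ≤ c) (h1 : c ≤ 2 / 5) : WS c ≤ c * w8 c / 800 := by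
  have hz : 0 ≤ 1 + c / 2 - c ^ 2 / 8 + c ^ 3 / 16 - 3 / 100 * c ^ 4 := by
    have : c ^ 2 ≤ 1 := by nlinarith
    have : c ^ 4 ≤ 1 := by nlinarith [sq_nonneg (c ^ 2)]
    have : 0 ≤ c ^ 3 := by positivity
    linarith
  have h2 : 1 + c ≤ (1 + c / 2 - c ^ 2 / 8 + c ^ 3 / 16 - 3 / 100 * c ^ 4) ^ 2 := by
    have e : (1 + c / 2 - c ^ 2 / 8 + c ^ 3 / 16 - 3 / 100 * c ^ 4) ^ 2 - (1 + c) =
        c ^ 4 * (29 / 1600 - 73 / 1600 * c + (9 / 800 + 1 / 6400) * c ^ 2 + c ^ 3 * (9 / 10000 * c - 3 / 800)) := by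
      ring
    have h3 : 0 ≤ 29 / 1600 - 73 / 1600 * c + (9 / 800 + 1 / 6400) * c ^ 2 + c ^ 3 * (9 / 10000 * c - 3 / 800) := by
      have h4 : c ^ 3 ≤ 2 / 5 * c ^ 2 := by
        have := mul_le_mul_of_nonneg_right h1 (sq_nonneg c)
        nlinarith
      have h5 : 0 ≤ c ^ 4 := by positivity
      nlinarith [sq_nonneg (c - 2 / 5)]
    have := mul_nonneg (pow_nonneg h0 4) h3
    linarith
  have := WA_le_of (A0 := 3 / 10) (A1 := -6 / 25) (A2 := 43 / 100) hz h2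
  unfold WS w8
  linarith

lemma WS_nonneg {c : ℝ} (h0 : 0 ≤ c) (h1 : c ≤ 1) : 0 ≤ WS c :=
  WA_nonneg (by norm_num) (by norm_num) h0 h1

lemma f1_nonneg {y : ℝ} (h0 : 0 ≤ y) (h1 : y ≤ 1) : 0 ≤ f1 y := by
  have e : f1 y = (1 - y) * (200 + 30 * y + 30 * y ^ 2 - 24 * y ^ 3 - 24 * y ^ 4 + 43 * y ^ 5 + 43 * y ^ 6) := by
    unfold f1; ring
  rw [e]
  have h2 : y ^ 2 ≤ y := by nlinarith
  have h3 : y ^ 3 ≤ y ^ 2 := by nlinarith [sq_nonneg y]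
  have h4 : y ^ 4 ≤ y ^ 2 := by nlinarith [sq_nonneg y, sq_nonneg (y ^ 2)]
  have h5 : 0 ≤ y ^ 5 := by positivity
  have h6 : 0 ≤ y ^ 6 := by positivity
  apply mul_nonneg (by linarith)
  nlinarith

lemma E8_nonneg {c p r : ℝ} (hc0 : 0 ≤ c) (hc1 : c ≤ 2 / 5) (hp0 : 0 ≤ p) (hp1 : p ≤ 1)
    (hr0 : 0 ≤ r) (hr1 : r ≤ 1) : 0 ≤ E8 c p r := by
  have hx0 : 0 ≤ p ^ 2 := sq_nonneg p
  have hx1 : p ^ 2 ≤ 1 := by nlinarith
  have hy0 : 0 ≤ r ^ 2 := sq_nonneg r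
  have hy1 : r ^ 2 ≤ 1 := by nlinarith
  have hc2 : c ^ 2 ≤ 4 / 25 := by nlinarith
  have e : E8 c p r = 216 - 402 * (p ^ 2 * (1 + r ^ 2)) + 344 * ((p ^ 2) ^ 2 * (1 + r ^ 2 + (r ^ 2) ^ 2))
      - 43 * (c ^ 2 * ((p ^ 2) ^ 2 * (1 - r ^ 2) ^ 2)) := by unfold E8; ring
  rw [e]
  set x := p ^ 2
  set y := r ^ 2
  have h1 : c ^ 2 * (x ^ 2 * (1 - y) ^ 2) ≤ 4 / 25 * x ^ 2 := by
    have a1 : x ^ 2 * (1 - y) ^ 2 ≤ x ^ 2 := by
      have : (1 - y) ^ 2 ≤ 1 := by nlinarith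
      nlinarith [sq_nonneg x]
    have a2 : 0 ≤ x ^ 2 * (1 - y) ^ 2 := by positivity
    nlinarith [sq_nonneg c]
  have h2 : 0 ≤ 216 - 402 * (x * (1 + y)) + 344 * (x ^ 2 * (1 + y + y ^ 2)) - 43 * (4 / 25 * x ^ 2) := by
    -- 1 + y + y² ≥ 3/4 (1+y)²
    have h3 : 3 / 4 * (1 + y) ^ 2 ≤ 1 + y + y ^ 2 := by nlinarith [sq_nonneg (1 - y)]
    have h4 : x ^ 2 * (3 / 4 * (1 + y) ^ 2) ≤ x ^ 2 * (1 + y + y ^ 2) :=
      mul_le_mul_of_nonneg_left h3 (sq_nonneg x)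
    have h5 : x ^ 2 ≤ (x * (1 + y)) ^ 2 := by
      have : x ≤ x * (1 + y) := by nlinarith
      exact pow_le_pow_left₀ hx0 this 2
    nlinarith [sq_nonneg (x * (1 + y) - 4 / 5)]
  linarith

lemma LL_nonneg {c t p r D : ℝ} (hc0 : 0 < c) (hc1 : c ≤ 2 / 5) (ht : 0 ≤ t) (hp0 : 0 ≤ p)
    (hp1 : p ≤ 1) (hr0 : 0 ≤ r) (hr1 : r ≤ 1) (hD : 0 ≤ D) : 0 ≤ LL c t p r D := by
  have h1 := kd_pos hc0 ht
  have h2 := E8_nonneg hc0.le hc1 hp0 hp1 hr0 hr1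
  have h3 := f1_nonneg (mul_nonneg hr0 hp0) (mul_le_one₀ hr1 hp0 hp1)
  unfold LL
  positivity

/-- it suffices to have an upper bound of `W` -/
lemma pt_of_upper {w W c t p r D : ℝ} (hc0 : 0 < c) (hc1 : c ≤ 2 / 5) (ht : 0 ≤ t) (hp0 : 0 ≤ p)
    (hp1 : p ≤ 1) (hr0 : 0 ≤ r) (hr1 : r ≤ 1) (hD : DOK c r D) (hW : 0 ≤ W) (hw : W ≤ w)
    (h : 0 ≤ LL c t p r D - w * t * BB c t p r) : Pt W c t p r := by
  refine ⟨D, hD, ?_⟩
  have hL := LL_nonneg hc0 hc1 ht hp0 hp1 hr0 hr1 hD.1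
  rcases le_total 0 (BB c t p r) with hB | hB
  · have : W * (t * BB c t p r) ≤ w * (t * BB c t p r) :=
      mul_le_mul_of_nonneg_right hw (mul_nonneg ht hB)
    linarith
  · have : W * t * BB c t p r ≤ 0 := mul_nonpos_of_nonneg_of_nonpos (mul_nonneg hW ht) hB
    linarith

/-- `n2` -/
noncomputable def n2f (r a : ℝ) : ℝ := 800 * r ^ 2 + 460 * (a * r) + 135 * a ^ 2

/-- `M` -/
noncomputable def Mf (r a : ℝ) : ℝ :=
  3200 * r ^ 3 + 1840 * (a * r ^ 2) + 742 * (a ^ 2 * r) + 135 * a ^ 3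

/-- denominator of `D` -/
noncomputable def denA (c r : ℝ) : ℝ :=
  4 * Mf r (c * (1 - r) * (1 + r)) + c ^ 2 * (1 - r) ^ 2 * n2f r (c * (1 - r) * (1 + r))

/-- numerator of `D` -/
noncomputable def numA (c r : ℝ) : ℝ :=
  2 * (1 + r) * (c ^ 2 * (1 - r) ^ 2) * n2f r (c * (1 - r) * (1 + r))

lemma dok_A' {c r : ℝ} (hc : 0 < c) (hr : 0 ≤ r) (hr1 : r ≤ 1) :
    DOK c r (numA c r / denA c r) := dok_A hc hr hr1

lemma denA_pos {c r : ℝ} (hc : 0 < c) (hr : 0 ≤ r) (hr1 : r ≤ 1) : 0 < denA c r := by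
  unfold denA Mf n2f
  set a := c * (1 - r) * (1 + r) with ha
  have ha0 : 0 ≤ a := mul_nonneg (mul_nonneg hc.le (by linarith)) (by linarith)
  rcases hr.eq_or_lt with h | h
  · have : 0 < a := by rw [ha, ← h]; simpa using hc
    positivity
  · positivity

/-- interface of the charts a-d -/
lemma pt_of_chart {c t p r G N : ℝ} (hc0 : 0 < c) (hc1 : c ≤ 2 / 5) (ht : 0 ≤ t) (hp0 : 0 ≤ p)
    (hp1 : p ≤ 1) (hr0 : 0 ≤ r) (hr1 : r ≤ 1) (hN : 0 < N) (hG : 0 ≤ G)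
    (h : ∀ D : ℝ, D * denA c r = numA c r →
      (LL c t p r D - (c * w8 c / 800) * t * BB c t p r) * (N * denA c r) = G) :
    Pt (WS c) c t p r := by
  have hd := denA_pos hc0 hr0 hr1
  refine pt_of_upper (w := c * w8 c / 800) hc0 hc1 ht hp0 hp1 hr0 hr1 (dok_A' hc0 hr0 hr1)
    (WS_nonneg hc0.le (by linarith)) (WS_le hc0.le hc1) ?_
  have e := h (numA c r / denA c r) (by field_simp)
  have : 0 ≤ (LL c t p r (numA c r / denA c r) - (c * w8 c / 800) * t * BB c t p r) *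
      (N * denA c r) := by rw [e]; exact hG
  exact nonneg_of_mul_nonneg_left this (mul_pos hN hd)

end Crest.Agent.R307.PIS1
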