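import Mathlib
import Crest.Prelude.Def_CubeNoise
import Crest.Agent.R307.Defs

/-!
Row 307, task 305 (helper524): pointwise inequality (B1).

Main results:
* `signEntropy_tanh`: `h (tanh θ) = log (2 cosh θ) - θ tanh θ`.
* `signEntropy_ratio`: for `b < a` in `(-1,1)`, `τ = (artanh a - artanh b)/2`,
  `(a - b) * h (tanh τ) ≤ (h a + h b) * tanh τ`.
* `pointB1`: `γ |a-b|/2 ≤ kk a b + β (h a + h b)/2`.
-/

set_option autoImplicit false

open Crest.CubeNoise Set

namespace Crest.Agent.R307

theorem signEntropy_tanh (θ : ℝ) :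
    signEntropy (Real.tanh θ) = Real.log (2 * Real.cosh θ) - θ * Real.tanh θ := by
  have hc : 0 < Real.cosh θ := Real.cosh_pos θ
  have h1 : (1 + Real.tanh θ) / 2 = Real.exp θ / (2 * Real.cosh θ) := by
    rw [Real.tanh_eq_sinh_div_cosh, ← Real.cosh_add_sinh]
    field_simp
  have h2 : 1 - (1 + Real.tanh θ) / 2 = Real.exp (-θ) / (2 * Real.cosh θ) := by
    rw [Real.tanh_eq_sinh_div_cosh, ← Real.cosh_sub_sinh]
    field_simp
    ring
  have l1 : Real.log ((1 + Real.tanh θ) / 2) = θ - Real.log (2 * Real.cosh θ) := by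
    rw [h1, Real.log_div (Real.exp_pos θ).ne' (by positivity), Real.log_exp]
  have l2 : Real.log (1 - (1 + Real.tanh θ) / 2) = -θ - Real.log (2 * Real.cosh θ) := by
    rw [h2, Real.log_div (Real.exp_pos _).ne' (by positivity), Real.log_exp]
  unfold signEntropy Real.binEntropy
  rw [Real.log_inv, Real.log_inv, l1, l2]
  ring

/-- `y cosh y ≤ sinh y * log (2 (cosh y + 1))` for `y ≥ 0`. -/
theorem key_sinh {y : ℝ} (hy : 0 ≤ y) {K : ℝ} (hK : 1 ≤ K) :
    y * Real.cosh y ≤ Real.sinh y * Real.log (2 * (Real.cosh y + K)) := by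
  have hsinh : 0 ≤ Real.sinh y := Real.sinh_nonneg_iff.2 hy
  have hcosh : 0 < Real.cosh y := Real.cosh_pos y
  have hmono : Real.log (2 * (Real.cosh y + 1)) ≤ Real.log (2 * (Real.cosh y + K)) := by
    apply Real.log_le_log (by positivity)
    linarith
  refine le_trans ?_ (mul_le_mul_of_nonneg_left hmono hsinh)
  -- set q = exp (-y)
  set q : ℝ := Real.exp (-y) with hq
  have hq0 : 0 < q := Real.exp_pos _
  have hq1 : q ≤ 1 := by
    rw [hq]; exact Real.exp_le_one_iff.2 (by linarith)
  have hE : Real.exp y = 1 / q := by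
    rw [hq, Real.exp_neg]; simp
  have hc : Real.cosh y = (1 / q + q) / 2 := by
    rw [Real.cosh_eq, hE]
  have hs : Real.sinh y = (1 / q - q) / 2 := by
    rw [Real.sinh_eq, hE]
  have hlog : Real.log (2 * (Real.cosh y + 1)) = y + 2 * Real.log (1 + q) := by
    have : 2 * (Real.cosh y + 1) = Real.exp y * (1 + q) ^ 2 := by
      rw [hc, hE]; field_simp; ring
    rw [this, Real.log_mul (Real.exp_pos y).ne' (by positivity), Real.log_exp, Real.log_pow]
    push_cast; ring
  have hyq : y * q ≤ 1 - q := by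
    have h1 : y + 1 ≤ Real.exp y := Real.add_one_le_exp y
    rw [hE] at h1
    have h2 : (y + 1) * q ≤ 1 := by
      calc (y + 1) * q ≤ (1 / q) * q := mul_le_mul_of_nonneg_right h1 hq0.le
        _ = 1 := by field_simp
    linarith
  have hl : q ≤ (1 + q) * Real.log (1 + q) := by
    have h1 := Real.one_sub_inv_le_log_of_pos (show (0:ℝ) < 1 + q by linarith)
    have h2 : (1 + q) * (1 - (1 + q)⁻¹) = q := by field_simp; ring
    calc q = (1 + q) * (1 - (1 + q)⁻¹) := h2.symm
      _ ≤ _ := mul_le_mul_of_nonneg_left h1 (by linarith)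
  rw [hlog]
  have e1 : Real.sinh y * (y + 2 * Real.log (1 + q)) - y * Real.cosh y
      = ((1 - q) * ((1 + q) * Real.log (1 + q)) - y * q * q) / q := by
    rw [hs, hc]; field_simp; ring
  have e2 : 0 ≤ (1 - q) * ((1 + q) * Real.log (1 + q)) - y * q * q := by
    have h3 : (1 - q) * q ≤ (1 - q) * ((1 + q) * Real.log (1 + q)) :=
      mul_le_mul_of_nonneg_left hl (by linarith)
    have h4 : y * q * q ≤ (1 - q) * q := mul_le_mul_of_nonneg_right hyq hq0.le
    linarith
  have e3 : 0 ≤ ((1 - q) * ((1 + q) * Real.log (1 + q)) - y * q * q) / q :=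
    div_nonneg e2 hq0.le
  linarith

/-- auxiliary function of the proof. -/
noncomputable def NN (K y : ℝ) : ℝ :=
  (Real.cosh y + K) * Real.log (2 * (Real.cosh y + K)) / 2 - y * Real.sinh y / 2

theorem hasDerivAt_NN {K : ℝ} (hK : 1 ≤ K) (y : ℝ) :
    HasDerivAt (NN K)
      ((Real.sinh y * Real.log (2 * (Real.cosh y + K)) - y * Real.cosh y) / 2) y := by
  have hpos : 0 < Real.cosh y + K := by linarith [Real.cosh_pos y]
  have h1 : HasDerivAt (fun y => Real.cosh y + K) (Real.sinh y) y :=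
    (Real.hasDerivAt_cosh y).add_const K
  have h2 : HasDerivAt (fun y => Real.log (2 * (Real.cosh y + K)))
      (2 * Real.sinh y / (2 * (Real.cosh y + K))) y :=
    (h1.const_mul 2).log (by positivity)
  have h3 := (h1.mul h2).div_const 2
  have h4 := ((hasDerivAt_id y).mul (Real.hasDerivAt_sinh y)).div_const 2
  have h5 := h3.sub h4
  refine HasDerivAt.congr_deriv (f := NN K) h5 ?_
  simp only [id_eq]
  field_simp
  ring

theorem NN_zero_le {K : ℝ} (hK : 1 ≤ K) (y : ℝ) : NN K 0 ≤ NN K y := by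
  have hmono : MonotoneOn (NN K) (Ici 0) := by
    apply monotoneOn_of_deriv_nonneg (convex_Ici 0)
    · exact fun y _ => (hasDerivAt_NN hK y).continuousAt.continuousWithinAt
    · exact fun y _ => (hasDerivAt_NN hK y).differentiableAt.differentiableWithinAt
    · intro y hy
      rw [interior_Ici, mem_Ioi] at hy
      rw [(hasDerivAt_NN hK y).deriv]
      have := key_sinh hy.le hK
      linarith
  have heven : NN K |y| = NN K y := by
    rcases abs_cases y with ⟨h, _⟩ | ⟨h, _⟩
    · rw [h]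
    · rw [h]; unfold NN; rw [Real.cosh_neg, Real.sinh_neg]; ring
  rw [← heven]
  exact hmono (mem_Ici.2 le_rfl) (mem_Ici.2 (abs_nonneg y)) (abs_nonneg y)

/-- hyperbolic form of the entropy sum. -/
theorem signEntropy_sum_tanh (c τ : ℝ) :
    (signEntropy (Real.tanh (c + τ)) + signEntropy (Real.tanh (c - τ))) *
        (Real.cosh (c + τ) * Real.cosh (c - τ))
      = NN (Real.cosh (2 * τ)) (2 * c) - τ * Real.sinh (2 * τ) := by
  rw [signEntropy_tanh, signEntropy_tanh]
  have hP : 0 < Real.cosh (c + τ) := Real.cosh_pos _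
  have hQ : 0 < Real.cosh (c - τ) := Real.cosh_pos _
  have e1 : Real.cosh (2 * c) + Real.cosh (2 * τ)
      = 2 * (Real.cosh (c + τ) * Real.cosh (c - τ)) := by
    have h1 : (c + τ) + (c - τ) = 2 * c := by ring
    have h2 : (c + τ) - (c - τ) = 2 * τ := by ring
    have a1 := Real.cosh_add (c + τ) (c - τ)
    have a2 := Real.cosh_sub (c + τ) (c - τ)
    rw [h1] at a1
    rw [h2] at a2
    rw [a1, a2]; ring
  have e2 : Real.sinh (2 * c) = Real.sinh (c + τ) * Real.cosh (c - τ)
      + Real.cosh (c + τ) * Real.sinh (c - τ) := by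
    have h1 : 2 * c = (c + τ) + (c - τ) := by ring
    rw [h1, Real.sinh_add]
  have e3 : Real.sinh (2 * τ) = Real.sinh (c + τ) * Real.cosh (c - τ)
      - Real.cosh (c + τ) * Real.sinh (c - τ) := by
    have h2 : 2 * τ = (c + τ) - (c - τ) := by ring
    rw [h2, Real.sinh_sub]
  have e4 : Real.log (2 * (Real.cosh (2 * c) + Real.cosh (2 * τ)))
      = Real.log (2 * Real.cosh (c + τ)) + Real.log (2 * Real.cosh (c - τ)) := by
    rw [e1, ← Real.log_mul (by positivity) (by positivity)]
    congr 1; ring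
  unfold NN
  rw [e4, e1, e2, e3, Real.tanh_eq_sinh_div_cosh, Real.tanh_eq_sinh_div_cosh]
  field_simp
  ring

theorem tanh_sub_mul (c τ : ℝ) :
    (Real.tanh (c + τ) - Real.tanh (c - τ)) * (Real.cosh (c + τ) * Real.cosh (c - τ))
      = Real.sinh (2 * τ) := by
  have hP : 0 < Real.cosh (c + τ) := Real.cosh_pos _
  have hQ : 0 < Real.cosh (c - τ) := Real.cosh_pos _
  have e3 : Real.sinh (2 * τ) = Real.sinh (c + τ) * Real.cosh (c - τ)
      - Real.cosh (c + τ) * Real.sinh (c - τ) := by
    have h2 : 2 * τ = (c + τ) - (c - τ) := by ring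
    rw [h2, Real.sinh_sub]
  rw [e3, Real.tanh_eq_sinh_div_cosh, Real.tanh_eq_sinh_div_cosh]
  field_simp

/-- The key inequality in hyperbolic coordinates. -/
theorem signEntropy_ratio_tanh (c : ℝ) {τ : ℝ} (hτ : 0 ≤ τ) :
    (Real.tanh (c + τ) - Real.tanh (c - τ)) * signEntropy (Real.tanh τ)
      ≤ (signEntropy (Real.tanh (c + τ)) + signEntropy (Real.tanh (c - τ))) * Real.tanh τ := by
  have hP : 0 < Real.cosh (c + τ) := Real.cosh_pos _
  have hQ : 0 < Real.cosh (c - τ) := Real.cosh_pos _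
  have hC : 0 < Real.cosh τ := Real.cosh_pos _
  have hPQ : 0 < Real.cosh (c + τ) * Real.cosh (c - τ) := by positivity
  have h0 := signEntropy_sum_tanh 0 τ
  have h0' := tanh_sub_mul 0 τ
  simp only [zero_add, zero_sub, Real.cosh_neg, Real.tanh_neg, mul_zero] at h0 h0'
  have hev : signEntropy (-Real.tanh τ) = signEntropy (Real.tanh τ) := by
    unfold signEntropy
    rw [← Real.binEntropy_one_sub]; congr 1; ring
  rw [hev] at h0
  have h1 := signEntropy_sum_tanh c τ
  have h1' := tanh_sub_mul c τ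
  have hN := NN_zero_le (Real.one_le_cosh (2 * τ)) (2 * c)
  have hs : 0 ≤ Real.sinh τ := Real.sinh_nonneg_iff.2 hτ
  have ht : Real.tanh τ * Real.cosh τ = Real.sinh τ := by
    rw [Real.tanh_eq_sinh_div_cosh]; field_simp
  have ht0 : 0 ≤ Real.tanh τ := by
    rw [Real.tanh_eq_sinh_div_cosh]; positivity
  -- multiply by PQ * cosh τ ^ 2
  set X := signEntropy (Real.tanh (c + τ)) + signEntropy (Real.tanh (c - τ)) with hX
  set Y := Real.tanh (c + τ) - Real.tanh (c - τ) with hY
  set Z := signEntropy (Real.tanh τ) with hZ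
  set PQ := Real.cosh (c + τ) * Real.cosh (c - τ) with hPQd
  set T := Real.tanh τ
  set C := Real.cosh τ
  have key : Y * Z * (PQ * (2 * C ^ 2)) ≤ X * T * (PQ * (2 * C ^ 2)) := by
    have l : Y * Z * (PQ * (2 * C ^ 2)) = Real.sinh (2 * τ) * ((Z + Z) * (C * C)) := by
      rw [← h1']; ring
    have r : X * T * (PQ * (2 * C ^ 2)) = (X * PQ) * ((T - -T) * (C * C)) := by ring
    rw [l, r, h0, h0', h1]
    have hs2 : 0 ≤ Real.sinh (2 * τ) := Real.sinh_nonneg_iff.2 (by linarith)
    nlinarith [mul_le_mul_of_nonneg_left hN hs2]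
  exact le_of_mul_le_mul_right key (by positivity)

/-- **Key inequality** (free of the Lagrange parameter). -/
theorem signEntropy_ratio {a b : ℝ} (ha : a ∈ Ioo (-1 : ℝ) 1) (hb : b ∈ Ioo (-1 : ℝ) 1)
    (hab : b ≤ a) :
    (a - b) * signEntropy (Real.tanh ((Real.artanh a - Real.artanh b) / 2))
      ≤ (signEntropy a + signEntropy b) * Real.tanh ((Real.artanh a - Real.artanh b) / 2) := by
  have hle : Real.artanh b ≤ Real.artanh a := (Real.artanh_le_artanh_iff hb ha).2 hab
  have h := signEntropy_ratio_tanh ((Real.artanh a + Real.artanh b) / 2)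
    (τ := (Real.artanh a - Real.artanh b) / 2) (by linarith)
  have e1 : (Real.artanh a + Real.artanh b) / 2 + (Real.artanh a - Real.artanh b) / 2
      = Real.artanh a := by ring
  have e2 : (Real.artanh a + Real.artanh b) / 2 - (Real.artanh a - Real.artanh b) / 2
      = Real.artanh b := by ring
  rw [e1, e2, Real.tanh_artanh ha, Real.tanh_artanh hb] at h
  exact h

/-! ### The one-variable part -/

/-- `log(2 cosh θ)/sinh² θ` is antitone, in product form. -/
theorem log_cosh_div_sinh_sq {θ η : ℝ} (hθ : 0 < θ) (h : θ ≤ η) :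
    Real.log (2 * Real.cosh η) * Real.sinh θ ^ 2 ≤ Real.log (2 * Real.cosh θ) * Real.sinh η ^ 2 := by
  have hcθ := Real.cosh_pos θ
  have hcη := Real.cosh_pos η
  have h1θ := Real.one_le_cosh θ
  have hle : Real.cosh θ ≤ Real.cosh η := by
    rw [Real.cosh_le_cosh, abs_of_pos hθ, abs_of_pos (lt_of_lt_of_le hθ h)]; exact h
  set u := Real.cosh θ ^ 2 with hu
  set v := Real.cosh η ^ 2 with hv
  have hu1 : 1 ≤ u := by rw [hu]; nlinarith
  have huv : u ≤ v := by rw [hu, hv]; exact pow_le_pow_left₀ hcθ.le hle 2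
  have hsθ : Real.sinh θ ^ 2 = u - 1 := by rw [Real.sinh_sq]
  have hsη : Real.sinh η ^ 2 = v - 1 := by rw [Real.sinh_sq]
  have l1 : Real.log (2 * Real.cosh θ) = Real.log (4 * u) / 2 := by
    rw [hu, show 4 * Real.cosh θ ^ 2 = (2 * Real.cosh θ) ^ 2 by ring, Real.log_pow]; push_cast; ring
  have l2 : Real.log (2 * Real.cosh η) = Real.log (4 * v) / 2 := by
    rw [hv, show 4 * Real.cosh η ^ 2 = (2 * Real.cosh η) ^ 2 by ring, Real.log_pow]; push_cast; ring
  rw [l1, l2, hsθ, hsη]
  have hu0 : 0 < u := by linarith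
  have hv0 : 0 < v := by linarith
  have h2 : Real.log (4 * v) ≤ Real.log (4 * u) + (v - u) / u := by
    have : Real.log (4 * v) = Real.log (4 * u) + Real.log (v / u) := by
      rw [← Real.log_mul (by positivity) (by positivity)]; congr 1; field_simp
    rw [this]
    have := Real.log_le_sub_one_of_pos (show 0 < v / u by positivity)
    have e : v / u - 1 = (v - u) / u := by field_simp
    linarith
  have h3 : (u - 1) / u ≤ Real.log (4 * u) := by
    have h4 : Real.log (4 * u) = Real.log 4 + Real.log u := Real.log_mul (by norm_num) hu0.ne'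
    have h5 := Real.one_sub_inv_le_log_of_pos hu0
    have h6 : (u - 1) / u = 1 - u⁻¹ := by field_simp
    have h7 : 0 ≤ Real.log 4 := Real.log_nonneg (by norm_num)
    rw [h4, h6]; linarith
  have h8 : Real.log (4 * v) * (u - 1) ≤ (Real.log (4 * u) + (v - u) / u) * (u - 1) :=
    mul_le_mul_of_nonneg_right h2 (by linarith)
  have h9 : (v - u) * ((u - 1) / u) ≤ (v - u) * Real.log (4 * u) :=
    mul_le_mul_of_nonneg_left h3 (by linarith)
  have h10 : (v - u) / u * (u - 1) = (v - u) * ((u - 1) / u) := by ring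
  nlinarith

/-- the one variable function in the `θ = artanh x` coordinate. -/
noncomputable def GB (β θ : ℝ) : ℝ :=
  θ + β * (Real.log (2 * Real.cosh θ) * (Real.cosh θ / Real.sinh θ) - θ)

theorem hasDerivAt_GB (β : ℝ) {θ : ℝ} (hθ : 0 < θ) :
    HasDerivAt (GB β) (1 - β * (Real.log (2 * Real.cosh θ) / Real.sinh θ ^ 2)) θ := by
  have hs : 0 < Real.sinh θ := Real.sinh_pos_iff.2 hθ
  have hc : 0 < Real.cosh θ := Real.cosh_pos θ
  have h1 : HasDerivAt (fun y => Real.log (2 * Real.cosh y))
      (2 * Real.sinh θ / (2 * Real.cosh θ)) θ :=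
    ((Real.hasDerivAt_cosh θ).const_mul 2).log (by positivity)
  have h2 : HasDerivAt (fun y => Real.cosh y / Real.sinh y)
      ((Real.sinh θ * Real.sinh θ - Real.cosh θ * Real.cosh θ) / Real.sinh θ ^ 2) θ :=
    (Real.hasDerivAt_cosh θ).div (Real.hasDerivAt_sinh θ) hs.ne'
  have h3 := (hasDerivAt_id θ).add (((h1.mul h2).sub (hasDerivAt_id θ)).const_mul β)
  refine HasDerivAt.congr_deriv (f := GB β) h3 ?_
  have h4 : Real.cosh θ ^ 2 = Real.sinh θ ^ 2 + 1 := Real.cosh_sq θ
  have h5 : Real.sinh θ * Real.sinh θ - Real.cosh θ * Real.cosh θ = -1 := by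
    nlinarith
  rw [h5]
  field_simp
  ring

theorem GB_min {η : ℝ} (hη : 0 < η) {θ : ℝ} (hθ : 0 < θ) :
    GB (Real.sinh η ^ 2 / Real.log (2 * Real.cosh η)) η
      ≤ GB (Real.sinh η ^ 2 / Real.log (2 * Real.cosh η)) θ := by
  set β := Real.sinh η ^ 2 / Real.log (2 * Real.cosh η) with hβ
  have hLpos : ∀ x : ℝ, 0 < Real.log (2 * Real.cosh x) := fun x =>
    Real.log_pos (by have := Real.one_le_cosh x; linarith)
  rcases le_total θ η with h | h
  · have hanti : AntitoneOn (GB β) (Icc θ η) := by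
      apply antitoneOn_of_deriv_nonpos (convex_Icc θ η)
      · intro y hy
        exact (hasDerivAt_GB β (lt_of_lt_of_le hθ hy.1)).continuousAt.continuousWithinAt
      · intro y hy
        rw [interior_Icc] at hy
        exact (hasDerivAt_GB β (hθ.trans hy.1)).differentiableAt.differentiableWithinAt
      · intro y hy
        rw [interior_Icc] at hy
        have hy0 : 0 < y := hθ.trans hy.1
        have hsy : 0 < Real.sinh y := Real.sinh_pos_iff.2 hy0
        rw [(hasDerivAt_GB β hy0).deriv, hβ, sub_nonpos, div_mul_div_comm,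
          le_div_iff₀ (by have := hLpos η; positivity), one_mul]
        have := log_cosh_div_sinh_sq hy0 hy.2.le
        linarith
    exact hanti (left_mem_Icc.2 h) (right_mem_Icc.2 h) h
  · have hmono : MonotoneOn (GB β) (Icc η θ) := by
      apply monotoneOn_of_deriv_nonneg (convex_Icc η θ)
      · intro y hy
        exact (hasDerivAt_GB β (lt_of_lt_of_le hη hy.1)).continuousAt.continuousWithinAt
      · intro y hy
        rw [interior_Icc] at hy
        exact (hasDerivAt_GB β (hη.trans hy.1)).differentiableAt.differentiableWithinAt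
      · intro y hy
        rw [interior_Icc] at hy
        have hy0 : 0 < y := hη.trans hy.1
        have hsy : 0 < Real.sinh y := Real.sinh_pos_iff.2 hy0
        rw [(hasDerivAt_GB β hy0).deriv, hβ, sub_nonneg, div_mul_div_comm,
          div_le_iff₀ (by have := hLpos η; positivity), one_mul]
        have := log_cosh_div_sinh_sq hη hy.1.le
        linarith
    exact hmono (left_mem_Icc.2 h) (right_mem_Icc.2 h) h

/-- `GB` in the original coordinate. -/
theorem GB_eq (β : ℝ) {θ : ℝ} (hθ : 0 < θ) :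
    GB β θ = θ + β * (signEntropy (Real.tanh θ) / Real.tanh θ) := by
  have hs : 0 < Real.sinh θ := Real.sinh_pos_iff.2 hθ
  have hc : 0 < Real.cosh θ := Real.cosh_pos θ
  rw [signEntropy_tanh, Real.tanh_eq_sinh_div_cosh]
  unfold GB
  field_simp

theorem beta_eq {s : ℝ} (hs : s ∈ Ioo (0 : ℝ) 1) :
    s ^ 2 / ((1 - s ^ 2) * (s * Real.artanh s + signEntropy s))
      = Real.sinh (Real.artanh s) ^ 2 / Real.log (2 * Real.cosh (Real.artanh s)) := by
  have hs' : s ∈ Ioo (-1 : ℝ) 1 := ⟨by linarith [hs.1], hs.2⟩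
  have h1 : signEntropy s = Real.log (2 * Real.cosh (Real.artanh s)) - Real.artanh s * s := by
    have := signEntropy_tanh (Real.artanh s)
    rwa [Real.tanh_artanh hs'] at this
  have h2 : s * Real.artanh s + signEntropy s = Real.log (2 * Real.cosh (Real.artanh s)) := by
    rw [h1]; ring
  have h3 : 0 < 1 - s ^ 2 := by nlinarith [hs.1, hs.2]
  rw [h2, Real.sinh_artanh hs', div_pow, Real.sq_sqrt h3.le]
  field_simp

/-- one variable inequality: the minimum of `artanh x + β h(x)/x` over `(0,1)` is at `x = s`. -/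
theorem oneVar {s x : ℝ} (hs : s ∈ Ioo (0 : ℝ) 1) (hx : x ∈ Ioo (0 : ℝ) 1) :
    Real.artanh s + s ^ 2 / ((1 - s ^ 2) * (s * Real.artanh s + signEntropy s)) *
        signEntropy s / s
      ≤ Real.artanh x + s ^ 2 / ((1 - s ^ 2) * (s * Real.artanh s + signEntropy s)) *
        signEntropy x / x := by
  have hs' : s ∈ Ioo (-1 : ℝ) 1 := ⟨by linarith [hs.1], hs.2⟩
  have hx' : x ∈ Ioo (-1 : ℝ) 1 := ⟨by linarith [hx.1], hx.2⟩
  rw [beta_eq hs]
  have h := GB_min (Real.artanh_pos hs) (Real.artanh_pos hx)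
  rw [GB_eq _ (Real.artanh_pos hs), GB_eq _ (Real.artanh_pos hx), Real.tanh_artanh hs',
    Real.tanh_artanh hx'] at h
  rw [mul_div_assoc, mul_div_assoc]
  exact h

theorem signEntropy_nonneg' {a : ℝ} (ha : a ∈ Ioo (-1 : ℝ) 1) : 0 ≤ signEntropy a := by
  unfold signEntropy
  exact Real.binEntropy_nonneg (by linarith [ha.1]) (by linarith [ha.2])

theorem beta_pos {s : ℝ} (hs : s ∈ Ioo (0 : ℝ) 1) :
    0 < s ^ 2 / ((1 - s ^ 2) * (s * Real.artanh s + signEntropy s)) := by
  have hs' : s ∈ Ioo (-1 : ℝ) 1 := ⟨by linarith [hs.1], hs.2⟩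
  have h3 : 0 < 1 - s ^ 2 := by nlinarith [hs.1, hs.2]
  have h4 := signEntropy_nonneg' hs'
  have h5 := Real.artanh_pos hs
  have h6 := hs.1
  positivity

/-- (B1), ordered version. -/
theorem pointB1_aux {s a b : ℝ} (hs : s ∈ Ioo (0 : ℝ) 1) (ha : a ∈ Ioo (-1 : ℝ) 1)
    (hb : b ∈ Ioo (-1 : ℝ) 1) (hab : b ≤ a) :
    (Real.artanh s + s ^ 2 / ((1 - s ^ 2) * (s * Real.artanh s + signEntropy s)) *
        signEntropy s / s) * ((a - b) / 2)
      ≤ kk a b + s ^ 2 / ((1 - s ^ 2) * (s * Real.artanh s + signEntropy s)) *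
        ((signEntropy a + signEntropy b) / 2) := by
  have hβ := beta_pos hs
  set β := s ^ 2 / ((1 - s ^ 2) * (s * Real.artanh s + signEntropy s)) with hβd
  rcases hab.eq_or_lt with rfl | hlt
  · have h1 := signEntropy_nonneg' ha
    unfold kk
    simp only [sub_self, zero_div, mul_zero, zero_add]
    positivity
  · have hlt' : Real.artanh b < Real.artanh a := (Real.artanh_lt_artanh_iff hb ha).2 hlt
    set τ := (Real.artanh a - Real.artanh b) / 2 with hτ
    have hτ0 : 0 < τ := by rw [hτ]; linarith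
    have hx : Real.tanh τ ∈ Ioo (0 : ℝ) 1 := by
      constructor
      · rw [Real.tanh_eq_sinh_div_cosh]
        exact div_pos (Real.sinh_pos_iff.2 hτ0) (Real.cosh_pos _)
      · exact Real.tanh_lt_one τ
    have h1 := oneVar hs hx
    rw [← hβd, Real.artanh_tanh] at h1
    have h2 := signEntropy_ratio ha hb hab
    rw [← hτ] at h2
    have hd : 0 < (a - b) / 2 := by linarith
    have h3 : signEntropy (Real.tanh τ) / Real.tanh τ * ((a - b) / 2)
        ≤ (signEntropy a + signEntropy b) / 2 := by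
      have : signEntropy (Real.tanh τ) / Real.tanh τ * ((a - b) / 2)
          = ((a - b) * signEntropy (Real.tanh τ)) / Real.tanh τ / 2 := by ring
      rw [this]
      have h4 : ((a - b) * signEntropy (Real.tanh τ)) / Real.tanh τ
          ≤ signEntropy a + signEntropy b := by
        rw [div_le_iff₀ hx.1]; exact h2
      linarith
    have hk : kk a b = τ * ((a - b) / 2) := by
      unfold kk; rw [hτ]; ring
    calc (Real.artanh s + β * signEntropy s / s) * ((a - b) / 2)
        ≤ (τ + β * signEntropy (Real.tanh τ) / Real.tanh τ) * ((a - b) / 2) :=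
          mul_le_mul_of_nonneg_right h1 hd.le
      _ = τ * ((a - b) / 2)
          + β * (signEntropy (Real.tanh τ) / Real.tanh τ * ((a - b) / 2)) := by ring
      _ ≤ τ * ((a - b) / 2) + β * ((signEntropy a + signEntropy b) / 2) := by
          have := mul_le_mul_of_nonneg_left h3 hβ.le
          linarith
      _ = _ := by rw [hk]

theorem kk_comm (a b : ℝ) : kk a b = kk b a := by unfold kk; ring

/-- **(B1)**: supporting plane of `kk + β (h a + h b)/2` at `(s,-s)`. -/
theorem pointB1 {s a b : ℝ} (hs : s ∈ Ioo (0 : ℝ) 1) (ha : a ∈ Ioo (-1 : ℝ) 1)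
    (hb : b ∈ Ioo (-1 : ℝ) 1) :
    (Real.artanh s + s ^ 2 / ((1 - s ^ 2) * (s * Real.artanh s + signEntropy s)) *
        signEntropy s / s) * (|a - b| / 2)
      ≤ kk a b + s ^ 2 / ((1 - s ^ 2) * (s * Real.artanh s + signEntropy s)) *
        ((signEntropy a + signEntropy b) / 2) := by
  rcases le_total b a with h | h
  · rw [abs_of_nonneg (sub_nonneg.2 h)]
    exact pointB1_aux hs ha hb h
  · rw [abs_sub_comm, abs_of_nonneg (sub_nonneg.2 h), kk_comm, add_comm (signEntropy a)]
    exact pointB1_aux hs hb ha h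

end Crest.Agent.R307
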