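import Crest.Agent.R307.GenSPot
import Crest.Agent.Tools.KBp

/-!
Row 307, S0471 (helper437): from the polynomial conditions checked by KB to the scalar inequality (SI).
`D = 2^22`, `DT = 2^16`, `DL = 2^20` are the denominators of the integer parameters.
-/

set_option autoImplicit false

open Set

namespace Crest.Agent.R307.SIglue

open Crest.Agent.R307.GenProd Crest.Agent.R307.GenS

/-- the mean inequality used for `√(LR)` -/
lemma sq_le_of_mean {L R g la lb T : ℝ} (hT : 0 < T) (hL : 0 < L) (hR : 0 < R) (hla : 0 ≤ la)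
    (hlab : 0 ≤ la * lb - T * T) (hM : 0 ≤ g * (la * L + lb * R) + 2 * T * (L * R)) :
    0 ≤ g ∨ g ^ 2 ≤ L * R := by
  by_cases hg : 0 ≤ g
  · exact Or.inl hg
  right
  have hg' : 0 < -g := by linarith [not_le.mp hg]
  have hT2 : 0 < T * T := mul_pos hT hT
  have hlab' : 0 < la * lb := by linarith
  have hla' : 0 < la := by
    rcases hla.eq_or_lt with h | h
    · rw [← h] at hlab'; simp at hlab'
    · exact h
  have hlb : 0 < lb := by
    by_contra h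
    have := mul_nonpos_of_nonneg_of_nonpos hla (not_lt.mp h)
    linarith
  set S := la * L + lb * R with hS
  have hS0 : 0 < S := by positivity
  have hLR : 0 < L * R := mul_pos hL hR
  -- S² ≥ 4 la lb L R
  have h4 : 4 * (T * T) * (L * R) ≤ S ^ 2 := by
    have h1 : 4 * (la * lb) * (L * R) ≤ S ^ 2 := by
      rw [hS]; nlinarith [sq_nonneg (la * L - lb * R)]
    have h2 : 4 * (T * T) * (L * R) ≤ 4 * (la * lb) * (L * R) := by
      apply mul_le_mul_of_nonneg_right _ hLR.le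
      linarith
    exact h2.trans h1
  have h5 : (-g) * S ≤ 2 * T * (L * R) := by linarith
  have h6 : ((-g) * S) ^ 2 ≤ (2 * T * (L * R)) ^ 2 :=
    pow_le_pow_left₀ (mul_nonneg hg'.le hS0.le) h5 2
  have h7 : g ^ 2 * (4 * (T * T) * (L * R)) ≤ g ^ 2 * S ^ 2 :=
    mul_le_mul_of_nonneg_left h4 (sq_nonneg g)
  have h8 : g ^ 2 * (4 * (T * T) * (L * R)) ≤ (L * R) * (4 * (T * T) * (L * R)) := by
    nlinarith
  exact le_of_mul_le_mul_right h8 (by positivity)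

/-- one corner of (SI) from the polynomial conditions -/
theorem corner_kb {B Q : ℝ → ℝ} {n0 n1 m r Den D h0 h1 hm c0 c1 cm q0 q1 qm : ℝ} (hDen : 0 < Den)
    (hD : 0 < D) (hm0 : 0 < m) (hr : 0 < r) (hd : n0 - n1 = 2 * m * r)
    (eB0 : B n0 = m / Den * h0) (eB1 : B n1 = m / Den * h1)
    (eBm : 2 * B ((n0 + n1) / 2) = m / Den * hm)
    (eC0 : B (1 - n0) = m / Den * c0) (eC1 : B (1 - n1) = m / Den * c1)
    (eCm : 2 * B (1 - (n0 + n1) / 2) = m / Den * cm)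
    (eQ0 : Q n0 = m / Den * q0) (eQ1 : Q n1 = m / Den * q1)
    (eQm : 2 * Q ((n0 + n1) / 2) = m / Den * qm)
    {A0 A1 B0 B1 Be Bp s0 s1 la lb L R T : ℝ} (hT : 0 < T)
    (hL : L = A0 * h0 + A1 * h1 + 2 * Den * (Be * r) - D * hm)
    (hR : R = B0 * c1 + B1 * c0 + 2 * Den * (Bp * r) - D * cm)
    (oL : 0 ≤ L - r * r) (oR : 0 ≤ R - r * r) (ola : 0 ≤ la) (olab : 0 ≤ la * lb - T * T)
    (os0 : 0 ≤ A0 * B1 - s0 * s0) (os1 : 0 ≤ A1 * B0 - s1 * s1) (hs0 : 0 ≤ s0) (hs1 : 0 ≤ s1)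
    (oM : 0 ≤ (s0 * q0 + s1 * q1 - D * qm) * (la * L + lb * R) + 2 * T * (L * R)) :
    SI B Q (fun _ => 0) (A0 / D) (A1 / D) (Be / D) 0 0 (B0 / D) (B1 / D) (Bp / D) 0 0 n0 n1 := by
  have hr2 : 0 < r * r := mul_pos hr hr
  have hL0 : 0 < L := by linarith
  have hR0 : 0 < R := by linarith
  have hk : 0 < m / (Den * D) := div_pos hm0 (mul_pos hDen hD)
  have eL : gapL B (fun _ => 0) (A0 / D) (A1 / D) (Be / D) 0 0 n0 n1 = m / (Den * D) * L := by
    unfold gapL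
    rw [eBm, eB0, eB1, hd, hL]
    field_simp
    ring
  have eR : gapR B (fun _ => 0) (B0 / D) (B1 / D) (Bp / D) 0 0 n0 n1 = m / (Den * D) * R := by
    unfold gapR
    rw [eCm, eC0, eC1, hd, hR]
    field_simp
    ring
  have eG : 2 * Q ((n0 + n1) / 2) - s0 / D * Q n0 - s1 / D * Q n1 =
      -(m / (Den * D) * (s0 * q0 + s1 * q1 - D * qm)) := by
    rw [eQm, eQ0, eQ1]
    field_simp
    ring
  refine ⟨by rw [eL]; positivity, by rw [eR]; positivity, s0 / D, s1 / D, by positivity,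
    by positivity, ?_, ?_, ?_⟩
  · rw [div_pow, div_mul_div_comm, div_le_div_iff₀ (by positivity) (by positivity)]
    have : s0 ^ 2 ≤ A0 * B1 := by nlinarith
    have h := mul_le_mul_of_nonneg_right this (show (0:ℝ) ≤ D * D by positivity)
    nlinarith
  · rw [div_pow, div_mul_div_comm, div_le_div_iff₀ (by positivity) (by positivity)]
    have : s1 ^ 2 ≤ A1 * B0 := by nlinarith
    have h := mul_le_mul_of_nonneg_right this (show (0:ℝ) ≤ D * D by positivity)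
    nlinarith
  · rcases sq_le_of_mean hT hL0 hR0 ola olab oM with h | h
    · left
      have : 0 ≤ m / (Den * D) * (s0 * q0 + s1 * q1 - D * qm) := mul_nonneg hk.le h
      linarith
    · right
      rw [eG, eL, eR]
      have h2 := mul_le_mul_of_nonneg_left h (sq_nonneg (m / (Den * D)))
      calc (-(m / (Den * D) * (s0 * q0 + s1 * q1 - D * qm))) ^ 2
          = (m / (Den * D)) ^ 2 * (s0 * q0 + s1 * q1 - D * qm) ^ 2 := by ring
        _ ≤ (m / (Den * D)) ^ 2 * (L * R) := h2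
        _ = m / (Den * D) * L * (m / (Den * D) * R) := by ring

/-- monotonicity in `C` and `bt` -/
theorem sik_mono {B Q : ℝ → ℝ} {n0 n1 C bt C' bt' D0 b D0' b' K K' : ℝ} (hn : n1 ≤ n0)
    (hB1 : 0 ≤ B n1) (hB0 : 0 ≤ B (1 - n0)) (hK : -1 ≤ K) (hK' : -1 ≤ K')
    (hC : C ≤ D0) (hb : bt ≤ b) (hC' : C' ≤ D0') (hb' : bt' ≤ b')
    (h : SIK B Q (fun _ => 0) C bt 0 0 C' bt' 0 0 n0 n1 K K') :
    SIK B Q (fun _ => 0) D0 b 0 0 D0' b' 0 0 n0 n1 K K' := by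
  obtain ⟨h1, h2, r0, r1, hr0, hr1, e0, e1, h3⟩ := h
  have g1 : gapL B (fun _ => 0) (1 + K) (C - K) bt 0 0 n0 n1 ≤
      gapL B (fun _ => 0) (1 + K) (D0 - K) b 0 0 n0 n1 := by
    unfold gapL
    have a1 := mul_le_mul_of_nonneg_right hC hB1
    have a2 := mul_le_mul_of_nonneg_right hb (sub_nonneg.mpr hn)
    linarith
  have g2 : gapR B (fun _ => 0) (1 + K') (C' - K') bt' 0 0 n0 n1 ≤
      gapR B (fun _ => 0) (1 + K') (D0' - K') b' 0 0 n0 n1 := by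
    unfold gapR
    have a1 := mul_le_mul_of_nonneg_right hC' hB0
    have a2 := mul_le_mul_of_nonneg_right hb' (sub_nonneg.mpr hn)
    linarith
  refine ⟨h1.trans g1, h2.trans g2, r0, r1, hr0, hr1, ?_, ?_, ?_⟩
  · exact e0.trans (mul_le_mul_of_nonneg_left (by linarith) (by linarith))
  · exact e1.trans (mul_le_mul_of_nonneg_right (by linarith) (by linarith))
  · rcases h3 with h3 | h3
    · exact Or.inl h3
    · exact Or.inr (h3.trans (mul_le_mul g1 g2 h2 (h1.trans g1)))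

lemma le_Cf {T DT C D : ℝ} (hD : 0 < D) (hDT : 0 < DT)
    (h : 0 ≤ D * (DT * DT - T * T) - C * (DT * DT + T * T)) : C / D ≤ Cf (T / DT) := by
  unfold Cf
  have hp : 0 < DT * DT + T * T := add_pos_of_pos_of_nonneg (mul_pos hDT hDT) (mul_self_nonneg T)
  have e : (1 - (T / DT) ^ 2) / (1 + (T / DT) ^ 2) = (DT * DT - T * T) / (DT * DT + T * T) := by
    have h1 : 1 + (T / DT) ^ 2 ≠ 0 := by positivity
    have h2 := hp.ne'
    rw [div_eq_div_iff h1 h2]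
    field_simp
  rw [e, div_le_div_iff₀ hD hp]
  linarith

lemma le_btf {T DT b D en ed : ℝ} (hD : 0 < D) (hDT : 0 < DT) (hed : 0 < ed)
    (h : 0 ≤ 2 * D * DT * T * (ed * (DT * DT) - en * ((DT - T) * (DT - T)))
      - ed * (DT * DT) * (b * (DT * DT + T * T))) : b / D ≤ btf (en / ed) (T / DT) := by
  unfold btf Sf
  have hp : 0 < DT * DT + T * T := add_pos_of_pos_of_nonneg (mul_pos hDT hDT) (mul_self_nonneg T)
  have e : 2 * (T / DT) / (1 + (T / DT) ^ 2) * (1 - en / ed * (1 - T / DT) ^ 2) =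
      2 * DT * T * (ed * (DT * DT) - en * ((DT - T) * (DT - T))) /
        (ed * (DT * DT) * (DT * DT + T * T)) := by
    have h1 : 1 + (T / DT) ^ 2 ≠ 0 := by positivity
    have h2 := hp.ne'
    have h3 : DT ^ 2 + T ^ 2 ≠ 0 := by positivity
    field_simp
  rw [e, div_le_div_iff₀ hD (mul_pos (mul_pos hed (mul_pos hDT hDT)) hp)]
  linarith

/-- upper bound of `K` -/
lemma Kf_le {a b p q w x t k D : ℝ} (hD : 0 < D) (hx : 0 < x) (hp : 0 ≤ p) (hq : 0 ≤ q) (ht : 0 ≤ t)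
    (h : 0 ≤ k * (1 + t ^ 2) * (x ^ 2 + p * (x * t) + q * t ^ 2) -
      D * (w * (2 * t) * (1 - t ^ 2) * (a * (x ^ 2 + p * (x * t) + q * t ^ 2) + b * x ^ 2))) :
    Kf a b p q w x t ≤ k / D := by
  unfold Kf kapR Sf
  have hE : 0 < x ^ 2 + p * (x * t) + q * t ^ 2 := by positivity
  have e : w * (2 * t / (1 + t ^ 2)) * (1 - t ^ 2) *
      (a + b * (x ^ 2 / (x ^ 2 + p * (x * t) + q * t ^ 2))) =
      w * (2 * t) * (1 - t ^ 2) * (a * (x ^ 2 + p * (x * t) + q * t ^ 2) + b * x ^ 2) /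
        ((1 + t ^ 2) * (x ^ 2 + p * (x * t) + q * t ^ 2)) := by
    have h1 : 1 + t ^ 2 ≠ 0 := by positivity
    have h2 := hE.ne'
    field_simp
  rw [e, div_le_div_iff₀ (by positivity) hD]
  linarith

/-- lower bound of `K` -/
lemma le_Kf {a b p q w x t k D : ℝ} (hD : 0 < D) (hx : 0 < x) (hp : 0 ≤ p) (hq : 0 ≤ q) (ht : 0 ≤ t)
    (h : 0 ≤ D * (w * (2 * t) * (1 - t ^ 2) * (a * (x ^ 2 + p * (x * t) + q * t ^ 2) + b * x ^ 2))
      - k * (1 + t ^ 2) * (x ^ 2 + p * (x * t) + q * t ^ 2)) :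
    k / D ≤ Kf a b p q w x t := by
  unfold Kf kapR Sf
  have hE : 0 < x ^ 2 + p * (x * t) + q * t ^ 2 := by positivity
  have e : w * (2 * t / (1 + t ^ 2)) * (1 - t ^ 2) *
      (a + b * (x ^ 2 / (x ^ 2 + p * (x * t) + q * t ^ 2))) =
      w * (2 * t) * (1 - t ^ 2) * (a * (x ^ 2 + p * (x * t) + q * t ^ 2) + b * x ^ 2) /
        ((1 + t ^ 2) * (x ^ 2 + p * (x * t) + q * t ^ 2)) := by
    have h1 : 1 + t ^ 2 ≠ 0 := by positivity
    have h2 := hE.ne'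
    field_simp
  rw [e, div_le_div_iff₀ hD (by positivity)]
  linarith

lemma Kf_zero (a b p q x t : ℝ) : Kf a b p q 0 x t = 0 := by simp [Kf]

/-- the `w`-terms in terms of `u = 1/d` -/
lemma wterm {x a b u d : ℝ} (hb : 0 < b) (hd : d = b * x + a) (hpos : 0 < d)
    (hu : 1 = d ^ 1 * u) : (a / b) / (x + a / b) = a * u := by
  have hu' : u = 1 / d := by
    rw [pow_one] at hu
    field_simp
    linarith
  have hx : x + a / b = d / b := by rw [hd]; field_simp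
  rw [hx, hu']
  field_simp

/-- the four corners at a point, from four corner inequalities with bounds of `K`, `C`, `bt` -/
theorem corners_of {B Q : ℝ → ℝ} {C bt Klo Khi : ℝ → ℝ} {t t' n0 n1 : ℝ} (hn : n1 ≤ n0)
    (hQ0 : 0 ≤ Q n0) (hQ1 : 0 ≤ Q n1) (hB1 : 0 ≤ B n1) (hB0 : 0 ≤ B (1 - n0))
    {c b c' b' kl kh kl' kh' : ℝ} (hk : -1 ≤ kl) (hk' : -1 ≤ kl')
    (k1 : kl ≤ Klo t) (k2 : Klo t ≤ Khi t) (k3 : Khi t ≤ kh) (k4 : kh ≤ c)
    (k1' : kl' ≤ Klo t') (k2' : Klo t' ≤ Khi t') (k3' : Khi t' ≤ kh') (k4' : kh' ≤ c')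
    (hC : c ≤ C t) (hb : b ≤ bt t) (hC' : c' ≤ C t') (hb' : b' ≤ bt t')
    (h00 : SIK B Q (fun _ => 0) c b 0 0 c' b' 0 0 n0 n1 kl kl')
    (h01 : SIK B Q (fun _ => 0) c b 0 0 c' b' 0 0 n0 n1 kl kh')
    (h10 : SIK B Q (fun _ => 0) c b 0 0 c' b' 0 0 n0 n1 kh kl')
    (h11 : SIK B Q (fun _ => 0) c b 0 0 c' b' 0 0 n0 n1 kh kh') :
    Corners B Q C bt Klo Khi t t' n0 n1 := by
  have key : ∀ K K', kl ≤ K → K ≤ kh → kl' ≤ K' → K' ≤ kh' →
      SIK B Q (fun _ => 0) (C t) (bt t) 0 0 (C t') (bt t') 0 0 n0 n1 K K' := by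
    intro K K' a1 a2 a3 a4
    exact sik_mono hn hB1 hB0 (by linarith) (by linarith) hC hb hC' hb'
      (SIK.rect hQ0 hQ1 hk k4 hk' k4' h00 h01 h10 h11 a1 a2 a3 a4)
  exact ⟨key _ _ k1 (by linarith) k1' (by linarith), key _ _ k1 (by linarith) (by linarith) k3',
    key _ _ (by linarith) k3 k1' (by linarith), key _ _ (by linarith) k3 (by linarith) k3'⟩

lemma factor_eq {m s n Den Z : ℝ} (h : n = m * s) : m / Den * (s * Z) = n / Den * Z := by
  rw [h]; ring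

/-- one corner in the shape `SIK` -/
theorem corner_kbK {B Q : ℝ → ℝ} {n0 n1 m r Den D h0 h1 hm c0 c1 cm q0 q1 qm : ℝ} (hDen : 0 < Den)
    (hD : 0 < D) (hm0 : 0 < m) (hr : 0 < r) (hd : n0 - n1 = 2 * m * r)
    (eB0 : B n0 = m / Den * h0) (eB1 : B n1 = m / Den * h1)
    (eBm : 2 * B ((n0 + n1) / 2) = m / Den * hm)
    (eC0 : B (1 - n0) = m / Den * c0) (eC1 : B (1 - n1) = m / Den * c1)
    (eCm : 2 * B (1 - (n0 + n1) / 2) = m / Den * cm)
    (eQ0 : Q n0 = m / Den * q0) (eQ1 : Q n1 = m / Den * q1)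
    (eQm : 2 * Q ((n0 + n1) / 2) = m / Den * qm)
    {A0 A1 B0 B1 Be Bp s0 s1 la lb L R T k k' C C' : ℝ} (hT : 0 < T)
    (hA0 : A0 = D + k) (hA1 : A1 = C - k) (hB0 : B0 = D + k') (hB1 : B1 = C' - k')
    (hL : L = A0 * h0 + A1 * h1 + 2 * Den * (Be * r) - D * hm)
    (hR : R = B0 * c1 + B1 * c0 + 2 * Den * (Bp * r) - D * cm)
    (oL : 0 ≤ L - r * r) (oR : 0 ≤ R - r * r) (ola : 0 ≤ la) (olab : 0 ≤ la * lb - T * T)
    (os0 : 0 ≤ A0 * B1 - s0 * s0) (os1 : 0 ≤ A1 * B0 - s1 * s1) (hs0 : 0 ≤ s0) (hs1 : 0 ≤ s1)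
    (oM : 0 ≤ (s0 * q0 + s1 * q1 - D * qm) * (la * L + lb * R) + 2 * T * (L * R)) :
    SIK B Q (fun _ => 0) (C / D) (Be / D) 0 0 (C' / D) (Bp / D) 0 0 n0 n1 (k / D) (k' / D) := by
  have h := corner_kb hDen hD hm0 hr hd eB0 eB1 eBm eC0 eC1 eCm eQ0 eQ1 eQm hT hL hR oL oR ola olab
    os0 os1 hs0 hs1 oM
  unfold SIK
  have e0 : 1 + k / D = A0 / D := by rw [hA0]; field_simp
  have e1 : C / D - k / D = A1 / D := by rw [hA1]; ring
  have e2 : 1 + k' / D = B0 / D := by rw [hB0]; field_simp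
  have e3 : C' / D - k' / D = B1 / D := by rw [hB1]; ring
  rw [e0, e1, e2, e3]
  exact h

/-- the map from pairs to the chart -/
theorem sis_of_point {a b p q η : ℝ} {B Q : ℝ → ℝ} {wa ca wb cb : ℝ}
    (H : ∀ m r : ℝ, 0 < m → m ≤ 1 / 2 → 0 < r → r ≤ 1 → ∃ t t' : ℝ, 0 ≤ t ∧ t ≤ 1 ∧
      0 ≤ t' ∧ t' ≤ 1 ∧ Corners B Q Cf (btf η) (Kf a b p q wa ca) (Kf a b p q wb cb) t t'
        (m * (1 + r)) (m * (1 - r))) : SIS a b p q η B Q wa ca wb cb := by
  intro n0 n1 hn1 hn hs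
  have hs0 : 0 < n0 + n1 := by linarith
  have hd : 0 < n0 - n1 := by linarith
  have h := H ((n0 + n1) / 2) ((n0 - n1) / (n0 + n1)) (by linarith) (by linarith)
    (div_pos hd hs0) ((div_le_one hs0).mpr (by linarith))
  have e0 : (n0 + n1) / 2 * (1 + (n0 - n1) / (n0 + n1)) = n0 := by
    have := hs0.ne'
    field_simp
    ring
  have e1 : (n0 + n1) / 2 * (1 - (n0 - n1) / (n0 + n1)) = n1 := by
    have := hs0.ne'
    field_simp
    ring
  rwa [e0, e1] at h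

end Crest.Agent.R307.SIglue
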