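import Crest.Agent.R307.SIS2
import Crest.Agent.R307.SIglue

set_option autoImplicit false
set_option linter.all false
set_option maxHeartbeats 4000000

namespace Crest.Agent.R307.SIS2

open Crest.Agent.KB Crest.Agent.R307.GenProd Crest.Agent.R307.GenS Crest.Agent.R307.SIglue

theorem point (m r : ℝ) (hm0 : 0 < m) (hm1 : m ≤ 1 / 2) (hr0 : 0 < r) (hr1 : r ≤ 1) :
    ∃ t t' : ℝ, 0 ≤ t ∧ t ≤ 1 ∧ 0 ≤ t' ∧ t' ≤ 1 ∧ Corners B2 Q2 Cf (btf (1 / 100)) (Kf (13 / 50) (41 / 100) (6 / 5) (11 / 5) (1987 / 10000) (1 / 5)) (Kf (13 / 50) (41 / 100) (6 / 5) (11 / 5) (2977 / 10000) (3 / 10)) t t'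
      (m * (1 + r)) (m * (1 - r)) := by
  have hN0 : 0 < m * (1 + r) := by positivity
  have hN0' : m * (1 + r) ≤ 1 := by nlinarith
  have hN1 : 0 ≤ m * (1 - r) := mul_nonneg hm0.le (by linarith)
  have hN1' : m * (1 - r) ≤ 1 := by nlinarith
  obtain ⟨dc0_0, H_dc0_0⟩ : ∃ x : ℝ, x = (((1 : ℝ) * ((1 : ℝ) * (51 : ℝ))) - ((50 : ℝ) * (m * (((1 : ℝ) * (1 : ℝ)) + r)))) := ⟨_, rfl⟩
  have P_dc0_0 : 0 < dc0_0 := by rw [H_dc0_0]; nlinarith only [hN0, hN0', hN1, hN1', hm0, hm1, hr0, hr1, mul_nonneg hN0.le (sub_nonneg.mpr hN0'), mul_nonneg hN1 (sub_nonneg.mpr hN1'), mul_nonneg hm0.le (show (0:ℝ) ≤ 1 - m by linarith)]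
  obtain ⟨dc1_1, H_dc1_1⟩ : ∃ x : ℝ, x = (((1 : ℝ) * ((1 : ℝ) * (51 : ℝ))) - ((50 : ℝ) * (m * (((1 : ℝ) * (1 : ℝ)) - r)))) := ⟨_, rfl⟩
  have P_dc1_1 : 0 < dc1_1 := by rw [H_dc1_1]; nlinarith only [hN0, hN0', hN1, hN1', hm0, hm1, hr0, hr1, mul_nonneg hN0.le (sub_nonneg.mpr hN0'), mul_nonneg hN1 (sub_nonneg.mpr hN1'), mul_nonneg hm0.le (show (0:ℝ) ≤ 1 - m by linarith)]
  obtain ⟨dcm_2, H_dcm_2⟩ : ∃ x : ℝ, x = (((1 : ℝ) * (51 : ℝ)) - ((50 : ℝ) * m)) := ⟨_, rfl⟩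
  have P_dcm_2 : 0 < dcm_2 := by rw [H_dcm_2]; nlinarith only [hN0, hN0', hN1, hN1', hm0, hm1, hr0, hr1, mul_nonneg hN0.le (sub_nonneg.mpr hN0'), mul_nonneg hN1 (sub_nonneg.mpr hN1'), mul_nonneg hm0.le (show (0:ℝ) ≤ 1 - m by linarith)]
  obtain ⟨dn0_3, H_dn0_3⟩ : ∃ x : ℝ, x = (((50 : ℝ) * (m * (((1 : ℝ) * (1 : ℝ)) + r))) + ((1 : ℝ) * ((1 : ℝ) * (1 : ℝ)))) := ⟨_, rfl⟩
  have P_dn0_3 : 0 < dn0_3 := by rw [H_dn0_3]; nlinarith only [hN0, hN0', hN1, hN1', hm0, hm1, hr0, hr1, mul_nonneg hN0.le (sub_nonneg.mpr hN0'), mul_nonneg hN1 (sub_nonneg.mpr hN1'), mul_nonneg hm0.le (show (0:ℝ) ≤ 1 - m by linarith)]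
  obtain ⟨dn1_4, H_dn1_4⟩ : ∃ x : ℝ, x = (((50 : ℝ) * (m * (((1 : ℝ) * (1 : ℝ)) - r))) + ((1 : ℝ) * ((1 : ℝ) * (1 : ℝ)))) := ⟨_, rfl⟩
  have P_dn1_4 : 0 < dn1_4 := by rw [H_dn1_4]; nlinarith only [hN0, hN0', hN1, hN1', hm0, hm1, hr0, hr1, mul_nonneg hN0.le (sub_nonneg.mpr hN0'), mul_nonneg hN1 (sub_nonneg.mpr hN1'), mul_nonneg hm0.le (show (0:ℝ) ≤ 1 - m by linarith)]
  obtain ⟨dnm_5, H_dnm_5⟩ : ∃ x : ℝ, x = (((50 : ℝ) * m) + ((1 : ℝ) * (1 : ℝ))) := ⟨_, rfl⟩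
  have P_dnm_5 : 0 < dnm_5 := by rw [H_dnm_5]; nlinarith only [hN0, hN0', hN1, hN1', hm0, hm1, hr0, hr1, mul_nonneg hN0.le (sub_nonneg.mpr hN0'), mul_nonneg hN1 (sub_nonneg.mpr hN1'), mul_nonneg hm0.le (show (0:ℝ) ≤ 1 - m by linarith)]
  obtain ⟨dv0_6, H_dv0_6⟩ : ∃ x : ℝ, x = (((80 : ℝ) * ((m * (((1 : ℝ) * (1 : ℝ)) + r)) * (((1 : ℝ) * ((1 : ℝ) * (1 : ℝ))) - (m * (((1 : ℝ) * (1 : ℝ)) + r))))) + ((1 : ℝ) * ((1 : ℝ) * (1 : ℝ)))) := ⟨_, rfl⟩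
  have P_dv0_6 : 0 < dv0_6 := by rw [H_dv0_6]; nlinarith only [hN0, hN0', hN1, hN1', hm0, hm1, hr0, hr1, mul_nonneg hN0.le (sub_nonneg.mpr hN0'), mul_nonneg hN1 (sub_nonneg.mpr hN1'), mul_nonneg hm0.le (show (0:ℝ) ≤ 1 - m by linarith)]
  obtain ⟨dv1_7, H_dv1_7⟩ : ∃ x : ℝ, x = (((80 : ℝ) * ((m * (((1 : ℝ) * (1 : ℝ)) - r)) * (((1 : ℝ) * ((1 : ℝ) * (1 : ℝ))) - (m * (((1 : ℝ) * (1 : ℝ)) - r))))) + ((1 : ℝ) * ((1 : ℝ) * (1 : ℝ)))) := ⟨_, rfl⟩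
  have P_dv1_7 : 0 < dv1_7 := by rw [H_dv1_7]; nlinarith only [hN0, hN0', hN1, hN1', hm0, hm1, hr0, hr1, mul_nonneg hN0.le (sub_nonneg.mpr hN0'), mul_nonneg hN1 (sub_nonneg.mpr hN1'), mul_nonneg hm0.le (show (0:ℝ) ≤ 1 - m by linarith)]
  obtain ⟨dvm_8, H_dvm_8⟩ : ∃ x : ℝ, x = (((80 : ℝ) * (m * (((1 : ℝ) * (1 : ℝ)) - m))) + ((1 : ℝ) * (1 : ℝ))) := ⟨_, rfl⟩
  have P_dvm_8 : 0 < dvm_8 := by rw [H_dvm_8]; nlinarith only [hN0, hN0', hN1, hN1', hm0, hm1, hr0, hr1, mul_nonneg hN0.le (sub_nonneg.mpr hN0'), mul_nonneg hN1 (sub_nonneg.mpr hN1'), mul_nonneg hm0.le (show (0:ℝ) ≤ 1 - m by linarith)]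
  obtain ⟨uc0_0, H_uc0_0⟩ : ∃ x : ℝ, (1 : ℝ) = dc0_0 ^ 1 * x := ⟨1 / dc0_0, by rw [pow_one]; field_simp⟩
  obtain ⟨uc1_1, H_uc1_1⟩ : ∃ x : ℝ, (1 : ℝ) = dc1_1 ^ 1 * x := ⟨1 / dc1_1, by rw [pow_one]; field_simp⟩
  obtain ⟨ucm_2, H_ucm_2⟩ : ∃ x : ℝ, (1 : ℝ) = dcm_2 ^ 1 * x := ⟨1 / dcm_2, by rw [pow_one]; field_simp⟩
  obtain ⟨un0_3, H_un0_3⟩ : ∃ x : ℝ, (1 : ℝ) = dn0_3 ^ 1 * x := ⟨1 / dn0_3, by rw [pow_one]; field_simp⟩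
  obtain ⟨un1_4, H_un1_4⟩ : ∃ x : ℝ, (1 : ℝ) = dn1_4 ^ 1 * x := ⟨1 / dn1_4, by rw [pow_one]; field_simp⟩
  obtain ⟨unm_5, H_unm_5⟩ : ∃ x : ℝ, (1 : ℝ) = dnm_5 ^ 1 * x := ⟨1 / dnm_5, by rw [pow_one]; field_simp⟩
  obtain ⟨uv0_6, H_uv0_6⟩ : ∃ x : ℝ, (1 : ℝ) = dv0_6 ^ 1 * x := ⟨1 / dv0_6, by rw [pow_one]; field_simp⟩
  obtain ⟨uv1_7, H_uv1_7⟩ : ∃ x : ℝ, (1 : ℝ) = dv1_7 ^ 1 * x := ⟨1 / dv1_7, by rw [pow_one]; field_simp⟩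
  obtain ⟨uvm_8, H_uvm_8⟩ : ∃ x : ℝ, (1 : ℝ) = dvm_8 ^ 1 * x := ⟨1 / dvm_8, by rw [pow_one]; field_simp⟩
  obtain ⟨p, hp, H⟩ := main m r dc0_0 dc1_1 dcm_2 dn0_3 dn1_4 dnm_5 dv0_6 dv1_7 dvm_8 m r uc0_0 uc1_1 ucm_2 un0_3 un1_4 unm_5 uv0_6 uv1_7 uvm_8 (by norm_num; exact hm0.le) (by norm_num; linarith) (by norm_num; exact hr0.le) (by norm_num; exact hr1)
    P_dc0_0 P_dc1_1 P_dcm_2 P_dn0_3 P_dn1_4 P_dnm_5 P_dv0_6 P_dv1_7 P_dvm_8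
    H_dc0_0 H_dc1_1 H_dcm_2 H_dn0_3 H_dn1_4 H_dnm_5 H_dv0_6 H_dv1_7 H_dvm_8
    (one_mul _).symm (one_mul _).symm H_uc0_0 H_uc1_1 H_ucm_2 H_un0_3 H_un1_4 H_unm_5 H_uv0_6 H_uv1_7 H_uvm_8
  obtain ⟨t0a, H_t0a⟩ : ∃ x : ℝ, x = ((dg p 0 : ℤ) : ℝ) := ⟨_, rfl⟩
  obtain ⟨t1a, H_t1a⟩ : ∃ x : ℝ, x = ((dg p 1 : ℤ) : ℝ) := ⟨_, rfl⟩
  obtain ⟨kl0a, H_kl0a⟩ : ∃ x : ℝ, x = ((dg p 2 : ℤ) : ℝ) := ⟨_, rfl⟩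
  obtain ⟨kl1a, H_kl1a⟩ : ∃ x : ℝ, x = ((dg p 3 : ℤ) : ℝ) := ⟨_, rfl⟩
  obtain ⟨kh0a, H_kh0a⟩ : ∃ x : ℝ, x = ((dg p 4 : ℤ) : ℝ) := ⟨_, rfl⟩
  obtain ⟨kh1a, H_kh1a⟩ : ∃ x : ℝ, x = ((dg p 5 : ℤ) : ℝ) := ⟨_, rfl⟩
  obtain ⟨c0a, H_c0a⟩ : ∃ x : ℝ, x = ((dg p 6 : ℤ) : ℝ) := ⟨_, rfl⟩
  obtain ⟨c1a, H_c1a⟩ : ∃ x : ℝ, x = ((dg p 7 : ℤ) : ℝ) := ⟨_, rfl⟩
  obtain ⟨c2a, H_c2a⟩ : ∃ x : ℝ, x = ((dg p 8 : ℤ) : ℝ) := ⟨_, rfl⟩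
  obtain ⟨b0a, H_b0a⟩ : ∃ x : ℝ, x = ((dg p 9 : ℤ) : ℝ) := ⟨_, rfl⟩
  obtain ⟨b1a, H_b1a⟩ : ∃ x : ℝ, x = ((dg p 10 : ℤ) : ℝ) := ⟨_, rfl⟩
  obtain ⟨b2a, H_b2a⟩ : ∃ x : ℝ, x = ((dg p 11 : ℤ) : ℝ) := ⟨_, rfl⟩
  obtain ⟨t0b, H_t0b⟩ : ∃ x : ℝ, x = ((dg p 12 : ℤ) : ℝ) := ⟨_, rfl⟩
  obtain ⟨t1b, H_t1b⟩ : ∃ x : ℝ, x = ((dg p 13 : ℤ) : ℝ) := ⟨_, rfl⟩
  obtain ⟨kl0b, H_kl0b⟩ : ∃ x : ℝ, x = ((dg p 14 : ℤ) : ℝ) := ⟨_, rfl⟩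
  obtain ⟨kl1b, H_kl1b⟩ : ∃ x : ℝ, x = ((dg p 15 : ℤ) : ℝ) := ⟨_, rfl⟩
  obtain ⟨kh0b, H_kh0b⟩ : ∃ x : ℝ, x = ((dg p 16 : ℤ) : ℝ) := ⟨_, rfl⟩
  obtain ⟨kh1b, H_kh1b⟩ : ∃ x : ℝ, x = ((dg p 17 : ℤ) : ℝ) := ⟨_, rfl⟩
  obtain ⟨c0b, H_c0b⟩ : ∃ x : ℝ, x = ((dg p 18 : ℤ) : ℝ) := ⟨_, rfl⟩
  obtain ⟨c1b, H_c1b⟩ : ∃ x : ℝ, x = ((dg p 19 : ℤ) : ℝ) := ⟨_, rfl⟩
  obtain ⟨c2b, H_c2b⟩ : ∃ x : ℝ, x = ((dg p 20 : ℤ) : ℝ) := ⟨_, rfl⟩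
  obtain ⟨b0b, H_b0b⟩ : ∃ x : ℝ, x = ((dg p 21 : ℤ) : ℝ) := ⟨_, rfl⟩
  obtain ⟨b1b, H_b1b⟩ : ∃ x : ℝ, x = ((dg p 22 : ℤ) : ℝ) := ⟨_, rfl⟩
  obtain ⟨b2b, H_b2b⟩ : ∃ x : ℝ, x = ((dg p 23 : ℤ) : ℝ) := ⟨_, rfl⟩
  obtain ⟨la, H_la⟩ : ∃ x : ℝ, x = ((dg p 24 : ℤ) : ℝ) := ⟨_, rfl⟩
  obtain ⟨lb, H_lb⟩ : ∃ x : ℝ, x = ((dg p 25 : ℤ) : ℝ) := ⟨_, rfl⟩
  obtain ⟨e0_00, H_e0_00⟩ : ∃ x : ℝ, x = ((dg p 26 : ℤ) : ℝ) := ⟨_, rfl⟩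
  obtain ⟨e1_00, H_e1_00⟩ : ∃ x : ℝ, x = ((dg p 27 : ℤ) : ℝ) := ⟨_, rfl⟩
  obtain ⟨e2_00, H_e2_00⟩ : ∃ x : ℝ, x = ((dg p 28 : ℤ) : ℝ) := ⟨_, rfl⟩
  obtain ⟨f0_00, H_f0_00⟩ : ∃ x : ℝ, x = ((dg p 29 : ℤ) : ℝ) := ⟨_, rfl⟩
  obtain ⟨f1_00, H_f1_00⟩ : ∃ x : ℝ, x = ((dg p 30 : ℤ) : ℝ) := ⟨_, rfl⟩
  obtain ⟨f2_00, H_f2_00⟩ : ∃ x : ℝ, x = ((dg p 31 : ℤ) : ℝ) := ⟨_, rfl⟩
  obtain ⟨e0_01, H_e0_01⟩ : ∃ x : ℝ, x = ((dg p 32 : ℤ) : ℝ) := ⟨_, rfl⟩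
  obtain ⟨e1_01, H_e1_01⟩ : ∃ x : ℝ, x = ((dg p 33 : ℤ) : ℝ) := ⟨_, rfl⟩
  obtain ⟨e2_01, H_e2_01⟩ : ∃ x : ℝ, x = ((dg p 34 : ℤ) : ℝ) := ⟨_, rfl⟩
  obtain ⟨f0_01, H_f0_01⟩ : ∃ x : ℝ, x = ((dg p 35 : ℤ) : ℝ) := ⟨_, rfl⟩
  obtain ⟨f1_01, H_f1_01⟩ : ∃ x : ℝ, x = ((dg p 36 : ℤ) : ℝ) := ⟨_, rfl⟩
  obtain ⟨f2_01, H_f2_01⟩ : ∃ x : ℝ, x = ((dg p 37 : ℤ) : ℝ) := ⟨_, rfl⟩
  obtain ⟨e0_10, H_e0_10⟩ : ∃ x : ℝ, x = ((dg p 38 : ℤ) : ℝ) := ⟨_, rfl⟩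
  obtain ⟨e1_10, H_e1_10⟩ : ∃ x : ℝ, x = ((dg p 39 : ℤ) : ℝ) := ⟨_, rfl⟩
  obtain ⟨e2_10, H_e2_10⟩ : ∃ x : ℝ, x = ((dg p 40 : ℤ) : ℝ) := ⟨_, rfl⟩
  obtain ⟨f0_10, H_f0_10⟩ : ∃ x : ℝ, x = ((dg p 41 : ℤ) : ℝ) := ⟨_, rfl⟩
  obtain ⟨f1_10, H_f1_10⟩ : ∃ x : ℝ, x = ((dg p 42 : ℤ) : ℝ) := ⟨_, rfl⟩
  obtain ⟨f2_10, H_f2_10⟩ : ∃ x : ℝ, x = ((dg p 43 : ℤ) : ℝ) := ⟨_, rfl⟩
  obtain ⟨e0_11, H_e0_11⟩ : ∃ x : ℝ, x = ((dg p 44 : ℤ) : ℝ) := ⟨_, rfl⟩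
  obtain ⟨e1_11, H_e1_11⟩ : ∃ x : ℝ, x = ((dg p 45 : ℤ) : ℝ) := ⟨_, rfl⟩
  obtain ⟨e2_11, H_e2_11⟩ : ∃ x : ℝ, x = ((dg p 46 : ℤ) : ℝ) := ⟨_, rfl⟩
  obtain ⟨f0_11, H_f0_11⟩ : ∃ x : ℝ, x = ((dg p 47 : ℤ) : ℝ) := ⟨_, rfl⟩
  obtain ⟨f1_11, H_f1_11⟩ : ∃ x : ℝ, x = ((dg p 48 : ℤ) : ℝ) := ⟨_, rfl⟩
  obtain ⟨f2_11, H_f2_11⟩ : ∃ x : ℝ, x = ((dg p 49 : ℤ) : ℝ) := ⟨_, rfl⟩
  obtain ⟨n0, H_n0⟩ : ∃ x : ℝ, x = (m * ((1 : ℝ) + r)) := ⟨_, rfl⟩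
  obtain ⟨n1, H_n1⟩ : ∃ x : ℝ, x = (m * ((1 : ℝ) - r)) := ⟨_, rfl⟩
  obtain ⟨h0, H_h0⟩ : ∃ x : ℝ, x = (((1 : ℝ) + r) * (((1 : ℝ) - n0) * ((((((((((-20748 : ℝ) * ((1 : ℝ) - ((2 : ℝ) * n0))) + (-19656 : ℝ)) * ((1 : ℝ) - ((2 : ℝ) * n0))) + (24024 : ℝ)) * ((1 : ℝ) - ((2 : ℝ) * n0))) + (-5096 : ℝ)) * ((1 : ℝ) - ((2 : ℝ) * n0))) + (24927 : ℝ)) + ((42770 : ℝ) * uc0_0)))) := ⟨_, rfl⟩
  obtain ⟨h1, H_h1⟩ : ∃ x : ℝ, x = (((1 : ℝ) - r) * (((1 : ℝ) - n1) * ((((((((((-20748 : ℝ) * ((1 : ℝ) - ((2 : ℝ) * n1))) + (-19656 : ℝ)) * ((1 : ℝ) - ((2 : ℝ) * n1))) + (24024 : ℝ)) * ((1 : ℝ) - ((2 : ℝ) * n1))) + (-5096 : ℝ)) * ((1 : ℝ) - ((2 : ℝ) * n1))) + (24927 : ℝ)) + ((42770 : ℝ) * uc1_1)))) := ⟨_, rfl⟩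
  obtain ⟨hm, H_hm⟩ : ∃ x : ℝ, x = ((2 : ℝ) * (((1 : ℝ) - m) * ((((((((((-20748 : ℝ) * ((1 : ℝ) - ((2 : ℝ) * m))) + (-19656 : ℝ)) * ((1 : ℝ) - ((2 : ℝ) * m))) + (24024 : ℝ)) * ((1 : ℝ) - ((2 : ℝ) * m))) + (-5096 : ℝ)) * ((1 : ℝ) - ((2 : ℝ) * m))) + (24927 : ℝ)) + ((42770 : ℝ) * ucm_2)))) := ⟨_, rfl⟩
  obtain ⟨c0, H_c0⟩ : ∃ x : ℝ, x = (((1 : ℝ) + r) * (((1 : ℝ) - n0) * ((((((((((-20748 : ℝ) * (((2 : ℝ) * n0) - (1 : ℝ))) + (-19656 : ℝ)) * (((2 : ℝ) * n0) - (1 : ℝ))) + (24024 : ℝ)) * (((2 : ℝ) * n0) - (1 : ℝ))) + (-5096 : ℝ)) * (((2 : ℝ) * n0) - (1 : ℝ))) + (24927 : ℝ)) + ((42770 : ℝ) * un0_3)))) := ⟨_, rfl⟩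
  obtain ⟨c1, H_c1⟩ : ∃ x : ℝ, x = (((1 : ℝ) - r) * (((1 : ℝ) - n1) * ((((((((((-20748 : ℝ) * (((2 : ℝ) * n1) - (1 : ℝ))) + (-19656 : ℝ)) * (((2 : ℝ) * n1) - (1 : ℝ))) + (24024 : ℝ)) * (((2 : ℝ) * n1) - (1 : ℝ))) + (-5096 : ℝ)) * (((2 : ℝ) * n1) - (1 : ℝ))) + (24927 : ℝ)) + ((42770 : ℝ) * un1_4)))) := ⟨_, rfl⟩
  obtain ⟨cm, H_cm⟩ : ∃ x : ℝ, x = ((2 : ℝ) * (((1 : ℝ) - m) * ((((((((((-20748 : ℝ) * (((2 : ℝ) * m) - (1 : ℝ))) + (-19656 : ℝ)) * (((2 : ℝ) * m) - (1 : ℝ))) + (24024 : ℝ)) * (((2 : ℝ) * m) - (1 : ℝ))) + (-5096 : ℝ)) * (((2 : ℝ) * m) - (1 : ℝ))) + (24927 : ℝ)) + ((42770 : ℝ) * unm_5)))) := ⟨_, rfl⟩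
  obtain ⟨z20, H_z20⟩ : ∃ x : ℝ, x = (((1 : ℝ) - ((2 : ℝ) * n0)) * ((1 : ℝ) - ((2 : ℝ) * n0))) := ⟨_, rfl⟩
  obtain ⟨q0, H_q0⟩ : ∃ x : ℝ, x = (((1 : ℝ) + r) * (((1 : ℝ) - n0) * ((((((((((16562 : ℝ) * z20) + (-16744 : ℝ)) * z20) + (26754 : ℝ)) * z20) + (-15470 : ℝ)) * z20) + (65546 : ℝ)) + ((-23478 : ℝ) * uv0_6)))) := ⟨_, rfl⟩
  obtain ⟨z21, H_z21⟩ : ∃ x : ℝ, x = (((1 : ℝ) - ((2 : ℝ) * n1)) * ((1 : ℝ) - ((2 : ℝ) * n1))) := ⟨_, rfl⟩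
  obtain ⟨q1, H_q1⟩ : ∃ x : ℝ, x = (((1 : ℝ) - r) * (((1 : ℝ) - n1) * ((((((((((16562 : ℝ) * z21) + (-16744 : ℝ)) * z21) + (26754 : ℝ)) * z21) + (-15470 : ℝ)) * z21) + (65546 : ℝ)) + ((-23478 : ℝ) * uv1_7)))) := ⟨_, rfl⟩
  obtain ⟨z2m, H_z2m⟩ : ∃ x : ℝ, x = (((1 : ℝ) - ((2 : ℝ) * m)) * ((1 : ℝ) - ((2 : ℝ) * m))) := ⟨_, rfl⟩
  obtain ⟨qm, H_qm⟩ : ∃ x : ℝ, x = ((2 : ℝ) * (((1 : ℝ) - m) * ((((((((((16562 : ℝ) * z2m) + (-16744 : ℝ)) * z2m) + (26754 : ℝ)) * z2m) + (-15470 : ℝ)) * z2m) + (65546 : ℝ)) + ((-23478 : ℝ) * uvm_8)))) := ⟨_, rfl⟩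
  obtain ⟨Ta, H_Ta⟩ : ∃ x : ℝ, x = (t0a + (t1a * r)) := ⟨_, rfl⟩
  obtain ⟨kla, H_kla⟩ : ∃ x : ℝ, x = (kl0a + (kl1a * r)) := ⟨_, rfl⟩
  obtain ⟨kha, H_kha⟩ : ∃ x : ℝ, x = (kh0a + (kh1a * r)) := ⟨_, rfl⟩
  obtain ⟨Ca, H_Ca⟩ : ∃ x : ℝ, x = ((c0a + (c1a * r)) + (c2a * (r * r))) := ⟨_, rfl⟩
  obtain ⟨Bea, H_Bea⟩ : ∃ x : ℝ, x = ((b0a + (b1a * r)) + (b2a * (r * r))) := ⟨_, rfl⟩
  obtain ⟨oUa, H_oUa⟩ : ∃ x : ℝ, x = ((65536 : ℝ) - Ta) := ⟨_, rfl⟩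
  obtain ⟨TTa, H_TTa⟩ : ∃ x : ℝ, x = (Ta * Ta) := ⟨_, rfl⟩
  obtain ⟨spa, H_spa⟩ : ∃ x : ℝ, x = ((4294967296 : ℝ) + TTa) := ⟨_, rfl⟩
  obtain ⟨sma, H_sma⟩ : ∃ x : ℝ, x = ((4294967296 : ℝ) - TTa) := ⟨_, rfl⟩
  obtain ⟨oCa, H_oCa⟩ : ∃ x : ℝ, x = (((4194304 : ℝ) * sma) - (Ca * spa)) := ⟨_, rfl⟩
  obtain ⟨oBa, H_oBa⟩ : ∃ x : ℝ, x = ((((549755813888 : ℝ) * Ta) * ((429496729600 : ℝ) - ((1 : ℝ) * (((65536 : ℝ) - Ta) * ((65536 : ℝ) - Ta))))) - ((429496729600 : ℝ) * (Bea * spa))) := ⟨_, rfl⟩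
  obtain ⟨Eha, H_Eha⟩ : ∃ x : ℝ, x = (((193273528320 : ℝ) + ((11796480 : ℝ) * Ta)) + ((1100 : ℝ) * TTa)) := ⟨_, rfl⟩
  obtain ⟨Nna, H_Nna⟩ : ∃ x : ℝ, x = (((26 : ℝ) * Eha) + (7924214661120 : ℝ)) := ⟨_, rfl⟩
  obtain ⟨oKha, H_oKha⟩ : ∃ x : ℝ, x = (((65536000000 : ℝ) * ((kha * spa) * Eha)) - ((24972886016 : ℝ) * ((Ta * sma) * Nna))) := ⟨_, rfl⟩
  obtain ⟨Ela, H_Ela⟩ : ∃ x : ℝ, x = (((21474836480 : ℝ) + ((1966080 : ℝ) * Ta)) + ((275 : ℝ) * TTa)) := ⟨_, rfl⟩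
  obtain ⟨Nnaa, H_Nnaa⟩ : ∃ x : ℝ, x = (((26 : ℝ) * Ela) + (880468295680 : ℝ)) := ⟨_, rfl⟩
  obtain ⟨oKla, H_oKla⟩ : ∃ x : ℝ, x = (((16668164096 : ℝ) * ((Ta * sma) * Nnaa)) - ((65536000000 : ℝ) * ((kla * spa) * Ela))) := ⟨_, rfl⟩
  obtain ⟨A0la, H_A0la⟩ : ∃ x : ℝ, x = ((4194304 : ℝ) + kla) := ⟨_, rfl⟩
  obtain ⟨A0ha, H_A0ha⟩ : ∃ x : ℝ, x = ((4194304 : ℝ) + kha) := ⟨_, rfl⟩
  obtain ⟨A1la, H_A1la⟩ : ∃ x : ℝ, x = (Ca - kla) := ⟨_, rfl⟩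
  obtain ⟨A1ha, H_A1ha⟩ : ∃ x : ℝ, x = (Ca - kha) := ⟨_, rfl⟩
  obtain ⟨Tb, H_Tb⟩ : ∃ x : ℝ, x = (t0b + (t1b * r)) := ⟨_, rfl⟩
  obtain ⟨klb, H_klb⟩ : ∃ x : ℝ, x = (kl0b + (kl1b * r)) := ⟨_, rfl⟩
  obtain ⟨khb, H_khb⟩ : ∃ x : ℝ, x = (kh0b + (kh1b * r)) := ⟨_, rfl⟩
  obtain ⟨Cb, H_Cb⟩ : ∃ x : ℝ, x = ((c0b + (c1b * r)) + (c2b * (r * r))) := ⟨_, rfl⟩
  obtain ⟨Beb, H_Beb⟩ : ∃ x : ℝ, x = ((b0b + (b1b * r)) + (b2b * (r * r))) := ⟨_, rfl⟩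
  obtain ⟨oUb, H_oUb⟩ : ∃ x : ℝ, x = ((65536 : ℝ) - Tb) := ⟨_, rfl⟩
  obtain ⟨TTb, H_TTb⟩ : ∃ x : ℝ, x = (Tb * Tb) := ⟨_, rfl⟩
  obtain ⟨spb, H_spb⟩ : ∃ x : ℝ, x = ((4294967296 : ℝ) + TTb) := ⟨_, rfl⟩
  obtain ⟨smb, H_smb⟩ : ∃ x : ℝ, x = ((4294967296 : ℝ) - TTb) := ⟨_, rfl⟩
  obtain ⟨oCb, H_oCb⟩ : ∃ x : ℝ, x = (((4194304 : ℝ) * smb) - (Cb * spb)) := ⟨_, rfl⟩
  obtain ⟨oBb, H_oBb⟩ : ∃ x : ℝ, x = ((((549755813888 : ℝ) * Tb) * ((429496729600 : ℝ) - ((1 : ℝ) * (((65536 : ℝ) - Tb) * ((65536 : ℝ) - Tb))))) - ((429496729600 : ℝ) * (Beb * spb))) := ⟨_, rfl⟩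
  obtain ⟨Ehb, H_Ehb⟩ : ∃ x : ℝ, x = (((193273528320 : ℝ) + ((11796480 : ℝ) * Tb)) + ((1100 : ℝ) * TTb)) := ⟨_, rfl⟩
  obtain ⟨Nnb, H_Nnb⟩ : ∃ x : ℝ, x = (((26 : ℝ) * Ehb) + (7924214661120 : ℝ)) := ⟨_, rfl⟩
  obtain ⟨oKhb, H_oKhb⟩ : ∃ x : ℝ, x = (((65536000000 : ℝ) * ((khb * spb) * Ehb)) - ((24972886016 : ℝ) * ((Tb * smb) * Nnb))) := ⟨_, rfl⟩
  obtain ⟨Elb, H_Elb⟩ : ∃ x : ℝ, x = (((21474836480 : ℝ) + ((1966080 : ℝ) * Tb)) + ((275 : ℝ) * TTb)) := ⟨_, rfl⟩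
  obtain ⟨Nnab, H_Nnab⟩ : ∃ x : ℝ, x = (((26 : ℝ) * Elb) + (880468295680 : ℝ)) := ⟨_, rfl⟩
  obtain ⟨oKlb, H_oKlb⟩ : ∃ x : ℝ, x = (((16668164096 : ℝ) * ((Tb * smb) * Nnab)) - ((65536000000 : ℝ) * ((klb * spb) * Elb))) := ⟨_, rfl⟩
  obtain ⟨A0lb, H_A0lb⟩ : ∃ x : ℝ, x = ((4194304 : ℝ) + klb) := ⟨_, rfl⟩
  obtain ⟨A0hb, H_A0hb⟩ : ∃ x : ℝ, x = ((4194304 : ℝ) + khb) := ⟨_, rfl⟩
  obtain ⟨A1lb, H_A1lb⟩ : ∃ x : ℝ, x = (Cb - klb) := ⟨_, rfl⟩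
  obtain ⟨A1hb, H_A1hb⟩ : ∃ x : ℝ, x = (Cb - khb) := ⟨_, rfl⟩
  obtain ⟨L0, H_L0⟩ : ∃ x : ℝ, x = ((((A0la * h0) + (A1la * h1)) + ((91000 : ℝ) * (Bea * r))) - ((4194304 : ℝ) * hm)) := ⟨_, rfl⟩
  obtain ⟨oL0, H_oL0⟩ : ∃ x : ℝ, x = (L0 - (r * r)) := ⟨_, rfl⟩
  obtain ⟨R0, H_R0⟩ : ∃ x : ℝ, x = ((((A0lb * c1) + (A1lb * c0)) + ((91000 : ℝ) * (Beb * r))) - ((4194304 : ℝ) * cm)) := ⟨_, rfl⟩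
  obtain ⟨oR0, H_oR0⟩ : ∃ x : ℝ, x = (R0 - (r * r)) := ⟨_, rfl⟩
  obtain ⟨L1, H_L1⟩ : ∃ x : ℝ, x = ((((A0ha * h0) + (A1ha * h1)) + ((91000 : ℝ) * (Bea * r))) - ((4194304 : ℝ) * hm)) := ⟨_, rfl⟩
  obtain ⟨oL1, H_oL1⟩ : ∃ x : ℝ, x = (L1 - (r * r)) := ⟨_, rfl⟩
  obtain ⟨R1, H_R1⟩ : ∃ x : ℝ, x = ((((A0hb * c1) + (A1hb * c0)) + ((91000 : ℝ) * (Beb * r))) - ((4194304 : ℝ) * cm)) := ⟨_, rfl⟩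
  obtain ⟨oR1, H_oR1⟩ : ∃ x : ℝ, x = (R1 - (r * r)) := ⟨_, rfl⟩
  obtain ⟨ola, H_ola⟩ : ∃ x : ℝ, x = ((1 : ℝ) * la) := ⟨_, rfl⟩
  obtain ⟨olab, H_olab⟩ : ∃ x : ℝ, x = ((la * lb) - (1099511627776 : ℝ)) := ⟨_, rfl⟩
  obtain ⟨s0_00, H_s0_00⟩ : ∃ x : ℝ, x = ((e0_00 + (e1_00 * r)) + (e2_00 * (r * r))) := ⟨_, rfl⟩
  obtain ⟨s1_00, H_s1_00⟩ : ∃ x : ℝ, x = ((f0_00 + (f1_00 * r)) + (f2_00 * (r * r))) := ⟨_, rfl⟩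
  obtain ⟨oS0_00, H_oS0_00⟩ : ∃ x : ℝ, x = ((A0la * A1lb) - (s0_00 * s0_00)) := ⟨_, rfl⟩
  obtain ⟨oS1_00, H_oS1_00⟩ : ∃ x : ℝ, x = ((A1la * A0lb) - (s1_00 * s1_00)) := ⟨_, rfl⟩
  obtain ⟨g_00, H_g_00⟩ : ∃ x : ℝ, x = (((s0_00 * q0) + (s1_00 * q1)) - ((4194304 : ℝ) * qm)) := ⟨_, rfl⟩
  obtain ⟨M_00, H_M_00⟩ : ∃ x : ℝ, x = ((g_00 * ((la * L0) + (lb * R0))) + ((2097152 : ℝ) * (L0 * R0))) := ⟨_, rfl⟩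
  obtain ⟨s0_01, H_s0_01⟩ : ∃ x : ℝ, x = ((e0_01 + (e1_01 * r)) + (e2_01 * (r * r))) := ⟨_, rfl⟩
  obtain ⟨s1_01, H_s1_01⟩ : ∃ x : ℝ, x = ((f0_01 + (f1_01 * r)) + (f2_01 * (r * r))) := ⟨_, rfl⟩
  obtain ⟨oS0_01, H_oS0_01⟩ : ∃ x : ℝ, x = ((A0la * A1hb) - (s0_01 * s0_01)) := ⟨_, rfl⟩
  obtain ⟨oS1_01, H_oS1_01⟩ : ∃ x : ℝ, x = ((A1la * A0hb) - (s1_01 * s1_01)) := ⟨_, rfl⟩
  obtain ⟨g_01, H_g_01⟩ : ∃ x : ℝ, x = (((s0_01 * q0) + (s1_01 * q1)) - ((4194304 : ℝ) * qm)) := ⟨_, rfl⟩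
  obtain ⟨M_01, H_M_01⟩ : ∃ x : ℝ, x = ((g_01 * ((la * L0) + (lb * R1))) + ((2097152 : ℝ) * (L0 * R1))) := ⟨_, rfl⟩
  obtain ⟨s0_10, H_s0_10⟩ : ∃ x : ℝ, x = ((e0_10 + (e1_10 * r)) + (e2_10 * (r * r))) := ⟨_, rfl⟩
  obtain ⟨s1_10, H_s1_10⟩ : ∃ x : ℝ, x = ((f0_10 + (f1_10 * r)) + (f2_10 * (r * r))) := ⟨_, rfl⟩
  obtain ⟨oS0_10, H_oS0_10⟩ : ∃ x : ℝ, x = ((A0ha * A1lb) - (s0_10 * s0_10)) := ⟨_, rfl⟩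
  obtain ⟨oS1_10, H_oS1_10⟩ : ∃ x : ℝ, x = ((A1ha * A0lb) - (s1_10 * s1_10)) := ⟨_, rfl⟩
  obtain ⟨g_10, H_g_10⟩ : ∃ x : ℝ, x = (((s0_10 * q0) + (s1_10 * q1)) - ((4194304 : ℝ) * qm)) := ⟨_, rfl⟩
  obtain ⟨M_10, H_M_10⟩ : ∃ x : ℝ, x = ((g_10 * ((la * L1) + (lb * R0))) + ((2097152 : ℝ) * (L1 * R0))) := ⟨_, rfl⟩
  obtain ⟨s0_11, H_s0_11⟩ : ∃ x : ℝ, x = ((e0_11 + (e1_11 * r)) + (e2_11 * (r * r))) := ⟨_, rfl⟩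
  obtain ⟨s1_11, H_s1_11⟩ : ∃ x : ℝ, x = ((f0_11 + (f1_11 * r)) + (f2_11 * (r * r))) := ⟨_, rfl⟩
  obtain ⟨oS0_11, H_oS0_11⟩ : ∃ x : ℝ, x = ((A0ha * A1hb) - (s0_11 * s0_11)) := ⟨_, rfl⟩
  obtain ⟨oS1_11, H_oS1_11⟩ : ∃ x : ℝ, x = ((A1ha * A0hb) - (s1_11 * s1_11)) := ⟨_, rfl⟩
  obtain ⟨g_11, H_g_11⟩ : ∃ x : ℝ, x = (((s0_11 * q0) + (s1_11 * q1)) - ((4194304 : ℝ) * qm)) := ⟨_, rfl⟩
  obtain ⟨M_11, H_M_11⟩ : ∃ x : ℝ, x = ((g_11 * ((la * L1) + (lb * R1))) + ((2097152 : ℝ) * (L1 * R1))) := ⟨_, rfl⟩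
  have H' := H t0a t1a kl0a kl1a kh0a kh1a c0a c1a c2a b0a b1a b2a t0b t1b kl0b kl1b kh0b kh1b c0b c1b c2b b0b b1b b2b la lb e0_00 e1_00 e2_00 f0_00 f1_00 f2_00 e0_01 e1_01 e2_01 f0_01 f1_01 f2_01 e0_10 e1_10 e2_10 f0_10 f1_10 f2_10 e0_11 e1_11 e2_11 f0_11 f1_11 f2_11 n0 n1 h0 h1 hm c0 c1 cm z20 q0 z21 q1 z2m qm Ta kla kha Ca Bea oUa TTa spa sma oCa oBa Eha Nna oKha Ela Nnaa oKla A0la A0ha A1la A1ha Tb klb khb Cb Beb oUb TTb spb smb oCb oBb Ehb Nnb oKhb Elb Nnab oKlb A0lb A0hb A1lb A1hb L0 oL0 R0 oR0 L1 oL1 R1 oR1 ola olab s0_00 s1_00 oS0_00 oS1_00 g_00 M_00 s0_01 s1_01 oS0_01 oS1_01 g_01 M_01 s0_10 s1_10 oS0_10 oS1_10 g_10 M_10 s0_11 s1_11 oS0_11 oS1_11 g_11 M_11 H_t0a H_t1a H_kl0a H_kl1a H_kh0a H_kh1a H_c0a H_c1a H_c2a H_b0a H_b1a H_b2a H_t0b H_t1b H_kl0b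 H_kl1b H_kh0b H_kh1b H_c0b H_c1b H_c2b H_b0b H_b1b H_b2b H_la H_lb H_e0_00 H_e1_00 H_e2_00 H_f0_00 H_f1_00 H_f2_00 H_e0_01 H_e1_01 H_e2_01 H_f0_01 H_f1_01 H_f2_01 H_e0_10 H_e1_10 H_e2_10 H_f0_10 H_f1_10 H_f2_10 H_e0_11 H_e1_11 H_e2_11 H_f0_11 H_f1_11 H_f2_11 H_n0 H_n1 H_h0 H_h1 H_hm H_c0 H_c1 H_cm H_z20 H_q0 H_z21 H_q1 H_z2m H_qm H_Ta H_kla H_kha H_Ca H_Bea H_oUa H_TTa H_spa H_sma H_oCa H_oBa H_Eha H_Nna H_oKha H_Ela H_Nnaa H_oKla H_A0la H_A0ha H_A1la H_A1ha H_Tb H_klb H_khb H_Cb H_Beb H_oUb H_TTb H_spb H_smb H_oCb H_oBb H_Ehb H_Nnb H_oKhb H_Elb H_Nnab H_oKlb H_A0lb H_A0hb H_A1lb H_A1hb H_L0 H_oL0 H_R0 H_oR0 H_L1 H_oL1 H_R1 H_oR1 H_ola H_olab H_s0_00 H_s1_00 H_oS0_00 H_oS1_00 H_g_00 H_M_00 H_s0_01 H_s1_01 H_oS0_01 H_oS1_01 H_g_01 H_M_01 H_s0_10 H_s1_10 H_oS0_10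 H_oS1_10 H_g_10 H_M_10 H_s0_11 H_s1_11 H_oS0_11 H_oS1_11 H_g_11 H_M_11
  clear H
  obtain ⟨o_Ta, o_oUa, o_oCa, o_oBa, o_oKha, o_oKla, o_A1ha, o_A0la, o_Tb, o_oUb, o_oCb, o_oBb, o_oKhb, o_oKlb, o_A1hb, o_A0lb, o_oL0, o_oR0, o_oL1, o_oR1, o_ola, o_olab, o_h1, o_c0, o_oS0_00, o_oS1_00, o_s0_00, o_s1_00, o_M_00, o_oS0_01, o_oS1_01, o_s0_01, o_s1_01, o_M_01, o_oS0_10, o_oS1_10, o_s0_10, o_s1_10, o_M_10, o_oS0_11, o_oS1_11, o_s0_11, o_s1_11, o_M_11⟩ := H'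
  rw [← H_n0, ← H_n1]
  have emid : (n0 + n1) / 2 = m := by rw [H_n0, H_n1]; ring
  have hd : n0 - n1 = 2 * m * r := by rw [H_n0, H_n1]; ring
  have eB0 : B2 n0 = m / 45500 * h0 := by
    have w := wterm (x := 1 - n0) (a := 1) (b := 50) (d := dc0_0) (u := uc0_0) (by norm_num) (by rw [H_dc0_0, H_n0]; ring) P_dc0_0 H_uc0_0
    simp only [B2, BP]
    rw [w, H_h0, factor_eq H_n0]
    ring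
  have eB1 : B2 n1 = m / 45500 * h1 := by
    have w := wterm (x := 1 - n1) (a := 1) (b := 50) (d := dc1_1) (u := uc1_1) (by norm_num) (by rw [H_dc1_1, H_n1]; ring) P_dc1_1 H_uc1_1
    simp only [B2, BP]
    rw [w, H_h1, factor_eq H_n1]
    ring
  have eBm : 2 * B2 m = m / 45500 * hm := by
    have w := wterm (x := 1 - m) (a := 1) (b := 50) (d := dcm_2) (u := ucm_2) (by norm_num) (by rw [H_dcm_2]; ring) P_dcm_2 H_ucm_2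
    simp only [B2, BP]
    rw [w, H_hm]
    ring
  have eC0 : B2 (1 - n0) = m / 45500 * c0 := by
    have w := wterm (x := 1 - (1 - n0)) (a := 1) (b := 50) (d := dn0_3) (u := un0_3) (by norm_num) (by rw [H_dn0_3, H_n0]; ring) P_dn0_3 H_un0_3
    simp only [B2, BP]
    rw [w, H_c0, factor_eq H_n0]
    ring
  have eC1 : B2 (1 - n1) = m / 45500 * c1 := by
    have w := wterm (x := 1 - (1 - n1)) (a := 1) (b := 50) (d := dn1_4) (u := un1_4) (by norm_num) (by rw [H_dn1_4, H_n1]; ring) P_dn1_4 H_un1_4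
    simp only [B2, BP]
    rw [w, H_c1, factor_eq H_n1]
    ring
  have eCm : 2 * B2 (1 - m) = m / 45500 * cm := by
    have w := wterm (x := 1 - (1 - m)) (a := 1) (b := 50) (d := dnm_5) (u := unm_5) (by norm_num) (by rw [H_dnm_5]; ring) P_dnm_5 H_unm_5
    simp only [B2, BP]
    rw [w, H_cm]
    ring
  have eQ0 : Q2 n0 = m / 45500 * q0 := by
    have w := wterm (x := n0 * (1 - n0)) (a := 1) (b := 80) (d := dv0_6) (u := uv0_6) (by norm_num) (by rw [H_dv0_6, H_n0]; ring) P_dv0_6 H_uv0_6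
    simp only [Q2, QP]
    rw [w, H_q0, factor_eq H_n0]
    rw [H_z20]
    ring
  have eQ1 : Q2 n1 = m / 45500 * q1 := by
    have w := wterm (x := n1 * (1 - n1)) (a := 1) (b := 80) (d := dv1_7) (u := uv1_7) (by norm_num) (by rw [H_dv1_7, H_n1]; ring) P_dv1_7 H_uv1_7
    simp only [Q2, QP]
    rw [w, H_q1, factor_eq H_n1]
    rw [H_z21]
    ring
  have eQm : 2 * Q2 m = m / 45500 * qm := by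
    have w := wterm (x := m * (1 - m)) (a := 1) (b := 80) (d := dvm_8) (u := uvm_8) (by norm_num) (by rw [H_dvm_8]; ring) P_dvm_8 H_uvm_8
    simp only [Q2, QP]
    rw [w, H_qm]
    rw [H_z2m]
    ring
  have eBm' : 2 * B2 ((n0 + n1) / 2) = m / 45500 * hm := by rw [emid]; exact eBm
  have eCm' : 2 * B2 (1 - (n0 + n1) / 2) = m / 45500 * cm := by rw [emid]; exact eCm
  have eQm' : 2 * Q2 ((n0 + n1) / 2) = m / 45500 * qm := by rw [emid]; exact eQm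
  have K00 : SIK B2 Q2 (fun _ => 0) (Ca / 4194304) (Bea / 4194304) 0 0 (Cb / 4194304) (Beb / 4194304) 0 0 n0 n1 (kla / 4194304) (klb / 4194304) := by
    refine corner_kbK (m := m) (r := r) (Den := 45500) (D := 4194304) (T := 1048576) (L := L0) (R := R0) (A0 := A0la) (A1 := A1la) (B0 := A0lb) (B1 := A1lb) (s0 := s0_00) (s1 := s1_00) (la := la) (lb := lb) (by norm_num) (by norm_num) hm0 hr0 hd eB0 eB1 eBm' eC0 eC1 eCm' eQ0 eQ1 eQm' (by norm_num) H_A0la H_A1la H_A0lb H_A1lb ?_ ?_ ?_ ?_ ?_ ?_ ?_ ?_ o_s0_00 o_s1_00 ?_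
    · rw [H_L0]; ring
    · rw [H_R0]; ring
    · rw [← H_oL0]; exact o_oL0
    · rw [← H_oR0]; exact o_oR0
    · have h := o_ola; rw [H_ola] at h; linarith only [h]
    · have h := o_olab; rw [H_olab] at h; linarith only [h]
    · rw [← H_oS0_00]; exact o_oS0_00
    · rw [← H_oS1_00]; exact o_oS1_00
    · have h := o_M_00; rw [H_M_00, H_g_00] at h; linarith only [h]
  have K01 : SIK B2 Q2 (fun _ => 0) (Ca / 4194304) (Bea / 4194304) 0 0 (Cb / 4194304) (Beb / 4194304) 0 0 n0 n1 (kla / 4194304) (khb / 4194304) := by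
    refine corner_kbK (m := m) (r := r) (Den := 45500) (D := 4194304) (T := 1048576) (L := L0) (R := R1) (A0 := A0la) (A1 := A1la) (B0 := A0hb) (B1 := A1hb) (s0 := s0_01) (s1 := s1_01) (la := la) (lb := lb) (by norm_num) (by norm_num) hm0 hr0 hd eB0 eB1 eBm' eC0 eC1 eCm' eQ0 eQ1 eQm' (by norm_num) H_A0la H_A1la H_A0hb H_A1hb ?_ ?_ ?_ ?_ ?_ ?_ ?_ ?_ o_s0_01 o_s1_01 ?_
    · rw [H_L0]; ring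
    · rw [H_R1]; ring
    · rw [← H_oL0]; exact o_oL0
    · rw [← H_oR1]; exact o_oR1
    · have h := o_ola; rw [H_ola] at h; linarith only [h]
    · have h := o_olab; rw [H_olab] at h; linarith only [h]
    · rw [← H_oS0_01]; exact o_oS0_01
    · rw [← H_oS1_01]; exact o_oS1_01
    · have h := o_M_01; rw [H_M_01, H_g_01] at h; linarith only [h]
  have K10 : SIK B2 Q2 (fun _ => 0) (Ca / 4194304) (Bea / 4194304) 0 0 (Cb / 4194304) (Beb / 4194304) 0 0 n0 n1 (kha / 4194304) (klb / 4194304) := by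
    refine corner_kbK (m := m) (r := r) (Den := 45500) (D := 4194304) (T := 1048576) (L := L1) (R := R0) (A0 := A0ha) (A1 := A1ha) (B0 := A0lb) (B1 := A1lb) (s0 := s0_10) (s1 := s1_10) (la := la) (lb := lb) (by norm_num) (by norm_num) hm0 hr0 hd eB0 eB1 eBm' eC0 eC1 eCm' eQ0 eQ1 eQm' (by norm_num) H_A0ha H_A1ha H_A0lb H_A1lb ?_ ?_ ?_ ?_ ?_ ?_ ?_ ?_ o_s0_10 o_s1_10 ?_
    · rw [H_L1]; ring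
    · rw [H_R0]; ring
    · rw [← H_oL1]; exact o_oL1
    · rw [← H_oR0]; exact o_oR0
    · have h := o_ola; rw [H_ola] at h; linarith only [h]
    · have h := o_olab; rw [H_olab] at h; linarith only [h]
    · rw [← H_oS0_10]; exact o_oS0_10
    · rw [← H_oS1_10]; exact o_oS1_10
    · have h := o_M_10; rw [H_M_10, H_g_10] at h; linarith only [h]
  have K11 : SIK B2 Q2 (fun _ => 0) (Ca / 4194304) (Bea / 4194304) 0 0 (Cb / 4194304) (Beb / 4194304) 0 0 n0 n1 (kha / 4194304) (khb / 4194304) := by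
    refine corner_kbK (m := m) (r := r) (Den := 45500) (D := 4194304) (T := 1048576) (L := L1) (R := R1) (A0 := A0ha) (A1 := A1ha) (B0 := A0hb) (B1 := A1hb) (s0 := s0_11) (s1 := s1_11) (la := la) (lb := lb) (by norm_num) (by norm_num) hm0 hr0 hd eB0 eB1 eBm' eC0 eC1 eCm' eQ0 eQ1 eQm' (by norm_num) H_A0ha H_A1ha H_A0hb H_A1hb ?_ ?_ ?_ ?_ ?_ ?_ ?_ ?_ o_s0_11 o_s1_11 ?_
    · rw [H_L1]; ring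
    · rw [H_R1]; ring
    · rw [← H_oL1]; exact o_oL1
    · rw [← H_oR1]; exact o_oR1
    · have h := o_ola; rw [H_ola] at h; linarith only [h]
    · have h := o_olab; rw [H_olab] at h; linarith only [h]
    · rw [← H_oS0_11]; exact o_oS0_11
    · rw [← H_oS1_11]; exact o_oS1_11
    · have h := o_M_11; rw [H_M_11, H_g_11] at h; linarith only [h]
  have Ta0 : 0 ≤ Ta := o_Ta
  have Ta1 : Ta ≤ 65536 := by have h := o_oUa; rw [H_oUa] at h; linarith only [h]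
  have ta0 : 0 ≤ Ta / 65536 := by positivity
  have ta1 : Ta / 65536 ≤ 1 := by rw [div_le_one (by norm_num)]; exact Ta1
  have hCa : Ca / 4194304 ≤ Cf (Ta / 65536) := by
    refine le_Cf (by norm_num) (by norm_num) ?_
    have h := o_oCa; rw [H_oCa, H_sma, H_spa, H_TTa] at h; linarith only [h]
  have hba : Bea / 4194304 ≤ btf (1 / 100) (Ta / 65536) := by
    refine le_btf (by norm_num) (by norm_num) (by norm_num) ?_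
    have h := o_oBa; rw [H_oBa, H_spa, H_TTa] at h; linarith only [h]
  have hha : Kf (13 / 50) (41 / 100) (6 / 5) (11 / 5) (2977 / 10000) (3 / 10) (Ta / 65536) ≤ kha / 4194304 := by
    refine Kf_le (by norm_num) (by norm_num) (by norm_num) (by norm_num) ta0 ?_
    have h := div_nonneg o_oKha (show (0:ℝ) ≤ 604462909807314587353088000000000 by norm_num)
    rw [H_oKha, H_Nna, H_Eha, H_sma, H_spa, H_TTa] at h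
    refine h.trans_eq ?_
    ring
  have hla : kla / 4194304 ≤ Kf (13 / 50) (41 / 100) (6 / 5) (11 / 5) (1987 / 10000) (1 / 5) (Ta / 65536) := by
    refine le_Kf (by norm_num) (by norm_num) (by norm_num) (by norm_num) ta0 ?_
    have h := div_nonneg o_oKla (show (0:ℝ) ≤ 151115727451828646838272000000000 by norm_num)
    rw [H_oKla, H_Nnaa, H_Ela, H_sma, H_spa, H_TTa] at h
    refine h.trans_eq ?_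
    ring
  have hna : -1 ≤ kla / 4194304 := by
    rw [le_div_iff₀ (by norm_num)]; have h := o_A0la; rw [H_A0la] at h; linarith only [h]
  have hma : Kf (13 / 50) (41 / 100) (6 / 5) (11 / 5) (1987 / 10000) (1 / 5) (Ta / 65536) ≤ Kf (13 / 50) (41 / 100) (6 / 5) (11 / 5) (2977 / 10000) (3 / 10) (Ta / 65536) := by
    have h := Kf_bounds (a := 13 / 50) (b := 41 / 100) (p := 6 / 5) (q := 11 / 5) (wa := 1987 / 10000) (w := 2977 / 10000) (wb := 2977 / 10000) (ca := 1 / 5) (c := 3 / 10) (cb := 3 / 10) (by norm_num) (by norm_num) (by norm_num) (by norm_num) (by norm_num) (by norm_num) le_rfl (by norm_num) (by norm_num) le_rfl (by norm_num) ta0 ta1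
    exact h.2.1
  have hka : kha / 4194304 ≤ Ca / 4194304 := by
    apply div_le_div_of_nonneg_right _ (by norm_num)
    have h := o_A1ha; rw [H_A1ha] at h; linarith only [h]
  have Tb0 : 0 ≤ Tb := o_Tb
  have Tb1 : Tb ≤ 65536 := by have h := o_oUb; rw [H_oUb] at h; linarith only [h]
  have tb0 : 0 ≤ Tb / 65536 := by positivity
  have tb1 : Tb / 65536 ≤ 1 := by rw [div_le_one (by norm_num)]; exact Tb1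
  have hCb : Cb / 4194304 ≤ Cf (Tb / 65536) := by
    refine le_Cf (by norm_num) (by norm_num) ?_
    have h := o_oCb; rw [H_oCb, H_smb, H_spb, H_TTb] at h; linarith only [h]
  have hbb : Beb / 4194304 ≤ btf (1 / 100) (Tb / 65536) := by
    refine le_btf (by norm_num) (by norm_num) (by norm_num) ?_
    have h := o_oBb; rw [H_oBb, H_spb, H_TTb] at h; linarith only [h]
  have hhb : Kf (13 / 50) (41 / 100) (6 / 5) (11 / 5) (2977 / 10000) (3 / 10) (Tb / 65536) ≤ khb / 4194304 := by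
    refine Kf_le (by norm_num) (by norm_num) (by norm_num) (by norm_num) tb0 ?_
    have h := div_nonneg o_oKhb (show (0:ℝ) ≤ 604462909807314587353088000000000 by norm_num)
    rw [H_oKhb, H_Nnb, H_Ehb, H_smb, H_spb, H_TTb] at h
    refine h.trans_eq ?_
    ring
  have hlb : klb / 4194304 ≤ Kf (13 / 50) (41 / 100) (6 / 5) (11 / 5) (1987 / 10000) (1 / 5) (Tb / 65536) := by
    refine le_Kf (by norm_num) (by norm_num) (by norm_num) (by norm_num) tb0 ?_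
    have h := div_nonneg o_oKlb (show (0:ℝ) ≤ 151115727451828646838272000000000 by norm_num)
    rw [H_oKlb, H_Nnab, H_Elb, H_smb, H_spb, H_TTb] at h
    refine h.trans_eq ?_
    ring
  have hnb : -1 ≤ klb / 4194304 := by
    rw [le_div_iff₀ (by norm_num)]; have h := o_A0lb; rw [H_A0lb] at h; linarith only [h]
  have hmb : Kf (13 / 50) (41 / 100) (6 / 5) (11 / 5) (1987 / 10000) (1 / 5) (Tb / 65536) ≤ Kf (13 / 50) (41 / 100) (6 / 5) (11 / 5) (2977 / 10000) (3 / 10) (Tb / 65536) := by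
    have h := Kf_bounds (a := 13 / 50) (b := 41 / 100) (p := 6 / 5) (q := 11 / 5) (wa := 1987 / 10000) (w := 2977 / 10000) (wb := 2977 / 10000) (ca := 1 / 5) (c := 3 / 10) (cb := 3 / 10) (by norm_num) (by norm_num) (by norm_num) (by norm_num) (by norm_num) (by norm_num) le_rfl (by norm_num) (by norm_num) le_rfl (by norm_num) tb0 tb1
    exact h.2.1
  have hkb : khb / 4194304 ≤ Cb / 4194304 := by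
    apply div_le_div_of_nonneg_right _ (by norm_num)
    have h := o_A1hb; rw [H_A1hb] at h; linarith only [h]
  have hQ0 : 0 ≤ Q2 n0 := potOK2.Qn n0 (by rw [H_n0]; exact hN0.le) (by rw [H_n0]; exact hN0')
  have hQ1 : 0 ≤ Q2 n1 := potOK2.Qn n1 (by rw [H_n1]; exact hN1) (by rw [H_n1]; exact hN1')
  have hB1 : 0 ≤ B2 n1 := by rw [eB1]; exact mul_nonneg (by positivity) o_h1
  have hB0 : 0 ≤ B2 (1 - n0) := by rw [eC0]; exact mul_nonneg (by positivity) o_c0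
  refine ⟨Ta / 65536, Tb / 65536, ta0, ta1, tb0, tb1, ?_⟩
  exact corners_of (sub_nonneg.mp (by rw [hd]; positivity)) hQ0 hQ1 hB1 hB0 hna hnb hla hma hha hka hlb hmb hhb hkb hCa hba hCb hbb K00 K01 K10 K11

/-- (SI) on the interval -/
theorem SI2_proof : SI2 := by
  unfold SI2
  exact sis_of_point point

end Crest.Agent.R307.SIS2
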