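import Crest.Agent.R307.GenSPot
import Crest.Agent.R307.PIS1
import Crest.Agent.R307.SIS1f
import Crest.Agent.R307.SIS2f
import Crest.Agent.R307.SIS3f
import Crest.Agent.R307.SIS4f
import Crest.Agent.R307.Final71

/-!
Row 307 (S0471), regime S complete: the bound for all `0 < c ≤ 2/5`
(`regimeS` of `GenSPot`, product inequality `PIS1.pis_S`, step inequalities `SIS1..SIS4`).
-/

set_option autoImplicit false

namespace Crest.Agent.R307.RegS

open Crest.Agent.R307.GenProd Crest.Agent.R307.GenS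

/-- **Regime S**: `0 < c ≤ 2/5`. -/
theorem boundS (c : ℝ) (hc0 : 0 < c) (hc : c ≤ 2 / 5) : Bound (Real.sqrt (1 - c ^ 2)) :=
  regimeS PIS1.pis_S SIS1.SI1_proof SIS2.SI2_proof SIS3.SI3_proof SIS4.SI4_proof c hc0 hc

/-- Regime S in the interval format of `Final71`. -/
theorem boundOnS {a : ℝ} (ha : 0 < a) : Final71.BoundOn a (2 / 5) :=
  fun c h1 h2 => boundS c (lt_of_lt_of_le ha h1) h2

end Crest.Agent.R307.RegS
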