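import Crest.Agent.R307.Split
import Crest.Agent.R307.Ode

/-!
Row 307 (S0471): definitions for the decoupled square-root functional.
-/

set_option autoImplicit false

open Crest.CubeNoise

namespace Crest.Agent.R307

/-- indicator of a Boolean function as a real function -/
noncomputable def ind {n : ℕ} (B : (Fin n → Bool) → Bool) (x : Fin n → Bool) : ℝ :=
  if B x then 1 else 0

/-- the noisy indicator -/
noncomputable def qq {n : ℕ} (ρ : ℝ) (B : (Fin n → Bool) → Bool) (x : Fin n → Bool) : ℝ :=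
  noise ρ (ind B) x

/-- the measure -/
noncomputable def mu {n : ℕ} (B : (Fin n → Bool) → Bool) : ℝ := cubeAverage (ind B)

/-- the square-root functional `E (√q - q)` -/
noncomputable def XX {n : ℕ} (ρ : ℝ) (B : (Fin n → Bool) → Bool) : ℝ :=
  cubeAverage (fun x => Real.sqrt (qq ρ B x) - qq ρ B x)

theorem ind_nonneg {n : ℕ} (B : (Fin n → Bool) → Bool) (x : Fin n → Bool) : 0 ≤ ind B x := by
  unfold ind; split_ifs <;> norm_num

theorem ind_le_one {n : ℕ} (B : (Fin n → Bool) → Bool) (x : Fin n → Bool) : ind B x ≤ 1 := by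
  unfold ind; split_ifs <;> norm_num

theorem ind_not {n : ℕ} (B : (Fin n → Bool) → Bool) (x : Fin n → Bool) :
    ind (fun x => !B x) x = 1 - ind B x := by
  unfold ind
  by_cases h : B x = true
  · simp [h]
  · simp [h]

theorem spin_eq_ind {n : ℕ} (B : (Fin n → Bool) → Bool) (x : Fin n → Bool) :
    spin (B x) = 2 * ind B x - 1 := by
  unfold ind spin; cases h : B x <;> norm_num

theorem mu_nonneg {n : ℕ} (B : (Fin n → Bool) → Bool) : 0 ≤ mu B := by
  have := cubeAverage_mono (g := fun _ => (0 : ℝ)) (h := ind B) (ind_nonneg B)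
  rwa [cubeAverage_const] at this

theorem mu_le_one {n : ℕ} (B : (Fin n → Bool) → Bool) : mu B ≤ 1 := by
  have := cubeAverage_mono (g := ind B) (h := fun _ => (1 : ℝ)) (ind_le_one B)
  rwa [cubeAverage_const] at this

theorem mu_not {n : ℕ} (B : (Fin n → Bool) → Bool) : mu (fun x => !B x) = 1 - mu B := by
  have h : cubeAverage (fun x => ind (fun x => !B x) x + ind B x) = 1 := by
    rw [show (fun x => ind (fun x => !B x) x + ind B x) = fun _ => (1 : ℝ) from by
      funext x; rw [ind_not]; ring]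
    exact cubeAverage_const 1
  rw [cubeAverage_add] at h
  have h1 : mu (fun x => !B x) + mu B = 1 := h
  linarith

theorem qq_not {n : ℕ} (ρ : ℝ) (B : (Fin n → Bool) → Bool) (x : Fin n → Bool) :
    qq ρ (fun x => !B x) x = 1 - qq ρ B x := by
  unfold qq
  rw [Ode.noise_eq, Ode.noise_eq, ← Ode.sum_wt ρ x, ← Finset.sum_sub_distrib]
  refine Finset.sum_congr rfl fun y _ => ?_
  rw [ind_not]; ring

theorem noise_spin {n : ℕ} (ρ : ℝ) (B : (Fin n → Bool) → Bool) (x : Fin n → Bool) :
    noise ρ (fun y => spin (B y)) x = 2 * qq ρ B x - 1 := by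
  unfold qq
  rw [Ode.noise_eq, Ode.noise_eq]
  have h : ∀ y, Ode.wt ρ x y * spin (B y) = 2 * (Ode.wt ρ x y * ind B y) - Ode.wt ρ x y := by
    intro y
    rw [spin_eq_ind]; ring
  rw [Finset.sum_congr rfl fun y _ => h y, Finset.sum_sub_distrib, Ode.sum_wt, ← Finset.mul_sum]

theorem qq_nonneg {n : ℕ} {ρ : ℝ} (h : |ρ| ≤ 1) (B : (Fin n → Bool) → Bool)
    (x : Fin n → Bool) : 0 ≤ qq ρ B x := by
  unfold qq
  rw [Ode.noise_eq]
  exact Finset.sum_nonneg fun y _ => mul_nonneg (Ode.wt_nonneg h x y) (ind_nonneg B y)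

theorem qq_le_one {n : ℕ} {ρ : ℝ} (h : |ρ| ≤ 1) (B : (Fin n → Bool) → Bool)
    (x : Fin n → Bool) : qq ρ B x ≤ 1 := by
  have := qq_nonneg h (fun x => !B x) x
  rw [qq_not] at this
  linarith

theorem cubeAverage_qq {n : ℕ} (ρ : ℝ) (B : (Fin n → Bool) → Bool) :
    cubeAverage (fun x => qq ρ B x) = mu B :=
  Ode.cubeAverage_noise ρ (ind B)

theorem cubeAverage_sub {n : ℕ} (g h : (Fin n → Bool) → ℝ) :
    cubeAverage (fun x => g x - h x) = cubeAverage g - cubeAverage h := by
  unfold cubeAverage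
  rw [Finset.sum_sub_distrib, sub_div]

theorem XX_eq {n : ℕ} (ρ : ℝ) (B : (Fin n → Bool) → Bool) :
    XX ρ B = cubeAverage (fun x => Real.sqrt (qq ρ B x)) - mu B := by
  unfold XX
  rw [cubeAverage_sub, cubeAverage_qq]

end Crest.Agent.R307
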