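import Crest.Agent.R307.SqrtDefs

/-!
Row 307 (S0471): reduction of the statement to the decoupled square-root functional.
-/

set_option autoImplicit false

open Crest.CubeNoise

namespace Crest.Agent.R307

theorem cubeAverage_sq_ge {n : ℕ} (g : (Fin n → Bool) → ℝ) :
    (cubeAverage g) ^ 2 ≤ cubeAverage (fun x => (g x) ^ 2) := by
  have h : ∀ x, 2 * cubeAverage g * g x - (cubeAverage g) ^ 2 ≤ (g x) ^ 2 := by
    intro x
    nlinarith [sq_nonneg (g x - cubeAverage g)]
  have h2 := cubeAverage_mono h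
  rw [cubeAverage_sub, cubeAverage_const_mul, cubeAverage_const] at h2
  nlinarith

/-- Jensen step: `1 + E √(1 - g²) ≥ (1 + X_B + X_{Bᶜ})²` for `g = T_ρ spin B`. -/
theorem sq_le_one_add_Z {n : ℕ} {ρ : ℝ} (h : |ρ| ≤ 1) (B : (Fin n → Bool) → Bool) :
    (1 + XX ρ B + XX ρ (fun x => !B x)) ^ 2 ≤
      1 + cubeAverage (fun x => Real.sqrt (1 - (noise ρ (fun y => spin (B y)) x) ^ 2)) := by
  have e : 1 + XX ρ B + XX ρ (fun x => !B x) =
      cubeAverage (fun x => Real.sqrt (qq ρ B x) + Real.sqrt (qq ρ (fun x => !B x) x)) := by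
    rw [cubeAverage_add, XX_eq, XX_eq, mu_not]
    ring
  rw [e]
  refine (cubeAverage_sq_ge _).trans ?_
  have e2 : (1 : ℝ) + cubeAverage
        (fun x => Real.sqrt (1 - (noise ρ (fun y => spin (B y)) x) ^ 2)) =
      cubeAverage (fun x => 1 + Real.sqrt (1 - (noise ρ (fun y => spin (B y)) x) ^ 2)) := by
    rw [cubeAverage_add, cubeAverage_const]
  rw [e2]
  refine cubeAverage_mono fun x => ?_
  have h0 := qq_nonneg h B x
  have h1 := qq_le_one h B x
  rw [noise_spin, qq_not]
  have e3 : 1 - (2 * qq ρ B x - 1) ^ 2 = 2 ^ 2 * (qq ρ B x * (1 - qq ρ B x)) := by ring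
  rw [e3, Real.sqrt_mul (by norm_num), Real.sqrt_sq (by norm_num), Real.sqrt_mul h0]
  have s0 := Real.sq_sqrt h0
  have s1 := Real.sq_sqrt (show 0 ≤ 1 - qq ρ B x by linarith)
  nlinarith

theorem cubeAverage_spin {n : ℕ} (B : (Fin n → Bool) → Bool) :
    cubeAverage (fun x => spin (B x)) = 2 * mu B - 1 := by
  have h : (fun x => spin (B x)) = fun x => 2 * ind B x - 1 := by
    funext x; exact spin_eq_ind B x
  rw [h, cubeAverage_sub, cubeAverage_const_mul, cubeAverage_const]
  rfl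

theorem noise_zero {n : ℕ} (u : (Fin n → Bool) → ℝ) (x : Fin n → Bool) :
    noise 0 u x = cubeAverage u := by
  unfold noise cubeAverage
  simp only [zero_mul, add_zero, Finset.prod_const, Finset.card_univ, Fintype.card_fin]
  rw [← Finset.mul_sum, div_eq_inv_mul, div_eq_inv_mul, mul_one, inv_pow]

/-- S0471 for `0 < ρ < 1` from (H1). -/
theorem s0471_pos {n : ℕ} {ρ : ℝ} (h0 : 0 < ρ) (h1 : ρ < 1) (B : (Fin n → Bool) → Bool)
    (H1 : Real.sqrt (4 * mu B * (1 - mu B)) + Real.sqrt (1 - ρ ^ 2) ≤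
      (1 + XX ρ B + XX ρ (fun x => !B x)) ^ 2) :
    Real.sqrt (1 - (cubeAverage (fun x => spin (B x))) ^ 2)
        - cubeAverage (fun x => Real.sqrt (1 - (noise ρ (fun y => spin (B y)) x) ^ 2))
      ≤ 1 - Real.sqrt (1 - ρ ^ 2) := by
  have h := sq_le_one_add_Z (ρ := ρ) (by rw [abs_of_pos h0]; exact h1.le) B
  have e : 1 - (cubeAverage (fun x => spin (B x))) ^ 2 = 4 * mu B * (1 - mu B) := by
    rw [cubeAverage_spin]; ring
  rw [e]
  linarith

/-- the exact statement of S0471 from (H1) -/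
theorem s0471_of_H1
    (H1 : ∀ (n : ℕ) (B : (Fin n → Bool) → Bool) (ρ : ℝ), 0 < ρ → ρ < 1 →
      Real.sqrt (4 * mu B * (1 - mu B)) + Real.sqrt (1 - ρ ^ 2) ≤
        (1 + XX ρ B + XX ρ (fun x => !B x)) ^ 2)
    (n : ℕ) (_hn : 1 ≤ n) (f : (Fin n → Bool) → Bool) (ρ : ℝ) (hρ : |ρ| ≤ 1) :
    Real.sqrt (1 - (cubeAverage (fun x => spin (f x))) ^ 2)
        - cubeAverage (fun x => Real.sqrt (1 - (noise ρ (fun y => spin (f y)) x) ^ 2))
      ≤ 1 - Real.sqrt (1 - ρ ^ 2) := by
  -- reduce to `0 ≤ ρ`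
  have key : ∀ r : ℝ, 0 ≤ r → r ≤ 1 →
      Real.sqrt (1 - (cubeAverage (fun x => spin (f x))) ^ 2)
        - cubeAverage (fun x => Real.sqrt (1 - (noise r (fun y => spin (f y)) x) ^ 2))
      ≤ 1 - Real.sqrt (1 - r ^ 2) := by
    intro r hr0 hr1
    rcases hr0.eq_or_lt with h | h
    · subst h
      have e : (fun x => Real.sqrt (1 - (noise 0 (fun y => spin (f y)) x) ^ 2)) =
          fun _ => Real.sqrt (1 - (cubeAverage (fun x => spin (f x))) ^ 2) := by
        funext x; rw [noise_zero]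
      rw [e, cubeAverage_const]
      simp
    · rcases hr1.eq_or_lt with h' | h'
      · subst h'
        have e1 : Real.sqrt (1 - (1 : ℝ) ^ 2) = 0 := by norm_num
        rw [e1]
        have e2 : Real.sqrt (1 - (cubeAverage (fun x => spin (f x))) ^ 2) ≤ 1 := by
          rw [Real.sqrt_le_left (by norm_num)]
          nlinarith [sq_nonneg (cubeAverage (fun x => spin (f x)))]
        have e3 : 0 ≤ cubeAverage
            (fun x => Real.sqrt (1 - (noise 1 (fun y => spin (f y)) x) ^ 2)) := by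
          have := cubeAverage_mono (g := fun _ : Fin n → Bool => (0 : ℝ))
            (h := fun x => Real.sqrt (1 - (noise 1 (fun y => spin (f y)) x) ^ 2))
            (fun x => Real.sqrt_nonneg _)
          rwa [cubeAverage_const] at this
        linarith
      · exact s0471_pos h h' f (H1 n f r h h')
  rcases le_or_gt 0 ρ with h | h
  · exact key ρ h (by rwa [abs_of_nonneg h] at hρ)
  · have h2 := key (-ρ) (by linarith) (by rwa [abs_of_neg h] at hρ)
    have e1 : (fun x => Real.sqrt (1 - (noise (-ρ) (fun y => spin (f y)) x) ^ 2)) =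
        fun x => Real.sqrt (1 - (noise ρ (fun y => spin (f y)) (fun i => !x i)) ^ 2) := by
      funext x; rw [Ode.noise_neg]
    rw [e1, Ode.cubeAverage_comp_not
      (fun x => Real.sqrt (1 - (noise ρ (fun y => spin (f y)) x) ^ 2)), neg_sq] at h2
    exact h2

end Crest.Agent.R307
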