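import Crest.Agent.R307.GenM2Fin
import Crest.Agent.R307.PIDict

/-!
Row 307 (S0471), regime M, two-sided: pointwise certificates on one c-interval (generated, helper14;
data of helper139).
-/

set_option autoImplicit false
set_option Elab.async false

namespace Crest.Agent.R307.TPI1

open Crest.Agent.KB Crest.Agent.R307.PIConic Crest.Agent.R307.GenInt Crest.Agent.R307.GenM2
  Crest.Agent.R307.GenM2Dat

def da : Dat :=
  { N := 500000000, a0 := 195500000, a1 := -201500000, a2 := 196500000, k1 := 131650000, k2 := -165150000, e1 := 180290432, e2 := 16460608, m2 := 1247185, l2 := 352953355, cn := 159591461121, cd := 1000000000000, NR := 100000000, R := [18295914, -63492584, 93134120, 290338476, -1887349325, 4740775429, -6766817735, 5703154438, -2645176239, 521127142], tn := 1, td := 1 }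

set_option maxRecDepth 100000 in
theorem da_D : run 2 436 4 [1, 47] [32, 32] [[da.Q1.e, da.Q2.e]]
    (.node 1 (.node 1 (.node 1 (.leaf 0) (.leaf 0)) (.node 1 (.leaf 0) (.leaf 0))) (.node 1 (.leaf 0) (.leaf 0))) [(0, 2 ^ 4), (0, 2 ^ 4)] = true := by
  decide +kernel

set_option maxRecDepth 100000 in
theorem da_P : run 2 799 11 [15, 23] [4096, 4096] [da.c1, da.c2, da.c3]
    (.node 0 (.node 1 (.node 0 (.leaf 1) (.leaf 1)) (.leaf 1)) (.node 1 (.node 0 (.leaf 1) (.node 1 (.node 0 (.leaf 1) (.node 1 (.node 0 (.leaf 1) (.node 1 (.node 0 (.leaf 1) (.node 1 (.node 0 (.leaf 1) (.node 1 (.node 0 (.leaf 1) (.node 1 (.node 0 (.leaf 1) (.node 1 (.node 0 (.leaf 1) (.node 1 (.leaf 0) (.leaf 1))) (.leaf 1))) (.leaf 1))) (.leaf 1))) (.leaf 1))) (.leaf 1))) (.leaf 1))) (.leaf 1))) (.leaf 1))) [(0, 2 ^ 11), (0, 2 ^ 11)] = true := by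
  decide +kernel

theorem da_ok : da.OK :=
  ⟨_, _, _, _, _, _, _, _, _, _, by decide, da_D, da_P⟩

def db : Dat :=
  { N := 5000000000, a0 := 1955000000, a1 := -2015000000, a2 := 1965000000, k1 := 1646000000, k2 := -1957000000, e1 := 2257552514, e2 := 206115691, m2 := 9944450, l2 := 3619779800, cn := 641601, cd := 2560000, NR := 100000000, R := [22498146, -54811036, 44136348, 258627722, -1146887144, 2378274904, -2955108515, 2237249325, -953068103, 175353915], tn := 1, td := 1 }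

set_option maxRecDepth 100000 in
theorem db_D : run 2 412 4 [1, 47] [32, 32] [[db.Q1.e, db.Q2.e]]
    (.node 1 (.node 1 (.leaf 0) (.leaf 0)) (.node 1 (.leaf 0) (.node 1 (.leaf 0) (.node 1 (.leaf 0) (.leaf 0))))) [(0, 2 ^ 4), (0, 2 ^ 4)] = true := by
  decide +kernel

set_option maxRecDepth 100000 in
theorem db_P : run 2 735 11 [15, 23] [4096, 4096] [db.c1, db.c2, db.c3]
    (.node 0 (.node 1 (.node 0 (.leaf 1) (.leaf 1)) (.leaf 1)) (.node 1 (.node 0 (.leaf 1) (.node 1 (.node 0 (.leaf 1) (.node 1 (.node 0 (.leaf 1) (.node 1 (.node 0 (.leaf 1) (.node 1 (.node 0 (.leaf 1) (.node 1 (.node 0 (.leaf 1) (.node 1 (.node 0 (.leaf 1) (.node 1 (.node 0 (.leaf 1) (.node 1 (.node 0 (.leaf 1) (.leaf 0)) (.leaf 1))) (.leaf 1))) (.leaf 1))) (.leaf 1))) (.leaf 1))) (.leaf 1))) (.leaf 1))) (.leaf 1))) (.leaf 1))) [(0, 2 ^ 11), (0, 2 ^ 11)] = true := by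
  decide +kernel

theorem db_ok : db.OK :=
  ⟨_, _, _, _, _, _, _, _, _, _, by decide, db_D, db_P⟩

lemma hW : ∀ c : ℝ, (1183 / 1000) ^ 2 - 1 ≤ c → c ≤ (49 / 40) ^ 2 - 1 → 0 ≤ Wf (391 / 1000) (-403 / 1000) (393 / 1000) c := by
  intro c h1 h2
  exact (Wf_pos (by norm_num) (by norm_num) (by norm_num at h1; linarith) (by norm_num at h2; linarith)).le

def dz : DatZ :=
  { N := 1000000, a0 := 391000, a1 := -403000, a2 := 393000, l0 := 45000, l1 := 392000, v0 := 16799697, v1 := -12097689, NR := 100000000, R := [(-100000000, 100000000), (-300000000, 200000000), (1255352492, -986031984), (3311425114, -2573007696), (-30671906332, 24705475306), (75929621788, -62651693357), (-66681194378, 58822654072), (-43293767682, 26361594226), (139385983876, -104338784734), (-108020065216, 83037915857), (29121305416, -22624507980)] }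

set_option maxRecDepth 100000 in
theorem dz_D : run 3 679 8 [1, 51, 9] [512, 512, 628] [[dz.Rs.e, dz.Q2.e, dz.QV.e]]
    (.node 1 (.leaf 0) (.node 1 (.leaf 0) (.node 1 (.leaf 0) (.node 1 (.node 1 (.node 2 (.leaf 0) (.leaf 0)) (.node 2 (.leaf 0) (.leaf 0))) (.node 1 (.node 2 (.leaf 0) (.leaf 0)) (.node 2 (.leaf 0) (.leaf 0))))))) [(0, 2 ^ 8), (0, 2 ^ 8), (302, 314)] = true := by
  decide +kernel

set_option maxRecDepth 100000 in
theorem dz_P : run 3 345 8 [8, 14, 9] [512, 512, 628] [[dz.G.e]]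
    (.leaf 0) [(0, 2 ^ 8), (0, 2 ^ 8), (302, 314)] = true := by
  decide +kernel

theorem dict : CertI (391 / 1000) (-403 / 1000) (393 / 1000) ((1183 / 1000) ^ 2 - 1) ((49 / 40) ^ 2 - 1) 1 0 1 (9 / 200) (49 / 125) := by
  refine DatZ.certI dz (by decide) dz_D dz_P ?_ ?_ ?_ ?_ ?_ (by norm_num) (by norm_num) (by norm_num)
    (by norm_num) (by norm_num) (by norm_num) (by norm_num) (by norm_num) (by norm_num) hW
  all_goals norm_num [DatZ.A0, DatZ.A1, DatZ.A2, DatZ.L0, DatZ.L1, dz]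

/-- the family -/
noncomputable def f : Fam2 :=
  ⟨2633 / 10000, -3303 / 10000, 4529 / 5000, 827 / 10000, 1 / 1000, 283 / 1000, 823 / 2500, -1957 / 5000, 4529 / 5000, 827 / 10000, 1 / 1000, 91 / 250, 9 / 200, 49 / 125⟩

theorem f_ok : f.OK := by
  constructor <;> norm_num [f]

/-- **assembly**: the bound from the potential data and (SI) -/
theorem bound_of (D : TData) (h : D.ok = true) (hza : D.za = (1183 / 1000)) (hzb : D.zb = (49 / 40))
    (h0 : D.A0 = (391 / 1000)) (h1 : D.A1 = (-403 / 1000)) (h2 : D.A2 = (393 / 1000))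
    (hSI : SI2 D.B D.Q f (((1183 / 1000 : ℝ) ^ 2 - 1) ^ 2) (((49 / 40 : ℝ) ^ 2 - 1) ^ 2) 1) :
    Final71.BoundOn ((1183 / 1000) ^ 2 - 1) ((49 / 40) ^ 2 - 1) := by
  have ea : (D.za : ℝ) = (1183 / 1000) := by rw [hza]; norm_num
  have eb : (D.zb : ℝ) = (49 / 40) := by rw [hzb]; norm_num
  have e0 : (D.A0 : ℝ) = (391 / 1000) := by rw [h0]; norm_num
  have e1 : (D.A1 : ℝ) = (-403 / 1000) := by rw [h1]; norm_num
  have e2 : (D.A2 : ℝ) = (393 / 1000) := by rw [h2]; norm_num
  have key := boundOn_M2 D h da_ok db_ok f_ok (z0 := (1203 / 1000)) (Ua := (1244 / 3125)) (Ub := (249233 / 500000)) (Ma := (249437 / 100000000)) (Mb := (198889 / 100000000))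
    (La := (70590671 / 100000000)) (Lb := (18098899 / 25000000)) (t1 := 1) (by norm_num) (by norm_num [f]) (by norm_num [f]) (by norm_num)
    (by rw [e0, e1, e2, ea]; norm_num [Wtan, Wz]) (by rw [e0, e1, e2, eb]; norm_num [Wtan, Wz])
    (by rw [e0, e1, e2, ea, eb]; left; norm_num [f, Wz])
    (by rw [e0, e1, e2, ea, eb]; right; norm_num [f])
    (by norm_num) (by norm_num) (by norm_num) (by norm_num)
    (by rw [e0]; norm_num [Dat.A0, da]) (by rw [e1]; norm_num [Dat.A1, da])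
    (by rw [e2]; norm_num [Dat.A2, da]) (by rw [ea]; norm_num [Dat.C2, da])
    (by norm_num [Dat.K1, da, f]) (by norm_num [Dat.K2, da, f]) (by norm_num [Dat.E1, da, f])
    (by norm_num [Dat.E2, da, f]) (by norm_num [Dat.M2, da]) (by norm_num [Dat.L2, da])
    (by rw [e0]; norm_num [Dat.A0, db]) (by rw [e1]; norm_num [Dat.A1, db])
    (by rw [e2]; norm_num [Dat.A2, db]) (by rw [eb]; norm_num [Dat.C2, db])
    (by norm_num [Dat.K1, db, f]) (by norm_num [Dat.K2, db, f]) (by norm_num [Dat.E1, db, f])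
    (by norm_num [Dat.E2, db, f]) (by norm_num [Dat.M2, db]) (by norm_num [Dat.L2, db])
    (by norm_num [Dat.T1, da]) (by norm_num [Dat.T1, db]) le_rfl
    (by rw [e0, e1, e2, ea, eb]; have := dict; norm_num [f] at this ⊢; exact this)
    (by rw [ea, eb]; exact hSI)
  rw [ea, eb] at key
  exact key

end Crest.Agent.R307.TPI1
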