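import Crest.Agent.R307.GenM2Fin
import Crest.Agent.R307.PIDict

/-!
Row 307 (S0471), regime M, two-sided: pointwise certificates on one c-interval (generated, helper14;
data of helper139).
-/

set_option autoImplicit false
set_option Elab.async false

namespace Crest.Agent.R307.TPI2

open Crest.Agent.KB Crest.Agent.R307.PIConic Crest.Agent.R307.GenInt Crest.Agent.R307.GenM2
  Crest.Agent.R307.GenM2Dat

def da : Dat :=
  { N := 10000000000, a0 := 4150000000, a1 := -4400000000, a2 := 4040000000, k1 := 3281000000, k2 := -3773000000, e1 := 4493842353, e2 := 455918738, m2 := 855824700, l2 := 6786888900, cn := 641601, cd := 2560000, NR := 100000000, R := [22498146, -54811036, 44136348, 258627722, -1146887144, 2378274904, -2955108515, 2237249325, -953068103, 175353915], tn := 1, td := 1 }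

set_option maxRecDepth 100000 in
theorem da_D : run 2 412 4 [1, 47] [32, 32] [[da.Q1.e, da.Q2.e]]
    (.node 1 (.node 1 (.leaf 0) (.leaf 0)) (.node 1 (.leaf 0) (.node 1 (.leaf 0) (.node 1 (.leaf 0) (.leaf 0))))) [(0, 2 ^ 4), (0, 2 ^ 4)] = true := by
  decide +kernel

set_option maxRecDepth 100000 in
theorem da_P : run 2 739 11 [15, 23] [4096, 4096] [da.c1, da.c2, da.c3]
    (.node 0 (.node 1 (.node 0 (.leaf 1) (.leaf 1)) (.leaf 1)) (.node 1 (.node 0 (.leaf 1) (.node 1 (.node 0 (.leaf 1) (.node 1 (.node 0 (.leaf 1) (.node 1 (.node 0 (.leaf 1) (.node 1 (.node 0 (.leaf 1) (.node 1 (.node 0 (.leaf 1) (.node 1 (.node 0 (.leaf 1) (.node 1 (.node 0 (.leaf 1) (.node 1 (.node 0 (.leaf 1) (.leaf 0)) (.leaf 1))) (.leaf 1))) (.leaf 1))) (.leaf 1))) (.leaf 1))) (.leaf 1))) (.leaf 1))) (.leaf 1))) (.node 0 (.leaf 1) (.node 1 (.leaf 1) (.node 0 (.leaf 1) (.node 1 (.leaf 1) (.node 0 (.leaf 1) (.node 1 (.leaf 1) (.node 0 (.leaf 1) (.node 1 (.leaf 1) (.node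 0 (.leaf 1) (.node 1 (.node 0 (.leaf 1) (.leaf 0)) (.leaf 0))))))))))))) [(0, 2 ^ 11), (0, 2 ^ 11)] = true := by
  decide +kernel

theorem da_ok : da.OK :=
  ⟨_, _, _, _, _, _, _, _, _, _, by decide, da_D, da_P⟩

def db : Dat :=
  { N := 10000000000, a0 := 4150000000, a1 := -4400000000, a2 := 4040000000, k1 := 3926000000, k2 := -4238000000, e1 := 5380976601, e2 := 545922146, m2 := 712897000, l2 := 7079233000, cn := 576432081, cd := 1600000000, NR := 100000000, R := [26498754, -46882146, 23096137, 151834496, -471176031, 685960044, -564891135, 250276156, -44374229, -1335597], tn := 1, td := 1 }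

set_option maxRecDepth 100000 in
theorem db_D : run 2 409 4 [1, 47] [32, 32] [[db.Q1.e, db.Q2.e]]
    (.node 1 (.leaf 0) (.node 1 (.leaf 0) (.node 1 (.leaf 0) (.node 1 (.leaf 0) (.leaf 0))))) [(0, 2 ^ 4), (0, 2 ^ 4)] = true := by
  decide +kernel

set_option maxRecDepth 100000 in
theorem db_P : run 2 771 11 [15, 23] [4096, 4096] [db.c1, db.c2, db.c3]
    (.node 0 (.node 1 (.node 0 (.leaf 1) (.leaf 1)) (.leaf 1)) (.node 1 (.node 0 (.leaf 1) (.node 1 (.node 0 (.leaf 1) (.node 1 (.node 0 (.leaf 1) (.node 1 (.node 0 (.leaf 1) (.node 1 (.node 0 (.leaf 1) (.node 1 (.node 0 (.leaf 1) (.node 1 (.node 0 (.leaf 1) (.node 1 (.node 0 (.leaf 1) (.node 1 (.node 0 (.leaf 1) (.leaf 0)) (.leaf 1))) (.leaf 1))) (.leaf 1))) (.leaf 1))) (.leaf 1))) (.leaf 1))) (.leaf 1))) (.leaf 1))) (.node 0 (.leaf 1) (.node 1 (.leaf 1) (.node 0 (.leaf 1) (.node 1 (.leaf 1) (.node 0 (.leaf 1) (.node 1 (.leaf 1) (.node 0 (.leaf 1) (.node 1 (.leaf 1) (.node 0 (.leaf 1) (.leaf 0))))))))))))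 [(0, 2 ^ 11), (0, 2 ^ 11)] = true := by
  decide +kernel

theorem db_ok : db.OK :=
  ⟨_, _, _, _, _, _, _, _, _, _, by decide, db_D, db_P⟩

lemma hW : ∀ c : ℝ, (49 / 40) ^ 2 - 1 ≤ c → c ≤ (253 / 200) ^ 2 - 1 → 0 ≤ Wf (83 / 200) (-11 / 25) (101 / 250) c := by
  intro c h1 h2
  exact (Wf_pos (by norm_num) (by norm_num) (by norm_num at h1; linarith) (by norm_num at h2; linarith)).le

def dz : DatZ :=
  { N := 1000000, a0 := 415000, a1 := -440000, a2 := 404000, l0 := 66000, l1 := 440000, v0 := 12171491, v1 := -8315600, NR := 100000000, R := [(-100000000, 100000000), (-300000000, 200000000), (790519716, -604969709), (1957827966, -1468238421), (-8775259225, 6838037059), (-7159239020, 5129953621), (93282356614, -71623100101), (-217352308684, 168221784661), (244513990207, -189937753471), (-138847023490, 108088826837), (31910241065, -24876517661)] }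

set_option maxRecDepth 100000 in
theorem dz_D : run 3 681 8 [1, 51, 9] [512, 512, 648] [[dz.Rs.e, dz.Q2.e, dz.QV.e]]
    (.node 1 (.leaf 0) (.node 1 (.leaf 0) (.node 1 (.node 1 (.leaf 0) (.node 1 (.node 2 (.leaf 0) (.leaf 0)) (.node 2 (.leaf 0) (.leaf 0)))) (.node 1 (.node 1 (.node 2 (.leaf 0) (.leaf 0)) (.node 2 (.leaf 0) (.leaf 0))) (.node 1 (.node 2 (.leaf 0) (.leaf 0)) (.node 2 (.leaf 0) (.leaf 0))))))) [(0, 2 ^ 8), (0, 2 ^ 8), (313, 324)] = true := by
  decide +kernel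

set_option maxRecDepth 100000 in
theorem dz_P : run 3 346 8 [8, 14, 9] [512, 512, 648] [[dz.G.e]]
    (.leaf 0) [(0, 2 ^ 8), (0, 2 ^ 8), (313, 324)] = true := by
  decide +kernel

theorem dict : CertI (83 / 200) (-11 / 25) (101 / 250) ((49 / 40) ^ 2 - 1) ((253 / 200) ^ 2 - 1) 1 0 1 (33 / 500) (11 / 25) := by
  refine DatZ.certI dz (by decide) dz_D dz_P ?_ ?_ ?_ ?_ ?_ (by norm_num) (by norm_num) (by norm_num)
    (by norm_num) (by norm_num) (by norm_num) (by norm_num) (by norm_num) (by norm_num) hW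
  all_goals norm_num [DatZ.A0, DatZ.A1, DatZ.A2, DatZ.L0, DatZ.L1, dz]

/-- the family -/
noncomputable def f : Fam2 :=
  ⟨3281 / 10000, -3773 / 10000, 9009 / 10000, 457 / 5000, 43 / 1000, 341 / 1000, 1963 / 5000, -2119 / 5000, 9009 / 10000, 457 / 5000, 43 / 1000, 427 / 1000, 33 / 500, 11 / 25⟩

theorem f_ok : f.OK := by
  constructor <;> norm_num [f]

/-- **assembly**: the bound from the potential data and (SI) -/
theorem bound_of (D : TData) (h : D.ok = true) (hza : D.za = (49 / 40)) (hzb : D.zb = (253 / 200))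
    (h0 : D.A0 = (83 / 200)) (h1 : D.A1 = (-11 / 25)) (h2 : D.A2 = (101 / 250))
    (hSI : SI2 D.B D.Q f (((49 / 40 : ℝ) ^ 2 - 1) ^ 2) (((253 / 200 : ℝ) ^ 2 - 1) ^ 2) 1) :
    Final71.BoundOn ((49 / 40) ^ 2 - 1) ((253 / 200) ^ 2 - 1) := by
  have ea : (D.za : ℝ) = (49 / 40) := by rw [hza]; norm_num
  have eb : (D.zb : ℝ) = (253 / 200) := by rw [hzb]; norm_num
  have e0 : (D.A0 : ℝ) = (83 / 200) := by rw [h0]; norm_num
  have e1 : (D.A1 : ℝ) = (-11 / 25) := by rw [h1]; norm_num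
  have e2 : (D.A2 : ℝ) = (101 / 250) := by rw [h2]; norm_num
  have key := boundOn_M2 D h da_ok db_ok f_ok (z0 := (249 / 200)) (Ua := (498817 / 1000000)) (Ub := (597289 / 1000000)) (Ma := (8558247 / 100000000)) (Mb := (712897 / 10000000))
    (La := (67868889 / 100000000)) (Lb := (7079233 / 10000000)) (t1 := 1) (by norm_num) (by norm_num [f]) (by norm_num [f]) (by norm_num)
    (by rw [e0, e1, e2, ea]; norm_num [Wtan, Wz]) (by rw [e0, e1, e2, eb]; norm_num [Wtan, Wz])
    (by rw [e0, e1, e2, ea, eb]; left; norm_num [f, Wz])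
    (by rw [e0, e1, e2, ea, eb]; right; norm_num [f])
    (by norm_num) (by norm_num) (by norm_num) (by norm_num)
    (by rw [e0]; norm_num [Dat.A0, da]) (by rw [e1]; norm_num [Dat.A1, da])
    (by rw [e2]; norm_num [Dat.A2, da]) (by rw [ea]; norm_num [Dat.C2, da])
    (by norm_num [Dat.K1, da, f]) (by norm_num [Dat.K2, da, f]) (by norm_num [Dat.E1, da, f])
    (by norm_num [Dat.E2, da, f]) (by norm_num [Dat.M2, da]) (by norm_num [Dat.L2, da])
    (by rw [e0]; norm_num [Dat.A0, db]) (by rw [e1]; norm_num [Dat.A1, db])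
    (by rw [e2]; norm_num [Dat.A2, db]) (by rw [eb]; norm_num [Dat.C2, db])
    (by norm_num [Dat.K1, db, f]) (by norm_num [Dat.K2, db, f]) (by norm_num [Dat.E1, db, f])
    (by norm_num [Dat.E2, db, f]) (by norm_num [Dat.M2, db]) (by norm_num [Dat.L2, db])
    (by norm_num [Dat.T1, da]) (by norm_num [Dat.T1, db]) le_rfl
    (by rw [e0, e1, e2, ea, eb]; have := dict; norm_num [f] at this ⊢; exact this)
    (by rw [ea, eb]; exact hSI)
  rw [ea, eb] at key
  exact key

end Crest.Agent.R307.TPI2
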