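import Crest.Agent.R307.GenM2Fin
import Crest.Agent.R307.PIDict

/-!
Row 307 (S0471), regime M, two-sided: pointwise certificates on one c-interval (generated, helper14;
data of helper139).
-/

set_option autoImplicit false
set_option Elab.async false

namespace Crest.Agent.R307.TPI3

open Crest.Agent.KB Crest.Agent.R307.PIConic Crest.Agent.R307.GenInt Crest.Agent.R307.GenM2
  Crest.Agent.R307.GenM2Dat

def da : Dat :=
  { N := 1250000000, a0 := 523750000, a1 := -480000000, a2 := 395000000, k1 := 484000000, k2 := -490125000, e1 := 650238816, e2 := 85444236, m2 := 299298125, l2 := 879317250, cn := 576432081, cd := 1600000000, NR := 100000000, R := [26498754, -46882146, 23096137, 151834496, -471176031, 685960044, -564891135, 250276156, -44374229, -1335597], tn := 1, td := 1 }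

set_option maxRecDepth 100000 in
theorem da_D : run 2 409 4 [1, 47] [32, 32] [[da.Q1.e, da.Q2.e]]
    (.node 1 (.leaf 0) (.node 1 (.leaf 0) (.node 1 (.leaf 0) (.node 1 (.leaf 0) (.leaf 0))))) [(0, 2 ^ 4), (0, 2 ^ 4)] = true := by
  decide +kernel

set_option maxRecDepth 100000 in
theorem da_P : run 2 758 11 [15, 23] [4096, 4096] [da.c1, da.c2, da.c3]
    (.node 0 (.leaf 1) (.node 1 (.node 0 (.leaf 1) (.node 1 (.node 0 (.leaf 1) (.node 1 (.node 0 (.leaf 1) (.node 1 (.node 0 (.leaf 1) (.node 1 (.node 0 (.leaf 1) (.node 1 (.node 0 (.leaf 1) (.node 1 (.node 0 (.leaf 1) (.node 1 (.node 0 (.leaf 1) (.node 1 (.node 0 (.leaf 1) (.leaf 0)) (.leaf 1))) (.leaf 1))) (.leaf 1))) (.leaf 1))) (.leaf 1))) (.leaf 1))) (.leaf 1))) (.leaf 1))) (.node 0 (.leaf 1) (.leaf 1)))) [(0, 2 ^ 11), (0, 2 ^ 11)] = true := by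
  decide +kernel

theorem da_ok : da.OK :=
  ⟨_, _, _, _, _, _, _, _, _, _, by decide, da_D, da_P⟩

def db : Dat :=
  { N := 250000000, a0 := 104750000, a1 := -96000000, a2 := 79000000, k1 := 106250000, k2 := -106250000, e1 := 142710824, e2 := 18752829, m2 := 65403555, l2 := 172154185, cn := 106007616, cd := 244140625, NR := 100000000, R := [28799236, -42336508, 15417478, 102602877, -232313260, 182506423, 51555229, -203045776, 142066848, -34397633], tn := 1, td := 1 }

set_option maxRecDepth 100000 in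
theorem db_D : run 2 405 4 [1, 47] [32, 32] [[db.Q1.e, db.Q2.e]]
    (.node 1 (.node 1 (.leaf 0) (.leaf 0)) (.node 1 (.leaf 0) (.leaf 0))) [(0, 2 ^ 4), (0, 2 ^ 4)] = true := by
  decide +kernel

set_option maxRecDepth 100000 in
theorem db_P : run 2 738 11 [15, 23] [4096, 4096] [db.c1, db.c2, db.c3]
    (.node 0 (.leaf 1) (.node 1 (.node 0 (.leaf 1) (.node 1 (.node 0 (.leaf 1) (.node 1 (.node 0 (.leaf 1) (.node 1 (.node 0 (.leaf 1) (.node 1 (.node 0 (.leaf 1) (.node 1 (.node 0 (.leaf 1) (.node 1 (.node 0 (.leaf 1) (.node 1 (.node 0 (.leaf 1) (.node 1 (.node 0 (.leaf 1) (.leaf 0)) (.leaf 1))) (.leaf 1))) (.leaf 1))) (.leaf 1))) (.leaf 1))) (.leaf 1))) (.leaf 1))) (.leaf 1))) (.node 0 (.leaf 1) (.node 1 (.leaf 1) (.node 0 (.leaf 1) (.node 1 (.leaf 1) (.node 0 (.leaf 1) (.leaf 1)))))))) [(0, 2 ^ 11), (0, 2 ^ 11)] = true := by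
  decide +kernel

theorem db_ok : db.OK :=
  ⟨_, _, _, _, _, _, _, _, _, _, by decide, db_D, db_P⟩

lemma hW : ∀ c : ℝ, (253 / 200) ^ 2 - 1 ≤ c → c ≤ (161 / 125) ^ 2 - 1 → 0 ≤ Wf (419 / 1000) (-48 / 125) (79 / 250) c := by
  intro c h1 h2
  exact (Wf_pos (by norm_num) (by norm_num) (by norm_num at h1; linarith) (by norm_num at h2; linarith)).le

def dz : DatZ :=
  { N := 500000, a0 := 209500, a1 := -192000, a2 := 158000, l0 := 49500, l1 := 226500, v0 := 4917346, v1 := -3234533, NR := 100000000, R := [(-100000000, 100000000), (-300000000, 200000000), (558721202, -420591165), (1412397069, -1036891240), (-3357469788, 2554401289), (-14098832690, 10611648419), (72266026962, -54984618423), (-139394957270, 106542669203), (141660266651, -108573062320), (-75204595395, 57746598700), (16465909438, -12660292133)] }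

set_option maxRecDepth 100000 in
theorem dz_D : run 3 678 8 [1, 51, 9] [512, 512, 660] [[dz.Rs.e, dz.Q2.e, dz.QV.e]]
    (.node 1 (.leaf 0) (.node 1 (.leaf 0) (.node 1 (.node 1 (.node 1 (.leaf 0) (.node 1 (.node 2 (.leaf 0) (.leaf 0)) (.node 2 (.leaf 0) (.leaf 0)))) (.node 1 (.node 1 (.node 2 (.leaf 0) (.leaf 0)) (.node 2 (.leaf 0) (.leaf 0))) (.node 1 (.node 2 (.leaf 0) (.leaf 0)) (.node 2 (.leaf 0) (.leaf 0))))) (.node 1 (.node 1 (.node 1 (.node 2 (.leaf 0) (.leaf 0)) (.node 2 (.leaf 0) (.leaf 0))) (.node 1 (.node 2 (.leaf 0) (.leaf 0)) (.node 2 (.leaf 0) (.leaf 0)))) (.node 1 (.node 1 (.node 2 (.leaf 0) (.leaf 0)) (.node 2 (.leaf 0) (.leaf 0))) (.node 1 (.node 2 (.leaf 0) (.leaf 0)) (.node 2 (.leaf 0) (.leaf 0)))))))) [(0, 2 ^ 8), (0, 2 ^ 8), (323, 330)] = true := by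
  decide +kernel

set_option maxRecDepth 100000 in
theorem dz_P : run 3 343 8 [8, 14, 9] [512, 512, 660] [[dz.G.e]]
    (.leaf 0) [(0, 2 ^ 8), (0, 2 ^ 8), (323, 330)] = true := by
  decide +kernel

theorem dict : CertI (419 / 1000) (-48 / 125) (79 / 250) ((253 / 200) ^ 2 - 1) ((161 / 125) ^ 2 - 1) 1 0 1 (99 / 1000) (453 / 1000) := by
  refine DatZ.certI dz (by decide) dz_D dz_P ?_ ?_ ?_ ?_ ?_ (by norm_num) (by norm_num) (by norm_num)
    (by norm_num) (by norm_num) (by norm_num) (by norm_num) (by norm_num) (by norm_num) hW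
  all_goals norm_num [DatZ.A0, DatZ.A1, DatZ.A2, DatZ.L0, DatZ.L1, dz]

/-- the family -/
noncomputable def f : Fam2 :=
  ⟨242 / 625, -3921 / 10000, 1093 / 1250, 1149 / 10000, 29 / 200, 213 / 500, 17 / 40, -17 / 40, 1093 / 1250, 1149 / 10000, 87 / 500, 229 / 500, 99 / 1000, 453 / 1000⟩

theorem f_ok : f.OK := by
  constructor <;> norm_num [f]

/-- **assembly**: the bound from the potential data and (SI) -/
theorem bound_of (D : TData) (h : D.ok = true) (hza : D.za = (253 / 200)) (hzb : D.zb = (161 / 125))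
    (h0 : D.A0 = (419 / 1000)) (h1 : D.A1 = (-48 / 125)) (h2 : D.A2 = (79 / 250))
    (hSI : SI2 D.B D.Q f (((253 / 200 : ℝ) ^ 2 - 1) ^ 2) (((161 / 125 : ℝ) ^ 2 - 1) ^ 2) 1) :
    Final71.BoundOn ((253 / 200) ^ 2 - 1) ((161 / 125) ^ 2 - 1) := by
  have ea : (D.za : ℝ) = (253 / 200) := by rw [hza]; norm_num
  have eb : (D.zb : ℝ) = (161 / 125) := by rw [hzb]; norm_num
  have e0 : (D.A0 : ℝ) = (419 / 1000) := by rw [h0]; norm_num
  have e1 : (D.A1 : ℝ) = (-48 / 125) := by rw [h1]; norm_num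
  have e2 : (D.A2 : ℝ) = (79 / 250) := by rw [h2]; norm_num
  have key := boundOn_M2 D h da_ok db_ok f_ok (z0 := (2553 / 2000)) (Ua := (18591 / 31250)) (Ub := (16321 / 25000)) (Ma := (478877 / 2000000)) (Mb := (13080711 / 50000000))
    (La := (3517269 / 5000000)) (Lb := (34430837 / 50000000)) (t1 := 1) (by norm_num) (by norm_num [f]) (by norm_num [f]) (by norm_num)
    (by rw [e0, e1, e2, ea]; norm_num [Wtan, Wz]) (by rw [e0, e1, e2, eb]; norm_num [Wtan, Wz])
    (by rw [e0, e1, e2, ea, eb]; right; norm_num [f])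
    (by rw [e0, e1, e2, ea, eb]; right; norm_num [f])
    (by norm_num) (by norm_num) (by norm_num) (by norm_num)
    (by rw [e0]; norm_num [Dat.A0, da]) (by rw [e1]; norm_num [Dat.A1, da])
    (by rw [e2]; norm_num [Dat.A2, da]) (by rw [ea]; norm_num [Dat.C2, da])
    (by norm_num [Dat.K1, da, f]) (by norm_num [Dat.K2, da, f]) (by norm_num [Dat.E1, da, f])
    (by norm_num [Dat.E2, da, f]) (by norm_num [Dat.M2, da]) (by norm_num [Dat.L2, da])
    (by rw [e0]; norm_num [Dat.A0, db]) (by rw [e1]; norm_num [Dat.A1, db])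
    (by rw [e2]; norm_num [Dat.A2, db]) (by rw [eb]; norm_num [Dat.C2, db])
    (by norm_num [Dat.K1, db, f]) (by norm_num [Dat.K2, db, f]) (by norm_num [Dat.E1, db, f])
    (by norm_num [Dat.E2, db, f]) (by norm_num [Dat.M2, db]) (by norm_num [Dat.L2, db])
    (by norm_num [Dat.T1, da]) (by norm_num [Dat.T1, db]) le_rfl
    (by rw [e0, e1, e2, ea, eb]; have := dict; norm_num [f] at this ⊢; exact this)
    (by rw [ea, eb]; exact hSI)
  rw [ea, eb] at key
  exact key

end Crest.Agent.R307.TPI3
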