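import Crest.Agent.R307.Split
import Crest.Agent.R307.Ode

/-!
Row 307, S0471: reduction to a scalar recursion (blueprint of helper243, note 3085), by helper60.

Notation: `A ⊂ cube`, `P = T_ρ 1_A`, `μ = E P`, `α = E √P`, `β = E √(1-P)`.

* `bool_induction`: abstract induction on the dimension for Boolean functions, for a state
  `(μ, E F1(P), E F2(P))`, with the monotone coupling `P ≥ Q` of the two slices (compression).
* `s0471_of_region`: S0471 from `(α+β)^2 ≥ 2√(μ(1-μ)) + √(1-ρ²)`.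
* `s0471_of_scalar`: S0471 from a scalar recursion with multipliers coming from pointwise
  certificates.
-/

set_option autoImplicit false

open Crest.CubeNoise Set

namespace Crest.Agent.R307.TwoSet

open Crest.Agent.R307 Crest.Agent.R307.Ode

/-- indicator of `true` -/
def ind (b : Bool) : ℝ := if b then 1 else 0

lemma ind_nonneg (b : Bool) : 0 ≤ ind b := by cases b <;> simp [ind]

lemma ind_le_one (b : Bool) : ind b ≤ 1 := by cases b <;> simp [ind]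

lemma spin_eq_ind (b : Bool) : spin b = 2 * ind b - 1 := by cases b <;> simp [ind, spin]; norm_num

/-- `T_ρ 1_A` for `A = {f = true}` -/
noncomputable def TT {n : ℕ} (ρ : ℝ) (f : (Fin n → Bool) → Bool) (x : Fin n → Bool) : ℝ :=
  noise ρ (fun y => ind (f y)) x

lemma TT_eq {n : ℕ} (ρ : ℝ) (f : (Fin n → Bool) → Bool) (x : Fin n → Bool) :
    TT ρ f x = ∑ y, wt ρ x y * ind (f y) := rfl

lemma TT_nonneg {n : ℕ} {ρ : ℝ} (h : |ρ| ≤ 1) (f : (Fin n → Bool) → Bool) (x : Fin n → Bool) :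
    0 ≤ TT ρ f x := by
  rw [TT_eq]
  exact Finset.sum_nonneg fun y _ => mul_nonneg (wt_nonneg h x y) (ind_nonneg _)

lemma TT_mono {n : ℕ} {ρ : ℝ} (h : |ρ| ≤ 1) {f g : (Fin n → Bool) → Bool}
    (hfg : ∀ y, ind (f y) ≤ ind (g y)) (x : Fin n → Bool) : TT ρ f x ≤ TT ρ g x := by
  rw [TT_eq, TT_eq]
  exact Finset.sum_le_sum fun y _ => mul_le_mul_of_nonneg_left (hfg y) (wt_nonneg h x y)

lemma TT_le_one {n : ℕ} {ρ : ℝ} (h : |ρ| ≤ 1) (f : (Fin n → Bool) → Bool) (x : Fin n → Bool) :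
    TT ρ f x ≤ 1 := by
  rw [TT_eq, ← sum_wt ρ x]
  exact Finset.sum_le_sum fun y _ => mul_le_of_le_one_right (wt_nonneg h x y) (ind_le_one _)

lemma TT_not {n : ℕ} (ρ : ℝ) (f : (Fin n → Bool) → Bool) (x : Fin n → Bool) :
    TT ρ (fun y => !f y) x = 1 - TT ρ f x := by
  rw [TT_eq, TT_eq, ← sum_wt ρ x, ← Finset.sum_sub_distrib]
  refine Finset.sum_congr rfl fun y _ => ?_
  cases f y <;> simp [ind]

lemma noise_spin {n : ℕ} (ρ : ℝ) (f : (Fin n → Bool) → Bool) (x : Fin n → Bool) :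
    noise ρ (fun y => spin (f y)) x = 2 * TT ρ f x - 1 := by
  rw [noise_eq, TT_eq, ← sum_wt ρ x, Finset.mul_sum, ← Finset.sum_sub_distrib]
  refine Finset.sum_congr rfl fun y _ => ?_
  rw [spin_eq_ind]; ring

lemma wt_cons {n : ℕ} (ρ : ℝ) (b b' : Bool) (x y : Fin n → Bool) :
    wt ρ (Fin.cons b x : Fin (n + 1) → Bool) (Fin.cons b' y) =
      (1 + ρ * spin b * spin b') / 2 * wt ρ x y := by
  unfold wt
  rw [Fin.prod_univ_succ]
  simp

lemma sl0_noise {n : ℕ} (ρ : ℝ) (g : (Fin (n + 1) → Bool) → ℝ) (x : Fin n → Bool) :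
    sl0 (noise ρ g) x = (1 + ρ) / 2 * noise ρ (sl0 g) x + (1 - ρ) / 2 * noise ρ (sl1 g) x := by
  unfold sl0
  rw [noise_eq, sum_split, noise_eq, noise_eq, Finset.mul_sum, Finset.mul_sum]
  congr 1
  · refine Finset.sum_congr rfl fun y _ => ?_
    simp only [sl0]
    rw [wt_cons]; simp [spin]; ring
  · refine Finset.sum_congr rfl fun y _ => ?_
    simp only [sl1]
    rw [wt_cons]; simp [spin]; ring

lemma sl1_noise {n : ℕ} (ρ : ℝ) (g : (Fin (n + 1) → Bool) → ℝ) (x : Fin n → Bool) :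
    sl1 (noise ρ g) x = (1 - ρ) / 2 * noise ρ (sl0 g) x + (1 + ρ) / 2 * noise ρ (sl1 g) x := by
  unfold sl1
  rw [noise_eq, sum_split, noise_eq, noise_eq, Finset.mul_sum, Finset.mul_sum]
  congr 1
  · refine Finset.sum_congr rfl fun y _ => ?_
    simp only [sl0]
    rw [wt_cons]; simp [spin]; ring
  · refine Finset.sum_congr rfl fun y _ => ?_
    simp only [sl1]
    rw [wt_cons]; simp [spin]; ring

/-- two-point majorization for a concave function -/
lemma concave_two_point {F : ℝ → ℝ} (hF : ConcaveOn ℝ (Icc 0 1) F) {s u v : ℝ}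
    (h0 : 0 ≤ s - v) (h1 : s + v ≤ 1) (huv : |u| ≤ v) :
    F (s + v) + F (s - v) ≤ F (s + u) + F (s - u) := by
  rcases eq_or_lt_of_le ((abs_nonneg u).trans huv) with hv | hv
  · have : u = 0 := by
      rw [← abs_eq_zero]; exact le_antisymm (by rw [hv]; exact huv) (abs_nonneg _)
    rw [this, ← hv]
  · obtain ⟨h2, h3⟩ := abs_le.mp huv
    have hm1 : s + v ∈ Icc (0 : ℝ) 1 := ⟨by linarith, h1⟩
    have hm2 : s - v ∈ Icc (0 : ℝ) 1 := ⟨h0, by linarith⟩
    have A : 0 ≤ (v + u) / (2 * v) := div_nonneg (by linarith) (by linarith)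
    have B : 0 ≤ (v - u) / (2 * v) := div_nonneg (by linarith) (by linarith)
    have AB : (v + u) / (2 * v) + (v - u) / (2 * v) = 1 := by field_simp; ring
    have BA : (v - u) / (2 * v) + (v + u) / (2 * v) = 1 := by rw [add_comm]; exact AB
    have e1 := hF.2 hm1 hm2 A B AB
    have e2 := hF.2 hm1 hm2 B A BA
    simp only [smul_eq_mul] at e1 e2
    have f1 : (v + u) / (2 * v) * (s + v) + (v - u) / (2 * v) * (s - v) = s + u := by
      field_simp; ring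
    have f2 : (v - u) / (2 * v) * (s + v) + (v + u) / (2 * v) * (s - v) = s - u := by
      field_simp; ring
    rw [f1] at e1
    rw [f2] at e2
    have : F (s + v) + F (s - v) = ((v + u) / (2 * v) * F (s + v) + (v - u) / (2 * v) * F (s - v)) +
        ((v - u) / (2 * v) * F (s + v) + (v + u) / (2 * v) * F (s - v)) := by
      have : F (s + v) + F (s - v) = ((v + u) / (2 * v) + (v - u) / (2 * v)) * (F (s + v) + F (s - v)) := by
        rw [AB, one_mul]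
      rw [this]; ring
    linarith

/-- Abstract induction on the dimension for the noise of Boolean functions. `a = (1+ρ)/2`,
`b = (1-ρ)/2`; by compression the two slices may be assumed ordered. -/
theorem bool_induction {ρ : ℝ} (h0 : 0 ≤ ρ) (h1 : ρ ≤ 1) {F1 F2 : ℝ → ℝ}
    (hF1 : ConcaveOn ℝ (Icc 0 1) F1) (hF2 : ConcaveOn ℝ (Icc 0 1) F2)
    (R : ℝ → ℝ → ℝ → Prop)
    (hup : ∀ μ s t s' t', R μ s t → s ≤ s' → t ≤ t' → R μ s' t')
    (hR0 : R 0 (F1 0) (F2 0)) (hR1 : R 1 (F1 1) (F2 1))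
    (hstep : ∀ (n : ℕ) (P Q : (Fin n → Bool) → ℝ), (∀ x, 0 ≤ Q x) → (∀ x, Q x ≤ P x) →
      (∀ x, P x ≤ 1) →
      R (cubeAverage P) (cubeAverage fun x => F1 (P x)) (cubeAverage fun x => F2 (P x)) →
      R (cubeAverage Q) (cubeAverage fun x => F1 (Q x)) (cubeAverage fun x => F2 (Q x)) →
      R ((cubeAverage P + cubeAverage Q) / 2)
        ((cubeAverage (fun x => F1 ((1 + ρ) / 2 * P x + (1 - ρ) / 2 * Q x)) +
          cubeAverage (fun x => F1 ((1 - ρ) / 2 * P x + (1 + ρ) / 2 * Q x))) / 2)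
        ((cubeAverage (fun x => F2 ((1 + ρ) / 2 * P x + (1 - ρ) / 2 * Q x)) +
          cubeAverage (fun x => F2 ((1 - ρ) / 2 * P x + (1 + ρ) / 2 * Q x))) / 2)) :
    ∀ (n : ℕ) (f : (Fin n → Bool) → Bool),
      R (cubeAverage (TT ρ f)) (cubeAverage fun x => F1 (TT ρ f x))
        (cubeAverage fun x => F2 (TT ρ f x)) := by
  have habs : |ρ| ≤ 1 := by rw [abs_of_nonneg h0]; exact h1
  intro n
  induction n with
  | zero =>
    intro f
    rw [cubeAverage_zero, cubeAverage_zero, cubeAverage_zero]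
    have e : TT ρ f default = ind (f default) := by
      rw [TT_eq, Fintype.sum_unique]
      unfold wt
      simp only [Finset.univ_eq_empty, Finset.prod_empty, one_mul]
      exact congrArg (fun z => ind (f z)) (Subsingleton.elim _ _)
    rw [e]
    cases f default
    · simpa [ind] using hR0
    · simpa [ind] using hR1
  | succ n ih =>
    intro f
    set f0 : (Fin n → Bool) → Bool := fun x => f (Fin.cons false x) with hf0
    set f1 : (Fin n → Bool) → Bool := fun x => f (Fin.cons true x) with hf1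
    set g0 : (Fin n → Bool) → Bool := fun x => f0 x || f1 x with hg0
    set g1 : (Fin n → Bool) → Bool := fun x => f0 x && f1 x with hg1
    have s0 : ∀ x, sl0 (TT ρ f) x = (1 + ρ) / 2 * TT ρ f0 x + (1 - ρ) / 2 * TT ρ f1 x :=
      fun x => sl0_noise ρ (fun y => ind (f y)) x
    have s1 : ∀ x, sl1 (TT ρ f) x = (1 - ρ) / 2 * TT ρ f0 x + (1 + ρ) / 2 * TT ρ f1 x :=
      fun x => sl1_noise ρ (fun y => ind (f y)) x
    have le0 : ∀ x, TT ρ f0 x ≤ TT ρ g0 x := TT_mono habs fun y => by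
      simp only [hg0]; cases f0 y <;> cases f1 y <;> simp [ind]
    have le1 : ∀ x, TT ρ f1 x ≤ TT ρ g0 x := TT_mono habs fun y => by
      simp only [hg0]; cases f0 y <;> cases f1 y <;> simp [ind]
    have ge0 : ∀ x, TT ρ g1 x ≤ TT ρ f0 x := TT_mono habs fun y => by
      simp only [hg1]; cases f0 y <;> cases f1 y <;> simp [ind]
    have ge1 : ∀ x, TT ρ g1 x ≤ TT ρ f1 x := TT_mono habs fun y => by
      simp only [hg1]; cases f0 y <;> cases f1 y <;> simp [ind]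
    have hsum : ∀ x, TT ρ g0 x + TT ρ g1 x = TT ρ f0 x + TT ρ f1 x := by
      intro x
      rw [TT_eq, TT_eq, TT_eq, TT_eq, ← Finset.sum_add_distrib, ← Finset.sum_add_distrib]
      refine Finset.sum_congr rfl fun y _ => ?_
      rw [← mul_add, ← mul_add]
      congr 1
      simp only [hg0, hg1]
      cases f0 y <;> cases f1 y <;> simp [ind]
    have key := hstep n (TT ρ g0) (TT ρ g1) (TT_nonneg habs g1)
      (fun x => (ge0 x).trans (le0 x)) (TT_le_one habs g0) (ih g0) (ih g1)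
    have hconc : ∀ {F : ℝ → ℝ}, ConcaveOn ℝ (Icc 0 1) F →
        (cubeAverage (fun x => F ((1 + ρ) / 2 * TT ρ g0 x + (1 - ρ) / 2 * TT ρ g1 x)) +
          cubeAverage (fun x => F ((1 - ρ) / 2 * TT ρ g0 x + (1 + ρ) / 2 * TT ρ g1 x))) / 2 ≤
        cubeAverage (fun x => F (TT ρ f x)) := by
      intro F hF
      rw [cubeAverage_split (fun x => F (TT ρ f x)), ← cubeAverage_add, ← cubeAverage_add]
      have : cubeAverage (fun x => F ((1 + ρ) / 2 * TT ρ g0 x + (1 - ρ) / 2 * TT ρ g1 x) +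
            F ((1 - ρ) / 2 * TT ρ g0 x + (1 + ρ) / 2 * TT ρ g1 x)) ≤
          cubeAverage (fun x => sl0 (fun x => F (TT ρ f x)) x +
            sl1 (fun x => F (TT ρ f x)) x) := by
        refine cubeAverage_mono fun x => ?_
        have e0 : sl0 (fun x => F (TT ρ f x)) x = F (sl0 (TT ρ f) x) := rfl
        have e1 : sl1 (fun x => F (TT ρ f x)) x = F (sl1 (TT ρ f) x) := rfl
        rw [e0, e1, s0 x, s1 x]
        have hs := hsum x
        have A0 := TT_nonneg habs g1 x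
        have A1 := TT_le_one habs g0 x
        have B1 := le0 x
        have B2 := le1 x
        have B3 := ge0 x
        have B4 := ge1 x
        have hD : 0 ≤ TT ρ g0 x - TT ρ g1 x := by linarith
        have c := concave_two_point hF (s := (TT ρ f0 x + TT ρ f1 x) / 2)
          (u := ρ * (TT ρ f0 x - TT ρ f1 x) / 2) (v := ρ * (TT ρ g0 x - TT ρ g1 x) / 2)
          (by rw [← hs]; nlinarith) (by rw [← hs]; nlinarith)
          (by
            rw [mul_div_assoc, mul_div_assoc, abs_mul, abs_of_nonneg h0]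
            refine mul_le_mul_of_nonneg_left ?_ h0
            rw [abs_le]
            constructor <;> linarith)
        have g1' : (1 + ρ) / 2 * TT ρ g0 x + (1 - ρ) / 2 * TT ρ g1 x =
            (TT ρ f0 x + TT ρ f1 x) / 2 + ρ * (TT ρ g0 x - TT ρ g1 x) / 2 := by
          rw [← hs]; ring
        have g2' : (1 - ρ) / 2 * TT ρ g0 x + (1 + ρ) / 2 * TT ρ g1 x =
            (TT ρ f0 x + TT ρ f1 x) / 2 - ρ * (TT ρ g0 x - TT ρ g1 x) / 2 := by
          rw [← hs]; ring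
        have g3' : (1 + ρ) / 2 * TT ρ f0 x + (1 - ρ) / 2 * TT ρ f1 x =
            (TT ρ f0 x + TT ρ f1 x) / 2 + ρ * (TT ρ f0 x - TT ρ f1 x) / 2 := by ring
        have g4' : (1 - ρ) / 2 * TT ρ f0 x + (1 + ρ) / 2 * TT ρ f1 x =
            (TT ρ f0 x + TT ρ f1 x) / 2 - ρ * (TT ρ f0 x - TT ρ f1 x) / 2 := by ring
        rw [g1', g2', g3', g4']
        exact c
      linarith
    have hμ : (cubeAverage (TT ρ g0) + cubeAverage (TT ρ g1)) / 2 = cubeAverage (TT ρ f) := by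
      rw [cubeAverage_split (TT ρ f), ← cubeAverage_add, ← cubeAverage_add]
      congr 2
      funext x
      rw [s0 x, s1 x, hsum x]; ring
    rw [hμ] at key
    exact hup _ _ _ _ _ key (hconc hF1) (hconc hF2)

lemma concave_sqrt : ConcaveOn ℝ (Icc 0 1) Real.sqrt :=
  (Real.strictConcaveOn_sqrt.concaveOn).subset Icc_subset_Ici_self (convex_Icc 0 1)

lemma concave_sqrt_one_sub : ConcaveOn ℝ (Icc 0 1) (fun x : ℝ => Real.sqrt (1 - x)) := by
  refine ⟨convex_Icc 0 1, ?_⟩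
  intro x hx y hy a b ha hb hab
  have h := concave_sqrt.2 (x := 1 - x) (y := 1 - y) ⟨by linarith [hx.2], by linarith [hx.1]⟩
    ⟨by linarith [hy.2], by linarith [hy.1]⟩ ha hb hab
  simp only [smul_eq_mul] at h ⊢
  have e : a * (1 - x) + b * (1 - y) = 1 - (a * x + b * y) := by linear_combination hab
  rw [e] at h
  exact h

/-! ### From the two-point functional to S0471 -/

lemma sq_cubeAverage_le {n : ℕ} (h : (Fin n → Bool) → ℝ) :
    (cubeAverage h) ^ 2 ≤ cubeAverage (fun x => h x ^ 2) := by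
  set m := cubeAverage h with hm
  have h1 : cubeAverage (fun _ : Fin n → Bool => (0 : ℝ)) ≤ cubeAverage (fun x => (h x - m) ^ 2) :=
    cubeAverage_mono fun x => sq_nonneg _
  have h2 : cubeAverage (fun x => (h x - m) ^ 2) = cubeAverage (fun x => h x ^ 2) - m ^ 2 := by
    have : (fun x => (h x - m) ^ 2) = fun x => h x ^ 2 + ((-2 * m) * h x + m ^ 2) := by
      funext x; ring
    rw [this, cubeAverage_add, cubeAverage_add, cubeAverage_const_mul, cubeAverage_const, ← hm]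
    ring
  rw [h2, cubeAverage_const] at h1
  linarith

lemma cubeAverage_TT {n : ℕ} (ρ : ℝ) (f : (Fin n → Bool) → Bool) :
    cubeAverage (TT ρ f) = cubeAverage (fun x => ind (f x)) :=
  cubeAverage_noise ρ (fun x => ind (f x))

lemma cubeAverage_spin {n : ℕ} (ρ : ℝ) (f : (Fin n → Bool) → Bool) :
    cubeAverage (fun x => spin (f x)) = 2 * cubeAverage (TT ρ f) - 1 := by
  rw [cubeAverage_TT]
  have : (fun x => spin (f x)) = fun x => 2 * ind (f x) + (-1) := by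
    funext x; rw [spin_eq_ind]; ring
  rw [this, cubeAverage_add, cubeAverage_const_mul, cubeAverage_const]; ring

lemma sqrt_one_sub_sq (p : ℝ) : Real.sqrt (1 - (2 * p - 1) ^ 2) = 2 * Real.sqrt (p * (1 - p)) := by
  have : 1 - (2 * p - 1) ^ 2 = 2 ^ 2 * (p * (1 - p)) := by ring
  rw [this, Real.sqrt_mul (by norm_num), Real.sqrt_sq (by norm_num)]

lemma sqrt_add_sqrt_sq {p : ℝ} (h0 : 0 ≤ p) (h1 : p ≤ 1) :
    (Real.sqrt p + Real.sqrt (1 - p)) ^ 2 = 1 + 2 * Real.sqrt (p * (1 - p)) := by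
  rw [Real.sqrt_mul h0, add_sq, Real.sq_sqrt h0, Real.sq_sqrt (by linarith)]; ring

/-- the S0471 bound for one function from the two-set bound -/
theorem bound_of_two_set {n : ℕ} {ρ : ℝ} (hρ : |ρ| ≤ 1) (f : (Fin n → Bool) → Bool)
    (H : 2 * Real.sqrt (cubeAverage (TT ρ f) * (1 - cubeAverage (TT ρ f))) + Real.sqrt (1 - ρ ^ 2) ≤
      (cubeAverage (fun x => Real.sqrt (TT ρ f x)) +
        cubeAverage (fun x => Real.sqrt (1 - TT ρ f x))) ^ 2) :
    Real.sqrt (1 - (cubeAverage (fun x => spin (f x))) ^ 2)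
        - cubeAverage (fun x => Real.sqrt (1 - (noise ρ (fun y => spin (f y)) x) ^ 2))
      ≤ 1 - Real.sqrt (1 - ρ ^ 2) := by
  rw [cubeAverage_spin ρ f, sqrt_one_sub_sq]
  have e : (fun x => Real.sqrt (1 - (noise ρ (fun y => spin (f y)) x) ^ 2)) =
      fun x => (Real.sqrt (TT ρ f x) + Real.sqrt (1 - TT ρ f x)) ^ 2 + (-1) := by
    funext x
    rw [noise_spin, sqrt_one_sub_sq, sqrt_add_sqrt_sq (TT_nonneg hρ f x) (TT_le_one hρ f x)]
    ring
  rw [e, cubeAverage_add, cubeAverage_const]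
  have j := sq_cubeAverage_le (fun x => Real.sqrt (TT ρ f x) + Real.sqrt (1 - TT ρ f x))
  rw [cubeAverage_add] at j
  linarith

lemma cubeAverage_nonneg {n : ℕ} {h : (Fin n → Bool) → ℝ} (H : ∀ x, 0 ≤ h x) :
    0 ≤ cubeAverage h := by
  rw [← cubeAverage_const (n := n) 0]
  exact cubeAverage_mono H

/-- S0471 from the two-set bound for `0 ≤ ρ < 1`. -/
theorem s0471_of_two_set
    (H : ∀ ρ : ℝ, 0 ≤ ρ → ρ < 1 → ∀ (n : ℕ) (f : (Fin n → Bool) → Bool),
      2 * Real.sqrt (cubeAverage (TT ρ f) * (1 - cubeAverage (TT ρ f))) + Real.sqrt (1 - ρ ^ 2) ≤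
      (cubeAverage (fun x => Real.sqrt (TT ρ f x)) +
        cubeAverage (fun x => Real.sqrt (1 - TT ρ f x))) ^ 2)
    (n : ℕ) (f : (Fin n → Bool) → Bool) (ρ : ℝ) (hρ : |ρ| ≤ 1) :
    Real.sqrt (1 - (cubeAverage (fun x => spin (f x))) ^ 2)
        - cubeAverage (fun x => Real.sqrt (1 - (noise ρ (fun y => spin (f y)) x) ^ 2))
      ≤ 1 - Real.sqrt (1 - ρ ^ 2) := by
  have key : ∀ ρ : ℝ, 0 ≤ ρ → ρ ≤ 1 → Real.sqrt (1 - (cubeAverage (fun x => spin (f x))) ^ 2)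
        - cubeAverage (fun x => Real.sqrt (1 - (noise ρ (fun y => spin (f y)) x) ^ 2))
      ≤ 1 - Real.sqrt (1 - ρ ^ 2) := by
    intro ρ h0 h1
    rcases eq_or_lt_of_le h1 with h2 | h2
    · subst h2
      have a1 : Real.sqrt (1 - (cubeAverage (fun x => spin (f x))) ^ 2) ≤ 1 := by
        rw [Real.sqrt_le_one]
        linarith [sq_nonneg (cubeAverage (fun x => spin (f x)))]
      have a2 : 0 ≤ cubeAverage
          (fun x => Real.sqrt (1 - (noise 1 (fun y => spin (f y)) x) ^ 2)) :=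
        cubeAverage_nonneg fun x => Real.sqrt_nonneg _
      have a3 : Real.sqrt (1 - (1 : ℝ) ^ 2) = 0 := by norm_num
      rw [a3]; linarith
    · exact bound_of_two_set (by rw [abs_of_nonneg h0]; exact h1) f (H ρ h0 h2 n f)
  rcases le_total 0 ρ with h | h
  · exact key ρ h (le_of_abs_le hρ)
  · have k := key (-ρ) (by linarith) (by rw [abs_of_nonpos h] at hρ; exact hρ)
    have e : (fun x => Real.sqrt (1 - (noise (-ρ) (fun y => spin (f y)) x) ^ 2)) =
        fun x => Real.sqrt (1 - (noise ρ (fun y => spin (f y)) (fun i => !x i)) ^ 2) := by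
      funext x; rw [noise_neg]
    rw [e, cubeAverage_comp_not
      (fun x => Real.sqrt (1 - (noise ρ (fun y => spin (f y)) x) ^ 2)), neg_sq] at k
    exact k

/-! ### Pointwise certificates and scalar recursions -/

/-- A pointwise certificate for the two-point functional on ordered pairs `0 ≤ Q ≤ P ≤ 1`. -/
def Cert (ρ p1 q1 p2 q2 k : ℝ) : Prop :=
  ∀ P Q : ℝ, 0 ≤ Q → Q ≤ P → P ≤ 1 →
    p1 * Real.sqrt P + q1 * Real.sqrt Q + p2 * P + q2 * Q - k ≤
      Real.sqrt ((1 + ρ) / 2 * P + (1 - ρ) / 2 * Q) + Real.sqrt ((1 - ρ) / 2 * P + (1 + ρ) / 2 * Q)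

lemma cert_average {ρ p1 q1 p2 q2 k : ℝ} (hc : Cert ρ p1 q1 p2 q2 k) {n : ℕ}
    {P Q : (Fin n → Bool) → ℝ} (hQ : ∀ x, 0 ≤ Q x) (hPQ : ∀ x, Q x ≤ P x) (hP : ∀ x, P x ≤ 1) :
    p1 * cubeAverage (fun x => Real.sqrt (P x)) + q1 * cubeAverage (fun x => Real.sqrt (Q x)) +
      p2 * cubeAverage P + q2 * cubeAverage Q - k ≤
    cubeAverage (fun x => Real.sqrt ((1 + ρ) / 2 * P x + (1 - ρ) / 2 * Q x)) +
      cubeAverage (fun x => Real.sqrt ((1 - ρ) / 2 * P x + (1 + ρ) / 2 * Q x)) := by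
  have h := cubeAverage_mono (n := n) (g := fun x => p1 * Real.sqrt (P x) +
      (q1 * Real.sqrt (Q x) + (p2 * P x + (q2 * Q x + (-k)))))
    (h := fun x => Real.sqrt ((1 + ρ) / 2 * P x + (1 - ρ) / 2 * Q x) +
      Real.sqrt ((1 - ρ) / 2 * P x + (1 + ρ) / 2 * Q x))
    (fun x => by
      have := hc (P x) (Q x) (hQ x) (hPQ x) (hP x)
      linarith)
  rw [cubeAverage_add, cubeAverage_add, cubeAverage_add, cubeAverage_add, cubeAverage_const_mul,
    cubeAverage_const_mul, cubeAverage_const_mul, cubeAverage_const_mul, cubeAverage_const,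
    cubeAverage_add] at h
  linarith

lemma cubeAverage_one_sub {n : ℕ} (P : (Fin n → Bool) → ℝ) :
    cubeAverage (fun x => 1 - P x) = 1 - cubeAverage P := by
  have : (fun x => 1 - P x) = fun x => 1 + (-1) * P x := by funext x; ring
  rw [this, cubeAverage_add, cubeAverage_const_mul, cubeAverage_const]; ring

/-- the certificate applied to the complements -/
lemma cert_average' {ρ p1 q1 p2 q2 k : ℝ} (hc : Cert ρ p1 q1 p2 q2 k) {n : ℕ}
    {P Q : (Fin n → Bool) → ℝ} (hQ : ∀ x, 0 ≤ Q x) (hPQ : ∀ x, Q x ≤ P x) (hP : ∀ x, P x ≤ 1) :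
    p1 * cubeAverage (fun x => Real.sqrt (1 - Q x)) +
      q1 * cubeAverage (fun x => Real.sqrt (1 - P x)) +
      p2 * (1 - cubeAverage Q) + q2 * (1 - cubeAverage P) - k ≤
    cubeAverage (fun x => Real.sqrt (1 - ((1 + ρ) / 2 * P x + (1 - ρ) / 2 * Q x))) +
      cubeAverage (fun x => Real.sqrt (1 - ((1 - ρ) / 2 * P x + (1 + ρ) / 2 * Q x))) := by
  have h := cert_average hc (P := fun x => 1 - Q x) (Q := fun x => 1 - P x)
    (fun x => by linarith [hP x]) (fun x => by linarith [hPQ x]) (fun x => by linarith [hQ x])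
  rw [cubeAverage_one_sub, cubeAverage_one_sub] at h
  have e1 : ∀ x, (1 + ρ) / 2 * (1 - Q x) + (1 - ρ) / 2 * (1 - P x) =
      1 - ((1 - ρ) / 2 * P x + (1 + ρ) / 2 * Q x) := fun x => by ring
  have e2 : ∀ x, (1 - ρ) / 2 * (1 - Q x) + (1 + ρ) / 2 * (1 - P x) =
      1 - ((1 + ρ) / 2 * P x + (1 - ρ) / 2 * Q x) := fun x => by ring
  simp only [e1, e2] at h
  linarith

/-- General version: a region `R μ α β`, increasing in `α, β`, containing the trivial states and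
stable under all two-point steps allowed by the certificates. -/
theorem region_induction {ρ : ℝ} (h0 : 0 ≤ ρ) (h1 : ρ ≤ 1) (R : ℝ → ℝ → ℝ → Prop)
    (hup : ∀ μ s t s' t', R μ s t → s ≤ s' → t ≤ t' → R μ s' t')
    (hR0 : R 0 0 1) (hR1 : R 1 1 0)
    (hstep : ∀ μ0 α0 β0 μ1 α1 β1 α β : ℝ, 0 ≤ μ1 → μ1 ≤ μ0 → μ0 ≤ 1 →
      R μ0 α0 β0 → R μ1 α1 β1 →
      μ0 ≤ α0 → μ1 ≤ α1 → 1 - μ0 ≤ β0 → 1 - μ1 ≤ β1 →
      (∀ p1 q1 p2 q2 k : ℝ, Cert ρ p1 q1 p2 q2 k →
        p1 * α0 + q1 * α1 + p2 * μ0 + q2 * μ1 - k ≤ 2 * α) →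
      (∀ p1 q1 p2 q2 k : ℝ, Cert ρ p1 q1 p2 q2 k →
        p1 * β1 + q1 * β0 + p2 * (1 - μ1) + q2 * (1 - μ0) - k ≤ 2 * β) →
      R ((μ0 + μ1) / 2) α β)
    (n : ℕ) (f : (Fin n → Bool) → Bool) :
    R (cubeAverage (TT ρ f)) (cubeAverage fun x => Real.sqrt (TT ρ f x))
        (cubeAverage fun x => Real.sqrt (1 - TT ρ f x)) := by
  refine bool_induction h0 h1 concave_sqrt concave_sqrt_one_sub R hup (by simpa using hR0)
    (by simpa using hR1) ?_ n f
  intro n P Q hQ hPQ hP hRP hRQ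
  have hP0 : ∀ x, 0 ≤ P x := fun x => (hQ x).trans (hPQ x)
  have hQ1 : ∀ x, Q x ≤ 1 := fun x => (hPQ x).trans (hP x)
  have le_sqrt : ∀ t : ℝ, 0 ≤ t → t ≤ 1 → t ≤ Real.sqrt t := fun t ht0 ht1 => by
    rw [Real.le_sqrt ht0 ht0]; nlinarith
  refine hstep (cubeAverage P) _ _ (cubeAverage Q) _ _ _ _ (cubeAverage_nonneg hQ)
      (cubeAverage_mono hPQ)
      (by rw [← cubeAverage_const (n := n) 1]; exact cubeAverage_mono hP) hRP hRQ
      (cubeAverage_mono fun x => le_sqrt _ (hP0 x) (hP x))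
      (cubeAverage_mono fun x => le_sqrt _ (hQ x) (hQ1 x))
      (by rw [← cubeAverage_one_sub]
          exact cubeAverage_mono fun x => le_sqrt _ (by linarith [hP x]) (by linarith [hP0 x]))
      (by rw [← cubeAverage_one_sub]
          exact cubeAverage_mono fun x => le_sqrt _ (by linarith [hQ1 x]) (by linarith [hQ x]))
      (fun p1 q1 p2 q2 k hc => ?_) (fun p1 q1 p2 q2 k hc => ?_)
  · have := cert_average hc hQ hPQ hP
    linarith
  · have := cert_average' hc hQ hPQ hP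
    linarith

/-- Scalar recursion with three states `X = β-(1-μ) ≥ x μ`, `Y = α-μ ≥ x (1-μ)`,
`X + Y ≥ w μ`. -/
theorem two_set_of_scalar {ρ : ℝ} (h0 : 0 ≤ ρ) (h1 : ρ ≤ 1) (x w : ℝ → ℝ)
    (hx0 : x 0 ≤ 0) (hx1 : x 1 ≤ 0) (hw0 : w 0 ≤ 0) (hw1 : w 1 ≤ 0)
    (hI : ∀ ν0 ν1 : ℝ, 0 ≤ ν1 → ν1 ≤ ν0 → ν0 ≤ 1 → ∃ p1 q1 p2 q2 k : ℝ,
      0 ≤ p1 ∧ 0 ≤ q1 ∧ Cert ρ p1 q1 p2 q2 k ∧
      2 * x (1 - (ν0 + ν1) / 2) ≤ p1 * x (1 - ν0) + q1 * x (1 - ν1) +
        (p1 + p2 - 1) * ν0 + (q1 + q2 - 1) * ν1 - k)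
    (hII : ∀ μ0 μ1 : ℝ, 0 ≤ μ1 → μ1 ≤ μ0 → μ0 ≤ 1 → ∃ p1 q1 p2 q2 k p1' q1' p2' q2' k' : ℝ,
      0 ≤ q1 ∧ 0 ≤ q1' ∧ q1' ≤ p1 ∧ q1 ≤ p1' ∧ Cert ρ p1 q1 p2 q2 k ∧ Cert ρ p1' q1' p2' q2' k' ∧
      2 * w ((μ0 + μ1) / 2) ≤ (p1 - q1') * x (1 - μ0) + q1' * w μ0 + (p1' - q1) * x μ1 + q1 * w μ1 +
        (p1 + p2) * μ0 + (q1 + q2) * μ1 - k + (p1' + p2') * (1 - μ1) + (q1' + q2') * (1 - μ0) - k'
        - 2)
    (n : ℕ) (f : (Fin n → Bool) → Bool) :
    x (1 - cubeAverage (TT ρ f)) + cubeAverage (TT ρ f) ≤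
        cubeAverage (fun x => Real.sqrt (TT ρ f x)) ∧
      x (cubeAverage (TT ρ f)) + (1 - cubeAverage (TT ρ f)) ≤
        cubeAverage (fun x => Real.sqrt (1 - TT ρ f x)) ∧
      1 + w (cubeAverage (TT ρ f)) ≤ cubeAverage (fun x => Real.sqrt (TT ρ f x)) +
        cubeAverage (fun x => Real.sqrt (1 - TT ρ f x)) := by
  refine region_induction h0 h1
    (fun μ s t => x (1 - μ) + μ ≤ s ∧ x μ + (1 - μ) ≤ t ∧ 1 + w μ ≤ s + t) ?_ ?_ ?_ ?_ n f
  · rintro μ s t s' t' ⟨a1, a2, a3⟩ hs ht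
    exact ⟨by linarith, by linarith, by linarith⟩
  · refine ⟨?_, ?_, ?_⟩
    · rw [sub_zero]; linarith
    · rw [sub_zero]; linarith
    · linarith
  · refine ⟨?_, ?_, ?_⟩
    · rw [sub_self]; linarith
    · rw [sub_self]; linarith
    · linarith
  · rintro μ0 α0 β0 μ1 α1 β1 α β hμ1 hμ hμ0 ⟨a1, a2, a3⟩ ⟨b1, b2, b3⟩ - - - - hα hβ
    refine ⟨?_, ?_, ?_⟩
    · obtain ⟨p1, q1, p2, q2, k, hp1, hq1, hc, hineq⟩ := hI μ0 μ1 hμ1 hμ hμ0
      have e := hα _ _ _ _ _ hc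
      have e1 := mul_le_mul_of_nonneg_left a1 hp1
      have e2 := mul_le_mul_of_nonneg_left b1 hq1
      linarith
    · obtain ⟨p1, q1, p2, q2, k, hp1, hq1, hc, hineq⟩ :=
        hI (1 - μ1) (1 - μ0) (by linarith) (by linarith) (by linarith)
      have e := hβ _ _ _ _ _ hc
      have e1 := mul_le_mul_of_nonneg_left b2 hp1
      have e2 := mul_le_mul_of_nonneg_left a2 hq1
      rw [sub_sub_cancel, sub_sub_cancel] at hineq
      have e3 : 1 - (1 - μ1 + (1 - μ0)) / 2 = (μ0 + μ1) / 2 := by ring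
      rw [e3] at hineq
      linarith
    · obtain ⟨p1, q1, p2, q2, k, p1', q1', p2', q2', k', c1, c2, c3, c4, c5, c6, c7⟩ :=
        hII μ0 μ1 hμ1 hμ hμ0
      have e := hα _ _ _ _ _ c5
      have e' := hβ _ _ _ _ _ c6
      have f1 := mul_le_mul_of_nonneg_left a1 (sub_nonneg.mpr c3)
      have f2 := mul_le_mul_of_nonneg_left a3 c2
      have f3 := mul_le_mul_of_nonneg_left b2 (sub_nonneg.mpr c4)
      have f4 := mul_le_mul_of_nonneg_left b3 c1
      linarith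

/-- Single-state version: `w μ = x μ + x (1-μ)`. -/
theorem one_set_of_scalar {ρ : ℝ} (h0 : 0 ≤ ρ) (h1 : ρ ≤ 1) (x : ℝ → ℝ)
    (hx0 : x 0 ≤ 0) (hx1 : x 1 ≤ 0)
    (hI : ∀ ν0 ν1 : ℝ, 0 ≤ ν1 → ν1 ≤ ν0 → ν0 ≤ 1 → ∃ p1 q1 p2 q2 k : ℝ,
      0 ≤ p1 ∧ 0 ≤ q1 ∧ Cert ρ p1 q1 p2 q2 k ∧
      2 * x (1 - (ν0 + ν1) / 2) ≤ p1 * x (1 - ν0) + q1 * x (1 - ν1) +
        (p1 + p2 - 1) * ν0 + (q1 + q2 - 1) * ν1 - k)
    (n : ℕ) (f : (Fin n → Bool) → Bool) :
    x (1 - cubeAverage (TT ρ f)) + cubeAverage (TT ρ f) ≤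
        cubeAverage (fun x => Real.sqrt (TT ρ f x)) ∧
      x (cubeAverage (TT ρ f)) + (1 - cubeAverage (TT ρ f)) ≤
        cubeAverage (fun x => Real.sqrt (1 - TT ρ f x)) := by
  refine region_induction h0 h1
    (fun μ s t => x (1 - μ) + μ ≤ s ∧ x μ + (1 - μ) ≤ t) ?_ ?_ ?_ ?_ n f
  · rintro μ s t s' t' ⟨a1, a2⟩ hs ht
    exact ⟨by linarith, by linarith⟩
  · refine ⟨?_, ?_⟩
    · rw [sub_zero]; linarith
    · rw [sub_zero]; linarith
  · refine ⟨?_, ?_⟩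
    · rw [sub_self]; linarith
    · rw [sub_self]; linarith
  · rintro μ0 α0 β0 μ1 α1 β1 α β hμ1 hμ hμ0 ⟨a1, a2⟩ ⟨b1, b2⟩ - - - - hα hβ
    refine ⟨?_, ?_⟩
    · obtain ⟨p1, q1, p2, q2, k, hp1, hq1, hc, hineq⟩ := hI μ0 μ1 hμ1 hμ hμ0
      have e := hα _ _ _ _ _ hc
      have e1 := mul_le_mul_of_nonneg_left a1 hp1
      have e2 := mul_le_mul_of_nonneg_left b1 hq1
      linarith
    · obtain ⟨p1, q1, p2, q2, k, hp1, hq1, hc, hineq⟩ :=
        hI (1 - μ1) (1 - μ0) (by linarith) (by linarith) (by linarith)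
      have e := hβ _ _ _ _ _ hc
      have e1 := mul_le_mul_of_nonneg_left b2 hp1
      have e2 := mul_le_mul_of_nonneg_left a2 hq1
      rw [sub_sub_cancel, sub_sub_cancel] at hineq
      have e3 : 1 - (1 - μ1 + (1 - μ0)) / 2 = (μ0 + μ1) / 2 := by ring
      rw [e3] at hineq
      linarith

/-- `N t = √(a t² + b) + √(b t² + a)`, the two-point functional along the edge `P = 1`,
`Q = t²`. -/
noncomputable def NN (ρ t : ℝ) : ℝ :=
  Real.sqrt ((1 + ρ) / 2 * t ^ 2 + (1 - ρ) / 2) + Real.sqrt ((1 - ρ) / 2 * t ^ 2 + (1 + ρ) / 2)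

/-- General pointwise certificate on ordered pairs, including a constant `k ≥ 0`: for every ratio
`t = √(Q/P)` we need the edge inequality (at `P = 1`) and either the linear part nonnegative
(cone inequality) or the quadratic part nonnegative. -/
theorem cert_of_edges {ρ p1 q1 p2 q2 k : ℝ} (hk : 0 ≤ k)
    (hA : ∀ t : ℝ, 0 ≤ t → t ≤ 1 → p1 + q1 * t + p2 + q2 * t ^ 2 - k ≤ NN ρ t)
    (hB : ∀ t : ℝ, 0 ≤ t → t ≤ 1 → p1 + q1 * t ≤ NN ρ t ∨ 0 ≤ p2 + q2 * t ^ 2) :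
    Cert ρ p1 q1 p2 q2 k := by
  intro P Q hQ hPQ hP
  rcases eq_or_lt_of_le (hQ.trans hPQ) with hP0 | hP0
  · have : Q = 0 := le_antisymm (by rw [hP0]; exact hPQ) hQ
    subst this
    rw [← hP0]; simp; exact hk
  · set p := Real.sqrt P with hp
    have hpp : 0 < p := Real.sqrt_pos.mpr hP0
    have hp1 : p ≤ 1 := by rw [hp, Real.sqrt_le_one]; exact hP
    have hPsq : P = p ^ 2 := (Real.sq_sqrt hP0.le).symm
    set t := Real.sqrt Q / p with ht
    have ht0 : 0 ≤ t := div_nonneg (Real.sqrt_nonneg _) hpp.le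
    have hQt : Real.sqrt Q = t * p := by rw [ht]; field_simp
    have ht1 : t ≤ 1 := by
      rw [ht, div_le_one hpp]; exact Real.sqrt_le_sqrt hPQ
    have hQsq : Q = t ^ 2 * p ^ 2 := by
      rw [← mul_pow, ← hQt, Real.sq_sqrt hQ]
    have e1 : Real.sqrt ((1 + ρ) / 2 * P + (1 - ρ) / 2 * Q) =
        p * Real.sqrt ((1 - ρ) / 2 * t ^ 2 + (1 + ρ) / 2) := by
      have : (1 + ρ) / 2 * P + (1 - ρ) / 2 * Q = p ^ 2 * ((1 - ρ) / 2 * t ^ 2 + (1 + ρ) / 2) := by
        rw [hPsq, hQsq]; ring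
      rw [this, Real.sqrt_mul (sq_nonneg p), Real.sqrt_sq hpp.le]
    have e2 : Real.sqrt ((1 - ρ) / 2 * P + (1 + ρ) / 2 * Q) =
        p * Real.sqrt ((1 + ρ) / 2 * t ^ 2 + (1 - ρ) / 2) := by
      have : (1 - ρ) / 2 * P + (1 + ρ) / 2 * Q = p ^ 2 * ((1 + ρ) / 2 * t ^ 2 + (1 - ρ) / 2) := by
        rw [hPsq, hQsq]; ring
      rw [this, Real.sqrt_mul (sq_nonneg p), Real.sqrt_sq hpp.le]
    rw [e1, e2, hQt, hQsq, hPsq]
    have A := hA t ht0 ht1
    have B := hB t ht0 ht1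
    have E : p * Real.sqrt ((1 - ρ) / 2 * t ^ 2 + (1 + ρ) / 2) +
      p * Real.sqrt ((1 + ρ) / 2 * t ^ 2 + (1 - ρ) / 2) = p * NN ρ t := by unfold NN; ring
    rw [E]
    set N := NN ρ t with hN
    rcases B with B | B
    · rcases le_total 0 (p2 + q2 * t ^ 2) with D | D
      · -- concave case
        have C : 0 ≤ (1 - p) * k + p * ((1 - p) * (p2 + q2 * t ^ 2) +
            (N - (p1 + q1 * t + p2 + q2 * t ^ 2 - k))) := by
          have h1 : 0 ≤ 1 - p := by linarith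
          have h2 : 0 ≤ N - (p1 + q1 * t + p2 + q2 * t ^ 2 - k) := by linarith
          positivity
        nlinarith [C]
      · have C : 0 ≤ p * (N - (p1 + q1 * t)) + k + p ^ 2 * (-(p2 + q2 * t ^ 2)) := by
          have h1 : 0 ≤ N - (p1 + q1 * t) := by linarith
          have h2 : 0 ≤ -(p2 + q2 * t ^ 2) := by linarith
          positivity
        nlinarith [C]
    · have C : 0 ≤ (1 - p) * k + p * ((1 - p) * (p2 + q2 * t ^ 2) +
            (N - (p1 + q1 * t + p2 + q2 * t ^ 2 - k))) := by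
        have h1 : 0 ≤ 1 - p := by linarith
        have h2 : 0 ≤ N - (p1 + q1 * t + p2 + q2 * t ^ 2 - k) := by linarith
        positivity
      nlinarith [C]

/-- The two conditions on `g, h` for given `η` (blueprint 3085) give a pointwise certificate
(`k = 0`), on ordered pairs. `M t = √(a t² + b) + √(b t² + a) - 1 - t`. -/
theorem cert_of_eta {ρ η g h : ℝ}
    (hg : ∀ t : ℝ, 0 ≤ t → t ≤ 1 → g + (1 - η) * t + 1 ≤
      Real.sqrt ((1 + ρ) / 2 * t ^ 2 + (1 - ρ) / 2) + Real.sqrt ((1 - ρ) / 2 * t ^ 2 + (1 + ρ) / 2))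
    (hh : ∀ t : ℝ, 0 ≤ t → t ≤ 1 → h * (1 - t ^ 2) + 1 + t ≤
      Real.sqrt ((1 + ρ) / 2 * t ^ 2 + (1 - ρ) / 2) + Real.sqrt ((1 - ρ) / 2 * t ^ 2 + (1 + ρ) / 2)
        + η * t * (1 - t)) :
    Cert ρ (1 + g) (1 - η) (h - g) (η - h) 0 := by
  intro P Q hQ hPQ hP
  rcases eq_or_lt_of_le (hQ.trans hPQ) with hP0 | hP0
  · have : Q = 0 := le_antisymm (by rw [hP0]; exact hPQ) hQ
    subst this
    rw [← hP0]; simp
  · set p := Real.sqrt P with hp
    have hpp : 0 < p := Real.sqrt_pos.mpr hP0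
    have hp1 : p ≤ 1 := by rw [hp, Real.sqrt_le_one]; exact hP
    have hPsq : P = p ^ 2 := (Real.sq_sqrt hP0.le).symm
    set t := Real.sqrt Q / p with ht
    have ht0 : 0 ≤ t := div_nonneg (Real.sqrt_nonneg _) hpp.le
    have hQt : Real.sqrt Q = t * p := by rw [ht]; field_simp
    have ht1 : t ≤ 1 := by
      rw [ht, div_le_one hpp]; exact Real.sqrt_le_sqrt hPQ
    have hQsq : Q = t ^ 2 * p ^ 2 := by
      rw [← mul_pow, ← hQt, Real.sq_sqrt hQ]
    have e1 : Real.sqrt ((1 + ρ) / 2 * P + (1 - ρ) / 2 * Q) =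
        p * Real.sqrt ((1 - ρ) / 2 * t ^ 2 + (1 + ρ) / 2) := by
      have : (1 + ρ) / 2 * P + (1 - ρ) / 2 * Q = p ^ 2 * ((1 - ρ) / 2 * t ^ 2 + (1 + ρ) / 2) := by
        rw [hPsq, hQsq]; ring
      rw [this, Real.sqrt_mul (sq_nonneg p), Real.sqrt_sq hpp.le]
    have e2 : Real.sqrt ((1 - ρ) / 2 * P + (1 + ρ) / 2 * Q) =
        p * Real.sqrt ((1 + ρ) / 2 * t ^ 2 + (1 - ρ) / 2) := by
      have : (1 - ρ) / 2 * P + (1 + ρ) / 2 * Q = p ^ 2 * ((1 + ρ) / 2 * t ^ 2 + (1 - ρ) / 2) := by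
        rw [hPsq, hQsq]; ring
      rw [this, Real.sqrt_mul (sq_nonneg p), Real.sqrt_sq hpp.le]
    rw [e1, e2, hQt, hQsq, hPsq]
    have A := hg t ht0 ht1
    have B := hh t ht0 ht1
    set N := Real.sqrt ((1 + ρ) / 2 * t ^ 2 + (1 - ρ) / 2) +
      Real.sqrt ((1 - ρ) / 2 * t ^ 2 + (1 + ρ) / 2) with hN
    have A' : 0 ≤ N - (g + (1 - η) * t + 1) := by linarith
    have B' : 0 ≤ N + η * t * (1 - t) - (h * (1 - t ^ 2) + 1 + t) := by linarith
    have C : 0 ≤ p * ((1 - p) * (N - (g + (1 - η) * t + 1)) +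
        p * (N + η * t * (1 - t) - (h * (1 - t ^ 2) + 1 + t))) := by
      refine mul_nonneg hpp.le (add_nonneg (mul_nonneg (by linarith) A') (mul_nonneg hpp.le B'))
    have D : p * ((1 - p) * (N - (g + (1 - η) * t + 1)) +
        p * (N + η * t * (1 - t) - (h * (1 - t ^ 2) + 1 + t))) =
        p * N - ((1 + g) * p + (1 - η) * (t * p) + (h - g) * p ^ 2 +
          (η - h) * (t ^ 2 * p ^ 2) - 0) := by ring
    rw [D] at C
    have E : p * Real.sqrt ((1 - ρ) / 2 * t ^ 2 + (1 + ρ) / 2) +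
      p * Real.sqrt ((1 + ρ) / 2 * t ^ 2 + (1 - ρ) / 2) = p * N := by rw [hN]; ring
    rw [E]
    linarith

end Crest.Agent.R307.TwoSet
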